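import Vale.Agent.P031.Basic

/-! P031: Brun's pure sieve with real weights. -/

open Finset Real
open scoped Nat

namespace Vale.Agent.P031

/-- The `j`-th elementary symmetric sum. -/
noncomputable def esym (x : ℕ → ℝ) (s : Finset ℕ) (j : ℕ) : ℝ :=
  ∑ S ∈ s.powersetCard j, ∏ p ∈ S, x p

/-- The truncated inclusion–exclusion sum. -/
noncomputable def trunc (x : ℕ → ℝ) (s : Finset ℕ) (m : ℕ) : ℝ :=
  ∑ j ∈ range (m + 1), (-1) ^ j * esym x s j

lemma esym_zero (x : ℕ → ℝ) (s : Finset ℕ) : esym x s 0 = 1 := by simp [esym]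

lemma esym_empty_succ (x : ℕ → ℝ) (j : ℕ) : esym x ∅ (j + 1) = 0 := by
  rw [esym, powersetCard_eq_empty.2 (by simp), sum_empty]

lemma esym_nonneg {x : ℕ → ℝ} {s : Finset ℕ} (hx : ∀ p ∈ s, 0 ≤ x p) (j : ℕ) : 0 ≤ esym x s j :=
  sum_nonneg fun _ hS => prod_nonneg fun p hp => hx p ((mem_powersetCard.1 hS).1 hp)

lemma esym_insert (x : ℕ → ℝ) {a : ℕ} {s : Finset ℕ} (ha : a ∉ s) (j : ℕ) :
    esym x (insert a s) (j + 1) = esym x s (j + 1) + x a * esym x s j := by
  rw [esym, powersetCard_succ_insert ha, sum_union, sum_image, esym, esym, mul_sum]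
  · congr 1
    refine sum_congr rfl fun S hS => ?_
    rw [prod_insert fun h => ha ((mem_powersetCard.1 hS).1 h)]
  · intro S hS T hT h
    have hS' : a ∉ S := fun hc => ha ((mem_powersetCard.1 hS).1 hc)
    have hT' : a ∉ T := fun hc => ha ((mem_powersetCard.1 hT).1 hc)
    calc S = (insert a S).erase a := (erase_insert hS').symm
      _ = (insert a T).erase a := congrArg (fun z : Finset ℕ => z.erase a) h
      _ = T := erase_insert hT'
  · rw [disjoint_left]
    intro S hS hS'
    obtain ⟨T, -, rfl⟩ := mem_image.1 hS'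
    exact ha ((mem_powersetCard.1 hS).1 (mem_insert_self a T))

lemma trunc_zero (x : ℕ → ℝ) (s : Finset ℕ) : trunc x s 0 = 1 := by simp [trunc, esym_zero]

lemma trunc_succ (x : ℕ → ℝ) (s : Finset ℕ) (m : ℕ) :
    trunc x s (m + 1) = trunc x s m + (-1) ^ (m + 1) * esym x s (m + 1) := by
  rw [trunc, sum_range_succ, trunc]

lemma trunc_insert (x : ℕ → ℝ) {a : ℕ} {s : Finset ℕ} (ha : a ∉ s) (m : ℕ) :
    trunc x (insert a s) (m + 1) = trunc x s (m + 1) - x a * trunc x s m := by
  induction m with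
  | zero =>
    simp only [trunc_succ, trunc_zero, esym_insert x ha, esym_zero]
    ring
  | succ m ih =>
    rw [trunc_succ x (insert a s) (m + 1), ih, esym_insert x ha, trunc_succ x s (m + 1),
      trunc_succ x s m]
    ring

lemma trunc_sign {x : ℕ → ℝ} {s : Finset ℕ} (hx : ∀ p ∈ s, 0 ≤ x p ∧ x p ≤ 1) (m : ℕ) :
    0 ≤ (-1) ^ m * (trunc x s m - ∏ p ∈ s, (1 - x p)) := by
  induction s using Finset.induction generalizing m with
  | empty =>
    have : trunc x ∅ m = 1 := by
      induction m with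
      | zero => exact trunc_zero _ _
      | succ m ih => rw [trunc_succ, ih, esym_empty_succ, mul_zero, add_zero]
    simp [this]
  | @insert a s ha ih =>
    have hxs : ∀ p ∈ s, 0 ≤ x p ∧ x p ≤ 1 := fun p hp => hx p (mem_insert_of_mem hp)
    obtain ⟨ha0, ha1⟩ := hx a (mem_insert_self a s)
    rw [prod_insert ha]
    cases m with
    | zero =>
      have h := ih hxs 0
      rw [trunc_zero] at h ⊢
      have : 0 ≤ ∏ p ∈ s, (1 - x p) := prod_nonneg fun p hp => by linarith [(hxs p hp).2]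
      simp only [pow_zero, one_mul] at h ⊢
      nlinarith
    | succ m =>
      have h1 := ih hxs (m + 1)
      have h2 := mul_nonneg ha0 (ih hxs m)
      rw [trunc_insert x ha]
      rw [pow_succ] at h1 ⊢
      linarith

lemma trunc_upper {x : ℕ → ℝ} {s : Finset ℕ} (hx : ∀ p ∈ s, 0 ≤ x p ∧ x p ≤ 1) (R : ℕ) :
    ∏ p ∈ s, (1 - x p) ≤ trunc x s (2 * R) ∧
      trunc x s (2 * R) ≤ ∏ p ∈ s, (1 - x p) + esym x s (2 * R + 1) := by
  have h1 := trunc_sign hx (2 * R)
  have h2 := trunc_sign hx (2 * R + 1)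
  rw [trunc_succ] at h2
  simp only [pow_succ, pow_mul] at h1 h2
  norm_num at h1 h2
  constructor <;> linarith

lemma pow_add_lower {c S : ℝ} (hc : 0 ≤ c) (hS : 0 ≤ S) (j : ℕ) :
    S ^ (j + 1) + (j + 1 : ℕ) * c * S ^ j ≤ (c + S) ^ (j + 1) := by
  induction j with
  | zero => simp [add_comm]
  | succ j ih =>
    have h5 := mul_le_mul_of_nonneg_left ih (add_nonneg hc hS)
    have h6 : 0 ≤ c * ((j + 1 : ℕ) * c * S ^ j) := by positivity
    have e2 : (c + S) * (S ^ (j + 1) + (j + 1 : ℕ) * c * S ^ j) =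
        S ^ (j + 1 + 1) + (j + 1 + 1 : ℕ) * c * S ^ (j + 1) + c * ((j + 1 : ℕ) * c * S ^ j) := by
      push_cast
      ring
    rw [pow_succ' (c + S) (j + 1)]
    linarith

lemma esym_le {x : ℕ → ℝ} {s : Finset ℕ} (hx : ∀ p ∈ s, 0 ≤ x p) (j : ℕ) :
    (j ! : ℝ) * esym x s j ≤ (∑ p ∈ s, x p) ^ j := by
  induction s using Finset.induction generalizing j with
  | empty =>
    cases j with
    | zero => simp [esym_zero]
    | succ j => simp [esym_empty_succ]
  | @insert a s ha ih =>
    have hxs : ∀ p ∈ s, 0 ≤ x p := fun p hp => hx p (mem_insert_of_mem hp)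
    have ha0 := hx a (mem_insert_self a s)
    rw [sum_insert ha]
    cases j with
    | zero => simp [esym_zero]
    | succ j =>
      have hS : 0 ≤ ∑ p ∈ s, x p := sum_nonneg hxs
      have h1 := ih hxs (j + 1)
      have h2 := mul_le_mul_of_nonneg_left (ih hxs j)
        (mul_nonneg (show (0 : ℝ) ≤ (j + 1 : ℕ) by positivity) ha0)
      have key := pow_add_lower ha0 hS j
      refine le_trans (le_of_eq_of_le ?_ (add_le_add h1 h2)) key
      rw [esym_insert x ha, Nat.factorial_succ]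
      push_cast
      ring

lemma esym_le_div {x : ℕ → ℝ} {s : Finset ℕ} (hx : ∀ p ∈ s, 0 ≤ x p) (j : ℕ) :
    esym x s j ≤ (∑ p ∈ s, x p) ^ j / (j ! : ℝ) := by
  rw [le_div_iff₀ (by exact_mod_cast j.factorial_pos), mul_comm]
  exact esym_le hx j

/-- The Chinese remainder theorem as a product formula for sums. -/
lemma crt_sum (h : ℕ → ℕ → ℝ) (S : Finset ℕ) (hS : ∀ p ∈ S, p.Prime) :
    ∑ n ∈ range (∏ p ∈ S, p), ∏ p ∈ S, h p (n % p) = ∏ p ∈ S, ∑ r ∈ range p, h p r := by
  induction S using Finset.induction with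
  | empty => simp
  | @insert q S hq ih =>
    have hS' : ∀ p ∈ S, p.Prime := fun p hp => hS p (mem_insert_of_mem hp)
    have hqp := hS q (mem_insert_self q S)
    have hco : Nat.Coprime q (∏ p ∈ S, p) := Nat.Coprime.prod_right fun p hp =>
      (Nat.coprime_primes hqp (hS' p hp)).2 fun h => hq (h ▸ hp)
    have hDpos : 0 < ∏ p ∈ S, p := prod_pos fun p hp => (hS' p hp).pos
    rw [prod_insert hq, prod_insert hq, ← ih hS', sum_mul_sum, ← sum_product']
    refine sum_nbij (fun n => (n % q, n % ∏ p ∈ S, p)) ?_ ?_ ?_ ?_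
    · intro n _
      simp only [mem_product, mem_range]
      exact ⟨Nat.mod_lt _ hqp.pos, Nat.mod_lt _ hDpos⟩
    · intro a ha b hb hab
      simp only [mem_coe, mem_range] at ha hb
      simp only [Prod.mk.injEq] at hab
      have : a ≡ b [MOD q * ∏ p ∈ S, p] :=
        (Nat.modEq_and_modEq_iff_modEq_mul hco).1 ⟨hab.1, hab.2⟩
      exact this.eq_of_lt_of_lt ha hb
    · rintro ⟨r, t⟩ hrt
      simp only [mem_coe, mem_product, mem_range] at hrt
      obtain ⟨k, hk1, hk2⟩ := Nat.chineseRemainder hco r t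
      refine ⟨k % (q * ∏ p ∈ S, p), ?_, ?_⟩
      · simp only [mem_coe, mem_range]
        exact Nat.mod_lt _ (Nat.mul_pos hqp.pos hDpos)
      · simp only [Prod.mk.injEq, Nat.mod_mul_right_mod, Nat.mod_mul_left_mod]
        exact ⟨by rw [hk1, Nat.mod_eq_of_lt hrt.1], by rw [hk2, Nat.mod_eq_of_lt hrt.2]⟩
    · intro n _
      rw [prod_insert hq]
      simp only
      congr 1
      refine prod_congr rfl fun p hp => ?_
      rw [Nat.mod_mod_of_dvd _ (dvd_prod_of_mem _ hp)]

/-- A periodic function summed over an initial interval. -/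
lemma periodic_sum (F : ℕ → ℝ) (hF : ∀ n, 0 ≤ F n ∧ F n ≤ 1) {D : ℕ} (hD : 0 < D)
    (hper : ∀ n, F (n % D) = F n) (U : ℕ) :
    |∑ n ∈ Icc 1 U, F n - (U : ℝ) / D * ∑ n ∈ range D, F n| ≤ D := by
  set T := ∑ n ∈ range D, F n with hT
  have hT0 : 0 ≤ T := sum_nonneg fun n _ => (hF n).1
  have hT1 : T ≤ D := by
    calc T ≤ ∑ _n ∈ range D, (1 : ℝ) := sum_le_sum fun n _ => (hF n).2
      _ = D := by simp
  have hblock : ∀ q r : ℕ, r ≤ D → ∑ n ∈ range (q * D + r), F n
      = q * T + ∑ n ∈ range r, F n := by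
    intro q
    induction q with
    | zero => intro r _; simp
    | succ q ih =>
      intro r hr
      rw [show (q + 1) * D + r = (q * D + D) + r by ring, sum_range_add, ih D le_rfl]
      have : ∑ i ∈ range r, F (q * D + D + i) = ∑ i ∈ range r, F i := by
        refine sum_congr rfl fun i hi => ?_
        have hiD : i < D := lt_of_lt_of_le (mem_range.1 hi) hr
        rw [← hper (q * D + D + i), show q * D + D + i = i + D * (q + 1) by ring,
          Nat.add_mul_mod_self_left, Nat.mod_eq_of_lt hiD]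
      rw [this]
      push_cast
      ring
  have hsplit : ∑ n ∈ Icc 1 U, F n = ∑ n ∈ range (U + 1), F n - F 0 := by
    rw [range_eq_Ico, sum_eq_sum_Ico_succ_bot (Nat.succ_pos U)]
    simp only [zero_add]
    rw [← Finset.Ico_add_one_right_eq_Icc]
    simp [Nat.succ_eq_add_one]
  set q := (U + 1) / D
  set r := (U + 1) % D
  have hqr : q * D + r = U + 1 := by rw [mul_comm]; exact Nat.div_add_mod _ _
  have hr : r < D := Nat.mod_lt _ hD
  rw [hsplit, ← hqr, hblock q r hr.le]
  have hU : (U : ℝ) = q * D + r - 1 := by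
    have : ((q * D + r : ℕ) : ℝ) = (U : ℝ) + 1 := by rw [hqr]; push_cast; ring
    push_cast at this; linarith
  have hD0 : (0 : ℝ) < D := by exact_mod_cast hD
  have e : (U : ℝ) / D * T = q * T + ((r : ℝ) - 1) * (T / D) := by
    rw [hU]; field_simp; ring
  rw [e]
  have h1 : 0 ≤ T / D := by positivity
  have h2 : T / D ≤ 1 := by rw [div_le_one hD0]; exact hT1
  have h3 : 0 ≤ ∑ n ∈ range r, F n := sum_nonneg fun n _ => (hF n).1
  have h4 : ∑ n ∈ range r, F n ≤ r := by
    calc _ ≤ ∑ _n ∈ range r, (1 : ℝ) := sum_le_sum fun n _ => (hF n).2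
      _ = r := by simp
  obtain ⟨h5, h6⟩ := hF 0
  have h7 : (r : ℝ) + 1 ≤ D := by exact_mod_cast hr
  rw [abs_le]
  rcases le_or_gt ((r : ℝ) - 1) 0 with h | h
  · constructor <;> nlinarith [mul_nonpos_of_nonpos_of_nonneg h h1]
  · constructor <;> nlinarith [mul_nonneg h.le h1, mul_le_mul_of_nonneg_left h2 h.le]

/-- Brun's pure sieve. -/
lemma sieve_core (h : ℕ → ℕ → ℝ) (hh : ∀ p r, 0 ≤ h p r ∧ h p r ≤ 1) (P : Finset ℕ)
    (hP : ∀ p ∈ P, p.Prime) (y : ℕ) (hy : ∀ p ∈ P, p ≤ y) (hy1 : 1 ≤ y) (R U : ℕ)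
    (hcard : P.card ≤ y) :
    ∑ n ∈ Icc 1 U, ∏ p ∈ P, (1 - h p (n % p)) ≤
      U * (exp (-∑ p ∈ P, (∑ r ∈ range p, h p r) / (p : ℝ))
        + (∑ p ∈ P, (∑ r ∈ range p, h p r) / (p : ℝ)) ^ (2 * R + 1) / ((2 * R + 1) ! : ℝ))
      + (2 * R + 1 : ℕ) * (y : ℝ) ^ (4 * R) := by
  set g : ℕ → ℝ := fun p => (∑ r ∈ range p, h p r) / (p : ℝ) with hg
  have hg0 : ∀ p ∈ P, 0 ≤ g p ∧ g p ≤ 1 := fun p hp => by
    refine ⟨div_nonneg (sum_nonneg fun r _ => (hh p r).1) (Nat.cast_nonneg p), ?_⟩
    rw [div_le_one (by exact_mod_cast (hP p hp).pos)]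
    calc _ ≤ ∑ _r ∈ range p, (1 : ℝ) := sum_le_sum fun r _ => (hh p r).2
      _ = p := by simp
  calc ∑ n ∈ Icc 1 U, ∏ p ∈ P, (1 - h p (n % p))
      ≤ ∑ n ∈ Icc 1 U, trunc (fun p => h p (n % p)) P (2 * R) :=
        sum_le_sum fun n _ => (trunc_upper (fun p _ => hh p _) R).1
    _ = ∑ j ∈ range (2 * R + 1), (-1) ^ j *
          ∑ S ∈ P.powersetCard j, ∑ n ∈ Icc 1 U, ∏ p ∈ S, h p (n % p) := by
        simp only [trunc, esym]
        rw [sum_comm]
        refine sum_congr rfl fun j _ => ?_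
        rw [← mul_sum, sum_comm]
    _ ≤ ∑ j ∈ range (2 * R + 1), ((-1) ^ j * ((U : ℝ) * esym g P j) + esym (fun p => (p : ℝ)) P j) := by
        refine sum_le_sum fun j _ => ?_
        have habs : |∑ S ∈ P.powersetCard j, ∑ n ∈ Icc 1 U, ∏ p ∈ S, h p (n % p)
            - (U : ℝ) * esym g P j| ≤ esym (fun p => (p : ℝ)) P j := by
          rw [esym, mul_sum, ← sum_sub_distrib]
          refine (abs_sum_le_sum_abs _ _).trans (sum_le_sum fun S hS => ?_)
          have hSp : ∀ p ∈ S, p.Prime := fun p hp => hP p ((mem_powersetCard.1 hS).1 hp)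
          have hD : 0 < ∏ p ∈ S, p := prod_pos fun p hp => (hSp p hp).pos
          have := periodic_sum (fun n => ∏ p ∈ S, h p (n % p))
            (fun n => ⟨prod_nonneg fun p _ => (hh p _).1,
              prod_le_one (fun p _ => (hh p _).1) fun p _ => (hh p _).2⟩) hD
            (fun n => prod_congr rfl fun p hp => by
              rw [Nat.mod_mod_of_dvd _ (dvd_prod_of_mem _ hp)]) U
          rw [crt_sum h S hSp] at this
          push_cast at this ⊢
          have e : (U : ℝ) / (∏ p ∈ S, (p : ℝ)) * ∏ p ∈ S, ∑ r ∈ range p, h p r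
              = (U : ℝ) * ∏ p ∈ S, g p := by
            simp only [hg, prod_div_distrib]; ring
          rwa [e] at this
        rcases neg_one_pow_eq_or ℝ j with e | e <;> rw [e] <;>
          linarith [(abs_le.1 habs).1, (abs_le.1 habs).2]
    _ = U * trunc g P (2 * R) + ∑ j ∈ range (2 * R + 1), esym (fun p => (p : ℝ)) P j := by
        rw [sum_add_distrib, trunc, mul_sum]
        congr 1
        exact sum_congr rfl fun j _ => by ring
    _ ≤ _ := by
        refine add_le_add (mul_le_mul_of_nonneg_left ?_ (Nat.cast_nonneg U)) ?_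
        · refine (trunc_upper hg0 R).2.trans (add_le_add ?_ (esym_le_div (fun p hp => (hg0 p hp).1) _))
          rw [← sum_neg_distrib, exp_sum]
          exact prod_le_prod (fun p hp => by linarith [(hg0 p hp).2])
            fun p _ => by linarith [add_one_le_exp (-g p)]
        · have hsum : ∑ p ∈ P, (p : ℝ) ≤ (y : ℝ) ^ 2 := by
            calc ∑ p ∈ P, (p : ℝ) ≤ ∑ _p ∈ P, (y : ℝ) :=
                  sum_le_sum fun p hp => by exact_mod_cast hy p hp
              _ = (P.card : ℝ) * y := by simp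
              _ ≤ (y : ℝ) * y := by gcongr
              _ = _ := by ring
          calc ∑ j ∈ range (2 * R + 1), esym (fun p => (p : ℝ)) P j
              ≤ ∑ _j ∈ range (2 * R + 1), (y : ℝ) ^ (4 * R) := by
                refine sum_le_sum fun j hj => ?_
                refine (esym_le_div (fun p _ => Nat.cast_nonneg p) j).trans ?_
                refine (div_le_self (pow_nonneg (sum_nonneg fun p _ => Nat.cast_nonneg p) j)
                  (by exact_mod_cast j.factorial_pos)).trans ?_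
                refine (pow_le_pow_left₀ (sum_nonneg fun p _ => Nat.cast_nonneg p) hsum j).trans ?_
                rw [← pow_mul]
                exact pow_le_pow_right₀ (by exact_mod_cast hy1) (by have := mem_range.1 hj; omega)
            _ = _ := by simp

end Vale.Agent.P031
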