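import Vale.Agent.P031.Weights

/-!
P031: few values are divisible by `pval qs` for a list `qs` violating the anatomy inequality.
-/

open Finset Real Filter
open scoped Nat Topology

namespace Vale.Agent.P031
namespace Anat2

lemma sum_coef (n : ℕ) :
    ∑ i ∈ Finset.range n, coef i = (n : ℝ) * log n - (max 1 (n : ℝ) - 1) := by
  induction n with
  | zero => simp
  | succ m ih =>
    rw [Finset.sum_range_succ, ih]
    rcases Nat.eq_zero_or_pos m with rfl | hm
    · simp [coef]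
    · have h1 : (1 : ℝ) ≤ m := by exact_mod_cast hm
      rw [coef, if_neg hm.ne']
      push_cast
      rw [max_eq_right h1, max_eq_right (by linarith)]
      ring

lemma map_sum_eq_range (g : ℕ → ℕ) (qs : List ℕ) :
    (qs.map g).sum = ∑ i ∈ Finset.range qs.length, g (qs.getD i 0) := by
  induction qs with
  | nil => simp
  | cons q qs ih =>
    rw [List.map_cons, List.sum_cons, List.length_cons, Finset.sum_range_succ', ih]
    simp only [List.getD_cons_succ, List.getD_cons_zero]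
    ring

/-- The weight at the prime `p` attached to a vector of cell counts. -/
noncomputable def zfun (D : ℝ) (nv : ℕ → ℕ) (p : ℕ) : ℝ :=
  max 1 (nv (⌈u p / D⌉₊ - 2) : ℝ)

lemma idx_iff {D : ℝ} (hD : 0 < D) {p k : ℕ} (hp : D < u p) :
    ⌈u p / D⌉₊ - 2 = k ↔ ((k : ℝ) + 1) * D < u p ∧ u p ≤ ((k : ℝ) + 2) * D := by
  have h1 : 1 < ⌈u p / D⌉₊ := Nat.lt_ceil.2 (by rw [Nat.cast_one, one_lt_div hD]; exact hp)
  rw [show ⌈u p / D⌉₊ - 2 = k ↔ ⌈u p / D⌉₊ = k + 2 by omega, Nat.ceil_eq_iff (by omega)]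
  push_cast
  rw [lt_div_iff₀ hD, div_le_iff₀ hD]

/-- The cell `k`. -/
noncomputable def cell (D : ℝ) (k : ℕ) : Finset ℕ := band (((k : ℝ) + 1) * D) (((k : ℝ) + 2) * D)

lemma cell_eq {D : ℝ} (hD : 0 < D) {M k : ℕ} (hk : k < M) :
    (band D (((M : ℝ) + 1) * D)).filter (fun p => ⌈u p / D⌉₊ - 2 = k) = cell D k := by
  have hkM : (k : ℝ) + 1 ≤ M := by exact_mod_cast hk
  ext p
  rw [Finset.mem_filter, mem_band, cell, mem_band]
  constructor
  · rintro ⟨⟨hp, h1, -⟩, h⟩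
    exact ⟨hp, (idx_iff hD h1).1 h⟩
  · rintro ⟨hp, h1, h2⟩
    have hk0 : (0 : ℝ) ≤ k := Nat.cast_nonneg k
    have h3 : D < u p := lt_of_le_of_lt (by nlinarith) h1
    exact ⟨⟨hp, h3, h2.trans (by nlinarith)⟩, (idx_iff hD h3).2 ⟨h1, h2⟩⟩

lemma maps_idx {D : ℝ} (hD : 0 < D) {M : ℕ} :
    ∀ p ∈ band D (((M : ℝ) + 1) * D), ⌈u p / D⌉₊ - 2 ∈ Finset.range M := by
  intro p hp
  obtain ⟨-, h1, h2⟩ := mem_band.1 hp
  rw [Finset.mem_range]
  have : ⌈u p / D⌉₊ ≤ M + 1 := Nat.ceil_le.2 (by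
    rw [div_le_iff₀ hD]; push_cast; exact h2)
  have : 1 < ⌈u p / D⌉₊ := Nat.lt_ceil.2 (by rw [Nat.cast_one, one_lt_div hD]; exact h1)
  omega

lemma wt_eq {D : ℝ} (hD : 0 < D) (M : ℕ) (nv : ℕ → ℕ) (v : ℕ) :
    wt (band D (((M : ℝ) + 1) * D)) (zfun D nv) v
      = ∏ k ∈ Finset.range M,
          (max 1 (nv k : ℝ)) ^ cnt (((k : ℝ) + 1) * D) (((k : ℝ) + 2) * D) v := by
  rw [wt, ← Finset.prod_fiberwise_of_maps_to (maps_idx hD)]
  refine Finset.prod_congr rfl fun k hk => ?_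
  rw [cnt_eq_sum, ← Finset.prod_pow_eq_pow_sum, ← cell,
    ← cell_eq hD (Finset.mem_range.1 hk)]
  refine Finset.prod_congr rfl fun p hp => ?_
  rw [zfun, (Finset.mem_filter.1 hp).2]

lemma euler_le {D : ℝ} (hD : 1 ≤ D) (M N : ℕ) (hN : 2 * ((N : ℝ) + 1) ≤ D) (nv : ℕ → ℕ)
    (hnv : ∀ k, nv k ≤ N) :
    ∏ p ∈ band D (((M : ℝ) + 1) * D), (1 + (zfun D nv p - 1) / ((p : ℝ) - zfun D nv p))
      ≤ exp (∑ k ∈ Finset.range M, ((max 1 (nv k : ℝ) - 1) * D + 5 * (N : ℝ) ^ 2)) := by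
  have hD0 : 0 < D := by linarith
  have hz : ∀ k : ℕ, max 1 (nv k : ℝ) ≤ (N : ℝ) + 1 := fun k => by
    refine max_le (by linarith [Nat.cast_nonneg (α := ℝ) N]) ?_
    have : (nv k : ℝ) ≤ N := by exact_mod_cast hnv k
    linarith
  have hz1 : ∀ k : ℕ, max 1 (nv k : ℝ) - 1 ≤ (N : ℝ) := fun k => by linarith [hz k]
  rw [Real.exp_sum, ← Finset.prod_fiberwise_of_maps_to (maps_idx hD0)]
  refine Finset.prod_le_prod (fun k _ => Finset.prod_nonneg fun p hp => ?_) fun k hk => ?_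
  · obtain ⟨hp1, -⟩ := Finset.mem_filter.1 hp
    obtain ⟨-, h1, -⟩ := mem_band.1 hp1
    have := u_le_self p
    have h2 : zfun D nv p ≤ (N : ℝ) + 1 := hz _
    have h3 : 1 ≤ zfun D nv p := le_max_left _ _
    have : 0 ≤ (zfun D nv p - 1) / ((p : ℝ) - zfun D nv p) :=
      div_nonneg (by linarith) (by linarith)
    linarith
  · rw [cell_eq hD0 (Finset.mem_range.1 hk)]
    have e : ∀ p ∈ cell D k, 1 + (zfun D nv p - 1) / ((p : ℝ) - zfun D nv p)
        = 1 + (max 1 (nv k : ℝ) - 1) / ((p : ℝ) - max 1 (nv k : ℝ)) := fun p hp => by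
      rw [← cell_eq hD0 (Finset.mem_range.1 hk)] at hp
      rw [zfun, (Finset.mem_filter.1 hp).2]
    rw [Finset.prod_congr rfl e, cell]
    set c : ℝ := max 1 (nv k : ℝ) with hc
    set a : ℝ := ((k : ℝ) + 1) * D with ha
    have hc1 : (1 : ℝ) ≤ c := le_max_left _ _
    have hcN : c ≤ (N : ℝ) + 1 := hz k
    have hk0 : (0 : ℝ) ≤ k := Nat.cast_nonneg k
    have haD : D ≤ a := by rw [ha]; nlinarith
    refine (prod_band_le (by linarith) (by rw [ha]; nlinarith) hc1 (by linarith)).trans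
      (exp_le_exp.2 ?_)
    have hlen : ((k : ℝ) + 2) * D - a + 1 = D + 1 := by rw [ha]; ring
    rw [hlen]
    have h4 : 2 * c / a * (D + 1) ≤ 4 * c := by
      rw [div_mul_eq_mul_div, div_le_iff₀ (by linarith)]
      nlinarith
    rcases Nat.eq_zero_or_pos N with rfl | hN1
    · have : c = 1 := le_antisymm (by simpa using hcN) hc1
      rw [this]; norm_num
    · have hN1' : (1 : ℝ) ≤ N := by exact_mod_cast hN1
      have h5 : c ≤ N := by
        rw [hc]; exact max_le hN1' (by exact_mod_cast hnv k)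
      have h6 : (c - 1) * (2 * c / a * (D + 1)) ≤ (c - 1) * (4 * c) :=
        mul_le_mul_of_nonneg_left h4 (by linarith)
      nlinarith

/-- Number of entries of the list above the level of cell `k`. -/
noncomputable def nlist (D : ℝ) (qs : List ℕ) (k : ℕ) : ℕ :=
  open Classical in
  ((Finset.range qs.length).filter (fun i => ((k : ℝ) + 3) * D < u (qs.getD i 0))).card

lemma u_getD_anti {qs : List ℕ} (h : qs.Pairwise (fun p q => q < p)) {i j : ℕ} (hij : i ≤ j)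
    (hj : j < qs.length) : u (qs.getD j 0) ≤ u (qs.getD i 0) := by
  rcases eq_or_lt_of_le hij with rfl | hlt
  · exact le_rfl
  · have := List.pairwise_iff_getElem.1 h i j (hlt.trans hj) hj hlt
    simp only [List.getD_eq_getElem?_getD, List.getElem?_eq_getElem (hlt.trans hj),
      List.getElem?_eq_getElem hj, Option.getD_some]
    exact u_mono this.le

lemma range_nlist (D : ℝ) {qs : List ℕ} (h : qs.Pairwise (fun p q => q < p)) (k : ℕ) :
    (open Classical in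
      (Finset.range qs.length).filter (fun i => ((k : ℝ) + 3) * D < u (qs.getD i 0)))
      = Finset.range (nlist D qs k) := by
  classical
  ext i
  rw [Finset.mem_range, nlist]
  constructor
  · intro hi
    obtain ⟨hl, hu⟩ := Finset.mem_filter.1 hi
    rw [Finset.mem_range] at hl
    have : Finset.range (i + 1) ⊆
        (Finset.range qs.length).filter (fun i => ((k : ℝ) + 3) * D < u (qs.getD i 0)) := by
      intro j hj
      rw [Finset.mem_range] at hj
      exact Finset.mem_filter.2 ⟨Finset.mem_range.2 (by omega),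
        hu.trans_le (u_getD_anti h (by omega) hl)⟩
    have := Finset.card_le_card this
    rw [Finset.card_range] at this
    omega
  · intro hi
    by_contra hc
    have : (Finset.range qs.length).filter (fun i => ((k : ℝ) + 3) * D < u (qs.getD i 0))
        ⊆ Finset.range i := by
      intro j hj
      obtain ⟨hl, hu⟩ := Finset.mem_filter.1 hj
      rw [Finset.mem_range] at hl ⊢
      by_contra hji
      exact hc (Finset.mem_filter.2 ⟨Finset.mem_range.2 (by omega),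
        hu.trans_le (u_getD_anti h (not_lt.1 hji) hl)⟩)
    have := Finset.card_le_card this
    rw [Finset.card_range] at this
    omega

lemma cells_cost {D B : ℝ} (hD : 0 < D) {M : ℕ} (hM : B ≤ (M : ℝ) * D) {qs : List ℕ}
    (h : qs.Pairwise (fun p q => q < p)) (hB : ∀ q ∈ qs, u q ≤ B) :
    cost qs - 4 * D * ∑ i ∈ Finset.range qs.length, coef i
      ≤ D * ∑ k ∈ Finset.range M,
          ((nlist D qs k : ℝ) * log (nlist D qs k) - (max 1 (nlist D qs k : ℝ) - 1)) := by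
  classical
  have e : ∑ k ∈ Finset.range M,
      ((nlist D qs k : ℝ) * log (nlist D qs k) - (max 1 (nlist D qs k : ℝ) - 1))
      = ∑ i ∈ Finset.range qs.length, ∑ k ∈ Finset.range M,
          if ((k : ℝ) + 3) * D < u (qs.getD i 0) then coef i else 0 := by
    rw [Finset.sum_comm]
    refine Finset.sum_congr rfl fun k _ => ?_
    rw [← sum_coef, ← range_nlist D h k, Finset.sum_filter]
  rw [e, cost, Finset.mul_sum, Finset.mul_sum, ← Finset.sum_sub_distrib]
  refine Finset.sum_le_sum fun i hi => ?_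
  rw [Finset.mem_range] at hi
  set t := u (qs.getD i 0) with ht
  have htB : t ≤ B := by
    refine hB _ ?_
    rw [List.getD_eq_getElem?_getD, List.getElem?_eq_getElem hi, Option.getD_some]
    exact List.getElem_mem hi
  have ht0 : 0 ≤ t := u_nonneg _
  rw [← Finset.sum_filter, Finset.sum_const, nsmul_eq_mul]
  set c := ((Finset.range M).filter (fun k : ℕ => ((k : ℝ) + 3) * D < t)).card with hc
  have hsub : Finset.range (⌊t / D⌋₊ - 3) ⊆
      (Finset.range M).filter (fun k : ℕ => ((k : ℝ) + 3) * D < t) := by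
    intro k hk
    rw [Finset.mem_range] at hk
    have h1 : (k : ℝ) + 4 ≤ ⌊t / D⌋₊ := by exact_mod_cast (show k + 4 ≤ ⌊t / D⌋₊ by omega)
    have h2 : (⌊t / D⌋₊ : ℝ) ≤ t / D := Nat.floor_le (by positivity)
    have h3 : ((k : ℝ) + 4) * D ≤ t := (le_div_iff₀ hD).1 (h1.trans h2)
    refine Finset.mem_filter.2 ⟨Finset.mem_range.2 ?_, by nlinarith⟩
    have : (k : ℝ) < M := by nlinarith
    exact_mod_cast this
  have h5 := Finset.card_le_card hsub
  rw [Finset.card_range, ← hc] at h5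
  have h6 : t / D < (⌊t / D⌋₊ : ℝ) + 1 := Nat.lt_floor_add_one _
  have h7 : (⌊t / D⌋₊ : ℝ) ≤ (c : ℝ) + 3 := by exact_mod_cast (show ⌊t / D⌋₊ ≤ c + 3 by omega)
  have h8 : t ≤ ((c : ℝ) + 4) * D := (div_le_iff₀ hD).1 (by linarith)
  nlinarith [mul_le_mul_of_nonneg_left h8 (coef_nonneg i)]

lemma cnt_lower {D tol : ℝ} (hD : 1 ≤ D) {qs : List ℕ}
    (hn : ∀ q ∈ qs, Normal q ∧ √(u q) ≤ D ∧ (u q) ^ (3 / 5 : ℝ) ≤ tol) {v : ℕ} (hv : v ≠ 0)
    (hdvd : pval qs ∣ v) (k : ℕ) :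
    (nlist D qs k : ℝ) * (D - tol) ≤ cnt (((k : ℝ) + 1) * D) (((k : ℝ) + 2) * D) v := by
  classical
  have h0 : (cnt (((k : ℝ) + 1) * D) (((k : ℝ) + 2) * D) (pval qs) : ℝ)
      ≤ cnt (((k : ℝ) + 1) * D) (((k : ℝ) + 2) * D) v := by
    exact_mod_cast cnt_le_of_dvd _ _ hv hdvd
  refine le_trans ?_ h0
  rw [cnt_pval _ _ (fun q hq => (hn q hq).1.1), map_sum_eq_range, nlist, ← nsmul_eq_mul]
  push_cast
  refine le_trans ?_ (Finset.sum_le_sum_of_subset_of_nonneg
    (s := (Finset.range qs.length).filter (fun i => ((k : ℝ) + 3) * D < u (qs.getD i 0)))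
    (Finset.filter_subset _ _) (fun i _ _ => Nat.cast_nonneg _))
  refine Finset.card_nsmul_le_sum _ _ _ fun i hi => ?_
  obtain ⟨hl, hu⟩ := Finset.mem_filter.1 hi
  rw [Finset.mem_range] at hl
  have hmem : qs.getD i 0 ∈ qs := by
    rw [List.getD_eq_getElem?_getD, List.getElem?_eq_getElem hl, Option.getD_some]
    exact List.getElem_mem hl
  obtain ⟨hN, hs, ht⟩ := hn _ hmem
  have hk0 : (0 : ℝ) ≤ k := Nat.cast_nonneg k
  have := hN.2 (((k : ℝ) + 1) * D) (((k : ℝ) + 2) * D) (by nlinarith) (by nlinarith)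
    (by nlinarith)
  have := (abs_le.1 this).1
  nlinarith

/-- The extension of a vector by zero. -/
def extv {M N : ℕ} (n : Fin M → Fin (N + 1)) (k : ℕ) : ℕ :=
  if h : k < M then (n ⟨k, h⟩ : ℕ) else 0

lemma extv_le {M N : ℕ} (n : Fin M → Fin (N + 1)) (k : ℕ) : extv n k ≤ N := by
  unfold extv
  split
  · exact Nat.le_of_lt_succ (Fin.is_lt _)
  · exact Nat.zero_le _

/-- The truncation of the length. -/
noncomputable def NN (S : ℝ) : ℕ := ⌊S ^ (1 / 50 : ℝ)⌋₊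

/-- The number of cells. -/
noncomputable def MM (S : ℝ) : ℕ := ⌈3 * S / S ^ (3 / 4 : ℝ)⌉₊

/-- The main inequality on the scale. -/
def Good (S : ℝ) : Prop :=
  1 ≤ S ∧ 1 ≤ S ^ (3 / 4 : ℝ) ∧ 2 * ((NN S : ℝ) + 1) ≤ S ^ (3 / 4 : ℝ) ∧
  √(2 * S) ≤ S ^ (3 / 4 : ℝ) ∧ (2 * S) ^ (3 / 5 : ℝ) ≤ S ^ (3 / 4 : ℝ) ∧
  4 * S ^ (3 / 4 : ℝ) * (NN S : ℝ) ^ 2 + (MM S : ℝ) * (NN S : ℝ) ^ 2 * ((2 * S) ^ (3 / 5 : ℝ) + 5)
    + (MM S : ℝ) * (NN S : ℝ) + √S + S ^ (4 / 5 : ℝ) ≤ S ^ (9 / 10 : ℝ)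

lemma eventually_good : ∀ᶠ S : ℝ in atTop, Good S := by
  have h : Tendsto (fun S : ℝ => S ^ (1 / 100 : ℝ)) atTop atTop :=
    tendsto_rpow_atTop (by norm_num)
  filter_upwards [h.eventually_ge_atTop 70, eventually_ge_atTop 1] with S hS h1
  have h0 : 0 < S := by linarith
  have hm : ∀ a b : ℝ, a ≤ b → S ^ a ≤ S ^ b := fun a b hab =>
    Real.rpow_le_rpow_of_exponent_le h1 hab
  have hp : ∀ a : ℝ, 0 ≤ S ^ a := fun a => Real.rpow_nonneg h0.le a
  have hmul : ∀ a b : ℝ, S ^ a * S ^ b = S ^ (a + b) := fun a b => (Real.rpow_add h0 a b).symm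
  have hone : ∀ a : ℝ, 0 ≤ a → 1 ≤ S ^ a := fun a ha => Real.one_le_rpow h1 ha
  have hN : (NN S : ℝ) ≤ S ^ (1 / 50 : ℝ) := Nat.floor_le (hp _)
  have hM : (MM S : ℝ) ≤ 4 * S ^ (1 / 4 : ℝ) := by
    have := Nat.ceil_lt_add_one (show 0 ≤ 3 * S / S ^ (3 / 4 : ℝ) by positivity)
    rw [MM]
    have e : 3 * S / S ^ (3 / 4 : ℝ) = 3 * S ^ (1 / 4 : ℝ) := by
      rw [div_eq_iff (by positivity), mul_assoc, hmul]
      norm_num
    have := hone (1 / 4) (by norm_num)
    linarith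
  have htol : (2 * S) ^ (3 / 5 : ℝ) ≤ 2 * S ^ (3 / 5 : ℝ) := by
    rw [Real.mul_rpow two_pos.le h0.le]
    refine mul_le_mul_of_nonneg_right ?_ (hp _)
    calc (2 : ℝ) ^ (3 / 5 : ℝ) ≤ 2 ^ (1 : ℝ) :=
          Real.rpow_le_rpow_of_exponent_le one_le_two (by norm_num)
      _ = 2 := Real.rpow_one 2
  have hsq : √S = S ^ (1 / 2 : ℝ) := Real.sqrt_eq_rpow S
  have hgap : ∀ a b : ℝ, a + 1 / 100 ≤ b → 70 * S ^ a ≤ S ^ b := fun a b hab =>
    (mul_le_mul_of_nonneg_right hS (hp a)).trans (by rw [hmul]; exact hm _ _ (by linarith))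
  refine ⟨h1, hone _ (by norm_num), ?_, ?_, ?_, ?_⟩
  · have := hgap (1 / 50) (3 / 4) (by norm_num)
    have := hone (1 / 50) (by norm_num)
    linarith
  · rw [Real.sqrt_mul two_pos.le, hsq]
    have h2 : √2 ≤ 70 := by
      rw [Real.sqrt_le_iff]; norm_num
    exact (mul_le_mul_of_nonneg_right h2 (hp _)).trans (hgap _ _ (by norm_num))
  · have := hgap (3 / 5) (3 / 4) (by norm_num)
    have := hp (3 / 5)
    linarith
  · have hN2 : (NN S : ℝ) ^ 2 ≤ S ^ (1 / 25 : ℝ) := by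
      calc (NN S : ℝ) ^ 2 ≤ (S ^ (1 / 50 : ℝ)) ^ 2 := pow_le_pow_left₀ (Nat.cast_nonneg _) hN 2
        _ = S ^ (1 / 25 : ℝ) := by rw [sq, hmul]; norm_num
    have hB : ∀ a : ℝ, a ≤ 89 / 100 → S ^ a ≤ S ^ (89 / 100 : ℝ) := fun a ha => hm a _ ha
    have t1 : 4 * S ^ (3 / 4 : ℝ) * (NN S : ℝ) ^ 2 ≤ 4 * S ^ (89 / 100 : ℝ) := by
      calc 4 * S ^ (3 / 4 : ℝ) * (NN S : ℝ) ^ 2 ≤ 4 * S ^ (3 / 4 : ℝ) * S ^ (1 / 25 : ℝ) :=
            mul_le_mul_of_nonneg_left hN2 (by positivity)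
        _ = 4 * S ^ (79 / 100 : ℝ) := by rw [mul_assoc, hmul]; norm_num
        _ ≤ _ := by have := hB (79 / 100) (by norm_num); linarith
    have t2 : (MM S : ℝ) * (NN S : ℝ) ^ 2 * ((2 * S) ^ (3 / 5 : ℝ) + 5)
        ≤ 28 * S ^ (89 / 100 : ℝ) := by
      calc (MM S : ℝ) * (NN S : ℝ) ^ 2 * ((2 * S) ^ (3 / 5 : ℝ) + 5)
          ≤ 4 * S ^ (1 / 4 : ℝ) * S ^ (1 / 25 : ℝ) * (7 * S ^ (3 / 5 : ℝ)) := by
            have := hone (3 / 5) (by norm_num)
            refine mul_le_mul (mul_le_mul hM hN2 (by positivity) (by positivity)) (by linarith)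
              (by positivity) (by positivity)
        _ = 28 * S ^ (89 / 100 : ℝ) := by
            rw [show (4 : ℝ) * S ^ (1 / 4 : ℝ) * S ^ (1 / 25 : ℝ) * (7 * S ^ (3 / 5 : ℝ))
              = 28 * (S ^ (1 / 4 : ℝ) * S ^ (1 / 25 : ℝ) * S ^ (3 / 5 : ℝ)) by ring, hmul, hmul]
            norm_num
    have t3 : (MM S : ℝ) * (NN S : ℝ) ≤ 4 * S ^ (89 / 100 : ℝ) := by
      calc (MM S : ℝ) * (NN S : ℝ) ≤ 4 * S ^ (1 / 4 : ℝ) * S ^ (1 / 50 : ℝ) :=
            mul_le_mul hM hN (Nat.cast_nonneg _) (by positivity)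
        _ = 4 * S ^ (27 / 100 : ℝ) := by rw [mul_assoc, hmul]; norm_num
        _ ≤ _ := by have := hB (27 / 100) (by norm_num); linarith
    have t4 := hB (1 / 2) (by norm_num)
    have t5 := hB (4 / 5) (by norm_num)
    have t6 := hgap (89 / 100) (9 / 10) (by norm_num)
    have := hp (89 / 100)
    rw [hsq]
    linarith

/-- The weighted covering of bad values. -/
lemma core {S : ℝ} (hS : Good S) :
    ∃ (T : Finset (Fin (MM S) → Fin (NN S + 1))) (Lw : (Fin (MM S) → Fin (NN S + 1)) → ℝ),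
      (T.card : ℝ) ≤ exp ((MM S : ℝ) * (NN S : ℝ)) ∧
      (∀ n ∈ T, Lw n * ∏ p ∈ band (S ^ (3 / 4 : ℝ)) (((MM S : ℝ) + 1) * S ^ (3 / 4 : ℝ)),
          (1 + (zfun (S ^ (3 / 4 : ℝ)) (extv n) p - 1)
            / ((p : ℝ) - zfun (S ^ (3 / 4 : ℝ)) (extv n) p))
        ≤ exp (-S - S ^ (9 / 10 : ℝ) + 4 * S ^ (3 / 4 : ℝ) * (NN S : ℝ) ^ 2
            + (MM S : ℝ) * (NN S : ℝ) ^ 2 * ((2 * S) ^ (3 / 5 : ℝ) + 5))) ∧
      (∀ n ∈ T, 0 ≤ Lw n) ∧
      ∀ v : ℕ, v ≠ 0 → (∃ qs, AnatomyBad S qs ∧ pval qs ∣ v) → (1 : ℝ) ≤ ∑ n ∈ T, Lw n *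
        wt (band (S ^ (3 / 4 : ℝ)) (((MM S : ℝ) + 1) * S ^ (3 / 4 : ℝ)))
          (zfun (S ^ (3 / 4 : ℝ)) (extv n)) v := by
  classical
  obtain ⟨hS1, hD1, hND, hsqD, htolD, -⟩ := hS
  set D := S ^ (3 / 4 : ℝ) with hD
  set M := MM S with hM
  set N := NN S with hN
  set tol := (2 * S) ^ (3 / 5 : ℝ) with htol
  have hD0 : 0 < D := by linarith
  set G : (Fin M → Fin (N + 1)) → ℝ := fun n => ∑ k ∈ Finset.range M,
    ((extv n k : ℝ) * log (extv n k) - (max 1 (extv n k : ℝ) - 1)) with hG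
  set Lw : (Fin M → Fin (N + 1)) → ℝ := fun n =>
    exp (-∑ k ∈ Finset.range M, (extv n k : ℝ) * log (extv n k) * (D - tol)) with hLw
  refine ⟨Finset.univ.filter (fun n => S + S ^ (9 / 10 : ℝ) - 4 * D * (N : ℝ) ^ 2 ≤ D * G n),
    Lw, ?_, ?_, fun n _ => (exp_pos _).le, ?_⟩
  · refine (Nat.cast_le.2 (Finset.card_filter_le _ _)).trans ?_
    rw [Finset.card_univ, Fintype.card_fun, Fintype.card_fin, Fintype.card_fin, Real.exp_nat_mul]
    push_cast
    exact pow_le_pow_left₀ (by positivity) (Real.add_one_le_exp _) M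
  · intro n hn
    have hadm := (Finset.mem_filter.1 hn).2
    refine (mul_le_mul_of_nonneg_left (euler_le hD1 M N hND (extv n) (extv_le n))
      (exp_pos _).le).trans ?_
    rw [← Real.exp_add, exp_le_exp]
    have hterm : ∀ k ∈ Finset.range M,
        -((extv n k : ℝ) * log (extv n k) * (D - tol))
          + ((max 1 (extv n k : ℝ) - 1) * D + 5 * (N : ℝ) ^ 2)
        ≤ -(D * ((extv n k : ℝ) * log (extv n k) - (max 1 (extv n k : ℝ) - 1)))
          + (N : ℝ) ^ 2 * (tol + 5) := by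
      intro k _
      have h1 : (extv n k : ℝ) * log (extv n k) ≤ (N : ℝ) ^ 2 := by
        have hk : (extv n k : ℝ) ≤ N := by exact_mod_cast extv_le n k
        have := Real.log_le_self (Nat.cast_nonneg (α := ℝ) (extv n k))
        have := Nat.cast_nonneg (α := ℝ) (extv n k)
        nlinarith
      have h2 : 0 ≤ tol := by positivity
      have := mul_le_mul_of_nonneg_right h1 h2
      linarith
    rw [← Finset.sum_neg_distrib, ← Finset.sum_add_distrib]
    refine (Finset.sum_le_sum hterm).trans ?_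
    rw [Finset.sum_add_distrib, Finset.sum_neg_distrib, ← Finset.mul_sum, Finset.sum_const,
      Finset.card_range, nsmul_eq_mul]
    simp only [hG] at hadm
    linarith
  · rintro v hv ⟨qs, ⟨hdec, hq, hlen, hcost⟩, hdvd⟩
    have hlenN : qs.length ≤ N := Nat.le_floor hlen
    have hnl : ∀ k, nlist D qs k ≤ N := fun k =>
      ((Finset.card_filter_le _ _).trans (by rw [Finset.card_range])).trans hlenN
    let n : Fin M → Fin (N + 1) := fun k => ⟨nlist D qs k, Nat.lt_succ_of_le (hnl k)⟩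
    have hext : ∀ k ∈ Finset.range M, extv n k = nlist D qs k := fun k hk => by
      simp [extv, n, Finset.mem_range.1 hk]
    have hS2 : √S ≤ S := Real.sqrt_le_self_iff.2 (Or.inr hS1)
    have hMD : 2 * S ≤ (M : ℝ) * D := by
      have h1 : 3 * S / D ≤ (M : ℝ) := Nat.le_ceil _
      rw [div_le_iff₀ hD0] at h1
      linarith
    have hu2 : ∀ q ∈ qs, u q ≤ 2 * S := fun q h => by linarith [(hq q h).2.2]
    have hadm : n ∈ Finset.univ.filter
        (fun n => S + S ^ (9 / 10 : ℝ) - 4 * D * (N : ℝ) ^ 2 ≤ D * G n) := by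
      refine Finset.mem_filter.2 ⟨Finset.mem_univ _, ?_⟩
      have h1 := cells_cost hD0 hMD hdec hu2
      have e : G n = ∑ k ∈ Finset.range M,
          ((nlist D qs k : ℝ) * log (nlist D qs k) - (max 1 (nlist D qs k : ℝ) - 1)) :=
        Finset.sum_congr rfl fun k hk => by simp only [hext k hk]
      rw [← e] at h1
      have h2 : ∑ i ∈ Finset.range qs.length, coef i ≤ (N : ℝ) ^ 2 := by
        calc ∑ i ∈ Finset.range qs.length, coef i ≤ ∑ i ∈ Finset.range qs.length, (N : ℝ) :=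
              Finset.sum_le_sum fun i hi => (coef_le i).trans (by
                exact_mod_cast ((Finset.mem_range.1 hi).le.trans hlenN))
          _ ≤ (N : ℝ) ^ 2 := by
              rw [Finset.sum_const, Finset.card_range, nsmul_eq_mul, sq]
              exact mul_le_mul_of_nonneg_right (by exact_mod_cast hlenN) (Nat.cast_nonneg _)
      have := mul_le_mul_of_nonneg_left h2 (show 0 ≤ 4 * D by linarith)
      linarith
    refine le_trans ?_ (Finset.single_le_sum (fun m _ => mul_nonneg (exp_pos _).le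
      (wt_nonneg (fun p _ => zero_le_one.trans (le_max_left _ _)) _)) hadm)
    show (1 : ℝ) ≤ exp (-∑ k ∈ Finset.range M,
      (extv n k : ℝ) * log (extv n k) * (D - tol)) * wt (band D (((M : ℝ) + 1) * D)) (zfun D (extv n)) v
    rw [wt_eq hD0]
    rw [Real.exp_neg, Real.exp_sum, ← Finset.prod_inv_distrib, ← Finset.prod_mul_distrib]
    refine Finset.one_le_prod fun k hk => ?_
    rw [← div_eq_inv_mul, one_le_div (exp_pos _)]
    rcases Nat.eq_zero_or_pos (extv n k) with h | h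
    · simp [h]
    · have h1 : (1 : ℝ) ≤ (extv n k : ℝ) := by exact_mod_cast h
      rw [max_eq_right h1, ← Real.exp_log (show 0 < (extv n k : ℝ) by linarith), ← Real.exp_nat_mul,
        Real.exp_log (show 0 < (extv n k : ℝ) by linarith), exp_le_exp]
      have hc := cnt_lower (tol := tol) hD1 (fun q hq' => ⟨(hq q hq').1,
        (Real.sqrt_le_sqrt (hu2 q hq')).trans hsqD,
        Real.rpow_le_rpow (u_nonneg q) (hu2 q hq') (by norm_num)⟩) hv hdvd k
      rw [← hext k hk] at hc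
      have := mul_le_mul_of_nonneg_right hc (Real.log_nonneg h1)
      linarith

end Anat2

open Anat2 in
theorem anatomy_count : AnatomyCountStatement := by
  obtain ⟨S₀, hS₀⟩ := Filter.eventually_atTop.1 eventually_good
  refine ⟨S₀, fun S hS Y s hs => ?_⟩
  have hg := hS₀ S hS
  obtain ⟨T, Lw, hT, hE, hL0, hcov⟩ := core hg
  obtain ⟨-, hD1, hND, -, -, hfin⟩ := hg
  set D := S ^ (3 / 4 : ℝ) with hD
  have hz : ∀ n : Fin (MM S) → Fin (NN S + 1), ∀ p ∈ band D (((MM S : ℝ) + 1) * D),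
      1 ≤ zfun D (extv n) p ∧ zfun D (extv n) p < p := fun n p hp => by
    refine ⟨le_max_left _ _, max_lt (by exact_mod_cast (mem_band.1 hp).1.one_lt) ?_⟩
    have h1 : (extv n (⌈u p / D⌉₊ - 2) : ℝ) ≤ NN S := by exact_mod_cast extv_le n _
    have := u_le_self p
    have := (mem_band.1 hp).2.1
    have := Nat.cast_nonneg (α := ℝ) (NN S)
    linarith
  calc (s.card : ℝ) = ∑ v ∈ s, (1 : ℝ) := by simp
    _ ≤ ∑ v ∈ s, ∑ n ∈ T, Lw n * wt (band D (((MM S : ℝ) + 1) * D)) (zfun D (extv n)) v :=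
        Finset.sum_le_sum fun v hv => hcov v (by have := (hs v hv).1; omega) (hs v hv).2.2
    _ = ∑ n ∈ T, Lw n * ∑ v ∈ s, wt (band D (((MM S : ℝ) + 1) * D)) (zfun D (extv n)) v := by
        rw [Finset.sum_comm]; exact Finset.sum_congr rfl fun n _ => (Finset.mul_sum ..).symm
    _ ≤ ∑ n ∈ T, (Y : ℝ) * exp (-S - S ^ (9 / 10 : ℝ) + 4 * D * (NN S : ℝ) ^ 2
            + (MM S : ℝ) * (NN S : ℝ) ^ 2 * ((2 * S) ^ (3 / 5 : ℝ) + 5)) := by
        refine Finset.sum_le_sum fun n hn => ?_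
        refine le_trans (mul_le_mul_of_nonneg_left (c := (Y : ℝ) *
              ∏ p ∈ band D (((MM S : ℝ) + 1) * D),
                (1 + (zfun D (extv n) p - 1) / ((p : ℝ) - zfun D (extv n) p))) ?_ (hL0 n hn))
          (le_trans (le_of_eq ?_) (mul_le_mul_of_nonneg_left (hE n hn) (Nat.cast_nonneg Y)))
        · refine le_trans (Finset.sum_le_sum_of_subset_of_nonneg
            (fun v hv => Finset.mem_Icc.2 ⟨(hs v hv).1, (hs v hv).2.1⟩)
            (fun v _ _ => wt_nonneg (fun p hp => zero_le_one.trans (hz n p hp).1) v))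
            (sum_wt_le _ (fun p hp => (mem_band.1 hp).1) _ (hz n) Y)
        · ring
    _ ≤ exp ((MM S : ℝ) * (NN S : ℝ)) * ((Y : ℝ) * exp (-S - S ^ (9 / 10 : ℝ)
          + 4 * D * (NN S : ℝ) ^ 2
          + (MM S : ℝ) * (NN S : ℝ) ^ 2 * ((2 * S) ^ (3 / 5 : ℝ) + 5))) := by
        rw [Finset.sum_const, nsmul_eq_mul]
        exact mul_le_mul_of_nonneg_right hT (by positivity)
    _ ≤ (Y : ℝ) * exp (-S - S ^ (4 / 5 : ℝ)) := by
        rw [mul_left_comm, ← Real.exp_add]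
        refine mul_le_mul_of_nonneg_left (exp_le_exp.2 ?_) (Nat.cast_nonneg Y)
        have := Real.sqrt_nonneg S
        linarith

open Anat2 in
theorem anatomy_log : AnatomyLogStatement := by
  obtain ⟨S₀, hS₀⟩ := Filter.eventually_atTop.1 eventually_good
  refine ⟨S₀, fun S hS s hs => ?_⟩
  have hg := hS₀ S hS
  obtain ⟨T, Lw, hT, hE, hL0, hcov⟩ := core hg
  obtain ⟨hS1, hD1, hND, -, -, hfin⟩ := hg
  set D := S ^ (3 / 4 : ℝ) with hD
  have hz : ∀ n : Fin (MM S) → Fin (NN S + 1), ∀ p ∈ band D (((MM S : ℝ) + 1) * D),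
      1 ≤ zfun D (extv n) p ∧ zfun D (extv n) p < p := fun n p hp => by
    refine ⟨le_max_left _ _, max_lt (by exact_mod_cast (mem_band.1 hp).1.one_lt) ?_⟩
    have h1 : (extv n (⌈u p / D⌉₊ - 2) : ℝ) ≤ NN S := by exact_mod_cast extv_le n _
    have := u_le_self p
    have := (mem_band.1 hp).2.1
    have := Nat.cast_nonneg (α := ℝ) (NN S)
    linarith
  have hF : 0 ≤ S + √S := by positivity
  calc ∑ v ∈ s, 1 / (v : ℝ)
      ≤ ∑ v ∈ s, (∑ n ∈ T, Lw n * wt (band D (((MM S : ℝ) + 1) * D)) (zfun D (extv n)) v)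
          / v :=
        Finset.sum_le_sum fun v hv => div_le_div_of_nonneg_right
          (hcov v (hs v hv).1.1 (hs v hv).2) (Nat.cast_nonneg v)
    _ = ∑ n ∈ T, Lw n *
          ∑ v ∈ s, wt (band D (((MM S : ℝ) + 1) * D)) (zfun D (extv n)) v / v := by
        simp only [Finset.sum_div, Finset.mul_sum]
        rw [Finset.sum_comm]
        exact Finset.sum_congr rfl fun n _ => Finset.sum_congr rfl fun v _ => by ring
    _ ≤ ∑ n ∈ T, exp (S + √S) * exp (-S - S ^ (9 / 10 : ℝ) + 4 * D * (NN S : ℝ) ^ 2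
            + (MM S : ℝ) * (NN S : ℝ) ^ 2 * ((2 * S) ^ (3 / 5 : ℝ) + 5)) := by
        refine Finset.sum_le_sum fun n hn => ?_
        refine le_trans (mul_le_mul_of_nonneg_left
          (sum_smooth_wt_le _ hF _ (fun p hp => (mem_band.1 hp).1) _ (hz n) s
            fun v hv => (hs v hv).1) (hL0 n hn))
          (le_trans (le_of_eq ?_) (mul_le_mul_of_nonneg_left (hE n hn) (exp_pos _).le))
        ring
    _ ≤ exp ((MM S : ℝ) * (NN S : ℝ)) * (exp (S + √S) * exp (-S - S ^ (9 / 10 : ℝ)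
          + 4 * D * (NN S : ℝ) ^ 2
          + (MM S : ℝ) * (NN S : ℝ) ^ 2 * ((2 * S) ^ (3 / 5 : ℝ) + 5))) := by
        rw [Finset.sum_const, nsmul_eq_mul]
        exact mul_le_mul_of_nonneg_right hT (by positivity)
    _ ≤ exp (-S ^ (4 / 5 : ℝ)) := by
        rw [← Real.exp_add, ← Real.exp_add, exp_le_exp]
        linarith

end Vale.Agent.P031
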