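import Vale.Agent.P031.Upper
import Vale.Agent.Common.PNT

/-!
P031: the asymptotic formula for the number of totient values in `[1, Y]`, `X ≤ Y ≤ B X`.
-/

open Finset Real Filter
open scoped Nat Topology

namespace Vale.Agent.P031

/-- Core values are below every power of `X`. -/
lemma coreVals_small {δ : ℝ} (hδ : 0 < δ) :
    ∀ᶠ X : ℕ in atTop, ∀ m ∈ coreVals X, 1 ≤ m ∧ log m ≤ δ * log X := by
  classical
  obtain ⟨D, hD0, hD⟩ := exists_log_le_exp_scale
  obtain ⟨M, hM0, hM⟩ := exists_log_bounds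
  have hT : ∀ᶠ T : ℝ in atTop, 1 ≤ log T ∧ 2 * floorLevel T ≤ (1 - 3 * eta T) * T + M ∧
      log (25 * log T) + (1 - 3 * eta T) * T + M + D - log δ ≤ T ∧
      log 4 ≤ (1 - 3 * eta T) * T + M := by
    filter_upwards [Real.tendsto_log_atTop.eventually_ge_atTop (3 : ℝ),
      eventually_log_pow_le 400 (c := 1 / 4) (by norm_num) one_pos, params_ev,
      eventually_log_pow_le 11 (c := 1 / (26 + |M + D - log δ|)) (by positivity) one_pos]
      with T hl hT hp hT2
    obtain ⟨hη, hη1, hK, -, hKT, -, -, -⟩ := hp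
    have hl1 : (1 : ℝ) ≤ log T := by linarith
    rw [Real.rpow_one] at hT hT2
    have hT0 : 0 ≤ T := by linarith
    have h3 : (1 / 2 : ℝ) * T ≤ (1 - 3 * eta T) * T := mul_le_mul_of_nonneg_right (by linarith) hT0
    have hF : floorLevel T ≤ log T ^ 400 := pow_le_pow_right₀ hl1 (by norm_num)
    refine ⟨hl1, by linarith, ?_, ?_⟩
    · have h4 : log (25 * log T) ≤ 25 * log T := by
        have := Real.log_le_sub_one_of_pos (show (0 : ℝ) < 25 * log T by linarith); linarith
      have h5 : (26 + |M + D - log δ|) * log T ≤ eta T * T := by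
        simp only [eta]
        rw [one_div_mul_eq_div, le_div_iff₀ (by positivity)]
        rw [div_mul_eq_mul_div, one_mul, le_div_iff₀ (by positivity)] at hT2
        calc (26 + |M + D - log δ|) * log T * log T ^ 10
            = log T ^ 11 * (26 + |M + D - log δ|) := by ring
          _ ≤ T := hT2
      have := le_abs_self (M + D - log δ)
      have : |M + D - log δ| ≤ |M + D - log δ| * log T := le_mul_of_one_le_right (abs_nonneg _) hl1
      have : 0 ≤ eta T * T := by positivity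
      linarith
    · have : log 4 ≤ 3 := by
        have := Real.log_le_sub_one_of_pos (show (0 : ℝ) < 4 by norm_num); linarith
      have : log T ≤ log T ^ 400 := le_self_pow₀ hl1 (by norm_num)
      linarith
  filter_upwards [hD, eventually_scale hT, item_chains] with X hlX hT hchains m hm
  obtain ⟨hl, hFT, hE, h4⟩ := hT
  obtain ⟨⟨L, x⟩, hz, rfl⟩ := Finset.mem_image.1 hm
  obtain ⟨hL, hx⟩ := mem_coreItems.1 hz
  obtain ⟨-, hch, hmax⟩ := hchains L hL x hx
  have hxB := (Finset.mem_filter.1 (coreSet_subset_body X L hx)).2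
  set T := scale X
  set E := exp ((1 - 3 * eta T) * T + M) with hEdef
  have hm : itemVal x = pval (levelsOf T x) * cofOf T x := by
    have := pval_drop_ofFn_mul hxB (Nat.zero_le L)
    rw [List.drop_zero, List.drop_zero, pval_ofFn] at this
    exact this.symm
  obtain ⟨hr, -, -⟩ := tailOf_spec hxB
  have hprime : ∀ q ∈ levelsOf T x, q.Prime := fun q hq => by
    rcases List.mem_append.1 hq with h | h
    · obtain ⟨k, rfl⟩ := List.mem_ofFn.1 h
      exact hxB.1 k
    · exact (mem_levs.1 h).1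
  have hp0 : 0 < pval (levelsOf T x) := pval_pos hprime
  have hc0 : 0 < cofOf T x :=
    Nat.totient_pos.2 (Nat.pos_of_ne_zero (smlPart_ne_zero hr.1))
  refine ⟨hm ▸ Nat.mul_pos hp0 hc0, ?_⟩
  have hlev : log (pval (levelsOf T x) : ℝ) ≤ ((levelsOf T x).length : ℝ) * E := by
    have hpos : ∀ a ∈ (levelsOf T x).map (fun q => q - 1), ((a : ℕ) : ℝ) ≠ 0 := fun a ha => by
      obtain ⟨q, hq, rfl⟩ := List.mem_map.1 ha
      have := (hprime q hq).two_le
      exact_mod_cast (show q - 1 ≠ 0 by omega)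
    rw [pval, Nat.cast_list_prod, Real.log_list_prod (by simpa using hpos), List.map_map]
    refine (List.sum_le_card_nsmul _ E fun a ha => ?_).trans (le_of_eq (by simp))
    simp only [List.map_map, List.mem_map, Function.comp] at ha
    obtain ⟨q, hq, rfl⟩ := ha
    have hu := hmax q hq
    have h1 : log ((q - 1 : ℕ) : ℝ) ≤ log (q : ℝ) :=
      Real.log_le_log (by exact_mod_cast (show 0 < q - 1 by have := (hprime q hq).two_le; omega))
        (by exact_mod_cast Nat.sub_le q 1)
    rcases Nat.lt_or_ge q 3 with h | h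
    · refine h1.trans ((Real.log_le_log (by exact_mod_cast (hprime q hq).pos)
        (show (q : ℝ) ≤ 4 by exact_mod_cast (show q ≤ 4 by omega))).trans ?_)
      exact h4.trans (le_trans (by linarith) (Real.add_one_le_exp _))
    · exact h1.trans ((hM q h).2.trans (Real.exp_le_exp.2 (by linarith)))
  have hlen : ((levelsOf T x).length : ℝ) ≤ 24 * log T := by
    have hN := maxLen_le (T := T) hl
    have h1 : (L : ℝ) ≤ maxLen T := by exact_mod_cast Nat.le_of_lt_succ (Finset.mem_range.1 hL)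
    have h2 : ((levs (floorLevel T) (tailOf T x)).length : ℝ) ≤ maxLen T := by
      exact_mod_cast hr.2.2.2.2.2.1
    simp only [levelsOf, List.length_append, List.length_ofFn]
    push_cast
    linarith
  have hcof : log (cofOf T x : ℝ) ≤ E :=
    (Real.log_le_log (by exact_mod_cast hc0) (by exact_mod_cast Nat.totient_le _)).trans
      (hr.2.2.2.2.1.trans (Real.exp_le_exp.2 hFT))
  have hfin : 25 * log T * E ≤ δ * log X := by
    have h1 : 25 * log T * E ≤ δ * exp (T - D) := by
      rw [hEdef, ← Real.exp_log hδ, ← Real.exp_log (show 0 < 25 * log T by positivity),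
        ← Real.exp_add, ← Real.exp_add, Real.exp_le_exp]
      linarith
    exact h1.trans (mul_le_mul_of_nonneg_left hlX.1 hδ.le)
  rw [hm, Nat.cast_mul, Real.log_mul (by exact_mod_cast hp0.ne') (by exact_mod_cast hc0.ne')]
  have hE0 : 0 ≤ E := (exp_pos _).le
  have := mul_le_mul_of_nonneg_right hlen hE0
  have : E ≤ log T * E := le_mul_of_one_le_left hE0 hl
  linarith

/-- `π(Y/m) ≈ Y / (m log X)` for small `m`. -/
lemma prime_count_asymp (B : ℕ) {ε : ℝ} (hε : 0 < ε) :
    ∃ δ : ℝ, 0 < δ ∧ δ ≤ 1 / 8 ∧ ∀ᶠ X : ℕ in atTop, ∀ Y m : ℕ, X ≤ Y → Y ≤ B * X → 1 ≤ m →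
      log m ≤ δ * log X →
      (1 - ε) * ((Y : ℝ) / m / log X) ≤ (Nat.primeCounting (Y / m) : ℝ) ∧
      (Nat.primeCounting (Y / m) : ℝ) ≤ (1 + ε) * ((Y : ℝ) / m / log X) := by
  set δ := min (ε / 8) (1 / 8) with hδdef
  have hδ : 0 < δ := by positivity
  have hδε : δ ≤ ε / 8 := min_le_left _ _
  have hδ1 : δ ≤ 1 / 8 := min_le_right _ _
  obtain ⟨Z₀, hZ₀⟩ := eventually_atTop.1 (Vale.Agent.Common.PNT.prime_number_theorem_nat.eventually
    (Icc_mem_nhds (show 1 - δ < 1 by linarith) (show (1 : ℝ) < 1 + δ by linarith)))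
  refine ⟨δ, hδ, hδ1, ?_⟩
  have hlog := Real.tendsto_log_atTop.comp (tendsto_natCast_atTop_atTop (R := ℝ))
  filter_upwards [hlog.eventually_ge_atTop
    (max (4 * log ((Z₀ : ℝ) + 2)) (max ((log ((B : ℝ) + 1) + 1) / δ) (4 * (1 + 1 / δ)))),
    eventually_ge_atTop 3] with X hlX hX Y m hXY hYB hm hlm
  simp only [Function.comp_apply] at hlX
  have a1 := (le_max_left _ _).trans hlX
  have a2 := ((le_max_left _ _).trans (le_max_right _ _)).trans hlX
  have a3 := ((le_max_right _ _).trans (le_max_right _ _)).trans hlX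
  have hl0 : 0 < log (X : ℝ) := Real.log_pos (by exact_mod_cast (show 1 < X by omega))
  set lX := log (X : ℝ)
  have hX0 : (0 : ℝ) < X := by exact_mod_cast (show 0 < X by omega)
  have hm0 : (0 : ℝ) < m := by exact_mod_cast hm
  have hY0 : (0 : ℝ) < Y := by exact_mod_cast (show 0 < Y by omega)
  set w := (Y : ℝ) / m with hw
  set Z := Y / m
  have hlw : (1 - δ) * lX ≤ log w ∧ log w ≤ (1 + δ) * lX := by
    rw [hw, Real.log_div hY0.ne' hm0.ne']
    have h1 : lX ≤ log (Y : ℝ) := Real.log_le_log hX0 (by exact_mod_cast hXY)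
    have h2 : log (Y : ℝ) ≤ log ((B : ℝ) + 1) + lX := by
      rw [← Real.log_mul (by positivity) hX0.ne']
      refine Real.log_le_log hY0 ?_
      have : (Y : ℝ) ≤ (B : ℝ) * X := by exact_mod_cast hYB
      nlinarith
    have h3 : 0 ≤ log (m : ℝ) := Real.log_natCast_nonneg m
    rw [div_le_iff₀ hδ] at a2
    constructor <;> linarith
  have hwbig : exp (lX / 2) ≤ w := by
    rw [← Real.le_log_iff_exp_le (by positivity)]
    have : (1 / 2 : ℝ) * lX ≤ (1 - δ) * lX := mul_le_mul_of_nonneg_right (by linarith) hl0.le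
    linarith [hlw.1]
  have hZw : (Z : ℝ) ≤ w ∧ w ≤ (Z : ℝ) + 1 := by
    refine ⟨Nat.cast_div_le, ?_⟩
    rw [hw, div_le_iff₀ hm0]
    have h := Nat.div_add_mod Y m
    have h2 := Nat.mod_lt Y (show m > 0 by omega)
    have : Y ≤ (Z + 1) * m := by rw [add_mul, one_mul, mul_comm]; simp only [Z]; omega
    exact_mod_cast this
  have hw4 : 1 + 1 / δ ≤ w := by
    refine le_trans ?_ hwbig
    linarith [Real.add_one_le_exp (lX / 2)]
  have hwδ : (1 - δ) * w ≤ Z := by
    have h1 : δ * (1 + 1 / δ) ≤ δ * w := mul_le_mul_of_nonneg_left hw4 hδ.le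
    rw [mul_add, mul_one_div_cancel hδ.ne'] at h1
    linarith [hZw.2]
  have hZ2 : (Z₀ : ℝ) + 1 ≤ Z := by
    have h1 : ((Z₀ : ℝ) + 2) ^ 2 ≤ w := by
      refine le_trans ?_ hwbig
      rw [← Real.log_le_iff_le_exp (by positivity), Real.log_pow]
      push_cast; linarith
    nlinarith [hZw.2, show (0 : ℝ) ≤ Z₀ from Nat.cast_nonneg Z₀]
  have hZ1 : (1 : ℝ) ≤ Z := by linarith [show (0 : ℝ) ≤ Z₀ from Nat.cast_nonneg Z₀]
  have hπ := hZ₀ Z (by exact_mod_cast (show (Z₀ : ℝ) ≤ Z by linarith))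
  obtain ⟨hπ1, hπ2⟩ := hπ
  rw [le_div_iff₀ (by linarith)] at hπ1
  rw [div_le_iff₀ (by linarith)] at hπ2
  set P := (Nat.primeCounting Z : ℝ)
  have hP0 : 0 ≤ P := Nat.cast_nonneg _
  have hlZ : (1 - 2 * δ) * lX ≤ log (Z : ℝ) ∧ log (Z : ℝ) ≤ (1 + δ) * lX := by
    refine ⟨?_, (Real.log_le_log (by linarith) hZw.1).trans hlw.2⟩
    have h1 : log w ≤ log 2 + log (Z : ℝ) := by
      rw [← Real.log_mul (by norm_num) (by linarith)]
      exact Real.log_le_log (by positivity) (by linarith [hZw.2])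
    have h2 : (1 : ℝ) ≤ δ * lX := by
      have := mul_le_mul_of_nonneg_left a3 hδ.le
      rw [show δ * (4 * (1 + 1 / δ)) = 4 * δ + 4 by field_simp] at this
      linarith
    linarith [Real.log_two_lt_d9, hlw.1]
  constructor
  · rw [← mul_div_assoc, div_le_iff₀ hl0]
    have h1 : (1 - δ) * ((1 - δ) * w) ≤ P * ((1 + δ) * lX) :=
      ((mul_le_mul_of_nonneg_left hwδ (by linarith)).trans hπ1).trans
        (mul_le_mul_of_nonneg_left hlZ.2 hP0)
    have h2 : (1 - ε) * (1 + δ) ≤ (1 - δ) * (1 - δ) := by nlinarith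
    have hw0 : 0 ≤ w := by positivity
    nlinarith [mul_le_mul_of_nonneg_right h2 hw0]
  · rw [← mul_div_assoc, le_div_iff₀ hl0]
    have h1 : P * ((1 - 2 * δ) * lX) ≤ (1 + δ) * w :=
      ((mul_le_mul_of_nonneg_left hlZ.1 hP0).trans hπ2).trans
        (mul_le_mul_of_nonneg_left hZw.1 (by linarith))
    have h2 : 1 + δ ≤ (1 + ε) * (1 - 2 * δ) := by nlinarith
    have hw0 : 0 ≤ w := by positivity
    nlinarith [mul_le_mul_of_nonneg_right h2 hw0]

lemma coreVals_sum_le (X : ℕ) : ∑ m ∈ coreVals X, 1 / (m : ℝ) ≤ coreMass X := by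
  classical
  refine (Finset.sum_image_le_of_nonneg fun m _ => by positivity).trans (le_of_eq ?_)
  rw [coreItems, Finset.sum_sigma, coreMass]
  exact Finset.sum_congr rfl fun L _ => Finset.sum_congr rfl fun x hx =>
    one_div_itemVal x (allItems_prime (bodySet_subset_all X L (coreSet_subset_body X L hx)))

end Vale.Agent.P031
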