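import Vale.Agent.P031.Defs
import Mathlib.NumberTheory.Padics.PadicVal.Basic
import Mathlib.NumberTheory.Chebyshev
import Mathlib.Analysis.SpecialFunctions.Stirling
import Mathlib.Analysis.SpecialFunctions.Exponential
import Mathlib.Analysis.PSeries
import Mathlib.Data.Nat.Totient
import Mathlib.Tactic

/-!
P031: basic properties of `u`, Mertens' theorem and elementary Euler product bounds.
-/

open Finset Real
open scoped Nat

namespace Vale.Agent.P031

/-- The primes up to `n`. -/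
def primesTo (n : ℕ) : Finset ℕ := (Finset.range (n + 1)).filter Nat.Prime

lemma mem_primesTo {n p : ℕ} : p ∈ primesTo n ↔ p ≤ n ∧ p.Prime := by
  simp [primesTo]

lemma u_def (n : ℕ) : u n = ∑ p ∈ primesTo n, 1 / ((p : ℝ) - 1) := rfl

lemma sub_one_pos_of_prime {p : ℕ} (hp : p.Prime) : (0 : ℝ) < (p : ℝ) - 1 := by
  have : (2 : ℝ) ≤ (p : ℝ) := by exact_mod_cast hp.two_le
  linarith

lemma u_nonneg (n : ℕ) : 0 ≤ u n := by
  rw [u_def]
  refine Finset.sum_nonneg fun p hp => ?_
  have := sub_one_pos_of_prime (mem_primesTo.1 hp).2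
  positivity

lemma u_mono : Monotone u := by
  intro m n h
  rw [u_def, u_def]
  refine Finset.sum_le_sum_of_subset_of_nonneg ?_ ?_
  · intro p hp
    obtain ⟨h1, h2⟩ := mem_primesTo.1 hp
    exact mem_primesTo.2 ⟨h1.trans h, h2⟩
  · intro p hp _
    have := sub_one_pos_of_prime (mem_primesTo.1 hp).2
    positivity

lemma u_succ (n : ℕ) :
    u (n + 1) = u n + if (n + 1).Prime then 1 / (n : ℝ) else 0 := by
  rw [u, u, Finset.sum_filter, Finset.sum_filter, Finset.sum_range_succ]
  split <;> simp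

lemma u_zero : u 0 = 0 := by simp [u, Finset.sum_filter, Nat.not_prime_zero]

lemma u_one : u 1 = 0 := by
  rw [u_succ, u_zero]; simp [Nat.not_prime_one]

lemma u_prime_eq {q : ℕ} (hq : q.Prime) : u q = u (q - 1) + 1 / ((q : ℝ) - 1) := by
  obtain ⟨m, rfl⟩ := Nat.exists_eq_succ_of_ne_zero hq.ne_zero
  rw [u_succ, if_pos hq]
  simp

lemma u_lt_of_lt_prime {n q : ℕ} (hq : q.Prime) (h : n < q) : u n < u q := by
  rw [u_prime_eq hq]
  have h1 : u n ≤ u (q - 1) := u_mono (Nat.le_sub_one_of_lt h)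
  have := sub_one_pos_of_prime hq
  have : (0 : ℝ) < 1 / ((q : ℝ) - 1) := by positivity
  linarith

lemma u_le_u_iff_of_prime {p q : ℕ} (hp : p.Prime) : u p ≤ u q ↔ p ≤ q := by
  constructor
  · intro h
    by_contra hc
    exact absurd (u_lt_of_lt_prime hp (not_le.1 hc)) (not_lt.2 h)
  · exact fun h => u_mono h

lemma u_lt_u_iff_of_prime {p q : ℕ} (hq : q.Prime) : u p < u q ↔ p < q := by
  constructor
  · intro h
    by_contra hc
    exact absurd (u_mono (not_lt.1 hc)) (not_le.2 h)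
  · exact fun h => u_lt_of_lt_prime hq h

lemma u_injOn_primes {p q : ℕ} (hp : p.Prime) (hq : q.Prime) (h : u p = u q) : p = q :=
  le_antisymm ((u_le_u_iff_of_prime hp).1 h.le) ((u_le_u_iff_of_prime hq).1 h.ge)

/-! ### Mertens -/

lemma log_factorial_eq_sum (n : ℕ) :
    log (n ! : ℕ) = ∑ p ∈ primesTo n, (padicValNat p n ! : ℝ) * log p := by
  have hne : (n !) ≠ 0 := Nat.factorial_ne_zero n
  have hsupp : (n !).factorization.support ⊆ primesTo n := by
    intro p hp
    rw [Nat.support_factorization, Nat.mem_primeFactors] at hp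
    exact mem_primesTo.2 ⟨(hp.1.dvd_factorial).1 hp.2.1, hp.1⟩
  conv_lhs => rw [← Nat.prod_factorization_pow_eq_self hne]
  rw [Finsupp.prod_of_support_subset _ hsupp _ (fun p _ => pow_zero p)]
  push_cast
  rw [Real.log_prod]
  · refine Finset.sum_congr rfl fun p hp => ?_
    rw [Real.log_pow, Nat.factorization_def _ (mem_primesTo.1 hp).2]
  · intro p hp
    have := (mem_primesTo.1 hp).2.pos
    positivity

lemma le_log_factorial (n : ℕ) : (n : ℝ) * log n - n ≤ log (n ! : ℕ) := by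
  rcases eq_or_ne n 0 with rfl | hn
  · simp
  have h1 : (n : ℝ) ^ n / (n ! : ℕ) ≤ exp n := Real.pow_div_factorial_le_exp (n : ℝ) (by positivity) n
  have hpos : (0 : ℝ) < (n ! : ℕ) := by exact_mod_cast n.factorial_pos
  rw [div_le_iff₀ hpos] at h1
  have h2 := Real.log_le_log (by positivity) h1
  rw [Real.log_pow, Real.log_mul (exp_pos _).ne' hpos.ne', Real.log_exp] at h2
  linarith

lemma log_factorial_le (n : ℕ) : log (n ! : ℕ) ≤ (n : ℝ) * log n := by
  rw [← Real.log_pow]
  refine Real.log_le_log (by exact_mod_cast n.factorial_pos) ?_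
  exact_mod_cast Nat.factorial_le_pow n

lemma padicValNat_factorial_mul_le {p : ℕ} (hp : p.Prime) (n : ℕ) :
    (padicValNat p n ! : ℝ) ≤ (n : ℝ) / ((p : ℝ) - 1) := by
  have := Fact.mk hp
  rw [le_div_iff₀ (sub_one_pos_of_prime hp)]
  have h : (p - 1) * padicValNat p n ! ≤ n := by
    rw [sub_one_mul_padicValNat_factorial]; exact Nat.sub_le _ _
  have h' : (((p - 1) * padicValNat p n ! : ℕ) : ℝ) ≤ n := by exact_mod_cast h
  rw [Nat.cast_mul, Nat.cast_sub hp.one_le] at h'
  push_cast at h'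
  linarith

lemma div_le_padicValNat_factorial {p : ℕ} (hp : p.Prime) (n : ℕ) :
    (n : ℝ) / p - 1 ≤ (padicValNat p n ! : ℝ) := by
  have := Fact.mk hp
  have h1 : n / p ≤ padicValNat p n ! := by
    rw [padicValNat_factorial (show Nat.log p n < Nat.log p n + 2 by omega)]
    calc n / p = n / p ^ 1 := by rw [pow_one]
      _ ≤ _ := Finset.single_le_sum (f := fun i => n / p ^ i) (fun i _ => Nat.zero_le _)
          (Finset.mem_Ico.2 ⟨le_rfl, by omega⟩)
  have hp0 : (0 : ℝ) < p := by exact_mod_cast hp.pos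
  have h2 : (n : ℝ) / p - 1 ≤ ((n / p : ℕ) : ℝ) := by
    rw [sub_le_iff_le_add, div_le_iff₀ hp0]
    have h3 : (n : ℝ) = p * ((n / p : ℕ) : ℝ) + ((n % p : ℕ) : ℝ) := by
      exact_mod_cast (Nat.div_add_mod n p).symm
    have h4 : ((n % p : ℕ) : ℝ) ≤ (p : ℝ) := by exact_mod_cast (Nat.mod_lt n hp.pos).le
    nlinarith
  exact h2.trans (by exact_mod_cast h1)

/-- `∑_{p ≤ n} log p / (p - 1)`. -/
noncomputable def logSum (n : ℕ) : ℝ := ∑ p ∈ primesTo n, log p / ((p : ℝ) - 1)

lemma log_sub_one_le_logSum (n : ℕ) (hn : 1 ≤ n) : log n - 1 ≤ logSum n := by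
  have hn0 : (0 : ℝ) < n := by exact_mod_cast hn
  have h : log (n ! : ℕ) ≤ (n : ℝ) * logSum n := by
    rw [log_factorial_eq_sum, logSum, Finset.mul_sum]
    refine Finset.sum_le_sum fun p hp => ?_
    have hp' := (mem_primesTo.1 hp).2
    calc (padicValNat p n ! : ℝ) * log p ≤ ((n : ℝ) / ((p : ℝ) - 1)) * log p :=
          mul_le_mul_of_nonneg_right (padicValNat_factorial_mul_le hp' n)
            (Real.log_natCast_nonneg p)
      _ = (n : ℝ) * (log p / ((p : ℝ) - 1)) := by ring
  have := le_log_factorial n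
  nlinarith

lemma sum_log_div_sq_bounded :
    ∃ C : ℝ, ∀ n : ℕ, ∑ p ∈ primesTo n, log p / ((p : ℝ) * ((p : ℝ) - 1)) ≤ C := by
  have hs : Summable (fun n : ℕ => 4 * (1 / (n : ℝ) ^ (3 / 2 : ℝ))) :=
    (Real.summable_one_div_nat_rpow.2 (by norm_num)).mul_left 4
  refine ⟨∑' n : ℕ, 4 * (1 / (n : ℝ) ^ (3 / 2 : ℝ)), fun n => ?_⟩
  refine le_trans (Finset.sum_le_sum fun p hp => ?_)
    (hs.sum_le_tsum (primesTo n) fun i _ => by positivity)
  have hp' := (mem_primesTo.1 hp).2
  have h2 : (2 : ℝ) ≤ (p : ℝ) := by exact_mod_cast hp'.two_le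
  have hp0 : (0 : ℝ) < p := by linarith
  have hl : log (p : ℝ) ≤ 2 * (p : ℝ) ^ (1 / 2 : ℝ) := by
    have := Real.log_le_rpow_div hp0.le (show (0 : ℝ) < 1 / 2 by norm_num)
    linarith
  have hsplit : (p : ℝ) ^ (1 / 2 : ℝ) * (p : ℝ) ^ (3 / 2 : ℝ) = (p : ℝ) ^ 2 := by
    rw [← Real.rpow_add hp0, ← Real.rpow_natCast]; norm_num
  have hp32 : (0 : ℝ) < (p : ℝ) ^ (3 / 2 : ℝ) := by positivity
  rw [div_le_iff₀ (by nlinarith)]
  calc log (p : ℝ) ≤ 2 * (p : ℝ) ^ (1 / 2 : ℝ) := hl
    _ = 2 * (p : ℝ) ^ 2 * (1 / (p : ℝ) ^ (3 / 2 : ℝ)) := by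
        rw [← hsplit]; field_simp
    _ ≤ 4 * (1 / (p : ℝ) ^ (3 / 2 : ℝ)) * ((p : ℝ) * ((p : ℝ) - 1)) := by
        have h5 : (0 : ℝ) ≤ 1 / (p : ℝ) ^ (3 / 2 : ℝ) := by positivity
        nlinarith [mul_le_mul_of_nonneg_left (show 2 * (p : ℝ) ^ 2 ≤ 4 * ((p : ℝ) * ((p : ℝ) - 1)) by
          nlinarith) h5]

lemma abs_logSum_sub_log_le : ∃ C : ℝ, ∀ n : ℕ, 1 ≤ n → |logSum n - log n| ≤ C := by
  obtain ⟨C, hC⟩ := sum_log_div_sq_bounded
  refine ⟨max 1 (log 4 + C), fun n hn => abs_le.2 ⟨?_, ?_⟩⟩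
  · have := log_sub_one_le_logSum n hn
    have := le_max_left (1 : ℝ) (log 4 + C)
    linarith
  · have hn0 : (0 : ℝ) < n := by exact_mod_cast hn
    have h : ∑ p ∈ primesTo n, ((n : ℝ) / p - 1) * log p ≤ (n : ℝ) * log n := by
      refine le_trans ?_ (log_factorial_le n)
      rw [log_factorial_eq_sum]
      exact Finset.sum_le_sum fun p hp => mul_le_mul_of_nonneg_right
        (div_le_padicValNat_factorial (mem_primesTo.1 hp).2 n) (Real.log_natCast_nonneg p)
    have hth : ∑ p ∈ primesTo n, log p ≤ log 4 * n := by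
      have := Chebyshev.theta_le_log4_mul_x (x := (n : ℝ)) (Nat.cast_nonneg n)
      rwa [Chebyshev.theta_eq_sum_primesLE_log] at this
    have h' : (n : ℝ) * ∑ p ∈ primesTo n, log p / (p : ℝ) ≤ n * (log n + log 4) := by
      have : ∑ p ∈ primesTo n, ((n : ℝ) / p - 1) * log p
          = (n : ℝ) * ∑ p ∈ primesTo n, log p / (p : ℝ) - ∑ p ∈ primesTo n, log p := by
        rw [Finset.mul_sum, ← Finset.sum_sub_distrib]
        exact Finset.sum_congr rfl fun p _ => by ring
      linarith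
    have h'' := le_of_mul_le_mul_left h' hn0
    have hsplit : logSum n = ∑ p ∈ primesTo n, log p / (p : ℝ)
        + ∑ p ∈ primesTo n, log p / ((p : ℝ) * ((p : ℝ) - 1)) := by
      rw [logSum, ← Finset.sum_add_distrib]
      refine Finset.sum_congr rfl fun p hp => ?_
      have := sub_one_pos_of_prime (mem_primesTo.1 hp).2
      have : (0 : ℝ) < p := by exact_mod_cast (mem_primesTo.1 hp).2.pos
      field_simp
      ring
    have := hC n
    have := le_max_right (1 : ℝ) (log 4 + C)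
    linarith

lemma logSum_succ (n : ℕ) :
    logSum (n + 1) = logSum n + if (n + 1).Prime then log (n + 1 : ℕ) / (n : ℝ) else 0 := by
  simp only [logSum, primesTo, Finset.sum_filter]
  rw [Finset.sum_range_succ]
  split <;> simp

lemma u_eq_abel (n : ℕ) (hn : 2 ≤ n) :
    u n = logSum n / log n
      + ∑ k ∈ Finset.Ico 2 n, logSum k * (1 / log (k : ℝ) - 1 / log (k + 1 : ℕ)) := by
  induction n, hn using Nat.le_induction with
  | base =>
    rw [u, logSum, primesTo]
    simp only [Finset.sum_filter, Finset.sum_range_succ, Finset.range_zero, Finset.sum_empty]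
    norm_num [Nat.prime_two, Nat.not_prime_zero, Nat.not_prime_one]
  | succ n hn ih =>
    rw [Finset.sum_Ico_succ_top hn, u_succ, logSum_succ, ih]
    have h1 : log ((n + 1 : ℕ) : ℝ) ≠ 0 :=
      (Real.log_pos (by exact_mod_cast (show 1 < n + 1 by omega))).ne'
    split
    · field_simp
      ring
    · field_simp
      ring

/-- Mertens' second theorem. -/
theorem mertens : MertensStatement := by
  obtain ⟨C, hC⟩ := abs_logSum_sub_log_le
  have hC0 : 0 ≤ C := le_trans (abs_nonneg _) (hC 1 le_rfl)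
  refine ⟨(C + 1) * (1 / log 2) + 1 + |log (log 2)|, fun n hn => ?_⟩
  set l : ℕ → ℝ := fun k => log (k : ℝ) with hl
  have hl2 : 0 < log 2 := Real.log_pos (by norm_num)
  have hlpos : ∀ k : ℕ, 2 ≤ k → 0 < l k := fun k hk =>
    Real.log_pos (by exact_mod_cast (show 1 < k by omega))
  have hlmono : ∀ k : ℕ, 2 ≤ k → l k ≤ l (k + 1) := fun k hk =>
    Real.log_le_log (by positivity) (by exact_mod_cast Nat.le_succ k)
  have hln : log 2 ≤ l n := Real.log_le_log (by norm_num) (by exact_mod_cast (show 2 ≤ n by omega))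
  have htel : ∀ f : ℕ → ℝ, ∑ k ∈ Finset.Ico 2 n, (f k - f (k + 1)) = f 2 - f n := fun f => by
    have := Finset.sum_Ico_sub f (show 2 ≤ n by omega)
    simp only [← neg_sub (f (_ + 1)) (f _), Finset.sum_neg_distrib, this]
    ring
  have hdiff : ∀ k ∈ Finset.Ico 2 n, 0 ≤ 1 / l k - 1 / l (k + 1) := fun k hk => by
    have hk2 := (Finset.mem_Ico.1 hk).1
    have := one_div_le_one_div_of_le (hlpos k hk2) (hlmono k hk2)
    linarith
  have hE : |u n - (1 + ∑ k ∈ Finset.Ico 2 n, l k * (1 / l k - 1 / l (k + 1)))|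
      ≤ C * (1 / log 2) := by
    rw [u_eq_abel n (by omega)]
    have e1 : logSum n / log n + ∑ k ∈ Finset.Ico 2 n,
          logSum k * (1 / log (k : ℝ) - 1 / log (k + 1 : ℕ))
        - (1 + ∑ k ∈ Finset.Ico 2 n, l k * (1 / l k - 1 / l (k + 1)))
        = (logSum n - l n) / l n
          + ∑ k ∈ Finset.Ico 2 n, (logSum k - l k) * (1 / l k - 1 / l (k + 1)) := by
      have := (hlpos n (by omega)).ne'
      simp only [hl] at this ⊢
      simp only [sub_mul, Finset.sum_sub_distrib]
      field_simp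
      ring
    rw [e1]
    refine (abs_add_le _ _).trans ?_
    have a1 : |(logSum n - l n) / l n| ≤ C * (1 / l n) := by
      rw [abs_div, abs_of_pos (hlpos n (by omega)), mul_one_div]
      exact div_le_div_of_nonneg_right (hC n (by omega)) (hlpos n (by omega)).le
    have a2 : |∑ k ∈ Finset.Ico 2 n, (logSum k - l k) * (1 / l k - 1 / l (k + 1))|
        ≤ C * (1 / l 2 - 1 / l n) := by
      refine (Finset.abs_sum_le_sum_abs _ _).trans ?_
      rw [← htel (fun k => 1 / l k), Finset.mul_sum]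
      refine Finset.sum_le_sum fun k hk => ?_
      rw [abs_mul, abs_of_nonneg (hdiff k hk)]
      exact mul_le_mul_of_nonneg_right (hC k (by have := (Finset.mem_Ico.1 hk).1; omega))
        (hdiff k hk)
    have : l 2 = log 2 := by norm_num [hl]
    rw [this] at a2
    linarith
  have hup : ∑ k ∈ Finset.Ico 2 n, l k * (1 / l k - 1 / l (k + 1)) ≤ log (l n) - log (l 2) := by
    rw [← Finset.sum_Ico_sub (fun k => log (l k)) (show 2 ≤ n by omega)]
    refine Finset.sum_le_sum fun k hk => ?_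
    have hk2 := (Finset.mem_Ico.1 hk).1
    have p1 := hlpos k hk2
    have p2 := hlpos (k + 1) (by omega)
    have := Real.one_sub_inv_le_log_of_pos (show 0 < l (k + 1) / l k by positivity)
    rw [Real.log_div p2.ne' p1.ne', inv_div] at this
    have e : l k * (1 / l k - 1 / l (k + 1)) = 1 - l k / l (k + 1) := by field_simp
    linarith
  have hlow : log (l n) - log (l 2) - 1 / log 2
      ≤ ∑ k ∈ Finset.Ico 2 n, l k * (1 / l k - 1 / l (k + 1)) := by
    have h1 : ∀ k ∈ Finset.Ico 2 n, log (l (k + 1)) - log (l k) - (1 / l k - 1 / l (k + 1))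
        ≤ l k * (1 / l k - 1 / l (k + 1)) := by
      intro k hk
      have hk2 := (Finset.mem_Ico.1 hk).1
      have p1 := hlpos k hk2
      have p2 := hlpos (k + 1) (by omega)
      have h := Real.log_le_sub_one_of_pos (show 0 < l (k + 1) / l k by positivity)
      rw [Real.log_div p2.ne' p1.ne'] at h
      have d1 : l (k + 1) - l k ≤ 1 := by
        have hh := Real.log_le_sub_one_of_pos
          (show (0 : ℝ) < ((k + 1 : ℕ) : ℝ) / (k : ℝ) by positivity)
        rw [Real.log_div (by positivity) (by positivity)] at hh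
        have hk' : (2 : ℝ) ≤ (k : ℝ) := by exact_mod_cast hk2
        have e : ((k + 1 : ℕ) : ℝ) / (k : ℝ) - 1 = 1 / (k : ℝ) := by push_cast; field_simp; ring
        have e2 : 1 / (k : ℝ) ≤ 1 := by rw [div_le_one (by linarith)]; linarith
        simp only [hl]
        linarith
      have e1 : l (k + 1) / l k - 1 - (l k * (1 / l k - 1 / l (k + 1)))
          = (l (k + 1) - l k) * (1 / l k - 1 / l (k + 1)) := by
        field_simp
      have e2 := mul_le_mul_of_nonneg_right d1 (hdiff k hk)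
      linarith
    refine le_trans ?_ (Finset.sum_le_sum h1)
    rw [Finset.sum_sub_distrib, htel (fun k => 1 / l k),
      Finset.sum_Ico_sub (fun k => log (l k)) (show 2 ≤ n by omega)]
    have : l 2 = log 2 := by norm_num [hl]
    rw [this]
    have : 0 ≤ 1 / l n := by have := hlpos n (by omega); positivity
    linarith
  have : l 2 = log 2 := by norm_num [hl]
  rw [this] at hup hlow
  have hab := abs_le.1 hE
  have hll := abs_le.1 (le_refl |log (log 2)|)
  have h0 : 0 ≤ 1 / log 2 := by positivity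
  simp only [hl] at hab hup hlow
  rw [abs_le]
  constructor <;> nlinarith

lemma exists_mertens_const :
    ∃ C : ℝ, 0 ≤ C ∧ ∀ n : ℕ, 3 ≤ n → log (log n) - C ≤ u n ∧ u n ≤ log (log n) + C := by
  obtain ⟨C, hC⟩ := mertens
  refine ⟨C, le_trans (abs_nonneg _) (hC 3 le_rfl), fun n hn => ?_⟩
  have := abs_le.1 (hC n hn)
  constructor <;> linarith

lemma u_tendsto : Filter.Tendsto u Filter.atTop Filter.atTop := by
  obtain ⟨C, -, hC⟩ := exists_mertens_const
  have h : Filter.Tendsto (fun n : ℕ => log (log n) - C) Filter.atTop Filter.atTop :=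
    Filter.tendsto_atTop_add_const_right _ _
      (Real.tendsto_log_atTop.comp (Real.tendsto_log_atTop.comp tendsto_natCast_atTop_atTop))
  refine Filter.tendsto_atTop_mono' _ ?_ h
  filter_upwards [Filter.eventually_ge_atTop 3] with n hn
  exact (hC n hn).1

/-- Every positive real lies in exactly one interval `(u q - 1/(q-1), u q]`. -/
lemma exists_prime_box {y : ℝ} (hy : 0 < y) :
    ∃ q : ℕ, q.Prime ∧ u q - 1 / ((q : ℝ) - 1) < y ∧ y ≤ u q := by
  have hex : ∃ n, y ≤ u n := ((u_tendsto.eventually (Filter.eventually_ge_atTop y)).exists)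
  classical
  set q := Nat.find hex with hq
  have h1 : y ≤ u q := Nat.find_spec hex
  have hq0 : q ≠ 0 := by
    intro h; rw [h, u_zero] at h1; linarith
  obtain ⟨m, hm⟩ := Nat.exists_eq_succ_of_ne_zero hq0
  have h2 : u m < y := by
    have := Nat.find_min hex (show m < q by omega)
    exact not_le.1 this
  have hpr : (m + 1).Prime := by
    by_contra hc
    rw [hm, u_succ, if_neg hc] at h1
    linarith
  refine ⟨q, by rw [hm]; exact hpr, ?_, h1⟩
  rw [hm] at h1 ⊢
  rw [u_succ, if_pos hpr]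
  push_cast
  simp only [add_sub_cancel_right]
  linarith

lemma prime_box_unique {p q : ℕ} {y : ℝ} (hp : p.Prime) (hq : q.Prime)
    (h1 : u p - 1 / ((p : ℝ) - 1) < y) (h2 : y ≤ u p)
    (h3 : u q - 1 / ((q : ℝ) - 1) < y) (h4 : y ≤ u q) : p = q := by
  rcases lt_trichotomy p q with h | h | h
  · have := u_mono (Nat.le_sub_one_of_lt h); rw [u_prime_eq hq] at h3; linarith
  · exact h
  · have := u_mono (Nat.le_sub_one_of_lt h); rw [u_prime_eq hp] at h1; linarith

lemma finite_primes_u_le (F : ℝ) : {p : ℕ | p.Prime ∧ u p ≤ F}.Finite := by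
  obtain ⟨N, hN⟩ := Filter.eventually_atTop.1 (u_tendsto.eventually (Filter.eventually_gt_atTop F))
  refine (Set.finite_lt_nat N).subset fun p hp => ?_
  by_contra hc
  exact absurd hp.2 (not_le.2 (hN p (not_lt.1 hc)))

/-- `∑_{p ∣ n} 1/(p-1) ≤ log (u n + 1) + O(1)`. -/
lemma sum_primeFactors_le :
    ∃ C : ℝ, ∀ n : ℕ, ∑ p ∈ n.primeFactors, 1 / ((p : ℝ) - 1) ≤ log (u n + 1) + C := by
  obtain ⟨C, hC0, hC⟩ := exists_mertens_const
  -- large `n`: split at `L = ⌈log n⌉ + 2`
  have key : ∀ n : ℕ, 3 ≤ n → ∑ p ∈ n.primeFactors, 1 / ((p : ℝ) - 1)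
      ≤ u (⌈log n⌉₊ + 3) + 1 / log 2 := by
    intro n hn
    set L := ⌈log n⌉₊ + 3 with hL
    rw [← Finset.sum_filter_add_sum_filter_not n.primeFactors (fun p => p ≤ L)]
    refine add_le_add ?_ ?_
    · rw [u_def]
      refine Finset.sum_le_sum_of_subset_of_nonneg (fun p hp => ?_) (fun p hp _ => ?_)
      · obtain ⟨h1, h2⟩ := Finset.mem_filter.1 hp
        exact mem_primesTo.2 ⟨h2, Nat.prime_of_mem_primeFactors h1⟩
      · have := sub_one_pos_of_prime (mem_primesTo.1 hp).2
        positivity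
    · have hlog : 0 < log (n : ℝ) := Real.log_pos (by exact_mod_cast (show 1 < n by omega))
      have hcard : (n.primeFactors.card : ℝ) * log 2 ≤ log n := by
        have h2 : 2 ^ n.primeFactors.card ≤ n := by
          calc 2 ^ n.primeFactors.card ≤ ∏ p ∈ n.primeFactors, p :=
                Finset.pow_card_le_prod _ _ _ fun p hp => (Nat.prime_of_mem_primeFactors hp).two_le
            _ ≤ n := Nat.le_of_dvd (by omega) (Nat.prod_primeFactors_dvd n)
        rw [← Real.log_pow]
        exact Real.log_le_log (by positivity) (by exact_mod_cast h2)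
      calc ∑ p ∈ n.primeFactors with ¬p ≤ L, 1 / ((p : ℝ) - 1)
          ≤ ∑ p ∈ n.primeFactors with ¬p ≤ L, 1 / log n := by
            refine Finset.sum_le_sum fun p hp => one_div_le_one_div_of_le hlog ?_
            obtain ⟨-, h2⟩ := Finset.mem_filter.1 hp
            have h3 : (L : ℝ) + 1 ≤ p := by exact_mod_cast (not_le.1 h2)
            have h4 : log (n : ℝ) ≤ ⌈log (n : ℝ)⌉₊ := Nat.le_ceil _
            rw [hL] at h3; push_cast at h3
            linarith
        _ ≤ (n.primeFactors.card : ℝ) * (1 / log n) := by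
            rw [Finset.sum_const, nsmul_eq_mul]
            exact mul_le_mul_of_nonneg_right (by exact_mod_cast Finset.card_filter_le _ _)
              (by positivity)
        _ ≤ 1 / log 2 := by
            rw [mul_one_div, div_le_div_iff₀ hlog (Real.log_pos (by norm_num))]
            linarith
  obtain ⟨N, hN⟩ : ∃ N : ℕ, ∀ n ≥ N, 3 ≤ n ∧ C + 5 ≤ log (log n) ∧ 5 ≤ log n := by
    rw [← Filter.eventually_atTop]
    refine Filter.Eventually.and (Filter.eventually_ge_atTop 3) (Filter.Eventually.and ?_ ?_)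
    · exact (Real.tendsto_log_atTop.comp
        (Real.tendsto_log_atTop.comp tendsto_natCast_atTop_atTop)).eventually_ge_atTop _
    · exact (Real.tendsto_log_atTop.comp tendsto_natCast_atTop_atTop).eventually_ge_atTop _
  refine ⟨max (C + 1 / log 2 + log 2 + C + 5) (u N), fun n => ?_⟩
  have hu := u_nonneg n
  have hlu : 0 ≤ log (u n + 1) := Real.log_nonneg (by linarith)
  rcases lt_or_ge n N with h | h
  · have h1 : ∑ p ∈ n.primeFactors, 1 / ((p : ℝ) - 1) ≤ u N := by
      rw [u_def]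
      refine Finset.sum_le_sum_of_subset_of_nonneg (fun p hp => ?_) (fun p hp _ => ?_)
      · have := Nat.le_of_mem_primeFactors hp
        exact mem_primesTo.2 ⟨by omega, Nat.prime_of_mem_primeFactors hp⟩
      · have := sub_one_pos_of_prime (mem_primesTo.1 hp).2
        positivity
    have := le_max_right (C + 1 / log 2 + log 2 + C + 5) (u N)
    linarith
  · obtain ⟨h3, h4, h5⟩ := hN n h
    refine (key n h3).trans ?_
    have hM := (hC (⌈log (n : ℝ)⌉₊ + 3) (by omega)).2
    have hU := (hC n h3).1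
    have hle : ((⌈log (n : ℝ)⌉₊ + 3 : ℕ) : ℝ) ≤ 2 * log n := by
      have := Nat.ceil_lt_add_one (show (0 : ℝ) ≤ log n by linarith)
      push_cast; linarith
    have hL3 : (3 : ℝ) ≤ ((⌈log (n : ℝ)⌉₊ + 3 : ℕ) : ℝ) := by push_cast; linarith [Nat.cast_nonneg (α := ℝ) ⌈log (n : ℝ)⌉₊]
    have hpos : 0 < log ((⌈log (n : ℝ)⌉₊ + 3 : ℕ) : ℝ) := Real.log_pos (by linarith)
    have h6 : log (log ((⌈log (n : ℝ)⌉₊ + 3 : ℕ) : ℝ)) ≤ log (log (2 * log n)) :=
      Real.log_le_log hpos (Real.log_le_log (by linarith) hle)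
    have h7 : log (2 * log (n : ℝ)) ≤ (C + 2) * (u n + 1) := by
      rw [Real.log_mul (by norm_num) (by linarith)]
      have : log 2 ≤ 1 := by have := Real.log_le_sub_one_of_pos (show (0:ℝ) < 2 by norm_num); linarith
      nlinarith
    have h8 : log (log (2 * log (n : ℝ))) ≤ log (C + 2) + log (u n + 1) := by
      rw [← Real.log_mul (by linarith) (by linarith)]
      exact Real.log_le_log (Real.log_pos (by linarith)) h7
    have h9 : log (C + 2) ≤ C + 1 := by
      have := Real.log_le_sub_one_of_pos (show 0 < C + 2 by linarith); linarith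
    have := le_max_left (C + 1 / log 2 + log 2 + C + 5) (u N)
    have : 0 ≤ log 2 := Real.log_nonneg (by norm_num)
    linarith

lemma prod_one_add_le_exp {ι : Type*} (s : Finset ι) (f : ι → ℝ) (hf : ∀ i ∈ s, 0 ≤ 1 + f i) :
    ∏ i ∈ s, (1 + f i) ≤ exp (∑ i ∈ s, f i) := by
  rw [Real.exp_sum]
  exact Finset.prod_le_prod hf fun i _ => by linarith [Real.add_one_le_exp (f i)]

/-- `n / φ n` grows at most like a constant times `u n + 1`. -/
lemma div_totient_le :
    ∃ C : ℝ, 0 < C ∧ ∀ n : ℕ, (n : ℝ) ≤ C * (u n + 1) * (n.totient : ℝ) := by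
  obtain ⟨C, hC⟩ := sum_primeFactors_le
  refine ⟨exp C, exp_pos C, fun n => ?_⟩
  rcases eq_or_ne n 0 with rfl | hn
  · simp
  have hφ := Nat.totient_mul_prod_primeFactors n
  have e : (n : ℝ) = (n.totient : ℝ) * ∏ p ∈ n.primeFactors, (1 + 1 / ((p : ℝ) - 1)) := by
    have h2 : ((n.totient * ∏ p ∈ n.primeFactors, p : ℕ) : ℝ)
        = ((n * ∏ p ∈ n.primeFactors, (p - 1) : ℕ) : ℝ) := by rw [hφ]
    push_cast at h2
    have h3 : ∀ p ∈ n.primeFactors, (((p - 1 : ℕ)) : ℝ) = (p : ℝ) - 1 := fun p hp => by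
      rw [Nat.cast_sub (Nat.prime_of_mem_primeFactors hp).one_le]; simp
    rw [Finset.prod_congr rfl h3] at h2
    have h4 : ∀ p ∈ n.primeFactors, 1 + 1 / ((p : ℝ) - 1) = (p : ℝ) / ((p : ℝ) - 1) := fun p hp => by
      have := sub_one_pos_of_prime (Nat.prime_of_mem_primeFactors hp); field_simp; ring
    have h5 : (0 : ℝ) < ∏ p ∈ n.primeFactors, ((p : ℝ) - 1) :=
      Finset.prod_pos fun p hp => sub_one_pos_of_prime (Nat.prime_of_mem_primeFactors hp)
    rw [Finset.prod_congr rfl h4, Finset.prod_div_distrib]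
    field_simp
    linarith
  have hle : ∏ p ∈ n.primeFactors, (1 + 1 / ((p : ℝ) - 1)) ≤ exp C * (u n + 1) := by
    refine (prod_one_add_le_exp _ _ fun p hp => ?_).trans ?_
    · have := sub_one_pos_of_prime (Nat.prime_of_mem_primeFactors hp); positivity
    · calc exp (∑ p ∈ n.primeFactors, 1 / ((p : ℝ) - 1)) ≤ exp (log (u n + 1) + C) :=
            Real.exp_le_exp.2 (hC n)
        _ = exp C * (u n + 1) := by
            rw [Real.exp_add, Real.exp_log (by linarith [u_nonneg n])]; ring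
  calc (n : ℝ) = (n.totient : ℝ) * ∏ p ∈ n.primeFactors, (1 + 1 / ((p : ℝ) - 1)) := e
    _ ≤ (n.totient : ℝ) * (exp C * (u n + 1)) :=
        mul_le_mul_of_nonneg_left hle (Nat.cast_nonneg _)
    _ = _ := by ring

end Vale.Agent.P031
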