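import Vale.Agent.P031.Basic
import Mathlib.MeasureTheory.Measure.Lebesgue.EqHaar
import Mathlib.MeasureTheory.Constructions.Pi

/-!
P031: sums over tuples of primes as volumes of unions of boxes.
-/

open Finset MeasureTheory
open scoped ENNReal

namespace Vale.Agent.P031

variable {L : ℕ}

/-- The box of a tuple of primes. -/
def box (q : Fin L → ℕ) : Set (Fin L → ℝ) :=
  Set.univ.pi fun i => Set.Ioc (u (q i) - 1 / ((q i : ℝ) - 1)) (u (q i))

/-- The weight `∏ 1/(q_i - 1)` of a tuple. -/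
noncomputable def wgt (q : Fin L → ℕ) : ℝ := ∏ i, 1 / ((q i : ℝ) - 1)

lemma mem_box {q : Fin L → ℕ} {y : Fin L → ℝ} :
    y ∈ box q ↔ ∀ i, u (q i) - 1 / ((q i : ℝ) - 1) < y i ∧ y i ≤ u (q i) := by
  simp [box, Set.mem_pi]

lemma wgt_nonneg {q : Fin L → ℕ} (hq : ∀ i, (q i).Prime) : 0 ≤ wgt q :=
  Finset.prod_nonneg fun i _ => by have := sub_one_pos_of_prime (hq i); positivity

lemma measurableSet_box (q : Fin L → ℕ) : MeasurableSet (box q) :=
  MeasurableSet.univ_pi fun _ => measurableSet_Ioc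

lemma volume_box {q : Fin L → ℕ} (hq : ∀ i, (q i).Prime) :
    volume (box q) = ENNReal.ofReal (wgt q) := by
  rw [box, Real.volume_pi_Ioc, wgt, ENNReal.ofReal_prod_of_nonneg]
  · simp
  · intro i _; have := sub_one_pos_of_prime (hq i); positivity

lemma box_disjoint {p q : Fin L → ℕ} (hp : ∀ i, (p i).Prime) (hq : ∀ i, (q i).Prime) (h : p ≠ q) :
    Disjoint (box p) (box q) := by
  rw [Set.disjoint_left]
  intro y hy hy'
  rw [mem_box] at hy hy'
  exact h (funext fun i => prime_box_unique (hp i) (hq i) (hy i).1 (hy i).2 (hy' i).1 (hy' i).2)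

lemma exists_box {y : Fin L → ℝ} (hy : ∀ i, 0 < y i) :
    ∃ q : Fin L → ℕ, (∀ i, (q i).Prime) ∧ y ∈ box q := by
  choose q hq h1 h2 using fun i => exists_prime_box (hy i)
  exact ⟨q, hq, mem_box.2 fun i => ⟨h1 i, h2 i⟩⟩

lemma sum_wgt_le_volume (F : Finset (Fin L → ℕ)) (hF : ∀ q ∈ F, ∀ i, (q i).Prime)
    {U : Set (Fin L → ℝ)} (h : ∀ q ∈ F, box q ⊆ U) :
    ENNReal.ofReal (∑ q ∈ F, wgt q) ≤ volume U := by
  rw [ENNReal.ofReal_sum_of_nonneg (fun q hq => wgt_nonneg (hF q hq)),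
    Finset.sum_congr rfl (fun q hq => (volume_box (hF q hq)).symm),
    ← measure_biUnion_finset (fun p hp q hq hpq => box_disjoint (hF p hp) (hF q hq) hpq)
      (fun q _ => measurableSet_box q)]
  exact measure_mono (Set.iUnion₂_subset h)

lemma volume_le_sum_wgt (F : Finset (Fin L → ℕ)) (hF : ∀ q ∈ F, ∀ i, (q i).Prime)
    {U : Set (Fin L → ℝ)} (h : ∀ y ∈ U, ∃ q ∈ F, y ∈ box q) :
    volume U ≤ ENNReal.ofReal (∑ q ∈ F, wgt q) := by
  rw [ENNReal.ofReal_sum_of_nonneg (fun q hq => wgt_nonneg (hF q hq)),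
    Finset.sum_congr rfl (fun q hq => (volume_box (hF q hq)).symm)]
  refine (measure_mono ?_).trans (measure_biUnion_finset_le F box)
  intro y hy
  obtain ⟨q, hq, hy'⟩ := h y hy
  exact Set.mem_biUnion hq hy'

/-- A contraction towards `c` that maps `U` into `S` costs `(1-ε)^L` in volume. -/
lemma volume_contract (c : Fin L → ℝ) {ε : ℝ} (hε : ε ≤ 1) {U S : Set (Fin L → ℝ)}
    (h : ∀ y ∈ U, (fun i => (1 - ε) * y i + ε * c i) ∈ S) :
    ENNReal.ofReal ((1 - ε) ^ L) * volume U ≤ volume S := by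
  have key := Measure.addHaar_image_homothety (μ := volume) c (1 - ε) U
  rw [Module.finrank_fintype_fun_eq_card, Fintype.card_fin, abs_of_nonneg (by
    have : 0 ≤ 1 - ε := by linarith
    positivity)] at key
  rw [← key]
  refine measure_mono ?_
  rintro _ ⟨y, hy, rfl⟩
  have e : AffineMap.homothety c (1 - ε) y = fun i => (1 - ε) * y i + ε * c i := by
    funext i
    simp [AffineMap.homothety_apply]
    ring
  rw [e]
  exact h y hy

end Vale.Agent.P031
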