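import Vale.Agent.P031.Mass

/-!
P031: chains (a top prime, lower levels and a smooth cofactor) and their collisions.
-/

open Finset Real Filter
open scoped Nat Topology

namespace Vale.Agent.P031

/-- A chain: a top prime `q` at scale at most `top`, lower levels `l` with slack, cofactor `e`. -/
def Chain (T top : ℝ) (q : ℕ) (l : List ℕ) (e : ℕ) : Prop :=
  (q :: l).Pairwise (fun a b => b < a) ∧
    (∀ x ∈ q :: l, Normal x ∧ floorLevel T < u x) ∧
    (l.length : ℝ) + 1 ≤ 24 * log T ∧
    Smooth (floorLevel T) e ∧ log e ≤ exp (2 * floorLevel T) ∧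
    cost (q :: l) ≤ (1 - 3 * eta T) * top ∧
    ∀ x ∈ l, u x ≤ (1 - 3 * eta T) * top

lemma Normal.prime {q : ℕ} (h : Normal q) : q.Prime := h.1

/-- `q - 1` is not smooth much below the level of a normal prime `q`. -/
lemma normal_not_smooth :
    ∃ t₀ : ℝ, ∀ (q w : ℕ) (G : ℝ), Normal q → t₀ ≤ u q → G + 4 * (u q) ^ (3 / 5 : ℝ) ≤ u q →
      0 ≤ G → q - 1 ∣ w → ¬ Smooth G w := by
  obtain ⟨t₀, ht₀⟩ := eventually_atTop.1 ((eventually_ge_atTop (1 : ℝ)).and
    ((tendsto_rpow_atTop (show (0 : ℝ) < 3 / 5 by norm_num)).eventually_ge_atTop 2))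
  refine ⟨t₀, fun q w G hq ht hG hG0 hdvd hsm => ?_⟩
  obtain ⟨ht1, hpw⟩ := ht₀ _ ht
  set t := u q
  set P := t ^ (3 / 5 : ℝ)
  have hsqrt : √t ≤ P := by
    rw [Real.sqrt_eq_rpow]
    exact Real.rpow_le_rpow_of_exponent_le ht1 (by norm_num)
  have h := hq.2 (t - 3 * P) (t - √t) (by linarith) (by linarith) (by linarith)
  have hpos : 0 < cnt (t - 3 * P) (t - √t) (q - 1) := by
    by_contra hc
    have h0 : (cnt (t - 3 * P) (t - √t) (q - 1) : ℝ) = 0 := by
      exact_mod_cast (show cnt (t - 3 * P) (t - √t) (q - 1) = 0 by omega)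
    rw [h0] at h
    have := (abs_le.1 h).1
    linarith
  simp only [cnt] at hpos
  obtain ⟨p, hp⟩ := List.exists_mem_of_length_pos hpos
  rw [List.mem_filter, decide_eq_true_eq] at hp
  have hne : q - 1 ≠ 0 := by have := hq.1.two_le; omega
  obtain ⟨hpp, hpd⟩ := (Nat.mem_primeFactorsList hne).1 hp.1
  have := hsm.2 p hpp (hpd.trans hdvd)
  linarith [hp.2.1]

/-- Collisions between chains with different top primes are negligible. -/
lemma chain_pairs (hC : CollideStatement) :
    ∀ᶠ T : ℝ in atTop, ∀ (S top : ℝ) (Y : ℕ), tailLevel T ≤ S → top ≤ S + 1 → u Y ≤ 3 * S →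
      ∀ P : Finset ((ℕ × ℕ) × (ℕ × ℕ)),
      (∀ x ∈ P, x.2.1 < x.1.1 ∧ |u x.1.1 - S| ≤ √S ∧
        (∃ l e, Chain T top x.1.1 l e ∧ pval l * e = x.1.2) ∧
        (∃ top' l e, Chain T top' x.2.1 l e ∧ pval l * e = x.2.2) ∧
        (x.1.1 - 1) * x.1.2 = (x.2.1 - 1) * x.2.2 ∧ (x.1.1 - 1) * x.1.2 ≤ Y) →
      (P.card : ℝ) ≤ Y * exp (-S - S ^ (4 / 5 : ℝ)) := by
  classical
  obtain ⟨S₀, hS₀⟩ := hC
  obtain ⟨t₀, hns⟩ := normal_not_smooth
  filter_upwards [Real.tendsto_log_atTop.eventually_ge_atTop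
      (max 200 (max S₀ (4 * t₀))), eventually_ge_atTop (1 : ℝ)]
    with T hl hT1 S top Y hS htop hY P hP
  set ℓ := log T
  have hℓ200 : (200 : ℝ) ≤ ℓ := (le_max_left _ _).trans hl
  have hℓS₀ : S₀ ≤ ℓ := ((le_max_left _ _).trans (le_max_right _ _)).trans hl
  have hℓt₀ : 4 * t₀ ≤ ℓ := ((le_max_right _ _).trans (le_max_right _ _)).trans hl
  have hℓ1 : (1 : ℝ) ≤ ℓ := by linarith
  have hℓK : ℓ ≤ tailLevel T := le_self_pow₀ hℓ1 (by norm_num)
  have hS1 : (1 : ℝ) ≤ S := by linarith
  have hpow : ∀ (r : ℝ) (k : ℕ), 0 ≤ r → (k : ℝ) ≤ 400 * r → ℓ ^ k ≤ S ^ r := fun r k hr hk => by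
    have h1 : ℓ ^ (k : ℝ) ≤ ℓ ^ ((400 : ℕ) * r : ℝ) :=
      Real.rpow_le_rpow_of_exponent_le hℓ1 (by push_cast; linarith)
    rw [Real.rpow_natCast, Real.rpow_mul (by linarith), Real.rpow_natCast] at h1
    exact h1.trans (Real.rpow_le_rpow (by positivity) hS hr)
  set G := S ^ (3 / 4 : ℝ) with hG
  have hG0 : 0 ≤ G := by positivity
  have hFG : floorLevel T ≤ G := hpow _ 200 (by norm_num) (by norm_num)
  have hlen : 24 * ℓ ≤ S ^ (1 / 50 : ℝ) := by
    refine le_trans ?_ (hpow _ 8 (by norm_num) (by norm_num))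
    calc 24 * ℓ ≤ ℓ * ℓ := mul_le_mul_of_nonneg_right (by linarith) (by linarith)
      _ = ℓ ^ 2 := (sq ℓ).symm
      _ ≤ ℓ ^ 8 := pow_le_pow_right₀ hℓ1 (by norm_num)
  have hη0 : 0 < eta T := by simp only [eta]; positivity
  have hη1 : 3 * eta T ≤ 1 := by
    simp only [eta]
    rw [mul_one_div, div_le_one (by positivity)]
    linarith [le_self_pow₀ hℓ1 (show 10 ≠ 0 by norm_num)]
  have hslack : (1 - 3 * eta T) * (S + 1) ≤ S - S ^ (9 / 10 : ℝ) := by
    have h1 : ℓ ^ 30 ≤ S ^ (1 / 10 : ℝ) := hpow _ 30 (by norm_num) (by norm_num)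
    have h2 : S = S ^ (1 / 10 : ℝ) * S ^ (9 / 10 : ℝ) := by
      rw [← Real.rpow_add (by linarith)]; norm_num
    have h3 : 1 ≤ S ^ (9 / 10 : ℝ) := Real.one_le_rpow hS1 (by norm_num)
    have h4 : 2 ≤ 3 * eta T * S ^ (1 / 10 : ℝ) := by
      refine le_trans ?_ (mul_le_mul_of_nonneg_left h1 (by positivity))
      simp only [eta]
      rw [mul_one_div, div_mul_eq_mul_div, le_div_iff₀ (by positivity),
        show ℓ ^ 30 = ℓ ^ 20 * ℓ ^ 10 by ring, ← mul_assoc]
      refine mul_le_mul_of_nonneg_right ?_ (by positivity)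
      linarith [le_self_pow₀ hℓ1 (show 20 ≠ 0 by norm_num)]
    have h5 : 2 * S ^ (9 / 10 : ℝ) ≤ 3 * eta T * S := by
      conv_rhs => rw [h2, ← mul_assoc]
      exact mul_le_mul_of_nonneg_right h4 (by linarith)
    nlinarith
  have hsqS : √S ≤ S / 8 := by
    have : 64 ≤ S := by linarith
    rw [Real.sqrt_le_iff]; constructor <;> nlinarith
  -- the conversion to `Rep`
  have conv : ∀ (top' : ℝ) (q : ℕ) (l : List ℕ) (e : ℕ), Chain T top' q l e → G < u q →
      ∃ l' r, Rep S (q :: l') r ∧ pval l' * r = pval l * e ∧ l'.Sublist l ∧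
        cost (q :: l') ≤ cost (q :: l) := by
    intro top' q l e hc hq
    obtain ⟨hpw, hnorm, hlenl, hsm, -, -, -⟩ := hc
    obtain ⟨k, hk, hfil, htail⟩ := filter_eq_take_of_desc (fun x => decide (G < u x))
      (List.pairwise_cons.1 hpw).2 (fun a b hab hb => by
        simp only [decide_eq_true_eq] at hb ⊢
        exact lt_of_lt_of_le hb (u_mono hab.le))
    refine ⟨l.take k, pval (l.drop k) * e, ⟨?_, ?_, ?_, ?_⟩, ?_, List.take_sublist _ _, ?_⟩
    · exact hpw.sublist ((List.take_sublist k l).cons_cons q)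
    · refine le_trans ?_ (hlenl.trans hlen)
      rw [List.length_cons]
      push_cast
      have : ((l.take k).length : ℝ) ≤ l.length := by exact_mod_cast List.length_take_le' k l
      linarith
    · intro x hx
      rcases List.mem_cons.1 hx with rfl | hx
      · exact ⟨(hnorm _ List.mem_cons_self).1, hq⟩
      · refine ⟨(hnorm x (List.mem_cons_of_mem _ (List.mem_of_mem_take hx))).1, ?_⟩
        rw [← hfil, List.mem_filter, decide_eq_true_eq] at hx
        exact hx.2
    · refine (smooth_pval fun x hx => ⟨((hnorm x (List.mem_cons_of_mem _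
        (List.mem_of_mem_drop hx))).1).1, ?_⟩).mul (hsm.mono hFG)
      obtain ⟨i, hi, rfl⟩ := List.getElem_of_mem hx
      rw [List.length_drop] at hi
      have := htail (k + i) (Nat.le_add_right _ _) (by omega)
      simp only [decide_eq_false_iff_not, not_lt] at this
      rw [List.getD_eq_getElem?_getD, List.getElem?_eq_getElem (by omega), Option.getD_some] at this
      rwa [List.getElem_drop]
    · rw [← mul_assoc, ← pval_append, List.take_append_drop]
    · rw [show q :: l.take k = (q :: l).take (k + 1) from rfl, cost_take, cost]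
      exact Finset.sum_le_sum_of_subset_of_nonneg
        (Finset.range_subset_range.2 (min_le_right _ _))
        fun j _ _ => mul_nonneg (coef_nonneg _) (u_nonneg _)
  have key : ∀ x ∈ P, ∃ z : (List ℕ × ℕ) × (List ℕ × ℕ),
      (∃ q qs r q' qs' r', z = ((q :: qs, r), (q' :: qs', r')) ∧
        Rep S (q :: qs) r ∧ Rep S (q' :: qs') r' ∧ q' < q ∧
        |u q - S| ≤ √S ∧ cost (q :: qs) ≤ S - S ^ (9 / 10 : ℝ) ∧
        (∀ p ∈ qs, u p ≤ S - S ^ (9 / 10 : ℝ)) ∧
        pval (q :: qs) * r = pval (q' :: qs') * r' ∧ pval (q :: qs) * r ≤ Y) ∧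
      x = ((z.1.1.headI, pval z.1.1.tail * z.1.2), (z.2.1.headI, pval z.2.1.tail * z.2.2)) := by
    intro x hx
    obtain ⟨hlt, hnear, ⟨l, e, hc, hw⟩, ⟨top', l', e', hc', hw'⟩, heq, hle⟩ := hP x hx
    have hu1 : S - √S ≤ u x.1.1 := by linarith [(abs_le.1 hnear).1]
    have hu1' : u x.1.1 ≤ S + √S := by linarith [(abs_le.1 hnear).2]
    have hn1 : Normal x.1.1 := (hc.2.1 _ List.mem_cons_self).1
    have hGS : G + 4 * (u x.1.1) ^ (3 / 5 : ℝ) ≤ u x.1.1 := by
      have h1 : (u x.1.1) ^ (3 / 5 : ℝ) ≤ 2 * S ^ (3 / 5 : ℝ) := by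
        calc (u x.1.1) ^ (3 / 5 : ℝ) ≤ (2 * S) ^ (3 / 5 : ℝ) :=
              Real.rpow_le_rpow (u_nonneg _) (by linarith) (by norm_num)
          _ = 2 ^ (3 / 5 : ℝ) * S ^ (3 / 5 : ℝ) := Real.mul_rpow (by norm_num) (by linarith)
          _ ≤ 2 * S ^ (3 / 5 : ℝ) := mul_le_mul_of_nonneg_right (le_trans
              (Real.rpow_le_rpow_of_exponent_le one_le_two (show (3 / 5 : ℝ) ≤ 1 by norm_num))
              (le_of_eq (Real.rpow_one 2))) (by positivity)
      have h2 : S ^ (3 / 5 : ℝ) ≤ G := Real.rpow_le_rpow_of_exponent_le hS1 (by norm_num)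
      have h3 : 16 * G ≤ S := by
        calc 16 * G ≤ S ^ (1 / 4 : ℝ) * G := by
              refine mul_le_mul_of_nonneg_right ?_ hG0
              refine le_trans (le_trans ?_ (le_self_pow₀ hℓ1 (show 100 ≠ 0 by norm_num)))
                (hpow _ 100 (by norm_num) (by norm_num))
              linarith
          _ = S := by rw [hG, ← Real.rpow_add (by linarith)]; norm_num
      linarith
    have hq : G < u x.1.1 := by
      have := Real.rpow_nonneg (u_nonneg x.1.1) (3 / 5 : ℝ)
      by_contra hcon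
      push Not at hcon
      have h0 : 0 < u x.1.1 := by linarith
      have := Real.rpow_pos_of_pos h0 (3 / 5 : ℝ)
      linarith
    have hq' : G < u x.2.1 := by
      by_contra hcon
      push Not at hcon
      refine hns x.1.1 ((x.1.1 - 1) * x.1.2) G hn1 (by linarith) hGS hG0 (dvd_mul_right _ _) ?_
      rw [heq, ← hw', ← mul_assoc, ← pval_cons]
      refine (smooth_pval fun y hy => ⟨((hc'.2.1 y hy).1).1, ?_⟩).mul (hc'.2.2.2.1.mono hFG)
      rcases List.mem_cons.1 hy with rfl | hy'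
      · exact hcon
      · exact (u_mono ((List.pairwise_cons.1 hc'.1).1 y hy').le).trans hcon
    obtain ⟨l₁, r₁, hr₁, he₁, hs₁, hco₁⟩ := conv top _ _ _ hc hq
    obtain ⟨l₂, r₂, hr₂, he₂, -, -⟩ := conv top' _ _ _ hc' hq'
    have hval : pval (x.1.1 :: l₁) * r₁ = (x.1.1 - 1) * x.1.2 := by
      rw [pval_cons, mul_assoc, he₁, hw]
    have htopS : (1 - 3 * eta T) * top ≤ S - S ^ (9 / 10 : ℝ) :=
      (mul_le_mul_of_nonneg_left htop (by linarith)).trans hslack
    refine ⟨((x.1.1 :: l₁, r₁), (x.2.1 :: l₂, r₂)), ⟨_, _, _, _, _, _, rfl, hr₁, hr₂, hlt, hnear,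
      hco₁.trans (hc.2.2.2.2.2.1.trans htopS),
      fun p hp => (hc.2.2.2.2.2.2 p (hs₁.subset hp)).trans htopS, ?_, hval ▸ hle⟩, ?_⟩
    · rw [hval, heq, pval_cons, mul_assoc, he₂, hw']
    · simp only [List.headI_cons, List.tail_cons, he₁, hw, he₂, hw']
  choose! z hz hzx using key
  have hcard : P.card = (P.image z).card :=
    (Finset.card_image_of_injOn fun a ha b hb h => by rw [hzx a ha, hzx b hb, h]).symm
  rw [hcard]
  refine hS₀ S (by linarith) Y hY (P.image z) fun y hy => ?_
  obtain ⟨x, hx, rfl⟩ := Finset.mem_image.1 hy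
  exact hz x hx

open Classical in
/-- A chosen tail of a body item. -/
noncomputable def tailOf (T : ℝ) {L : ℕ} (x : (Fin L → ℕ) × ℕ) : ℕ :=
  if h : BodyItem T L x then Classical.choose h.2 else 1

/-- The levels of an item. -/
noncomputable def levelsOf (T : ℝ) {L : ℕ} (x : (Fin L → ℕ) × ℕ) : List ℕ :=
  List.ofFn x.1 ++ levs (floorLevel T) (tailOf T x)

/-- The cofactor of an item. -/
noncomputable def cofOf (T : ℝ) {L : ℕ} (x : (Fin L → ℕ) × ℕ) : ℕ :=
  φ (smlPart (floorLevel T) (tailOf T x))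

lemma tailOf_spec {T : ℝ} {L : ℕ} {x : (Fin L → ℕ) × ℕ} (h : BodyItem T L x) :
    TailOK T (tailOf T x) ∧ φ (tailOf T x) = x.2 ∧
      Reg L T (levs (floorLevel T) (tailOf T x)) ((1 + 4 * eta T) * tailLevel T) (-(3 * eta T))
        (tval x.1) := by
  rw [tailOf, dif_pos h]
  exact Classical.choose_spec h.2

lemma pval_drop_ofFn_mul {T : ℝ} {L : ℕ} {x : (Fin L → ℕ) × ℕ} (h : BodyItem T L x) {i : ℕ}
    (hi : i ≤ L) :
    pval ((levelsOf T x).drop i) * cofOf T x = pval ((List.ofFn x.1).drop i) * x.2 := by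
  obtain ⟨hr, hd, -⟩ := tailOf_spec h
  rw [levelsOf, List.drop_append_of_le_length (by simpa using hi), pval_append, cofOf, ← hd,
    mul_assoc, totient_eq_pval hr.1 hr.2.1]

lemma pval_ofFn {L : ℕ} (q : Fin L → ℕ) : pval (List.ofFn q) = ∏ k, (q k - 1) := by
  rw [pval, List.map_ofFn, List.prod_ofFn]
  rfl

lemma levelsOf_getD {T : ℝ} {L : ℕ} (x : (Fin L → ℕ) × ℕ) {j : ℕ} (hj : j < L) :
    (levelsOf T x).getD j 0 = x.1 ⟨j, hj⟩ := by
  rw [levelsOf, List.getD_append _ _ _ _ (by simpa using hj), List.getD_eq_getElem?_getD,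
    List.getElem?_eq_getElem (by simpa using hj)]
  simp

lemma cost_levels {T : ℝ} {L : ℕ} (x : (Fin L → ℕ) × ℕ) (p i : ℕ) (hi : i ≤ L) :
    cost ((p :: levelsOf T x).drop i)
      = lhs T (levs (floorLevel T) (tailOf T x)) (tval x.1) i := by
  set τ := levs (floorLevel T) (tailOf T x)
  rw [cost_drop, lhs, show (p :: levelsOf T x).length - i = (L + 1 - i) + τ.length by
    simp [levelsOf, τ]; omega, Finset.sum_range_add]
  congr 1
  · refine Finset.sum_congr rfl fun j hj => ?_
    have := Finset.mem_range.1 hj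
    rcases Nat.eq_zero_or_pos j with rfl | hj0
    · simp [coef_zero]
    · obtain ⟨k, hk⟩ : ∃ k, i + j = k + 1 := ⟨i + j - 1, by omega⟩
      rw [hk, List.getD_cons_succ, levelsOf_getD x (by omega), yy_lev T _ (by omega : k < L)]
      rfl
  · refine Finset.sum_congr rfl fun k _ => ?_
    rw [show i + (L + 1 - i + k) = (L + k) + 1 by omega, List.getD_cons_succ, levelsOf,
      List.getD_append_right _ _ _ _ (by simp)]
    simp [τ]

lemma cost_cons_head (p q : ℕ) (l : List ℕ) : cost (p :: l) = cost (q :: l) := by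
  simp only [cost, List.length_cons]
  refine Finset.sum_congr rfl fun j _ => ?_
  rcases j with _ | j
  · simp [coef_zero]
  · simp

/-- The levels of a core item form chains at every level. -/
lemma item_chains :
    ∀ᶠ X : ℕ in atTop, ∀ L ∈ levRange X, ∀ x ∈ coreSet X L,
      (∀ p : ℕ, Normal p → floorLevel (scale X) < u p →
          (∀ q ∈ levelsOf (scale X) x, q < p) →
          Chain (scale X) (scale X) p (levelsOf (scale X) x) (cofOf (scale X) x)) ∧
      (∀ k : Fin L, Chain (scale X) (u (x.1 k)) (x.1 k) ((levelsOf (scale X) x).drop (k.val + 1))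
          (cofOf (scale X) x)) ∧
      (∀ q ∈ levelsOf (scale X) x, u q ≤ (1 - 3 * eta (scale X)) * scale X) := by
  classical
  filter_upwards [eventually_scale params_ev,
    eventually_scale (Real.tendsto_log_atTop.eventually_ge_atTop (1 : ℝ))]
    with X hp hl L hL x hx
  obtain ⟨hη, hη1, hK, hF1, hKT, -, -, -⟩ := hp
  obtain ⟨hxB, hnorm⟩ := Finset.mem_filter.1 hx
  obtain ⟨-, hbody⟩ := Finset.mem_filter.1 hxB
  obtain ⟨hr, -, hreg⟩ := tailOf_spec hbody
  set T := scale X
  set F := floorLevel T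
  set K := tailLevel T
  set ls := levelsOf T x with hls
  set τ := levs F (tailOf T x) with hτ
  have hFK : F ≤ K := pow_le_pow_right₀ hl (by norm_num)
  have ht : ∀ k : Fin L, (1 + 4 * eta T) * K < u (x.1 k) := fun k => by
    have := (hreg.1 k.val k.isLt).1
    rwa [yy_lev T _ k.isLt] at this
  have hgap : ∀ (i : ℕ) (hi : i < L),
      u (x.1 ⟨i, hi⟩) ≤ (1 - 3 * eta T) * yy T (tval x.1) i := fun i hi => by
    have := (hreg.1 i hi).2
    rw [yy_lev T _ hi] at this
    exact this.trans (le_of_eq (by ring))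
  have hKt : ∀ k : Fin L, K ≤ (1 - 3 * eta T) * u (x.1 k) := fun k => by
    have h1 : K * 1 ≤ K * ((1 - 3 * eta T) * (1 + 4 * eta T)) :=
      mul_le_mul_of_nonneg_left (by nlinarith) (by linarith)
    have h2 := mul_le_mul_of_nonneg_left (ht k).le (show 0 ≤ 1 - 3 * eta T by linarith)
    linarith
  have hmem : ∀ q ∈ ls, (∃ k, q = x.1 k) ∨ q ∈ τ := fun q hq => by
    rcases List.mem_append.1 hq with h | h
    · obtain ⟨k, rfl⟩ := List.mem_ofFn.1 h
      exact Or.inl ⟨k, rfl⟩
    · exact Or.inr h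
  have hτK : ∀ q ∈ τ, u q ≤ K := fun q hq =>
    hr.2.2.1.2 q (mem_levs.1 hq).1 (mem_levs.1 hq).2.1
  have hF : ∀ q ∈ ls, Normal q ∧ F < u q := by
    intro q hq
    rcases hmem q hq with ⟨k, rfl⟩ | hq
    · refine ⟨hnorm k, ?_⟩
      have := ht k
      nlinarith
    · exact ⟨hr.2.2.2.1 q hq, (mem_levs.1 hq).2.2.2⟩
  have hlenls : ls.length = L + τ.length := by simp [hls, levelsOf, hτ]; rfl
  have hdesc : ls.Pairwise (fun a b => b < a) := by
    refine List.pairwise_append.2 ⟨?_, levs_pairwise _ _, fun a ha b hb => ?_⟩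
    · rw [List.pairwise_ofFn]
      intro i j hij
      have hstep : ∀ d : ℕ, ∀ (h : i.val + d + 1 < L),
          u (x.1 ⟨i.val + d + 1, h⟩) < u (x.1 i) := by
        intro d
        induction d with
        | zero =>
          intro h
          have h1 := hgap (i.val + 1) h
          rw [yy_lev T _ i.isLt] at h1
          have h2 := ht i
          simp only [tval, Fin.eta] at h1
          change u (x.1 ⟨i.val + 1, h⟩) < _
          have h5 : 0 < eta T * u (x.1 i) := mul_pos hη (by nlinarith)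
          linarith
        | succ d ih =>
          intro h
          have h3 := ih (by omega)
          have h1 := hgap (i.val + d + 1 + 1) h
          rw [yy_lev T _ (show i.val + d + 1 < L by omega)] at h1
          simp only [tval] at h1
          have h2 := ht ⟨i.val + d + 1, by omega⟩
          change u (x.1 ⟨i.val + d + 1 + 1, h⟩) < _
          have h5 : 0 < eta T * u (x.1 ⟨i.val + d + 1, by omega⟩) := mul_pos hη (by nlinarith)
          linarith
      have h := hstep (j.val - i.val - 1) (by omega)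
      have e : (⟨i.val + (j.val - i.val - 1) + 1, by omega⟩ : Fin L) = j :=
        Fin.ext (by simp only; omega)
      rw [e] at h
      exact (u_lt_u_iff_of_prime (hnorm i).1).1 h
    · obtain ⟨k, rfl⟩ := List.mem_ofFn.1 ha
      refine (u_lt_u_iff_of_prime (hnorm k).1).1 ?_
      have := hτK b hb
      have := ht k
      nlinarith
  have hlen : (ls.length : ℝ) + 1 ≤ 24 * log T := by
    have hN := maxLen_le (T := T) hl
    have h1 : (L : ℝ) ≤ maxLen T := by exact_mod_cast Nat.le_of_lt_succ (Finset.mem_range.1 hL)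
    have h2 : (τ.length : ℝ) ≤ maxLen T := by exact_mod_cast hr.2.2.2.2.2.1
    rw [hlenls]; push_cast; linarith
  have hsm : Smooth F (cofOf T x) := smooth_totient (smlPart_smooth hr.1 hr.2.1)
  have hloge : log (cofOf T x) ≤ exp (2 * F) := by
    refine le_trans ?_ hr.2.2.2.2.1
    exact Real.log_le_log (by
        exact_mod_cast Nat.totient_pos.2 (Nat.pos_of_ne_zero (smlPart_ne_zero hr.1)))
      (by exact_mod_cast Nat.totient_le _)
  have hdrop : ∀ (i : ℕ) (hi : i ≤ L), ∀ q ∈ ls.drop i,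
      u q ≤ (1 - 3 * eta T) * yy T (tval x.1) i := by
    intro i hi q hq
    rw [hls, levelsOf, List.drop_append_of_le_length (by simpa using hi)] at hq
    have hyi : K ≤ (1 - 3 * eta T) * yy T (tval x.1) i := by
      rcases i with _ | i
      · rw [yy_top]; nlinarith
      · rw [yy_lev T _ hi]; exact hKt ⟨i, hi⟩
    rcases List.mem_append.1 hq with h | h
    · by_cases hiL : i < L
      · refine (u_mono ?_).trans (hgap i hiL)
        have hd : (List.ofFn x.1).Pairwise (fun a b => b < a) := (List.pairwise_append.1 hdesc).1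
        have := getD_le_of_mem_drop hd (i := i) (by simpa using hiL) q h
        simpa [List.getD_eq_getElem?_getD, hiL] using this
      · rw [List.drop_eq_nil_of_le (by simp; omega)] at h
        simp at h
    · exact (hτK q h).trans hyi
  refine ⟨fun p hp hpF hlt => ⟨List.pairwise_cons.2 ⟨hlt, hdesc⟩, ?_, hlen, hsm, hloge, ?_, ?_⟩,
    fun k => ?_, ?_⟩
  · intro q hq
    rcases List.mem_cons.1 hq with rfl | hq
    exacts [⟨hp, hpF⟩, hF q hq]
  · have h := cost_levels (T := T) x p 0 (Nat.zero_le L)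
    rw [List.drop_zero] at h
    rw [h]
    refine (hreg.2 0 (Nat.zero_le L)).trans (le_of_eq ?_)
    rw [yy_top]; ring
  · intro q hq
    have := hdrop 0 (Nat.zero_le L) q (by simpa using hq)
    rwa [yy_top] at this
  · have hk : k.val < ls.length := by omega
    have hget : ls[k.val] = x.1 k := by
      have h := levelsOf_getD (T := T) x k.isLt
      rw [List.getD_eq_getElem?_getD, List.getElem?_eq_getElem hk, Option.getD_some] at h
      exact h
    have hcons : x.1 k :: ls.drop (k.val + 1) = ls.drop k.val := by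
      rw [List.drop_eq_getElem_cons hk, hget]
    refine ⟨?_, ?_, ?_, hsm, hloge, ?_, ?_⟩
    · rw [hcons]; exact hdesc.sublist (List.drop_sublist _ _)
    · intro q hq
      rw [hcons] at hq
      exact hF q (List.mem_of_mem_drop hq)
    · have : ((ls.drop (k.val + 1)).length : ℝ) ≤ ls.length := by
        exact_mod_cast (List.drop_sublist _ _).length_le
      linarith
    · have h := cost_levels (T := T) x 0 (k.val + 1) k.isLt
      rw [List.drop_succ_cons, ← hls, ← hcons] at h
      rw [h]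
      refine (hreg.2 (k.val + 1) k.isLt).trans (le_of_eq ?_)
      rw [yy_lev T _ k.isLt]
      simp only [tval, Fin.eta]
      ring
    · intro q hq
      have := hdrop (k.val + 1) k.isLt q hq
      rwa [yy_lev T _ k.isLt] at this
  · intro q hq
    have := hdrop 0 (Nat.zero_le L) q (by simpa using hq)
    rwa [yy_top] at this

end Vale.Agent.P031
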