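import Vale.Agent.P031.CollideBound

/-!
P031: the exponent bounding the systems of one shape, and the eventual inequalities between the
parameters of a collision.
-/

open Finset Real Filter
open scoped Topology

namespace Vale.Agent.P031
namespace Col

variable {S D tol : ℝ} {N M L L' : ℕ} {Mt : Finset (ℕ × ℕ)} {Rg : Finset ℕ} {n : ℕ → ℕ}

lemma free_filter_lt {L m : ℕ} (hm : m ≤ L) (hL : L ≤ N) (T : Finset ℕ) :
    (free N L T).filter (fun i => i < m) = (Finset.range m).filter (fun i => i ∉ T) := by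
  ext i
  simp only [free, Finset.mem_filter, Finset.mem_insert, Finset.mem_range]
  constructor
  · rintro ⟨rfl | ⟨-, h2⟩, h⟩
    · omega
    · exact ⟨h, h2⟩
  · rintro ⟨h1, h2⟩
    exact ⟨Or.inr ⟨by omega, h2⟩, h1⟩

/-- For a regular cell with `m` levels above it, of which `c` are matched, the number of entries
and of lines above it. -/
lemma Info.counts (hi : Info S D N M L L' Mt Rg n) {k : ℕ} (hk : k ∈ Rg) (hn : 0 < n k) :
    ∃ c : ℕ, c < n k ∧
      ((rest N L L' Mt).filter (fun x => x.1 < n k ∧ x.2 < n k)).card + 1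
        = c + (n k - c) * (n k - c) ∧
      ((forms L L' Mt).filter (fun f => Sum.elim id id f < n k)).card + c + 2 = 2 * n k := by
  classical
  set m := n k with hm
  obtain ⟨hmL, hmL'⟩ := hi.hn k hk
  set Mk := Mt.filter (fun x => x.1 < m) with hMk
  set T := Mt.image Prod.fst with hT
  set T' := Mt.image Prod.snd with hT'
  have hsub : Mk ⊆ Mt := Finset.filter_subset _ _
  have hA : (Finset.range m).filter (fun i => i ∈ T) = Mk.image Prod.fst := by
    ext i
    simp only [hT, hMk, Finset.mem_filter, Finset.mem_range, Finset.mem_image]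
    constructor
    · rintro ⟨h, x, hx, rfl⟩; exact ⟨x, ⟨hx, h⟩, rfl⟩
    · rintro ⟨x, ⟨hx, h⟩, rfl⟩; exact ⟨h, x, hx, rfl⟩
  have hB : (Finset.range m).filter (fun j => j ∈ T') = Mk.image Prod.snd := by
    ext j
    simp only [hT', hMk, Finset.mem_filter, Finset.mem_range, Finset.mem_image]
    constructor
    · rintro ⟨h, x, hx, rfl⟩; exact ⟨x, ⟨hx, (hi.hiff k hk x hx).2 h⟩, rfl⟩
    · rintro ⟨x, ⟨hx, h⟩, rfl⟩; exact ⟨(hi.hiff k hk x hx).1 h, x, hx, rfl⟩
  have cA : ((Finset.range m).filter (fun i => i ∈ T)).card = Mk.card := by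
    rw [hA, Finset.card_image_of_injOn (hi.inj₁.mono (Finset.coe_subset.2 hsub))]
  have cB : ((Finset.range m).filter (fun j => j ∈ T')).card = Mk.card := by
    rw [hB, Finset.card_image_of_injOn (hi.inj₂.mono (Finset.coe_subset.2 hsub))]
  have sA := Finset.card_filter_add_card_filter_not (s := Finset.range m) (fun i => i ∈ T)
  have sB := Finset.card_filter_add_card_filter_not (s := Finset.range m) (fun j => j ∈ T')
  rw [cA, Finset.card_range] at sA
  rw [cB, Finset.card_range] at sB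
  have h0T : 0 ∉ T := by
    rw [hT, Finset.mem_image]
    rintro ⟨⟨i, j⟩, hx, (rfl : i = 0)⟩
    exact absurd (hi.hMt _ j hx).1.1 (by decide)
  have h0T' : 0 ∉ T' := by
    rw [hT', Finset.mem_image]
    rintro ⟨⟨i, j⟩, hx, (rfl : j = 0)⟩
    exact absurd (hi.hMt i _ hx).2.1 (by decide)
  have hpos : 0 < ((Finset.range m).filter (fun i => i ∉ T)).card :=
    Finset.card_pos.2 ⟨0, Finset.mem_filter.2 ⟨Finset.mem_range.2 hn, h0T⟩⟩
  refine ⟨Mk.card, by omega, ?_, ?_⟩
  · have hent : (ent N L L' Mt).filter (fun x => x.1 < m ∧ x.2 < m) = Mk ∪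
        ((free N L T).filter (fun i => i < m)) ×ˢ ((free N L' T').filter (fun j => j < m)) := by
      ext ⟨i, j⟩
      simp only [ent, ← hT, ← hT', hMk, Finset.mem_filter, Finset.mem_union, Finset.mem_product]
      constructor
      · rintro ⟨h | ⟨h1, h2⟩, hlt1, hlt2⟩
        · exact Or.inl ⟨h, hlt1⟩
        · exact Or.inr ⟨⟨h1, hlt1⟩, h2, hlt2⟩
      · rintro (⟨h, hlt⟩ | ⟨⟨h1, hlt1⟩, h2, hlt2⟩)
        · exact ⟨Or.inl h, hlt, (hi.hiff k hk _ h).1 hlt⟩
        · exact ⟨Or.inr ⟨h1, h2⟩, hlt1, hlt2⟩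
    have hdisj : Disjoint Mk
        (((free N L T).filter (fun i => i < m)) ×ˢ ((free N L' T').filter (fun j => j < m))) := by
      rw [Finset.disjoint_left]
      intro x hx hx'
      rw [Finset.mem_product, free_filter_lt hmL hi.hL.2] at hx'
      exact (Finset.mem_filter.1 hx'.1).2 (Finset.mem_image.2 ⟨x, hsub hx, rfl⟩)
    have h00 : ((0, 0) : ℕ × ℕ) ∈ (ent N L L' Mt).filter (fun x => x.1 < m ∧ x.2 < m) := by
      rw [hent, Finset.mem_union, Finset.mem_product, free_filter_lt hmL hi.hL.2,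
        free_filter_lt hmL' hi.hL'.2]
      exact Or.inr ⟨Finset.mem_filter.2 ⟨Finset.mem_range.2 hn, h0T⟩,
        Finset.mem_filter.2 ⟨Finset.mem_range.2 hn, h0T'⟩⟩
    rw [rest, Finset.filter_erase, Finset.card_erase_of_mem h00]
    have hpos' : 0 < ((ent N L L' Mt).filter (fun x => x.1 < m ∧ x.2 < m)).card :=
      Finset.card_pos.2 ⟨_, h00⟩
    rw [hent, Finset.card_union_of_disjoint hdisj, Finset.card_product,
      free_filter_lt hmL hi.hL.2, free_filter_lt hmL' hi.hL'.2] at hpos' ⊢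
    rw [show ((Finset.range m).filter (fun i => i ∉ T)).card = m - Mk.card by omega,
      show ((Finset.range m).filter (fun j => j ∉ T')).card = m - Mk.card by omega] at hpos' ⊢
    omega
  · have hf : (forms L L' Mt).filter (fun f => Sum.elim id id f < m)
        = (Finset.Icc 1 (m - 1)).disjSum
            ((Finset.Icc 1 (m - 1)).filter (fun j => j ∉ T')) := by
      ext f
      rcases f with i | j
      · simp only [forms, Finset.mem_filter, Finset.inl_mem_disjSum, Finset.mem_Icc,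
          Sum.elim_inl, id]
        omega
      · simp only [forms, ← hT', Finset.mem_filter, Finset.inr_mem_disjSum, Finset.mem_Icc,
          Sum.elim_inr, id]
        constructor
        · rintro ⟨⟨⟨h1, -⟩, h2⟩, h⟩; exact ⟨⟨h1, by omega⟩, h2⟩
        · rintro ⟨⟨h1, h⟩, h2⟩; exact ⟨⟨⟨h1, by omega⟩, h2⟩, by omega⟩
    rw [hf, Finset.card_disjSum, Nat.card_Icc]
    have hIcc : (Finset.Icc 1 (m - 1)).filter (fun j => j ∉ T')
        = ((Finset.range m).filter (fun j => j ∉ T')).erase 0 := by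
      ext j
      simp only [Finset.mem_filter, Finset.mem_erase, Finset.mem_Icc, Finset.mem_range]
      constructor
      · rintro ⟨⟨h1, h2⟩, h3⟩; exact ⟨by omega, by omega, h3⟩
      · rintro ⟨h1, h2, h3⟩; exact ⟨⟨by omega, by omega⟩, h3⟩
    rw [hIcc, Finset.card_erase_of_mem (Finset.mem_filter.2 ⟨Finset.mem_range.2 hn, h0T'⟩)]
    omega

lemma Info.card_rest_le (hi : Info S D N M L L' Mt Rg n) :
    (rest N L L' Mt).card ≤ (N + 1) ^ 2 := by
  classical
  refine (Finset.card_le_card (t := Finset.range (N + 1) ×ˢ Finset.range (N + 1)) ?_).trans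
    (by rw [Finset.card_product, Finset.card_range, sq])
  intro x hx
  obtain ⟨hL, hL'⟩ := And.intro hi.hL.2 hi.hL'.2
  rcases Finset.mem_union.1 (Finset.mem_of_mem_erase hx) with h | h
  · obtain ⟨⟨-, h1⟩, -, h2⟩ := hi.hMt x.1 x.2 h
    exact Finset.mem_product.2 ⟨Finset.mem_range.2 (by omega), Finset.mem_range.2 (by omega)⟩
  · simp only [free, Finset.mem_product, Finset.mem_insert, Finset.mem_filter,
      Finset.mem_range] at h ⊢
    omega

lemma Info.card_forms_le (hi : Info S D N M L L' Mt Rg n) :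
    (forms L L' Mt).card ≤ 2 * N := by
  rw [forms, Finset.card_disjSum]
  have h1 := Finset.card_filter_le (Finset.Icc 1 (L' - 1)) (fun j => j ∉ Mt.image Prod.snd)
  have := hi.hL.2
  have := hi.hL'.2
  rw [Nat.card_Icc] at h1 ⊢
  omega

/-- The exponent of one regular cell. -/
lemma cell_exp_le (hD : 1 ≤ D) (htol : 0 ≤ tol) (hi : Info S D N M L L' Mt Rg n) {k : ℕ}
    (hk : k ∈ Rg) :
    (n k : ℝ) * log (n k) * (D + tol)
      - (if n k = 0 then 0 else 1 - 1 / (n k : ℝ)) * (D - 1)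
      + (D + 1) * ((((rest N L L' Mt).filter (fun x => x.1 < n k ∧ x.2 < n k)).card : ℝ)
          * (1 / (n k : ℝ)))
      - D * (((forms L L' Mt).filter (fun f => Sum.elim id id f < n k)).card : ℝ)
    ≤ D * ((n k : ℝ) * log (n k) - (max 1 (n k : ℝ) - 1))
      + ((N : ℝ) + 1) ^ 2 * (tol + 3) := by
  rcases Nat.eq_zero_or_pos (n k) with h0 | hpos
  · rw [h0]
    simp only [Nat.cast_zero, zero_mul, mul_zero, if_true, Real.log_zero,
      add_zero, Nat.not_lt_zero, false_and, Finset.filter_false, Finset.card_empty,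
      max_eq_left (zero_le_one' ℝ), sub_self, zero_add]
    positivity
  obtain ⟨c, hc, he, hf⟩ := hi.counts hk hpos
  set R := ((rest N L L' Mt).filter (fun x => x.1 < n k ∧ x.2 < n k)).card
  set F := ((forms L L' Mt).filter (fun f => Sum.elim id id f < n k)).card
  set m := n k with hm
  have hmN : (m : ℝ) ≤ N := by exact_mod_cast ((hi.hn k hk).1.trans hi.hL.2)
  have hm1 : (1 : ℝ) ≤ m := by exact_mod_cast hpos
  have hcm : (c : ℝ) + 1 ≤ m := by exact_mod_cast hc
  have heR : (R : ℝ) + 1 = c + ((m : ℝ) - c) * ((m : ℝ) - c) := by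
    have : ((R + 1 : ℕ) : ℝ) = ((c + (m - c) * (m - c) : ℕ) : ℝ) := by rw [he]
    push_cast [Nat.cast_sub hc.le] at this
    exact this
  have hfR : (F : ℝ) + c + 2 = 2 * m := by exact_mod_cast hf
  rw [if_neg (by omega), max_eq_right hm1]
  set w : ℝ := 1 / (m : ℝ) with hw
  have hwm : w * m = 1 := by rw [hw]; field_simp
  have hw0 : 0 ≤ w := by positivity
  have hw1 : w ≤ 1 := by rw [hw, div_le_one (by linarith)]; exact hm1
  have hc0 : (0 : ℝ) ≤ c := Nat.cast_nonneg c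
  have key : (R : ℝ) * w + w ≤ (m : ℝ) - c := by
    have h1 : ((R : ℝ) + 1) ≤ (m : ℝ) * ((m : ℝ) - c) := by
      rw [heR]; nlinarith [mul_nonneg hc0 (sub_nonneg.2 hcm)]
    have := mul_le_mul_of_nonneg_left h1 hw0
    rw [← mul_assoc, hwm, one_mul] at this
    linarith
  have hml : (m : ℝ) * log m ≤ ((N : ℝ) + 1) ^ 2 := by
    have h1 := mul_le_mul_of_nonneg_left (Real.log_le_self (show (0 : ℝ) ≤ m by linarith))
      (show (0 : ℝ) ≤ m by linarith)
    nlinarith
  have a1 := mul_le_mul_of_nonneg_right hml htol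
  have a2 := mul_le_mul_of_nonneg_left key (show (0 : ℝ) ≤ D by linarith)
  have a3 : (m : ℝ) + 1 ≤ 3 * ((N : ℝ) + 1) ^ 2 := by nlinarith
  have eF : (F : ℝ) = 2 * m - c - 2 := by linarith
  rw [eF]
  linarith

/-- The exponent bounding the systems of one shape. -/
theorem exponent_le (hp : Par S D tol N M) (hi : Info S D N M L L' Mt Rg n) (Y : ℕ) :
    rankin D tol Rg n
      + (-(2 * (S - √S - 3 * tol))
          - ∑ k ∈ Rg, (if n k = 0 then 0 else 1 - 1 / (n k : ℝ)) * (D - 1))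
      + (∑ x ∈ rest N L L' Mt, emass Y (zw D M Rg n) x
          - ∑ f ∈ forms L L' Mt, gain D tol Rg n f)
    ≤ -S - S ^ (9 / 10 : ℝ) + 2 * √S + 6 * tol + 6 * N * tol + ((N : ℝ) + 1) ^ 2 * D
      + 6 * N * ((N : ℝ) + 1) ^ 2 * (D + 1) + M * ((N : ℝ) + 1) ^ 2 * (tol + 3) := by
  classical
  have hD0 : 0 < D := lt_of_lt_of_le one_pos hp.one_le
  set E := rest N L L' Mt with hE
  set Fm := forms L L' Mt with hFm
  have hEcard : (E.card : ℝ) ≤ ((N : ℝ) + 1) ^ 2 := by
    have := hi.card_rest_le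
    exact_mod_cast this
  have hFcard : (Fm.card : ℝ) ≤ 2 * N := by
    have := hi.card_forms_le
    exact_mod_cast this
  have hirr : (((Finset.range M) \ Rg).card : ℝ) ≤ 6 * N := by
    have := hi.hirr
    exact_mod_cast this
  have hRcard : (Rg.card : ℝ) ≤ M := by
    have := Finset.card_le_card hi.hRg
    rw [Finset.card_range] at this
    exact_mod_cast this
  have hem : ∑ x ∈ E, emass Y (zw D M Rg n) x ≤ (E.card : ℝ) * D
      + (D + 1) * (∑ k ∈ Rg, ((E.filter (fun x => x.1 < n k ∧ x.2 < n k)).card : ℝ)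
          * (1 / (n k : ℝ))
        + (E.card : ℝ) * ((Finset.range M \ Rg).card : ℝ)) := by
    refine (Finset.sum_le_sum fun x _ => emass_le hD0 Y x).trans (le_of_eq ?_)
    rw [Finset.sum_add_distrib, Finset.sum_const, nsmul_eq_mul, ← Finset.mul_sum]
    congr 2
    rw [Finset.sum_comm, ← Finset.sum_sdiff hi.hRg, add_comm]
    congr 1
    · refine Finset.sum_congr rfl fun k hk => ?_
      simp only [cellW, if_pos hk]
      rw [← Finset.sum_filter, Finset.sum_const, nsmul_eq_mul]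
    · rw [Finset.sum_congr rfl fun k hk => Finset.sum_congr rfl fun x _ =>
        show cellW Rg n x k = 1 by rw [cellW, if_neg (Finset.mem_sdiff.1 hk).2]]
      simp [mul_comm]
  have hgain : ∑ f ∈ Fm, gain D tol Rg n f
      = D * ∑ k ∈ Rg, ((Fm.filter (fun f => Sum.elim id id f < n k)).card : ℝ)
        - (Fm.card : ℝ) * (3 * tol) := by
    simp only [gain]
    rw [Finset.sum_sub_distrib, ← Finset.mul_sum, Finset.sum_const, nsmul_eq_mul]
    congr 2
    simp only [Finset.card_filter, Nat.cast_sum]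
    exact Finset.sum_comm
  have hsum := Finset.sum_le_sum fun k hk => cell_exp_le hp.one_le hp.tol_nonneg hi (k := k) hk
  simp only [Finset.sum_add_distrib, Finset.sum_sub_distrib, Finset.sum_const, nsmul_eq_mul,
    ← Finset.mul_sum, ← hE, ← hFm] at hsum
  have hcost := hi.hcost
  rw [← Finset.mul_sum] at hcost
  simp only [Finset.sum_sub_distrib, Finset.sum_const, nsmul_eq_mul] at hcost
  have b1 := mul_le_mul_of_nonneg_right hEcard hD0.le
  have b2 := mul_le_mul_of_nonneg_right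
    (mul_le_mul hEcard hirr (Nat.cast_nonneg _) (by positivity))
    (show 0 ≤ D + 1 by linarith)
  have b3 := mul_le_mul_of_nonneg_right hFcard (show 0 ≤ 3 * tol by linarith [hp.tol_nonneg])
  have b4 := mul_le_mul_of_nonneg_right hRcard
    (show 0 ≤ ((N : ℝ) + 1) ^ 2 * (tol + 3) by have := hp.tol_nonneg; positivity)
  rw [hgain, rankin]
  linarith

/-- The parameters satisfy all inequalities at large scales. -/
theorem eventually_par {C : ℝ} (hC : 0 < C) (k : ℕ) :
    ∀ᶠ S : ℝ in atTop,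
      Par S (S ^ (3 / 4 : ℝ)) ((2 * S) ^ (3 / 5 : ℝ)) (Anat2.NN S) (Anat2.MM S) ∧
      2 * √S + 6 * (2 * S) ^ (3 / 5 : ℝ) + 6 * (Anat2.NN S : ℝ) * (2 * S) ^ (3 / 5 : ℝ)
          + ((Anat2.NN S : ℝ) + 1) ^ 2 * S ^ (3 / 4 : ℝ)
          + 6 * (Anat2.NN S : ℝ) * ((Anat2.NN S : ℝ) + 1) ^ 2 * (S ^ (3 / 4 : ℝ) + 1)
          + (Anat2.MM S : ℝ) * ((Anat2.NN S : ℝ) + 1) ^ 2 * ((2 * S) ^ (3 / 5 : ℝ) + 3)
          + (((Anat2.NN S : ℝ) + 1) ^ 2 + 1) * S ^ (1 / 10 : ℝ)
          + (2 * (Anat2.NN S : ℝ) + (Anat2.NN S : ℝ) ^ 2 + (Anat2.MM S : ℝ)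
              + (Anat2.MM S : ℝ) * (Anat2.NN S : ℝ) + 2)
          + S ^ (4 / 5 : ℝ) ≤ S ^ (9 / 10 : ℝ) ∧
      C * (3 * S + 2) ^ k * ((Anat2.NN S : ℝ) + 1) ^ 2 ≤ exp (S ^ (1 / 10 : ℝ)) := by
  obtain ⟨t₀, ht₀⟩ := normal_big
  have hpow : ∀ a : ℝ, 0 < a → Tendsto (fun S : ℝ => S ^ a) atTop atTop := fun a ha =>
    tendsto_rpow_atTop ha
  have hexp : ∀ᶠ S : ℝ in atTop,
      C * 5 ^ (k + 2) ≤ exp (S ^ (1 / 10 : ℝ)) / (S ^ (1 / 10 : ℝ)) ^ (10 * (k + 2)) :=
    (hpow _ (by norm_num)).eventually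
      ((Real.tendsto_exp_div_pow_atTop (10 * (k + 2))).eventually_ge_atTop _)
  filter_upwards [(hpow (1 / 100) (by norm_num)).eventually_ge_atTop 500,
    (hpow (3 / 4) (by norm_num)).eventually_ge_atTop t₀, eventually_ge_atTop 1, hexp]
    with S hS hDt h1 hE
  have h0 : 0 < S := by linarith
  have hm : ∀ a b : ℝ, a ≤ b → S ^ a ≤ S ^ b := fun a b hab =>
    Real.rpow_le_rpow_of_exponent_le h1 hab
  have hp : ∀ a : ℝ, 0 ≤ S ^ a := fun a => Real.rpow_nonneg h0.le a
  have hmul : ∀ a b : ℝ, S ^ a * S ^ b = S ^ (a + b) := fun a b => (Real.rpow_add h0 a b).symm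
  have hone : ∀ a : ℝ, 0 ≤ a → 1 ≤ S ^ a := fun a ha => Real.one_le_rpow h1 ha
  have hgap : ∀ a b : ℝ, a + 1 / 100 ≤ b → 500 * S ^ a ≤ S ^ b := fun a b hab =>
    (mul_le_mul_of_nonneg_right hS (hp a)).trans (by rw [hmul]; exact hm _ _ (by linarith))
  set N : ℝ := (Anat2.NN S : ℝ) with hNdef
  set M : ℝ := (Anat2.MM S : ℝ) with hMdef
  set D := S ^ (3 / 4 : ℝ) with hD
  set tol := (2 * S) ^ (3 / 5 : ℝ) with htoldef
  have hN0 : 0 ≤ N := Nat.cast_nonneg _
  have hM0 : 0 ≤ M := Nat.cast_nonneg _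
  have hD1 : 1 ≤ D := hone _ (by norm_num)
  have hN : N ≤ S ^ (1 / 50 : ℝ) := Nat.floor_le (hp _)
  have hN1 : N + 1 ≤ 2 * S ^ (1 / 50 : ℝ) := by linarith [hone (1 / 50) (by norm_num)]
  have hN2 : (N + 1) ^ 2 ≤ 4 * S ^ (1 / 25 : ℝ) := by
    calc (N + 1) ^ 2 ≤ (2 * S ^ (1 / 50 : ℝ)) ^ 2 := pow_le_pow_left₀ (by linarith) hN1 2
      _ = 4 * S ^ (1 / 25 : ℝ) := by
          rw [mul_pow, sq (S ^ (1 / 50 : ℝ)), hmul]; norm_num
  have hM : M ≤ 4 * S ^ (1 / 4 : ℝ) := by
    have := Nat.ceil_lt_add_one (show 0 ≤ 3 * S / D by positivity)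
    rw [hMdef, Anat2.MM, ← hD]
    have e : 3 * S / D = 3 * S ^ (1 / 4 : ℝ) := by
      rw [hD, div_eq_iff (by positivity), mul_assoc, hmul]
      norm_num
    have := hone (1 / 4) (by norm_num)
    linarith
  have ht0 : 0 ≤ tol := Real.rpow_nonneg (by linarith) _
  have htol : tol ≤ 2 * S ^ (3 / 5 : ℝ) := by
    rw [htoldef, Real.mul_rpow two_pos.le h0.le]
    refine mul_le_mul_of_nonneg_right ?_ (hp _)
    calc (2 : ℝ) ^ (3 / 5 : ℝ) ≤ 2 ^ (1 : ℝ) :=
          Real.rpow_le_rpow_of_exponent_le one_le_two (by norm_num)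
      _ = 2 := Real.rpow_one 2
  have hsq : √S ≤ S ^ (3 / 5 : ℝ) := by
    rw [Real.sqrt_eq_rpow]; exact hm _ _ (by norm_num)
  have hND : N * tol ≤ 2 * S ^ (31 / 50 : ℝ) := by
    calc N * tol ≤ S ^ (1 / 50 : ℝ) * (2 * S ^ (3 / 5 : ℝ)) := mul_le_mul hN htol ht0 (hp _)
      _ = 2 * S ^ (31 / 50 : ℝ) := by rw [mul_left_comm, hmul]; norm_num
  have hpar : Par S D tol (Anat2.NN S) (Anat2.MM S) := by
    refine ⟨h1, hD1, ht0, ?_, ?_, le_rfl, ?_, ?_, ?_, ?_, rfl, fun m hm' => Nat.le_floor hm',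
      fun q hq hu => ht₀ q hq (hDt.trans hu.le)⟩
    · have := hgap (31 / 50) (3 / 4) (by norm_num)
      have := hone (31 / 50) (by norm_num)
      rw [← hNdef]; linarith
    · have h2 : √(2 * S) ≤ 2 * √S := by
        rw [Real.sqrt_mul two_pos.le]
        exact mul_le_mul_of_nonneg_right (Real.sqrt_le_iff.2 ⟨two_pos.le, by norm_num⟩)
          (Real.sqrt_nonneg _)
      have := hgap (3 / 5) (3 / 4) (by norm_num)
      have := hp (3 / 5)
      linarith
    · have : 3 * S / D ≤ M := Nat.le_ceil _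
      rw [div_le_iff₀ (by linarith)] at this
      exact this
    · have := hgap (3 / 5) (3 / 4) (by norm_num)
      have := hp (3 / 5)
      linarith
    · rw [← hNdef]
      have h2 : N * D ≤ S ^ (77 / 100 : ℝ) := by
        refine (mul_le_mul_of_nonneg_right hN (hp _)).trans (le_of_eq ?_)
        rw [hmul]; norm_num
      have h3 : D ≤ S ^ (77 / 100 : ℝ) := hm _ _ (by norm_num)
      have := hgap (77 / 100) (9 / 10) (by norm_num)
      have := hp (77 / 100)
      linarith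
    · have := hgap (9 / 10) 1 (by norm_num)
      rw [Real.rpow_one] at this
      have : D ≤ S ^ (9 / 10 : ℝ) := hm _ _ (by norm_num)
      have := hp (9 / 10)
      linarith
  refine ⟨hpar, ?_, ?_⟩
  · have hB : ∀ a : ℝ, a ≤ 89 / 100 → S ^ a ≤ S ^ (89 / 100 : ℝ) := fun a ha => hm a _ ha
    have t1 : 2 * √S + 6 * tol + 6 * N * tol ≤ 40 * S ^ (89 / 100 : ℝ) := by
      have := hB (3 / 5) (by norm_num)
      have := hB (31 / 50) (by norm_num)
      have := hp (89 / 100)
      nlinarith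
    have t2 : (N + 1) ^ 2 * D ≤ 4 * S ^ (89 / 100 : ℝ) := by
      calc (N + 1) ^ 2 * D ≤ 4 * S ^ (1 / 25 : ℝ) * D :=
            mul_le_mul_of_nonneg_right hN2 (hp _)
        _ = 4 * S ^ (79 / 100 : ℝ) := by rw [hD, mul_assoc, hmul]; norm_num
        _ ≤ _ := by have := hB (79 / 100) (by norm_num); linarith
    have t3 : 6 * N * (N + 1) ^ 2 * (D + 1) ≤ 48 * S ^ (89 / 100 : ℝ) := by
      calc 6 * N * (N + 1) ^ 2 * (D + 1)
          ≤ 6 * S ^ (1 / 50 : ℝ) * (4 * S ^ (1 / 25 : ℝ)) * (2 * D) :=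
            mul_le_mul (mul_le_mul (by linarith) hN2 (by positivity) (by positivity)) (by linarith)
              (by positivity) (by positivity)
        _ = 48 * (S ^ (1 / 50 : ℝ) * S ^ (1 / 25 : ℝ) * S ^ (3 / 4 : ℝ)) := by rw [hD]; ring
        _ = 48 * S ^ (81 / 100 : ℝ) := by rw [hmul, hmul]; norm_num
        _ ≤ _ := by have := hB (81 / 100) (by norm_num); linarith
    have t4 : M * (N + 1) ^ 2 * (tol + 3) ≤ 80 * S ^ (89 / 100 : ℝ) := by
      calc M * (N + 1) ^ 2 * (tol + 3)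
          ≤ 4 * S ^ (1 / 4 : ℝ) * (4 * S ^ (1 / 25 : ℝ)) * (5 * S ^ (3 / 5 : ℝ)) :=
            mul_le_mul (mul_le_mul hM hN2 (by positivity) (by positivity))
              (by linarith [hone (3 / 5) (by norm_num)]) (by positivity) (by positivity)
        _ = 80 * (S ^ (1 / 4 : ℝ) * S ^ (1 / 25 : ℝ) * S ^ (3 / 5 : ℝ)) := by ring
        _ = 80 * S ^ (89 / 100 : ℝ) := by rw [hmul, hmul]; norm_num
    have t5 : ((N + 1) ^ 2 + 1) * S ^ (1 / 10 : ℝ) ≤ 5 * S ^ (89 / 100 : ℝ) := by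
      calc ((N + 1) ^ 2 + 1) * S ^ (1 / 10 : ℝ)
          ≤ 5 * S ^ (1 / 25 : ℝ) * S ^ (1 / 10 : ℝ) :=
            mul_le_mul_of_nonneg_right (by linarith [hone (1 / 25) (by norm_num)]) (hp _)
        _ = 5 * S ^ (7 / 50 : ℝ) := by rw [mul_assoc, hmul]; norm_num
        _ ≤ _ := by have := hB (7 / 50) (by norm_num); linarith
    have t6 : 2 * N + N ^ 2 + M + M * N + 2 ≤ 20 * S ^ (89 / 100 : ℝ) := by
      have h2 : M * N ≤ 4 * S ^ (27 / 100 : ℝ) := by
        refine (mul_le_mul hM hN hN0 (by positivity)).trans (le_of_eq ?_)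
        rw [mul_assoc, hmul]; norm_num
      have := hB (1 / 25) (by norm_num)
      have := hB (1 / 4) (by norm_num)
      have := hB (27 / 100) (by norm_num)
      have := hB (1 / 50) (by norm_num)
      have := hone (89 / 100) (by norm_num)
      have : N ^ 2 ≤ (N + 1) ^ 2 := pow_le_pow_left₀ hN0 (by linarith) 2
      linarith
    have t7 : S ^ (4 / 5 : ℝ) ≤ S ^ (89 / 100 : ℝ) := hB _ (by norm_num)
    have := hgap (89 / 100) (9 / 10) (by norm_num)
    have := hp (89 / 100)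
    linarith
  · have hNS : N + 1 ≤ 3 * S + 2 := by
      have : S ^ (1 / 50 : ℝ) ≤ S := Real.rpow_le_self_of_one_le h1 (by norm_num)
      linarith
    calc C * (3 * S + 2) ^ k * (N + 1) ^ 2
        ≤ C * (3 * S + 2) ^ k * (3 * S + 2) ^ 2 :=
          mul_le_mul_of_nonneg_left (pow_le_pow_left₀ (by linarith) hNS 2) (by positivity)
      _ = C * (3 * S + 2) ^ (k + 2) := by ring
      _ ≤ C * (5 * S) ^ (k + 2) :=
          mul_le_mul_of_nonneg_left (pow_le_pow_left₀ (by linarith) (by linarith) _) hC.le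
      _ = C * 5 ^ (k + 2) * (S ^ (1 / 10 : ℝ)) ^ (10 * (k + 2)) := by
          rw [mul_pow, pow_mul, show (S ^ (1 / 10 : ℝ)) ^ 10 = S by
            rw [← Real.rpow_natCast, ← Real.rpow_mul h0.le]; norm_num]
          ring
      _ ≤ _ := by
          rw [le_div_iff₀ (by positivity)] at hE
          exact hE

end Col
end Vale.Agent.P031
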