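import Vale.Agent.P031.CollideCount
import Vale.Agent.P031.CollideExp

/-!
P031: few values have two representations with different largest primes.
-/

open Finset Real Filter

namespace Vale.Agent.P031

open Col in
theorem collide (hs : SieveStatement) (hl : SieveLogStatement) : CollideStatement := by
  obtain ⟨C, k, hC, hs⟩ := hs
  obtain ⟨C₂, k₂, hC₂, hl⟩ := hl
  obtain ⟨S₀, hS₀⟩ := Filter.eventually_atTop.1
    ((eventually_par hC k).and (eventually_par hC₂ k₂))
  refine ⟨S₀, fun S hS Y hY P hP => ?_⟩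
  obtain ⟨⟨hp, hfin, hE⟩, -, -, hE₂⟩ := hS₀ S hS
  have hS1 := hp.one_le_S
  set N := Anat2.NN S
  have hB1 : C * (3 * S + 1) ^ k ≤ exp (S ^ (1 / 10 : ℝ)) :=
    le_trans (le_trans (by gcongr; norm_num)
      (le_mul_of_one_le_right (by positivity) (one_le_pow₀ (by simp)))) hE
  have hB2 : C₂ * (3 * S + 1) ^ k₂ * ((N : ℝ) + 1) ^ 2 ≤ exp (S ^ (1 / 10 : ℝ)) :=
    le_trans (by gcongr; norm_num) hE₂
  have hB0 : 1 ≤ exp (S ^ (1 / 10 : ℝ)) :=
    Real.one_le_exp (Real.rpow_nonneg (zero_le_one.trans hp.one_le_S) _)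
  have hyp : ∀ x ∈ P, Hyp S Y x.1.1 x.1.2 x.2.1 x.2.2 := by
    intro x hx
    obtain ⟨q, qs, r, q', qs', r', rfl, h1, h2, hlt, hnear, hcost, hlow, hval, hbd⟩ := hP x hx
    refine ⟨h1, h2, by simp, by simp, by simpa using hlt, by simpa [lev] using hnear, hcost,
      ?_, hval, hbd⟩
    intro i hi hil
    obtain ⟨j, rfl⟩ := Nat.exists_eq_succ_of_ne_zero (show i ≠ 0 by omega)
    simp only [List.length_cons, Nat.succ_lt_succ_iff] at hil
    simp only [lev, List.getD_cons_succ, List.getD_eq_getElem _ _ hil]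
    exact hlow _ (List.getElem_mem hil)
  refine (collide_at hC hs hC₂ hl hp hB0 hB1 hB2
    (fun L L' Mt Rg n hi => exponent_le hp hi Y) hY P hyp).trans ?_
  rw [← Real.exp_nat_mul, mul_assoc, ← exp_add, mul_left_comm, ← exp_add]
  refine mul_le_mul_of_nonneg_left (exp_le_exp.2 ?_) (Nat.cast_nonneg _)
  push_cast
  linarith

end Vale.Agent.P031
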