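import Vale.Agent.P031.Weights

/-!
P031: sums over systems of integer entries subject to prime linear forms, peeled one entry at a
time with the logarithmic sieve.
-/

open Finset Real

namespace Vale.Agent.P031
namespace Col

variable {ι κ : Type} [DecidableEq ι]

/-- The weight of an entry. -/
noncomputable def ew (z : ι → ℕ → ℝ) (x : ι) (n : ℕ) : ℝ := ∏ p ∈ n.primeFactors, z x p

/-- The exponent carried by an entry. -/
noncomputable def emass (Y : ℕ) (z : ι → ℕ → ℝ) (x : ι) : ℝ :=
  ∑ p ∈ primesTo Y, z x p / ((p : ℝ) - 1)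

/-- Conditions on a system of entries. -/
def Sys (Y : ℕ) (line : κ → Finset ι) (g : κ → ℝ) (E : Finset ι) (F : Finset κ)
    (e : ι → ℕ) : Prop :=
  (∀ x, 1 ≤ e x) ∧ (∀ x ∉ E, e x = 1) ∧ ∏ x ∈ E, e x ≤ Y ∧
    (∀ f ∈ F, (∏ x ∈ line f, e x + 1).Prime ∧ ∃ x ∈ line f, g f ≤ u (e x)) ∧
    Set.InjOn (fun f => ∏ x ∈ line f, e x) F

lemma ew_nonneg {z : ι → ℕ → ℝ} (hz : ∀ x p, 0 ≤ z x p ∧ z x p ≤ 1) (x : ι) (n : ℕ) :
    0 ≤ ew z x n :=
  Finset.prod_nonneg fun p _ => (hz x p).1

lemma prod_update_erase (S : Finset ι) (e : ι → ℕ) (x : ι) :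
    ∏ y ∈ S.erase x, Function.update e x 1 y = ∏ y ∈ S.erase x, e y :=
  Finset.prod_congr rfl fun y hy => Function.update_of_ne (Finset.ne_of_mem_erase hy) 1 e

lemma system_le {C : ℝ} {k : ℕ} (hC : 0 < C)
    (hlog : ∀ R Y M : ℕ, 1 ≤ R → Y ≤ M → ∀ A : Finset ℕ, A.card ≤ 2 →
      (∀ a ∈ A, 1 ≤ a ∧ a ≤ M) → ∀ z : ℕ → ℝ, (∀ p, 0 ≤ z p ∧ z p ≤ 1) →
      ∑ n ∈ (Finset.Icc R Y).filter (fun n => ∀ a ∈ A, (a * n + 1).Prime),
          (∏ p ∈ n.primeFactors, z p) / (n : ℝ)
        ≤ C * (u M + 1) ^ k * Real.exp (-((A.card : ℝ) * u R)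
            + ∑ p ∈ (Finset.range (Y + 1)).filter Nat.Prime, z p / ((p : ℝ) - 1)))
    (Y : ℕ) (line : κ → Finset ι) (g : κ → ℝ) (z : ι → ℕ → ℝ)
    (hz : ∀ x p, 0 ≤ z x p ∧ z x p ≤ 1) (W : ℕ) :
    ∀ (E : Finset ι), E.card ≤ W → ∀ (F : Finset κ), (∀ f ∈ F, line f ⊆ E) →
      (∀ x, (F.filter (fun f => x ∈ line f)).card ≤ 2) →
      ∀ s : Finset (ι → ℕ), (∀ e ∈ s, Sys Y line g E F e) →
      ∑ e ∈ s, ∏ x ∈ E, ew z x (e x) / (e x : ℝ)
        ≤ (C * (u Y + 1) ^ k * W) ^ E.card
          * exp (∑ x ∈ E, emass Y z x - ∑ f ∈ F, g f) := by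
  classical
  set Q := C * (u Y + 1) ^ k with hQ
  have hQ0 : 0 ≤ Q := by
    have := u_nonneg Y
    positivity
  have hwn : ∀ (x : ι) (n : ℕ), 0 ≤ ew z x n / (n : ℝ) := fun x n =>
    div_nonneg (ew_nonneg hz x n) (Nat.cast_nonneg n)
  intro E
  induction E using Finset.strongInduction with
  | _ E ih =>
    intro hW F hsub hdeg s hs
    set T := ∑ x ∈ E, emass Y z x - ∑ f ∈ F, g f with hT
    rcases s.eq_empty_or_nonempty with rfl | hne
    · rw [Finset.sum_empty]; positivity
    -- removing one entry
    have step : ∀ x ∈ E, ∀ γ : ℝ, (∀ f ∈ F, x ∈ line f → g f ≤ γ) →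
        ∀ s' ⊆ s, (∀ e ∈ s', γ ≤ u (e x)) →
        ∑ e ∈ s', ∏ y ∈ E, ew z y (e y) / (e y : ℝ)
          ≤ Q * (Q * W) ^ (E.card - 1) * exp T := by
      intro x hx γ hγ s' hs' hlow
      set Fx := F.filter (fun f => x ∈ line f) with hFx
      set pr : (ι → ℕ) → ι → ℕ := fun e => Function.update e x 1 with hpr
      have hprodE : ∀ e : ι → ℕ, ∏ y ∈ E, ew z y (e y) / (e y : ℝ)
          = ew z x (e x) / (e x : ℝ) * ∏ y ∈ E.erase x, ew z y (pr e y) / (pr e y : ℝ) := by
        intro e
        rw [← Finset.mul_prod_erase E _ hx]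
        congr 1
        refine Finset.prod_congr rfl fun y hy => ?_
        simp only [hpr, Function.update_of_ne (Finset.ne_of_mem_erase hy)]
      have hinner : ∀ e' ∈ s'.image pr, ∑ e ∈ s' with pr e = e', ew z x (e x) / (e x : ℝ)
          ≤ Q * exp (emass Y z x - ∑ f ∈ Fx, g f) := by
        intro e' he'
        obtain ⟨e0, he0, rfl⟩ := Finset.mem_image.1 he'
        obtain ⟨h01, h02, h03, h04, h05⟩ := hs e0 (hs' he0)
        set a : κ → ℕ := fun f => ∏ y ∈ (line f).erase x, e0 y with ha
        set A := Fx.image a with hA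
        have hsplit : ∀ e ∈ s', pr e = pr e0 → ∀ f ∈ Fx, ∏ y ∈ line f, e y = a f * e x := by
          intro e _ heq f hf
          rw [← Finset.mul_prod_erase _ _ (Finset.mem_filter.1 hf).2, mul_comm]
          congr 1
          simp only [ha]
          rw [← prod_update_erase, show Function.update e x 1 = pr e0 from heq]
          exact prod_update_erase _ e0 x
        have hcard : A.card = Fx.card := by
          refine Finset.card_image_of_injOn fun f hf f' hf' hff => ?_
          rw [Finset.mem_coe] at hf hf'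
          refine h05 (Finset.mem_filter.1 hf).1 (Finset.mem_filter.1 hf').1 ?_
          simp only
          rw [hsplit e0 he0 rfl f hf, hsplit e0 he0 rfl f' hf', hff]
        have hA2 : A.card ≤ 2 := hcard ▸ hdeg x
        have hAM : ∀ m ∈ A, 1 ≤ m ∧ m ≤ Y := by
          intro m hm
          obtain ⟨f, hf, rfl⟩ := Finset.mem_image.1 hm
          refine ⟨Finset.one_le_prod fun y _ => h01 y, le_trans ?_ h03⟩
          exact Finset.prod_le_prod_of_subset_of_one_le
            ((Finset.erase_subset _ _).trans (hsub f (Finset.mem_filter.1 hf).1))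
            (fun y _ => Nat.zero_le _) (fun y _ _ => h01 y)
        have hex : ∃ n : ℕ, 1 ≤ n ∧ γ ≤ u n := ⟨e0 x, h01 x, hlow e0 he0⟩
        set R := Nat.find hex with hR
        obtain ⟨hR1, hRγ⟩ := Nat.find_spec hex
        rw [← hR] at hR1 hRγ
        have h := hlog R Y Y hR1 le_rfl A hA2 hAM (z x) (hz x)
        refine le_trans ?_ (h.trans (mul_le_mul_of_nonneg_left (exp_le_exp.2 ?_) hQ0))
        · have himg : (s'.filter (fun e => pr e = pr e0)).image (fun e => e x)
              ⊆ (Finset.Icc R Y).filter (fun n => ∀ m ∈ A, (m * n + 1).Prime) := by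
            intro n hn
            obtain ⟨e, he, rfl⟩ := Finset.mem_image.1 hn
            obtain ⟨hes, heq⟩ := Finset.mem_filter.1 he
            obtain ⟨he1, he2, he3, he4, -⟩ := hs e (hs' hes)
            refine Finset.mem_filter.2 ⟨Finset.mem_Icc.2
              ⟨Nat.find_le ⟨he1 x, hlow e hes⟩, le_trans ?_ he3⟩, ?_⟩
            · exact Nat.le_of_dvd (Finset.prod_pos fun y _ => he1 y) (Finset.dvd_prod_of_mem _ hx)
            · intro m hm
              obtain ⟨f, hf, rfl⟩ := Finset.mem_image.1 hm
              rw [← hsplit e hes heq f hf]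
              exact (he4 f (Finset.mem_filter.1 hf).1).1
          refine le_trans (le_of_eq ?_) (Finset.sum_le_sum_of_subset_of_nonneg himg
            fun n _ _ => hwn x n)
          rw [Finset.sum_image]
          · rfl
          intro e he e' he' hee
          obtain ⟨-, heq⟩ := Finset.mem_filter.1 he
          obtain ⟨-, heq'⟩ := Finset.mem_filter.1 he'
          funext y
          by_cases hy : y = x
          · subst hy; exact hee
          · have := congr_fun (heq.trans heq'.symm) y
            simpa only [hpr, Function.update_of_ne hy] using this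
        · have h1 : ∑ f ∈ Fx, g f ≤ (A.card : ℝ) * u R := by
            rw [hcard]
            calc ∑ f ∈ Fx, g f ≤ ∑ f ∈ Fx, u R := Finset.sum_le_sum fun f hf =>
                  (hγ f (Finset.mem_filter.1 hf).1 (Finset.mem_filter.1 hf).2).trans hRγ
              _ = _ := by rw [Finset.sum_const, nsmul_eq_mul]
          have e : ∑ p ∈ (Finset.range (Y + 1)).filter Nat.Prime, z x p / ((p : ℝ) - 1)
              = emass Y z x := rfl
          rw [e]
          linarith
      set F' := F.filter (fun f => x ∉ line f) with hF'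
      have hrest : ∀ e' ∈ s'.image pr, Sys Y line g (E.erase x) F' e' := by
        intro e' he'
        obtain ⟨e, he, rfl⟩ := Finset.mem_image.1 he'
        obtain ⟨h1, h2, h3, h4, h5⟩ := hs e (hs' he)
        have heq : ∀ f ∈ F', ∀ y ∈ line f, pr e y = e y := fun f hf y hy =>
          Function.update_of_ne (fun h : y = x => (Finset.mem_filter.1 hf).2 (h ▸ hy)) 1 e
        refine ⟨fun y => ?_, fun y hy => ?_, ?_, fun f hf => ?_, ?_⟩
        · by_cases hy : y = x
          · subst hy; simp [hpr]
          · simp only [hpr, Function.update_of_ne hy]; exact h1 y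
        · by_cases hyx : y = x
          · subst hyx; simp [hpr]
          · simp only [hpr, Function.update_of_ne hyx]
            exact h2 y fun h => hy (Finset.mem_erase.2 ⟨hyx, h⟩)
        · simp only [hpr]
          rw [prod_update_erase]
          exact le_trans (Finset.prod_le_prod_of_subset_of_one_le (Finset.erase_subset _ _)
            (fun y _ => Nat.zero_le _) (fun y _ _ => h1 y)) h3
        · obtain ⟨hp, y, hy, hgy⟩ := h4 f (Finset.mem_filter.1 hf).1
          rw [Finset.prod_congr rfl (heq f hf)]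
          exact ⟨hp, y, hy, by rw [heq f hf y hy]; exact hgy⟩
        · intro f hf f' hf' hff
          refine h5 (Finset.mem_filter.1 hf).1 (Finset.mem_filter.1 hf').1 ?_
          simp only at hff ⊢
          rwa [Finset.prod_congr rfl (heq f hf), Finset.prod_congr rfl (heq f' hf')] at hff
      have hih := ih (E.erase x) (Finset.erase_ssubset hx)
        ((Finset.card_erase_of_mem hx).le.trans (le_trans (Nat.sub_le _ _) hW)) F'
        (fun f hf y hy => Finset.mem_erase.2
          ⟨fun h => (Finset.mem_filter.1 hf).2 (h ▸ hy), hsub f (Finset.mem_filter.1 hf).1 hy⟩)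
        (fun y => (Finset.card_le_card (Finset.filter_subset_filter _
          (Finset.filter_subset _ _))).trans (hdeg y))
        (s'.image pr) hrest
      rw [Finset.card_erase_of_mem hx] at hih
      calc ∑ e ∈ s', ∏ y ∈ E, ew z y (e y) / (e y : ℝ)
          = ∑ e' ∈ s'.image pr, (∑ e ∈ s' with pr e = e', ew z x (e x) / (e x : ℝ))
              * ∏ y ∈ E.erase x, ew z y (e' y) / (e' y : ℝ) := by
            rw [← Finset.sum_fiberwise_of_maps_to (g := pr)
              (fun e he => Finset.mem_image_of_mem pr he)]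
            refine Finset.sum_congr rfl fun e' _ => ?_
            rw [Finset.sum_mul]
            refine Finset.sum_congr rfl fun e he => ?_
            rw [hprodE, (Finset.mem_filter.1 he).2]
        _ ≤ ∑ e' ∈ s'.image pr, Q * exp (emass Y z x - ∑ f ∈ Fx, g f)
              * ∏ y ∈ E.erase x, ew z y (e' y) / (e' y : ℝ) :=
            Finset.sum_le_sum fun e' he' => mul_le_mul_of_nonneg_right (hinner e' he')
              (Finset.prod_nonneg fun y _ => hwn y _)
        _ ≤ Q * exp (emass Y z x - ∑ f ∈ Fx, g f) * ((Q * W) ^ (E.card - 1)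
              * exp (∑ y ∈ E.erase x, emass Y z y - ∑ f ∈ F', g f)) := by
            rw [← Finset.mul_sum]
            exact mul_le_mul_of_nonneg_left hih (by positivity)
        _ = Q * (Q * W) ^ (E.card - 1) * exp T := by
            have e1 : T = (emass Y z x - ∑ f ∈ Fx, g f)
                + (∑ y ∈ E.erase x, emass Y z y - ∑ f ∈ F', g f) := by
              rw [hT, ← Finset.add_sum_erase E _ hx,
                ← Finset.sum_filter_add_sum_filter_not F (fun f => x ∈ line f)]
              ring
            rw [e1, exp_add (emass Y z x - _)]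
            ring
    obtain ⟨e0, he0⟩ := hne
    rcases E.eq_empty_or_nonempty with rfl | hEne
    · have hFe : F = ∅ := by
        refine Finset.eq_empty_of_forall_notMem fun f hf => ?_
        obtain ⟨-, y, hy, -⟩ := (hs e0 he0).2.2.2.1 f hf
        exact absurd (hsub f hf hy) (Finset.notMem_empty y)
      have hs1 : s.card ≤ 1 := Finset.card_le_one.2 fun e he e' he' => funext fun y => by
        rw [(hs e he).2.1 y (Finset.notMem_empty y), (hs e' he').2.1 y (Finset.notMem_empty y)]
      simp only [Finset.prod_empty, Finset.sum_const, nsmul_eq_mul, mul_one, Finset.card_empty,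
        pow_zero, hT, hFe, Finset.sum_empty, sub_zero, exp_zero]
      exact_mod_cast hs1
    have hcardpos : 1 ≤ E.card := hEne.card_pos
    have hQW : Q * (Q * W) ^ (E.card - 1) * exp T * E.card ≤ (Q * W) ^ E.card * exp T := by
      calc Q * (Q * W) ^ (E.card - 1) * exp T * E.card
          ≤ Q * (Q * W) ^ (E.card - 1) * exp T * W :=
            mul_le_mul_of_nonneg_left (by exact_mod_cast hW) (by positivity)
        _ = (Q * W) ^ (E.card - 1 + 1) * exp T := by ring
        _ = _ := by rw [Nat.sub_add_cancel hcardpos]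
    refine le_trans ?_ hQW
    have hstep0 : 0 ≤ Q * (Q * W) ^ (E.card - 1) * exp T := by positivity
    rcases F.eq_empty_or_nonempty with rfl | hFne
    · obtain ⟨x, hx⟩ := hEne
      refine (step x hx 0 (fun f hf => absurd hf (Finset.notMem_empty f)) s subset_rfl
        fun e _ => u_nonneg _).trans ?_
      exact le_mul_of_one_le_right hstep0 (by exact_mod_cast hcardpos)
    · obtain ⟨f0, hf0, hmax⟩ := F.exists_max_image g hFne
      have hcov : s ⊆ (line f0).biUnion fun x => s.filter fun e => g f0 ≤ u (e x) := by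
        intro e he
        obtain ⟨-, x, hx, hgx⟩ := (hs e he).2.2.2.1 f0 hf0
        exact Finset.mem_biUnion.2 ⟨x, hx, Finset.mem_filter.2 ⟨he, hgx⟩⟩
      have hsum : ∀ (t : Finset ι) (h : (ι → ℕ) → ℝ), (∀ e, 0 ≤ h e) →
          ∑ e ∈ t.biUnion (fun x => s.filter fun e => g f0 ≤ u (e x)), h e
            ≤ ∑ x ∈ t, ∑ e ∈ s.filter (fun e => g f0 ≤ u (e x)), h e := by
        intro t h hh
        induction t using Finset.induction_on with
        | empty => simp
        | insert y t hy iht =>
          rw [Finset.biUnion_insert, Finset.sum_insert hy]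
          refine le_trans ?_ (add_le_add le_rfl iht)
          rw [← Finset.sum_union_inter]
          exact le_add_of_nonneg_right (Finset.sum_nonneg fun e _ => hh e)
      have hnn : ∀ e : ι → ℕ, 0 ≤ ∏ y ∈ E, ew z y (e y) / (e y : ℝ) :=
        fun e => Finset.prod_nonneg fun y _ => hwn y _
      refine ((Finset.sum_le_sum_of_subset_of_nonneg hcov fun e _ _ => hnn e).trans
        (hsum _ _ hnn)).trans ?_
      refine (Finset.sum_le_sum fun x hx => step x (hsub f0 hf0 hx) (g f0)
        (fun f hf _ => hmax f hf) _ (Finset.filter_subset _ _)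
        fun e he => (Finset.mem_filter.1 he).2).trans ?_
      rw [Finset.sum_const, nsmul_eq_mul, mul_comm]
      exact mul_le_mul_of_nonneg_left
        (by exact_mod_cast Finset.card_le_card (hsub f0 hf0)) hstep0

end Col
end Vale.Agent.P031
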