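import Vale.Agent.P031.CollideShape
import Vale.Agent.P031.CollideSum

/-!
P031: the number of systems of entries of a given shape.
-/

open Finset Real Filter

namespace Vale.Agent.P031
namespace Col

/-- The indices of unmatched lines, with the cofactor at index `N`. -/
def free (N L : ℕ) (T : Finset ℕ) : Finset ℕ := insert N ((Finset.range L).filter (fun i => i ∉ T))

/-- The entries of the refinement. -/
def ent (N L L' : ℕ) (Mt : Finset (ℕ × ℕ)) : Finset (ℕ × ℕ) :=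
  Mt ∪ free N L (Mt.image Prod.fst) ×ˢ free N L' (Mt.image Prod.snd)

/-- The entries other than the top one. -/
def rest (N L L' : ℕ) (Mt : Finset (ℕ × ℕ)) : Finset (ℕ × ℕ) := (ent N L L' Mt).erase (0, 0)

/-- The lower lines of the entries. -/
def line (N L L' : ℕ) (Mt : Finset (ℕ × ℕ)) : ℕ ⊕ ℕ → Finset (ℕ × ℕ) :=
  Sum.elim (fun i => (rest N L L' Mt).filter (fun x => x.1 = i))
    (fun j => (rest N L L' Mt).filter (fun x => x.2 = j))

/-- The lines below the tops, common primes counted once. -/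
def forms (L L' : ℕ) (Mt : Finset (ℕ × ℕ)) : Finset (ℕ ⊕ ℕ) :=
  (Finset.Icc 1 (L - 1)).disjSum ((Finset.Icc 1 (L' - 1)).filter (fun j => j ∉ Mt.image Prod.snd))

/-- The guaranteed height of a line. -/
noncomputable def gain (D tol : ℝ) (Rg : Finset ℕ) (n : ℕ → ℕ) (f : ℕ ⊕ ℕ) : ℝ :=
  D * ((Rg.filter (fun k => Sum.elim id id f < n k)).card : ℝ) - 3 * tol

/-- The cell of a prime. -/
noncomputable def idx (D : ℝ) (p : ℕ) : ℕ := ⌈u p / D⌉₊ - 2

/-- The primes allowed in an entry. -/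
def Allowed (D : ℝ) (M : ℕ) (Rg : Finset ℕ) (n : ℕ → ℕ) (x : ℕ × ℕ) (p : ℕ) : Prop :=
  u p ≤ D ∨ (u p ≤ ((M : ℝ) + 1) * D ∧
    (idx D p ∈ Rg → x.1 < n (idx D p) ∧ x.2 < n (idx D p)))

open Classical in
/-- The logarithmic weight of a prime. -/
noncomputable def wlog (D : ℝ) (M : ℕ) (Rg : Finset ℕ) (n : ℕ → ℕ) (p : ℕ) : ℝ :=
  if D < u p ∧ u p ≤ ((M : ℝ) + 1) * D ∧ idx D p ∈ Rg then log (n (idx D p)) else 0

open Classical in
/-- The sieve weight of a prime in an entry. -/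
noncomputable def zw (D : ℝ) (M : ℕ) (Rg : Finset ℕ) (n : ℕ → ℕ) (x : ℕ × ℕ) (p : ℕ) : ℝ :=
  if Allowed D M Rg n x p then exp (-wlog D M Rg n p) else 0

/-- The total logarithm of the Rankin factor. -/
noncomputable def rankin (D tol : ℝ) (Rg : Finset ℕ) (n : ℕ → ℕ) : ℝ :=
  ∑ k ∈ Rg, (n k : ℝ) * log (n k) * (D + tol)

/-- The properties of a shape. -/
structure Info (S D : ℝ) (N M L L' : ℕ) (Mt : Finset (ℕ × ℕ)) (Rg : Finset ℕ) (n : ℕ → ℕ) :
    Prop where
  hL : 1 ≤ L ∧ L ≤ N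
  hL' : 1 ≤ L' ∧ L' ≤ N
  hMt : ∀ i j, (i, j) ∈ Mt → (1 ≤ i ∧ i < L) ∧ (1 ≤ j ∧ j < L')
  inj₁ : Set.InjOn Prod.fst (Mt : Set (ℕ × ℕ))
  inj₂ : Set.InjOn Prod.snd (Mt : Set (ℕ × ℕ))
  hiff : ∀ k ∈ Rg, ∀ x ∈ Mt, x.1 < n k ↔ x.2 < n k
  hn : ∀ k ∈ Rg, n k ≤ L ∧ n k ≤ L'
  hRg : Rg ⊆ Finset.range M
  hirr : (Finset.range M \ Rg).card ≤ 6 * N
  hcost : ∑ k ∈ Rg, D * ((n k : ℝ) * log (n k) - (max 1 (n k : ℝ) - 1)) ≤ S - S ^ (9 / 10 : ℝ)
  htop : ∀ k ∈ Rg, 0 < n k → ((k : ℝ) + 3) * D < S + √S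

/-- A system of entries of the given shape. -/
structure MatOK (Y : ℕ) (S D tol : ℝ) (N M L L' : ℕ) (Mt : Finset (ℕ × ℕ)) (Rg : Finset ℕ)
    (n : ℕ → ℕ) (e : ℕ × ℕ → ℕ) : Prop where
  pos : ∀ x, 1 ≤ e x
  off : ∀ x ∉ ent N L L' Mt, e x = 1
  bound : ∏ x ∈ ent N L L' Mt, e x ≤ Y
  forms_ok : ∀ f ∈ forms L L' Mt, (∏ x ∈ line N L L' Mt f, e x + 1).Prime ∧
    ∃ x ∈ line N L L' Mt f, gain D tol Rg n f ≤ u (e x)
  forms_inj : Set.InjOn (fun f => ∏ x ∈ line N L L' Mt f, e x) (forms L L' Mt)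
  top_row : (e (0, 0) * ∏ x ∈ (rest N L L' Mt).filter (fun x => x.1 = 0), e x + 1).Prime
  top_col : (e (0, 0) * ∏ x ∈ (rest N L L' Mt).filter (fun x => x.2 = 0), e x + 1).Prime
  top_ne : ∏ x ∈ (rest N L L' Mt).filter (fun x => x.1 = 0), e x
    ≠ ∏ x ∈ (rest N L L' Mt).filter (fun x => x.2 = 0), e x
  top_big : S - √S - 3 * tol ≤ u (e (0, 0))
  weight : exp (-rankin D tol Rg n)
    ≤ ∏ x ∈ ent N L L' Mt, ew (zw D M Rg n) x (e x)

variable {S D tol : ℝ} {N M Y L L' : ℕ} {Mt : Finset (ℕ × ℕ)} {Rg : Finset ℕ} {n : ℕ → ℕ}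

lemma zw_mem (x : ℕ × ℕ) (p : ℕ) : 0 ≤ zw D M Rg n x p ∧ zw D M Rg n x p ≤ 1 := by
  unfold zw
  split
  · refine ⟨(exp_pos _).le, exp_le_one_iff.2 ?_⟩
    rw [neg_nonpos, wlog]
    split
    · exact Real.log_natCast_nonneg _
    · exact le_rfl
  · exact ⟨le_rfl, zero_le_one⟩

lemma mem_cell_iff (hD : 0 < D) {k p : ℕ} :
    p ∈ Anat2.cell D k ↔ p.Prime ∧ D < u p ∧ idx D p = k := by
  rw [Anat2.cell, mem_band]
  constructor
  · rintro ⟨hp, h1, h2⟩
    have hk : (0 : ℝ) ≤ k := Nat.cast_nonneg k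
    have h3 : D < u p := lt_of_le_of_lt (by nlinarith) h1
    exact ⟨hp, h3, (Anat2.idx_iff hD h3).2 ⟨h1, h2⟩⟩
  · rintro ⟨hp, h1, h2⟩
    exact ⟨hp, (Anat2.idx_iff hD h1).1 h2⟩

lemma cell_le (hD : 0 < D) {k p : ℕ} (hk : k < M) (hp : p ∈ Anat2.cell D k) :
    u p ≤ ((M : ℝ) + 1) * D := by
  rw [Anat2.cell, mem_band] at hp
  refine hp.2.2.trans (mul_le_mul_of_nonneg_right ?_ hD.le)
  have : (k : ℝ) + 1 ≤ M := by exact_mod_cast hk
  linarith

lemma idx_lt (hD : 0 < D) {p : ℕ} (hp : p.Prime) (h1 : D < u p)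
    (h2 : u p ≤ ((M : ℝ) + 1) * D) : idx D p < M :=
  Finset.mem_range.1 (Anat2.maps_idx hD p (mem_band.2 ⟨hp, h1, h2⟩))

lemma wlog_eq (hD : 0 < D) (hRg : Rg ⊆ Finset.range M) {p : ℕ} (hp : p.Prime) :
    wlog D M Rg n p = ∑ k ∈ Rg, if p ∈ Anat2.cell D k then log (n k) else 0 := by
  classical
  by_cases h : D < u p ∧ idx D p ∈ Rg
  · have hk : p ∈ Anat2.cell D (idx D p) := (mem_cell_iff hD).2 ⟨hp, h.1, rfl⟩
    rw [wlog, if_pos ⟨h.1, cell_le hD (Finset.mem_range.1 (hRg h.2)) hk, h.2⟩,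
      Finset.sum_eq_single_of_mem (idx D p) h.2 (fun k _ hne => if_neg fun hc =>
        hne ((mem_cell_iff hD).1 hc).2.2.symm), if_pos hk]
  · rw [wlog, if_neg fun hc => h ⟨hc.1, hc.2.2⟩]
    refine (Finset.sum_eq_zero fun k hk => if_neg fun hc => h ?_).symm
    obtain ⟨-, h1, h2⟩ := (mem_cell_iff hD).1 hc
    exact ⟨h1, h2 ▸ hk⟩

/-- Systems supported on allowed primes with few prime factors in each cell carry enough
weight. -/
lemma weight_ge (hD : 0 < D) (hRg : Rg ⊆ Finset.range M) (E : Finset (ℕ × ℕ)) (e : ℕ × ℕ → ℕ)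
    (he : ∀ x ∈ E, e x ≠ 0)
    (hall : ∀ x ∈ E, ∀ p ∈ (e x).primeFactors, Allowed D M Rg n x p)
    (hcnt : ∀ k ∈ Rg, (cnt (((k : ℝ) + 1) * D) (((k : ℝ) + 2) * D) (∏ x ∈ E, e x) : ℝ)
      ≤ (n k : ℝ) * (D + tol)) :
    exp (-rankin D tol Rg n) ≤ ∏ x ∈ E, ew (zw D M Rg n) x (e x) := by
  classical
  have h1 : ∀ x ∈ E, ew (zw D M Rg n) x (e x)
      = exp (-∑ p ∈ (e x).primeFactors, wlog D M Rg n p) := by
    intro x hx
    rw [ew, ← Finset.sum_neg_distrib, exp_sum]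
    exact Finset.prod_congr rfl fun p hp => by rw [zw, if_pos (hall x hx p hp)]
  rw [Finset.prod_congr rfl h1, ← exp_sum, exp_le_exp, Finset.sum_neg_distrib, neg_le_neg_iff]
  have h2 : ∀ x ∈ E, ∑ p ∈ (e x).primeFactors, wlog D M Rg n p
      ≤ ∑ k ∈ Rg, log (n k) * (cnt (((k : ℝ) + 1) * D) (((k : ℝ) + 2) * D) (e x) : ℝ) := by
    intro x hx
    rw [Finset.sum_congr rfl fun p hp => wlog_eq (n := n) hD hRg (Nat.prime_of_mem_primeFactors hp),
      Finset.sum_comm]
    refine Finset.sum_le_sum fun k _ => ?_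
    rw [← Finset.sum_filter, Finset.sum_const, nsmul_eq_mul, mul_comm]
    exact mul_le_mul_of_nonneg_left (by exact_mod_cast card_inter_cell_le D k (e x))
      (Real.log_natCast_nonneg _)
  refine (Finset.sum_le_sum h2).trans ?_
  rw [Finset.sum_comm, rankin]
  refine Finset.sum_le_sum fun k hk => ?_
  rw [← Finset.mul_sum, ← Nat.cast_sum, ← cnt_prod _ _ E e he]
  calc log (n k) * (cnt (((k : ℝ) + 1) * D) (((k : ℝ) + 2) * D) (∏ x ∈ E, e x) : ℝ)
      ≤ log (n k) * ((n k : ℝ) * (D + tol)) :=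
        mul_le_mul_of_nonneg_left (hcnt k hk) (Real.log_natCast_nonneg _)
    _ = _ := by ring

open Classical in
/-- The relative weight of a cell in an entry. -/
noncomputable def cellW (Rg : Finset ℕ) (n : ℕ → ℕ) (x : ℕ × ℕ) (k : ℕ) : ℝ :=
  if k ∈ Rg then (if x.1 < n k ∧ x.2 < n k then 1 / (n k : ℝ) else 0) else 1

lemma cellW_nonneg (x : ℕ × ℕ) (k : ℕ) : 0 ≤ cellW Rg n x k := by
  unfold cellW
  split_ifs <;> positivity

lemma emass_le (hD : 0 < D) (Y : ℕ) (x : ℕ × ℕ) :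
    emass Y (zw D M Rg n) x ≤ D + (D + 1) * ∑ k ∈ Finset.range M, cellW Rg n x k := by
  classical
  have hpt : ∀ p ∈ primesTo Y, zw D M Rg n x p / ((p : ℝ) - 1) ≤
      (if p ∈ band 0 D then 1 / ((p : ℝ) - 1) else 0) + ∑ k ∈ Finset.range M,
        cellW Rg n x k * (if p ∈ Anat2.cell D k then 1 / ((p : ℝ) - 1) else 0) := by
    intro p hp
    have hpp := (mem_primesTo.1 hp).2
    have h0 := sub_one_pos_of_prime hpp
    have hinv : (0 : ℝ) ≤ 1 / ((p : ℝ) - 1) := by positivity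
    have hsum : 0 ≤ ∑ k ∈ Finset.range M,
        cellW Rg n x k * (if p ∈ Anat2.cell D k then 1 / ((p : ℝ) - 1) else 0) :=
      Finset.sum_nonneg fun k _ => mul_nonneg (cellW_nonneg x k) (by split_ifs with h; exacts [hinv, le_rfl])
    have hfirst : (0 : ℝ) ≤ if p ∈ band 0 D then 1 / ((p : ℝ) - 1) else 0 := by
      split_ifs with h; exacts [hinv, le_rfl]
    rcases le_or_gt (u p) D with hu | hu
    · have hb : p ∈ band 0 D :=
        mem_band.2 ⟨hpp, lt_of_le_of_lt (u_nonneg 1) (u_lt_of_lt_prime hpp hpp.one_lt), hu⟩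
      rw [if_pos hb]
      refine le_add_of_le_of_nonneg ?_ hsum
      rw [div_eq_mul_one_div]
      exact mul_le_of_le_one_left hinv (zw_mem x p).2
    by_cases hall : Allowed D M Rg n x p
    · obtain hc | ⟨hc1, hc2⟩ := hall
      · exact absurd hu (not_lt.2 hc)
      have hk := idx_lt hD hpp hu hc1
      have hcell : p ∈ Anat2.cell D (idx D p) := (mem_cell_iff hD).2 ⟨hpp, hu, rfl⟩
      refine le_trans ?_ ((Finset.single_le_sum (f := fun k => cellW Rg n x k *
        (if p ∈ Anat2.cell D k then 1 / ((p : ℝ) - 1) else 0))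
        (fun k _ => mul_nonneg (cellW_nonneg x k) (by split_ifs with h; exacts [hinv, le_rfl]))
        (Finset.mem_range.2 hk)).trans (le_add_of_nonneg_left hfirst))
      simp only [if_pos hcell]
      rw [div_eq_mul_one_div]
      refine mul_le_mul_of_nonneg_right ?_ hinv
      by_cases hR : idx D p ∈ Rg
      · have hn0 : 0 < n (idx D p) := lt_of_le_of_lt (Nat.zero_le _) (hc2 hR).1
        rw [zw, if_pos (show Allowed D M Rg n x p from Or.inr ⟨hc1, hc2⟩), wlog, if_pos ⟨hu, hc1, hR⟩, cellW, if_pos hR,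
          if_pos (hc2 hR), exp_neg, exp_log (by exact_mod_cast hn0), one_div]
      · rw [cellW, if_neg hR]
        exact (zw_mem x p).2
    · rw [zw, if_neg hall, zero_div]
      exact add_nonneg hfirst hsum
  refine (Finset.sum_le_sum hpt).trans ?_
  rw [Finset.sum_add_distrib, Finset.sum_comm, Finset.mul_sum]
  have hsub : ∀ (B : Finset ℕ), (∀ p ∈ B, p.Prime) →
      ∑ p ∈ primesTo Y, (if p ∈ B then 1 / ((p : ℝ) - 1) else 0) ≤ ∑ p ∈ B, 1 / ((p : ℝ) - 1) := by
    intro B hB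
    rw [← Finset.sum_filter]
    exact Finset.sum_le_sum_of_subset_of_nonneg (fun p hp => (Finset.mem_filter.1 hp).2)
      (fun p hp _ => by have := sub_one_pos_of_prime (hB p hp); positivity)
  refine add_le_add ((hsub _ fun p hp => (mem_band.1 hp).1).trans (sum_band_zero_le D hD.le))
    (Finset.sum_le_sum fun k _ => ?_)
  rw [← Finset.mul_sum, mul_comm (D + 1)]
  refine mul_le_mul_of_nonneg_left ((hsub _ fun p hp => (mem_band.1 hp).1).trans ?_)
    (cellW_nonneg x k)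
  refine (sum_band_le _ _ ?_).trans (le_of_eq (by ring))
  nlinarith

lemma top_sum_ge (hp : Par S D tol N M) (hi : Info S D N M L L' Mt Rg n) {U : ℕ}
    (hU : S - √S - 3 * tol ≤ u U) :
    ∑ k ∈ Rg, (if n k = 0 then 0 else 1 - 1 / (n k : ℝ)) * (D - 1)
      ≤ ∑ p ∈ (Finset.range (U + 1)).filter Nat.Prime,
          (1 - zw D M Rg n (0, 0) p) / ((p : ℝ) - 1) := by
  classical
  have hD0 : 0 < D := lt_of_lt_of_le one_pos hp.one_le
  set K := Rg.filter (fun k => 0 < n k) with hK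
  have hdisj : Set.PairwiseDisjoint (K : Set ℕ) (Anat2.cell D) := by
    intro k _ k' _ hne
    simp only [Function.onFun]
    rw [Finset.disjoint_left]
    intro p h1 h2
    exact hne (((mem_cell_iff hD0).1 h1).2.2.symm.trans ((mem_cell_iff hD0).1 h2).2.2)
  have hsubset : K.biUnion (Anat2.cell D) ⊆ (Finset.range (U + 1)).filter Nat.Prime := by
    intro p hpm
    obtain ⟨k, hk, hpk⟩ := Finset.mem_biUnion.1 hpm
    obtain ⟨hk1, hk2⟩ := Finset.mem_filter.1 hk
    have h1 := hi.htop k hk1 hk2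
    rw [Anat2.cell, mem_band] at hpk
    refine Finset.mem_filter.2 ⟨Finset.mem_range.2 (Nat.lt_succ_of_le ?_), hpk.1⟩
    rw [← u_le_u_iff_of_prime hpk.1]
    linarith [hpk.2.2, hp.hsmall]
  refine le_trans (le_trans ?_ (le_of_eq (Finset.sum_biUnion hdisj).symm))
    (Finset.sum_le_sum_of_subset_of_nonneg hsubset fun p hpm _ =>
      div_nonneg (by linarith [(zw_mem (D := D) (M := M) (Rg := Rg) (n := n) (0, 0) p).2])
        (sub_one_pos_of_prime (Finset.mem_filter.1 hpm).2).le)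
  rw [hK, Finset.sum_filter]
  refine Finset.sum_le_sum fun k hk => ?_
  rcases Nat.eq_zero_or_pos (n k) with h | h
  · simp [h]
  rw [if_neg h.ne', if_pos h]
  have hval : ∀ p ∈ Anat2.cell D k, (1 - zw D M Rg n (0, 0) p) / ((p : ℝ) - 1)
      = (1 - 1 / (n k : ℝ)) * (1 / ((p : ℝ) - 1)) := by
    intro p hpk
    obtain ⟨hpp, h1, h2⟩ := (mem_cell_iff hD0).1 hpk
    have hM := cell_le hD0 (Finset.mem_range.1 (hi.hRg hk)) hpk
    rw [zw, if_pos (show Allowed D M Rg n (0, 0) p from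
        Or.inr ⟨hM, fun _ => by rw [h2]; exact ⟨h, h⟩⟩), wlog,
      if_pos ⟨h1, hM, h2 ▸ hk⟩, h2, exp_neg, exp_log (by exact_mod_cast h)]
    ring
  rw [Finset.sum_congr rfl hval, ← Finset.mul_sum]
  have h1n : 1 / (n k : ℝ) ≤ 1 := by
    rw [div_le_one (by exact_mod_cast h)]; exact_mod_cast h
  refine mul_le_mul_of_nonneg_left ?_ (by linarith)
  have hk0 : (0 : ℝ) ≤ k := Nat.cast_nonneg k
  refine le_trans (le_of_eq ?_) (sum_band_ge (a := ((k : ℝ) + 1) * D)
    (b := ((k : ℝ) + 2) * D) (by positivity) (by nlinarith))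
  ring

/-- The sum of the weights of all systems of one shape. -/
lemma card_le {C : ℝ} {k : ℕ} (hC : 0 < C)
    (hs : ∀ U M : ℕ, 1 ≤ U → U ≤ M → ∀ A : Finset ℕ, A.card ≤ 2 →
      (∀ a ∈ A, 1 ≤ a ∧ a ≤ M) → ∀ z : ℕ → ℝ, (∀ p, 0 ≤ z p ∧ z p ≤ 1) →
      ∑ n ∈ (Finset.Icc 1 U).filter (fun n => ∀ a ∈ A, (a * n + 1).Prime),
          ∏ p ∈ n.primeFactors, z p
        ≤ C * (u M + 1) ^ k * U * Real.exp (-((A.card : ℝ) * u U)
            - ∑ p ∈ (Finset.range (U + 1)).filter Nat.Prime, (1 - z p) / ((p : ℝ) - 1)))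
    {C₂ : ℝ} {k₂ : ℕ} (hC₂ : 0 < C₂)
    (hlog : ∀ R Y M : ℕ, 1 ≤ R → Y ≤ M → ∀ A : Finset ℕ, A.card ≤ 2 →
      (∀ a ∈ A, 1 ≤ a ∧ a ≤ M) → ∀ z : ℕ → ℝ, (∀ p, 0 ≤ z p ∧ z p ≤ 1) →
      ∑ n ∈ (Finset.Icc R Y).filter (fun n => ∀ a ∈ A, (a * n + 1).Prime),
          (∏ p ∈ n.primeFactors, z p) / (n : ℝ)
        ≤ C₂ * (u M + 1) ^ k₂ * Real.exp (-((A.card : ℝ) * u R)
            + ∑ p ∈ (Finset.range (Y + 1)).filter Nat.Prime, z p / ((p : ℝ) - 1)))
    (hp : Par S D tol N M) (hi : Info S D N M L L' Mt Rg n)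
    (s : Finset (ℕ × ℕ → ℕ)) (hok : ∀ e ∈ s, MatOK Y S D tol N M L L' Mt Rg n e) :
    (s.card : ℝ) ≤ exp (rankin D tol Rg n) * (C * (u Y + 1) ^ k * Y
      * exp (-(2 * (S - √S - 3 * tol))
          - ∑ k ∈ Rg, (if n k = 0 then 0 else 1 - 1 / (n k : ℝ)) * (D - 1))
      * ((C₂ * (u Y + 1) ^ k₂ * (rest N L L' Mt).card) ^ (rest N L L' Mt).card
        * exp (∑ x ∈ rest N L L' Mt, emass Y (zw D M Rg n) x
            - ∑ f ∈ forms L L' Mt, gain D tol Rg n f))) := by
  classical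
  set z := zw D M Rg n with hz
  set E := rest N L L' Mt with hE
  set x₀ : ℕ × ℕ := (0, 0) with hx₀
  have h00 : x₀ ∈ ent N L L' Mt := by
    refine Finset.mem_union_right _ (Finset.mem_product.2 ⟨?_, ?_⟩) <;>
      refine Finset.mem_insert_of_mem (Finset.mem_filter.2 ⟨Finset.mem_range.2 ?_, ?_⟩)
    · exact hi.hL.1
    · rw [Finset.mem_image]
      rintro ⟨⟨i, j⟩, hm, rfl⟩
      exact absurd (hi.hMt _ j hm).1.1 (by decide)
    · exact hi.hL'.1
    · rw [Finset.mem_image]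
      rintro ⟨⟨i, j⟩, hm, rfl⟩
      exact absurd (hi.hMt i _ hm).2.1 (by decide)
  have hzm : ∀ x p, 0 ≤ z x p ∧ z x p ≤ 1 := fun x p => zw_mem x p
  set pr : (ℕ × ℕ → ℕ) → ℕ × ℕ → ℕ := fun e => Function.update e x₀ 1 with hpr
  have hne : ∀ x ∈ E, x ≠ x₀ := fun x hx => Finset.ne_of_mem_erase hx
  have hpe : ∀ e, ∀ x ∈ E, pr e x = e x := fun e x hx => Function.update_of_ne (hne x hx) 1 e
  have hsys : ∀ e' ∈ s.image pr,
      Sys Y (line N L L' Mt) (gain D tol Rg n) E (forms L L' Mt) e' := by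
    intro e' he'
    obtain ⟨e, he, rfl⟩ := Finset.mem_image.1 he'
    have ho := hok e he
    have hl : ∀ f, ∀ x ∈ line N L L' Mt f, x ∈ E := by
      rintro (i | j) x hx <;> exact (Finset.mem_filter.1 hx).1
    refine ⟨fun x => ?_, fun x hx => ?_, ?_, fun f hf => ?_, ?_⟩
    · by_cases h : x = x₀
      · subst h; simp [hpr]
      · simp only [hpr, Function.update_of_ne h]; exact ho.pos x
    · by_cases h : x = x₀
      · subst h; simp [hpr]
      · simp only [hpr, Function.update_of_ne h]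
        exact ho.off x fun hc => hx (Finset.mem_erase.2 ⟨h, hc⟩)
    · rw [Finset.prod_congr rfl (hpe e)]
      exact le_trans (Finset.prod_le_prod_of_subset_of_one_le (Finset.erase_subset _ _)
        (fun y _ => Nat.zero_le _) (fun y _ _ => ho.pos y)) ho.bound
    · obtain ⟨h1, x, hx, h2⟩ := ho.forms_ok f hf
      rw [Finset.prod_congr rfl fun x hx => hpe e x (hl f x hx)]
      exact ⟨h1, x, hx, by rw [hpe e x (hl f x hx)]; exact h2⟩
    · intro f hf f' hf' hff
      refine ho.forms_inj hf hf' ?_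
      simp only at hff ⊢
      rwa [Finset.prod_congr rfl fun x hx => hpe e x (hl f x hx),
        Finset.prod_congr rfl fun x hx => hpe e x (hl f' x hx)] at hff
  set Q := C * (u Y + 1) ^ k with hQ
  have hQ0 : 0 ≤ Q := by have := u_nonneg Y; positivity
  set X := exp (-(2 * (S - √S - 3 * tol))
          - ∑ k ∈ Rg, (if n k = 0 then 0 else 1 - 1 / (n k : ℝ)) * (D - 1)) with hX
  have hinner : ∀ e' ∈ s.image pr, ∑ e ∈ s with pr e = e', ew z x₀ (e x₀)
      ≤ Q * Y * X / ∏ x ∈ E, (e' x : ℝ) := by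
    intro e' he'
    obtain ⟨e0, he0, rfl⟩ := Finset.mem_image.1 he'
    have ho0 := hok e0 he0
    set P := ∏ x ∈ E, e0 x with hP
    have hP0 : 0 < P := Finset.prod_pos fun x _ => ho0.pos x
    have hPcast : ∏ x ∈ E, (pr e0 x : ℝ) = (P : ℝ) := by
      rw [hP, Nat.cast_prod]
      exact Finset.prod_congr rfl fun x hx => by rw [hpe e0 x hx]
    rw [hPcast]
    set U := Y / P with hU
    have hsame : ∀ e ∈ s, pr e = pr e0 → ∀ x ∈ E, e x = e0 x := fun e _ h x hx => by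
      rw [← hpe e x hx, h, hpe e0 x hx]
    have hUmem : ∀ e ∈ s, pr e = pr e0 → e x₀ ≤ U := by
      intro e he h
      rw [hU, Nat.le_div_iff_mul_le hP0, hP, ← Finset.prod_congr rfl (hsame e he h)]
      exact le_trans (le_of_eq (Finset.mul_prod_erase _ _ h00)) (hok e he).bound
    set a := ∏ x ∈ E.filter (fun x => x.1 = 0), e0 x with ha
    set b := ∏ x ∈ E.filter (fun x => x.2 = 0), e0 x with hb
    have hab : a ≠ b := ho0.top_ne
    have hU1 : 1 ≤ U := (ho0.pos x₀).trans (hUmem e0 he0 rfl)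
    have hsub : ∀ B : Finset (ℕ × ℕ), B ⊆ E → 1 ≤ ∏ x ∈ B, e0 x ∧ ∏ x ∈ B, e0 x ≤ Y :=
      fun B hB => ⟨Finset.one_le_prod fun x _ => ho0.pos x,
        le_trans (Finset.prod_le_prod_of_subset_of_one_le (hB.trans (Finset.erase_subset _ _))
          (fun y _ => Nat.zero_le _) (fun y _ _ => ho0.pos y)) ho0.bound⟩
    have hA2 : ({a, b} : Finset ℕ).card = 2 := Finset.card_pair hab
    have h := hs U Y hU1 (Nat.div_le_self _ _) {a, b} hA2.le (by
      intro m hm
      simp only [Finset.mem_insert, Finset.mem_singleton] at hm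
      rcases hm with rfl | rfl <;> exact hsub _ (Finset.filter_subset _ _)) (z x₀) (hzm x₀)
    rw [hA2] at h
    have himg : (s.filter (fun e => pr e = pr e0)).image (fun e => e x₀)
        ⊆ (Finset.Icc 1 U).filter (fun m => ∀ c ∈ ({a, b} : Finset ℕ), (c * m + 1).Prime) := by
      intro m hm
      obtain ⟨e, he, rfl⟩ := Finset.mem_image.1 hm
      obtain ⟨hes, heq⟩ := Finset.mem_filter.1 he
      refine Finset.mem_filter.2 ⟨Finset.mem_Icc.2 ⟨(hok e hes).pos x₀, hUmem e hes heq⟩, ?_⟩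
      have e1 : ∀ B ⊆ E, ∏ x ∈ B, e x = ∏ x ∈ B, e0 x := fun B hB =>
        Finset.prod_congr rfl fun x hx => hsame e hes heq x (hB hx)
      intro c hc
      simp only [Finset.mem_insert, Finset.mem_singleton] at hc
      rcases hc with rfl | rfl <;> rw [mul_comm]
      · rw [ha, ← e1 _ (Finset.filter_subset _ _)]; exact (hok e hes).top_row
      · rw [hb, ← e1 _ (Finset.filter_subset _ _)]; exact (hok e hes).top_col
    calc ∑ e ∈ s with pr e = pr e0, ew z x₀ (e x₀)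
        = ∑ m ∈ (s.filter (fun e => pr e = pr e0)).image (fun e => e x₀), ew z x₀ m := by
          refine (Finset.sum_image (f := fun m => ew z x₀ m) ?_).symm
          intro e he e' he' hee
          obtain ⟨-, heq⟩ := Finset.mem_filter.1 he
          obtain ⟨-, heq'⟩ := Finset.mem_filter.1 he'
          funext y
          by_cases hy : y = x₀
          · subst hy; exact hee
          · have := congr_fun (heq.trans heq'.symm) y
            simpa only [hpr, Function.update_of_ne hy] using this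
      _ ≤ ∑ m ∈ (Finset.Icc 1 U).filter (fun m => ∀ c ∈ ({a, b} : Finset ℕ), (c * m + 1).Prime),
            ew z x₀ m :=
          Finset.sum_le_sum_of_subset_of_nonneg himg fun m _ _ => ew_nonneg hzm x₀ m
      _ ≤ Q * U * X := by
          refine h.trans (mul_le_mul_of_nonneg_left (exp_le_exp.2 ?_) (by positivity))
          have hgU : S - √S - 3 * tol ≤ u U := ho0.top_big.trans (u_mono (hUmem e0 he0 rfl))
          have h1 := top_sum_ge hp hi hgU
          push_cast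
          simp only [hz, hx₀]
          linarith
      _ ≤ Q * (Y / P : ℝ) * X := by
          refine mul_le_mul_of_nonneg_right (mul_le_mul_of_nonneg_left ?_ hQ0) (exp_pos _).le
          rw [hU]; exact Nat.cast_div_le
      _ = Q * Y * X / P := by ring
  have hsplit : ∀ e : ℕ × ℕ → ℕ, ∏ x ∈ ent N L L' Mt, ew z x (e x)
      = ew z x₀ (e x₀) * ∏ x ∈ E, ew z x (pr e x) := by
    intro e
    rw [← Finset.mul_prod_erase _ _ h00]
    congr 1
    exact Finset.prod_congr rfl fun x hx => by rw [hpe e x hx]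
  calc (s.card : ℝ) = ∑ e ∈ s, (1 : ℝ) := by simp
    _ ≤ ∑ e ∈ s, exp (rankin D tol Rg n) * ∏ x ∈ ent N L L' Mt, ew z x (e x) := by
        refine Finset.sum_le_sum fun e he => ?_
        have := mul_le_mul_of_nonneg_left (hok e he).weight (exp_pos (rankin D tol Rg n)).le
        rwa [← exp_add, add_neg_cancel, exp_zero] at this
    _ = exp (rankin D tol Rg n) * ∑ e' ∈ s.image pr,
          (∑ e ∈ s with pr e = e', ew z x₀ (e x₀)) * ∏ x ∈ E, ew z x (e' x) := by
        rw [← Finset.mul_sum, ← Finset.sum_fiberwise_of_maps_to (g := pr)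
          (fun e he => Finset.mem_image_of_mem pr he)]
        congr 1
        refine Finset.sum_congr rfl fun e' _ => ?_
        rw [Finset.sum_mul]
        refine Finset.sum_congr rfl fun e he => ?_
        rw [hsplit, (Finset.mem_filter.1 he).2]
    _ ≤ exp (rankin D tol Rg n) * ∑ e' ∈ s.image pr,
          Q * Y * X * ∏ x ∈ E, ew z x (e' x) / (e' x : ℝ) := by
        refine mul_le_mul_of_nonneg_left (Finset.sum_le_sum fun e' he' => ?_) (exp_pos _).le
        refine (mul_le_mul_of_nonneg_right (hinner e' he')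
          (Finset.prod_nonneg fun x _ => ew_nonneg hzm x _)).trans (le_of_eq ?_)
        rw [Finset.prod_div_distrib]
        ring
    _ ≤ _ := by
        rw [← Finset.mul_sum]
        refine mul_le_mul_of_nonneg_left (mul_le_mul_of_nonneg_left ?_ (by positivity))
          (exp_pos _).le
        exact system_le hC₂ hlog Y (line N L L' Mt) (gain D tol Rg n) z hzm E.card E le_rfl
          (forms L L' Mt) (fun f _ => by rcases f with i | j <;> exact Finset.filter_subset _ _)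
          (fun x => by
            refine (Finset.card_le_card (t := {Sum.inl x.1, Sum.inr x.2}) ?_).trans
              Finset.card_le_two
            intro f hf
            obtain ⟨-, hx⟩ := Finset.mem_filter.1 hf
            rcases f with i | j
            · simp [(Finset.mem_filter.1 hx).2]
            · simp [(Finset.mem_filter.1 hx).2])
          (s.image pr) hsys

end Col
end Vale.Agent.P031
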