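import Vale.Agent.P031.Anatomy

/-!
P031: cell counts of representations, bands of primes, and refinement of two factorisations.
-/

open Finset Real Filter

namespace Vale.Agent.P031
namespace Col

/-- The level of the `i`-th prime of a list. -/
noncomputable def lev (l : List ℕ) (i : ℕ) : ℝ := u (l.getD i 0)

/-- `a_i` for the row (or column) `i`, with the cofactor at index `N`. -/
def side (N : ℕ) (l : List ℕ) (r i : ℕ) : ℕ := if i = N then r else l.getD i 0 - 1

lemma getD_mem {l : List ℕ} {i : ℕ} (h : i < l.length) : l.getD i 0 ∈ l := by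
  rw [List.getD_eq_getElem?_getD, List.getElem?_eq_getElem h, Option.getD_some]
  exact List.getElem_mem h

lemma getD_lt {l : List ℕ} (h : l.Pairwise (fun p q => q < p)) {i j : ℕ} (hij : i < j)
    (hj : j < l.length) : l.getD j 0 < l.getD i 0 := by
  have := List.pairwise_iff_getElem.1 h i j (hij.trans hj) hj hij
  simpa [List.getD_eq_getElem?_getD, List.getElem?_eq_getElem (hij.trans hj),
    List.getElem?_eq_getElem hj] using this

lemma getD_injOn {l : List ℕ} (h : l.Pairwise (fun p q => q < p)) {i j : ℕ} (hi : i < l.length)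
    (hj : j < l.length) (he : l.getD i 0 = l.getD j 0) : i = j := by
  rcases lt_trichotomy i j with hlt | he' | hgt
  · exact absurd (getD_lt h hlt hj) (by omega)
  · exact he'
  · exact absurd (getD_lt h hgt hi) (by omega)

lemma pval_eq_prod (l : List ℕ) : pval l = ∏ i ∈ Finset.range l.length, (l.getD i 0 - 1) := by
  induction l with
  | nil => simp [pval]
  | cons q l ih =>
    rw [pval_cons, ih, List.length_cons, Finset.prod_range_succ']
    simp only [List.getD_cons_succ, List.getD_cons_zero]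
    ring

lemma cnt_eq_zero {a b F : ℝ} {n : ℕ} (h : Smooth F n) (hF : F ≤ a) : cnt a b n = 0 := by
  classical
  rw [cnt, List.length_eq_zero_iff, List.filter_eq_nil_iff]
  intro p hp
  simp only [decide_eq_true_eq, not_and]
  intro h1
  obtain ⟨hpp, hd⟩ := (Nat.mem_primeFactorsList h.1).1 hp
  have := h.2 p hpp hd
  linarith

lemma cnt_prod {ι : Type} (a b : ℝ) (s : Finset ι) (e : ι → ℕ) (he : ∀ x ∈ s, e x ≠ 0) :
    cnt a b (∏ x ∈ s, e x) = ∑ x ∈ s, cnt a b (e x) := by
  classical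
  induction s using Finset.induction_on with
  | empty => simp [cnt_one]
  | insert x s hx ih =>
    obtain ⟨h1, h2⟩ := Finset.forall_mem_insert _ _ _ |>.1 he
    rw [Finset.prod_insert hx, Finset.sum_insert hx, cnt_mul a b h1 (Finset.prod_ne_zero_iff.2 h2),
      ih h2]

lemma card_inter_cell_le (D : ℝ) (k n : ℕ) :
    ((n.primeFactors.filter (fun p => p ∈ Anat2.cell D k)).card)
      ≤ cnt (((k : ℝ) + 1) * D) (((k : ℝ) + 2) * D) n := by
  classical
  rw [cnt_eq_sum, ← Anat2.cell, Finset.card_eq_sum_ones]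
  refine (Finset.sum_le_sum fun p hp => ?_).trans
    (Finset.sum_le_sum_of_subset (fun p hp => (Finset.mem_filter.1 hp).2))
  obtain ⟨hp1, -⟩ := Finset.mem_filter.1 hp
  obtain ⟨hpp, hd, hn⟩ := Nat.mem_primeFactors.1 hp1
  exact hpp.factorization_pos_of_dvd hn hd

lemma u_succ_le (n : ℕ) : u (n + 1) ≤ u n + 1 := by
  rw [u_succ]
  split
  · rcases Nat.eq_zero_or_pos n with rfl | hn
    · simp
    · have h1 : (1 : ℝ) ≤ n := by exact_mod_cast hn
      have : (1 : ℝ) / n ≤ 1 := by rw [div_le_one (by linarith)]; exact h1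
      linarith
  · linarith

lemma sum_band_ge {a b : ℝ} (ha : 0 ≤ a) (hab : a ≤ b) :
    b - a - 1 ≤ ∑ p ∈ band a b, 1 / ((p : ℝ) - 1) := by
  classical
  have hex : ∀ x : ℝ, ∃ n, x < u n := fun x =>
    (u_tendsto.eventually (Filter.eventually_gt_atTop x)).exists
  have hlast : ∀ x : ℝ, 0 ≤ x →
      ∃ n, u n ≤ x ∧ x - 1 < u n ∧ ∀ m, n < m → x < u m := by
    intro x hx
    set n1 := Nat.find (hex x) with hn1
    have h1 : x < u n1 := Nat.find_spec (hex x)
    obtain ⟨n, hn⟩ := Nat.exists_eq_succ_of_ne_zero (show n1 ≠ 0 from fun h => by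
      rw [h, u_zero] at h1; linarith)
    rw [hn] at h1
    refine ⟨n, not_lt.1 (Nat.find_min (hex x) (show n < n1 by omega)), ?_,
      fun m hm => lt_of_lt_of_le h1 (u_mono hm)⟩
    have := u_succ_le n
    rw [Nat.succ_eq_add_one] at h1
    linarith
  obtain ⟨na, hna, -, hna'⟩ := hlast a ha
  obtain ⟨nb, hnb, hnb', -⟩ := hlast b (ha.trans hab)
  rcases le_or_gt nb na with h | h
  · have h1 := u_mono h
    have h2 : 0 ≤ ∑ p ∈ band a b, 1 / ((p : ℝ) - 1) := Finset.sum_nonneg fun p hp => by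
      have := sub_one_pos_of_prime (mem_band.1 hp).1
      positivity
    linarith
  have hsub : primesTo na ⊆ primesTo nb := fun p hp =>
    mem_primesTo.2 ⟨(mem_primesTo.1 hp).1.trans h.le, (mem_primesTo.1 hp).2⟩
  have : u nb - u na ≤ ∑ p ∈ band a b, 1 / ((p : ℝ) - 1) := by
    rw [u_def, u_def, ← Finset.sum_sdiff_eq_sub hsub]
    refine Finset.sum_le_sum_of_subset_of_nonneg (fun p hp => ?_) fun p hp _ => ?_
    · obtain ⟨h1, h2⟩ := Finset.mem_sdiff.1 hp
      obtain ⟨h1a, h1b⟩ := mem_primesTo.1 h1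
      exact mem_band.2 ⟨h1b, hna' p (not_le.1 fun hc => h2 (mem_primesTo.2 ⟨hc, h1b⟩)),
        (u_mono h1a).trans hnb⟩
    · have := sub_one_pos_of_prime (mem_band.1 hp).1
      positivity
  linarith

/-- A normal prime `q` has a prime factor of `q - 1` of nearly its level. -/
lemma normal_big :
    ∃ t₀ : ℝ, ∀ q : ℕ, Normal q → t₀ ≤ u q →
      ∃ p : ℕ, p.Prime ∧ p ∣ q - 1 ∧ u q - 3 * (u q) ^ (3 / 5 : ℝ) < u p := by
  obtain ⟨t₀, ht₀⟩ := eventually_atTop.1 (((eventually_ge_atTop (1 : ℝ)).and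
    ((tendsto_rpow_atTop (show (0 : ℝ) < 3 / 5 by norm_num)).eventually_ge_atTop 2)).and
    ((tendsto_rpow_atTop (show (0 : ℝ) < 2 / 5 by norm_num)).eventually_ge_atTop 4))
  refine ⟨t₀, fun q hq ht => ?_⟩
  obtain ⟨⟨ht1, hP2⟩, h4⟩ := ht₀ _ ht
  set t := u q
  set P := t ^ (3 / 5 : ℝ) with hP
  have hsqrt : √t ≤ P := by
    rw [Real.sqrt_eq_rpow]
    exact Real.rpow_le_rpow_of_exponent_le ht1 (by norm_num)
  have htP : 4 * P ≤ t := by
    have e : t = t ^ (2 / 5 : ℝ) * P := by
      rw [hP, ← Real.rpow_add (by linarith)]; norm_num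
    conv_rhs => rw [e]
    exact mul_le_mul_of_nonneg_right h4 (by positivity)
  have h := hq.2 (t - 3 * P) (t - √t) (by linarith) (by linarith) (by linarith)
  have hne : q - 1 ≠ 0 := by have := hq.1.two_le; omega
  have hpos : 0 < cnt (t - 3 * P) (t - √t) (q - 1) := by
    by_contra hc
    have h0 : (cnt (t - 3 * P) (t - √t) (q - 1) : ℝ) = 0 := by
      exact_mod_cast (show cnt (t - 3 * P) (t - √t) (q - 1) = 0 by omega)
    rw [h0] at h
    have := (abs_le.1 h).1
    linarith
  simp only [cnt] at hpos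
  obtain ⟨p, hp⟩ := List.exists_mem_of_length_pos hpos
  rw [List.mem_filter, decide_eq_true_eq] at hp
  obtain ⟨hpp, hpd⟩ := (Nat.mem_primeFactorsList hne).1 hp.1
  exact ⟨p, hpp, hpd, hp.2.1⟩

/-- The cell `k` is regular for a list of primes. -/
def RegFor (D : ℝ) (l : List ℕ) (k : ℕ) : Prop :=
  ∀ q ∈ l, u q < ((k : ℝ) + 1) * D ∨ ((k : ℝ) + 3) * D < u q

lemma lt_nlist_iff {D : ℝ} {l : List ℕ} (h : l.Pairwise (fun p q => q < p)) {k i : ℕ} :
    i < Anat2.nlist D l k ↔ i < l.length ∧ ((k : ℝ) + 3) * D < lev l i := by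
  classical
  have e := Anat2.range_nlist D h k
  rw [Finset.ext_iff] at e
  have := e i
  simp only [Finset.mem_filter, Finset.mem_range] at this
  exact this.symm

lemma nlist_le_length (D : ℝ) (l : List ℕ) (k : ℕ) : Anat2.nlist D l k ≤ l.length := by
  classical
  exact (Finset.card_filter_le _ _).trans (by rw [Finset.card_range])

/-- The number of prime factors of a represented value in a regular cell. -/
lemma cnt_rep {D tol B : ℝ} (hD : 1 ≤ D) {l : List ℕ} {r k : ℕ}
    (hpw : l.Pairwise (fun p q => q < p))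
    (hl : ∀ q ∈ l, Normal q ∧ u q ≤ B) (hB : √B ≤ D) (htol : B ^ (3 / 5 : ℝ) ≤ tol)
    (hr : Smooth D r) (hreg : RegFor D l k) :
    |(cnt (((k : ℝ) + 1) * D) (((k : ℝ) + 2) * D) (pval l * r) : ℝ)
        - (Anat2.nlist D l k : ℝ) * D| ≤ (Anat2.nlist D l k : ℝ) * tol := by
  classical
  set a := ((k : ℝ) + 1) * D with ha
  set b := ((k : ℝ) + 2) * D with hb
  have hk0 : (0 : ℝ) ≤ k := Nat.cast_nonneg k
  have haD : D ≤ a := by rw [ha]; nlinarith
  have hp : ∀ q ∈ l, q.Prime := fun q hq => (hl q hq).1.1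
  rw [cnt_mul a b (pval_pos hp).ne' hr.1, cnt_eq_zero hr haD, add_zero, cnt_pval a b hp,
    Anat2.map_sum_eq_range]
  set n := Anat2.nlist D l k with hn
  have hsub : ∑ i ∈ Finset.range l.length, cnt a b (l.getD i 0 - 1)
      = ∑ i ∈ Finset.range n, cnt a b (l.getD i 0 - 1) := by
    refine (Finset.sum_subset ?_ fun i hi hin => ?_).symm
    · intro i hi
      exact Finset.mem_range.2 ((lt_nlist_iff hpw).1 (Finset.mem_range.1 hi)).1
    · rw [Finset.mem_range] at hi
      have hm := getD_mem hi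
      refine cnt_eq_zero (F := u (l.getD i 0))
        ⟨by have := (hp _ hm).two_le; omega, fun p _ hd => u_sub_one_le hd (hp _ hm)⟩ ?_
      rcases hreg _ hm with h | h
      · exact h.le
      · exact absurd (Finset.mem_range.2 ((lt_nlist_iff hpw).2 ⟨hi, h⟩)) hin
  rw [hsub]
  push_cast
  have e : (n : ℝ) * D = ∑ i ∈ Finset.range n, D := by simp
  rw [e, ← Finset.sum_sub_distrib]
  refine (Finset.abs_sum_le_sum_abs _ _).trans ?_
  have e2 : (n : ℝ) * tol = ∑ i ∈ Finset.range n, tol := by simp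
  rw [e2]
  refine Finset.sum_le_sum fun i hi => ?_
  obtain ⟨hil, hu⟩ := (lt_nlist_iff hpw).1 (Finset.mem_range.1 hi)
  obtain ⟨hN, hB'⟩ := hl _ (getD_mem hil)
  have h1 := hN.2 a b (by linarith) (by rw [ha, hb]; nlinarith) (by
    have : √(u (l.getD i 0)) ≤ D := (Real.sqrt_le_sqrt hB').trans hB
    simp only [lev] at hu
    rw [hb]; linarith)
  have e3 : b - a = D := by rw [ha, hb]; ring
  rw [e3] at h1
  exact h1.trans ((Real.rpow_le_rpow (u_nonneg _) hB' (by norm_num)).trans htol)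

lemma split_dvd (J : Finset ℕ) (b : ℕ → ℕ) {a : ℕ} (h : a ∣ ∏ j ∈ J, b j) :
    ∃ c : ℕ → ℕ, (∀ j ∈ J, c j ∣ b j) ∧ ∏ j ∈ J, c j = a := by
  induction J using Finset.induction_on generalizing a with
  | empty => exact ⟨fun _ => 1, by simp, by rw [Finset.prod_empty] at h ⊢; exact (Nat.dvd_one.1 h).symm⟩
  | insert j J hj ih =>
    rw [Finset.prod_insert hj] at h
    obtain ⟨d₁, d₂, h1, h2, rfl⟩ := exists_dvd_and_dvd_of_dvd_mul h
    obtain ⟨c, hc, hcp⟩ := ih h2
    refine ⟨Function.update c j d₁, fun i hi => ?_, ?_⟩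
    · rcases Finset.mem_insert.1 hi with rfl | hi'
      · simpa using h1
      · rw [Function.update_of_ne (fun e : i = j => hj (e ▸ hi'))]
        exact hc i hi'
    · rw [Finset.prod_insert hj, Function.update_self, ← hcp]
      congr 1
      exact Finset.prod_congr rfl fun i hi => Function.update_of_ne (fun e : i = j => hj (e ▸ hi)) _ _

/-- Two factorisations of the same number have a common refinement. -/
lemma refine_exists (I J : Finset ℕ) :
    ∀ a b : ℕ → ℕ, (∀ i ∈ I, 0 < a i) → (∀ j ∈ J, 0 < b j) →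
      ∏ i ∈ I, a i = ∏ j ∈ J, b j →
      ∃ e : ℕ → ℕ → ℕ, (∀ i ∈ I, ∏ j ∈ J, e i j = a i) ∧ ∀ j ∈ J, ∏ i ∈ I, e i j = b j := by
  induction I using Finset.induction_on with
  | empty =>
    intro a b _ _ h
    refine ⟨fun _ _ => 1, by simp, fun j hj => ?_⟩
    rw [Finset.prod_empty] at h ⊢
    exact (Nat.dvd_one.1 (h ▸ Finset.dvd_prod_of_mem b hj)).symm
  | insert i I hi ih =>
    intro a b ha hb h
    rw [Finset.prod_insert hi] at h
    obtain ⟨c, hc, hcp⟩ := split_dvd J b (h ▸ dvd_mul_right (a i) _)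
    have hcpos : ∀ j ∈ J, 0 < c j := fun j hj => Nat.pos_of_dvd_of_pos (hc j hj) (hb j hj)
    have hsplit : ∀ j ∈ J, c j * (b j / c j) = b j := fun j hj => Nat.mul_div_cancel' (hc j hj)
    obtain ⟨e, he1, he2⟩ := ih a (fun j => b j / c j)
      (fun x hx => ha x (Finset.mem_insert_of_mem hx))
      (fun j hj => Nat.div_pos (Nat.le_of_dvd (hb j hj) (hc j hj)) (hcpos j hj)) (by
        refine Nat.eq_of_mul_eq_mul_left (ha i (Finset.mem_insert_self i I)) ?_
        rw [h]
        nth_rewrite 1 [← hcp]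
        rw [← Finset.prod_mul_distrib]
        exact (Finset.prod_congr rfl hsplit).symm)
    refine ⟨Function.update e i c, fun x hx => ?_, fun j hj => ?_⟩
    · rcases Finset.mem_insert.1 hx with rfl | hx'
      · simpa using hcp
      · rw [Function.update_of_ne (fun h : x = i => hi (h ▸ hx'))]
        exact he1 x hx'
    · rw [Finset.prod_insert hi, Function.update_self, ← hsplit j hj, ← he2 j hj]
      congr 1
      exact Finset.prod_congr rfl fun x hx => by
        rw [Function.update_of_ne (fun h : x = i => hi (h ▸ hx))]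

end Col
end Vale.Agent.P031
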