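import Vale.Agent.P031.CollideMat

/-!
P031: summing the per-shape bound over all shapes.
-/

open Finset Real Filter

namespace Vale.Agent.P031
namespace Col

lemma rest_card_le {N L L' : ℕ} {Mt : Finset (ℕ × ℕ)} (hL : L ≤ N) (hL' : L' ≤ N)
    (hMt : ∀ i j, (i, j) ∈ Mt → (1 ≤ i ∧ i < L) ∧ (1 ≤ j ∧ j < L')) :
    (rest N L L' Mt).card ≤ (N + 1) ^ 2 := by
  have hsub : rest N L L' Mt ⊆ Finset.range (N + 1) ×ˢ Finset.range (N + 1) := by
    intro x hx
    rw [rest, Finset.mem_erase, ent, Finset.mem_union] at hx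
    rw [Finset.mem_product, Finset.mem_range, Finset.mem_range]
    rcases hx.2 with h | h
    · have := hMt x.1 x.2 h; omega
    · rw [Finset.mem_product, mem_free, mem_free] at h; omega
  refine (Finset.card_le_card hsub).trans ?_
  rw [Finset.card_product, Finset.card_range, sq]

lemma two_pow_le_exp (m : ℕ) : (2 : ℝ) ^ m ≤ exp m := by
  rw [← Real.exp_one_pow]
  exact pow_le_pow_left₀ zero_le_two (by linarith [Real.add_one_le_exp (1 : ℝ)]) m

lemma card_keys_le (N M : ℕ) :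
    ((((Finset.range (N + 1)) ×ˢ ((Finset.range (N + 1))
      ×ˢ ((Finset.range N ×ˢ Finset.range N).powerset ×ˢ ((Finset.range M).powerset
      ×ˢ (Finset.univ : Finset (Fin M → Fin (N + 1))))))).card : ℕ) : ℝ)
      ≤ exp (2 * N + (N : ℝ) ^ 2 + M + M * N) := by
  have hfun : (Finset.univ : Finset (Fin M → Fin (N + 1))).card = (N + 1) ^ M := by
    rw [Finset.card_univ, Fintype.card_fun, Fintype.card_fin, Fintype.card_fin]
  rw [Finset.card_product, Finset.card_product, Finset.card_product, Finset.card_product,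
    Finset.card_powerset, Finset.card_powerset, Finset.card_product, Finset.card_range,
    Finset.card_range, Finset.card_range, hfun]
  push_cast
  have hN1 : ((N : ℝ) + 1) ≤ exp N := Real.add_one_le_exp _
  have hsq : (2 : ℝ) ^ (N * N) ≤ exp ((N : ℝ) ^ 2) := by
    refine (two_pow_le_exp (N * N)).trans (le_of_eq ?_)
    push_cast; rw [sq]
  have hpowM : ((N : ℝ) + 1) ^ M ≤ exp ((M : ℝ) * N) := by
    rw [Real.exp_nat_mul]
    exact pow_le_pow_left₀ (by positivity) hN1 M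
  calc ((N : ℝ) + 1) * (((N : ℝ) + 1) * (2 ^ (N * N) * (2 ^ M * ((N : ℝ) + 1) ^ M)))
      ≤ exp N * (exp N * (exp ((N : ℝ) ^ 2) * (exp M * exp ((M : ℝ) * N)))) := by
        gcongr; exact two_pow_le_exp M
    _ = _ := by simp only [← exp_add]; ring_nf

lemma collide_at {C : ℝ} {k : ℕ} (hC : 0 < C)
    (hs : ∀ U M : ℕ, 1 ≤ U → U ≤ M → ∀ A : Finset ℕ, A.card ≤ 2 →
      (∀ a ∈ A, 1 ≤ a ∧ a ≤ M) → ∀ z : ℕ → ℝ, (∀ p, 0 ≤ z p ∧ z p ≤ 1) →
      ∑ n ∈ (Finset.Icc 1 U).filter (fun n => ∀ a ∈ A, (a * n + 1).Prime),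
          ∏ p ∈ n.primeFactors, z p
        ≤ C * (u M + 1) ^ k * U * Real.exp (-((A.card : ℝ) * u U)
            - ∑ p ∈ (Finset.range (U + 1)).filter Nat.Prime, (1 - z p) / ((p : ℝ) - 1)))
    {C₂ : ℝ} {k₂ : ℕ} (hC₂ : 0 < C₂)
    (hlog : ∀ R Y M : ℕ, 1 ≤ R → Y ≤ M → ∀ A : Finset ℕ, A.card ≤ 2 →
      (∀ a ∈ A, 1 ≤ a ∧ a ≤ M) → ∀ z : ℕ → ℝ, (∀ p, 0 ≤ z p ∧ z p ≤ 1) →
      ∑ n ∈ (Finset.Icc R Y).filter (fun n => ∀ a ∈ A, (a * n + 1).Prime),
          (∏ p ∈ n.primeFactors, z p) / (n : ℝ)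
        ≤ C₂ * (u M + 1) ^ k₂ * Real.exp (-((A.card : ℝ) * u R)
            + ∑ p ∈ (Finset.range (Y + 1)).filter Nat.Prime, z p / ((p : ℝ) - 1)))
    {S D tol X B : ℝ} {N M : ℕ} (hp : Par S D tol N M)
    (hB0 : 1 ≤ B) (hB1 : C * (3 * S + 1) ^ k ≤ B)
    (hB2 : C₂ * (3 * S + 1) ^ k₂ * ((N : ℝ) + 1) ^ 2 ≤ B)
    {Y : ℕ}
    (hX : ∀ (L L' : ℕ) (Mt : Finset (ℕ × ℕ)) (Rg : Finset ℕ) (n : ℕ → ℕ),
      Info S D N M L L' Mt Rg n →
      rankin D tol Rg n + (-(2 * (S - √S - 3 * tol))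
          - ∑ k ∈ Rg, (if n k = 0 then 0 else 1 - 1 / (n k : ℝ)) * (D - 1))
        + (∑ x ∈ rest N L L' Mt, emass Y (zw D M Rg n) x
            - ∑ f ∈ forms L L' Mt, gain D tol Rg n f) ≤ X)
    (hY : u Y ≤ 3 * S) (P : Finset ((List ℕ × ℕ) × (List ℕ × ℕ)))
    (hP : ∀ x ∈ P, Hyp S Y x.1.1 x.1.2 x.2.1 x.2.2) :
    (P.card : ℝ) ≤ exp (2 * N + (N : ℝ) ^ 2 + M + M * N) * (Y * B ^ ((N + 1) ^ 2 + 1) * exp X) := by
  classical
  let key : (List ℕ × ℕ) × (List ℕ × ℕ) →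
      ℕ × ℕ × Finset (ℕ × ℕ) × Finset ℕ × (Fin M → Fin (N + 1)) := fun x =>
    (x.1.1.length, x.2.1.length, matched N x.1.1 x.2.1, regular D M x.1.1 x.2.1,
      fun i => ⟨min (Anat2.nlist D x.1.1 i) N, Nat.lt_succ_of_le (min_le_right _ _)⟩)
  set K := Finset.range (N + 1) ×ˢ Finset.range (N + 1)
    ×ˢ (Finset.range N ×ˢ Finset.range N).powerset ×ˢ (Finset.range M).powerset
    ×ˢ (Finset.univ : Finset (Fin M → Fin (N + 1))) with hK
  have hmaps : ∀ x ∈ P, key x ∈ K := by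
    intro x hx
    simp only [key, hK, Finset.mem_product, Finset.mem_range, Finset.mem_powerset,
      Finset.mem_univ, and_true]
    exact ⟨Nat.lt_succ_of_le ((hP x hx).len₁ hp), Nat.lt_succ_of_le ((hP x hx).len₂ hp),
      Finset.filter_subset _ _, Finset.filter_subset _ _⟩
  have hfib : ∀ c ∈ K, ((P.filter (fun x => key x = c)).card : ℝ)
      ≤ Y * B ^ ((N + 1) ^ 2 + 1) * exp X := by
    intro c _
    rcases (P.filter (fun x => key x = c)).eq_empty_or_nonempty with he | ⟨x₀, hx₀⟩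
    · rw [he, Finset.card_empty, Nat.cast_zero]
      have : (0 : ℝ) ≤ B := by linarith
      positivity
    obtain ⟨L, L', Mt, Rg, nv⟩ := c
    set n := Anat2.extv nv with hn
    set F := P.filter (fun x => key x = (L, L', Mt, Rg, nv)) with hF
    have hfacts : ∀ x ∈ F, x.1.1.length = L ∧ x.2.1.length = L' ∧ matched N x.1.1 x.2.1 = Mt ∧
        regular D M x.1.1 x.2.1 = Rg ∧
        ∀ i ∈ regular D M x.1.1 x.2.1, n i = Anat2.nlist D x.1.1 i := by
      intro x hx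
      obtain ⟨hxP, hk⟩ := Finset.mem_filter.1 hx
      simp only [key, Prod.mk.injEq] at hk
      refine ⟨hk.1, hk.2.1, hk.2.2.1, hk.2.2.2.1, fun i hi => ?_⟩
      have hiM := (mem_regular.1 hi).1
      rw [hn, Anat2.extv, dif_pos hiM, ← hk.2.2.2.2]
      exact min_eq_left ((nlist_le_length D x.1.1 i).trans ((hP x hxP).len₁ hp))
    have hmat : ∀ x ∈ F, ∃ e : ℕ × ℕ → ℕ, MatOK Y S D tol N M L L' Mt Rg n e ∧
        Recovers N x.1.1 x.1.2 x.2.1 x.2.2 Mt e := by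
      intro x hx
      obtain ⟨h1, h2, h3, h4, h5⟩ := hfacts x hx
      obtain ⟨e, he1, he2⟩ := exists_mat hp (hP x (Finset.mem_filter.1 hx).1) h5
      rw [h1, h2, h3, h4] at he1
      rw [h3] at he2
      exact ⟨e, he1, he2⟩
    choose! mat hmat1 hmat2 using hmat
    have hinj : Set.InjOn mat F := by
      intro x hx y hy hxy
      obtain ⟨h1, h2, -, -, -⟩ := hfacts x hx
      obtain ⟨g1, g2, -, -, -⟩ := hfacts y hy
      have := recovers_inj hp (hP x (Finset.mem_filter.1 hx).1) (hP y (Finset.mem_filter.1 hy).1)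
        (g1.trans h1.symm) (g2.trans h2.symm) (hmat2 x hx) (hxy ▸ hmat2 y hy)
      simpa using this
    obtain ⟨h1, h2, h3, h4, h5⟩ := hfacts x₀ hx₀
    have hinfo : Info S D N M L L' Mt Rg n := by
      have := info_of hp (hP x₀ (Finset.mem_filter.1 hx₀).1) h5
      rwa [h1, h2, h3, h4] at this
    have hb := card_le (Y := Y) hC hs hC₂ hlog hp hinfo (F.image mat) (fun e he => by
      obtain ⟨x, hx, rfl⟩ := Finset.mem_image.1 he
      exact hmat1 x hx)
    rw [Finset.card_image_of_injOn hinj] at hb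
    refine hb.trans ?_
    have hu := u_nonneg Y
    have hQ1 : C * (u Y + 1) ^ k ≤ B := le_trans
      (mul_le_mul_of_nonneg_left (pow_le_pow_left₀ (by linarith) (by linarith) k) hC.le) hB1
    set R := rest N L L' Mt with hR
    have hRc : R.card ≤ (N + 1) ^ 2 := rest_card_le hinfo.hL.2 hinfo.hL'.2 hinfo.hMt
    have hQ2 : C₂ * (u Y + 1) ^ k₂ * (R.card : ℝ) ≤ B := by
      refine le_trans ?_ hB2
      refine mul_le_mul (mul_le_mul_of_nonneg_left
        (pow_le_pow_left₀ (by linarith) (by linarith) k₂) hC₂.le) ?_ (Nat.cast_nonneg _)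
        (mul_nonneg hC₂.le (pow_nonneg (by linarith) _))
      exact_mod_cast hRc
    have hpow : (C₂ * (u Y + 1) ^ k₂ * (R.card : ℝ)) ^ R.card ≤ B ^ ((N + 1) ^ 2) :=
      (pow_le_pow_left₀ (mul_nonneg (mul_nonneg hC₂.le (pow_nonneg (by linarith) _)) (Nat.cast_nonneg _)) hQ2 _).trans (pow_le_pow_right₀ hB0 hRc)
    calc _ = C * (u Y + 1) ^ k * (C₂ * (u Y + 1) ^ k₂ * (R.card : ℝ)) ^ R.card * (Y : ℝ)
          * exp (rankin D tol Rg n + (-(2 * (S - √S - 3 * tol))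
              - ∑ k ∈ Rg, (if n k = 0 then 0 else 1 - 1 / (n k : ℝ)) * (D - 1))
            + (∑ x ∈ R, emass Y (zw D M Rg n) x
              - ∑ f ∈ forms L L' Mt, gain D tol Rg n f)) := by
          rw [exp_add, exp_add]; ring
      _ ≤ B * B ^ ((N + 1) ^ 2) * (Y : ℝ) * exp X := by
          refine mul_le_mul (mul_le_mul_of_nonneg_right (mul_le_mul hQ1 hpow (pow_nonneg (mul_nonneg (mul_nonneg hC₂.le
            (pow_nonneg (by linarith) _)) (Nat.cast_nonneg _)) _)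
            (by linarith)) (Nat.cast_nonneg _)) (exp_le_exp.2 (hX L L' Mt Rg n hinfo))
            (exp_pos _).le (mul_nonneg (mul_nonneg (by linarith) (pow_nonneg (by linarith) _))
              (Nat.cast_nonneg _))
      _ = _ := by rw [pow_succ]; ring
  have hcardK : (K.card : ℝ) ≤ exp (2 * N + (N : ℝ) ^ 2 + M + M * N) := card_keys_le N M
  calc (P.card : ℝ) = ∑ c ∈ K, ((P.filter (fun x => key x = c)).card : ℝ) := by
        rw [← Nat.cast_sum, ← Finset.card_eq_sum_card_fiberwise hmaps]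
    _ ≤ ∑ c ∈ K, (Y : ℝ) * B ^ ((N + 1) ^ 2 + 1) * exp X := Finset.sum_le_sum hfib
    _ = (K.card : ℝ) * ((Y : ℝ) * B ^ ((N + 1) ^ 2 + 1) * exp X) := by
        rw [Finset.sum_const, nsmul_eq_mul]
    _ ≤ _ := by
        refine mul_le_mul_of_nonneg_right hcardK ?_
        have : (0 : ℝ) ≤ B := by linarith
        positivity

end Col
end Vale.Agent.P031
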