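import Vale.Agent.P031.CollideBound

/-!
P031: the shape and the matrix of a colliding pair.
-/

open Finset Real Filter

namespace Vale.Agent.P031
namespace Col

variable {S D tol : ℝ} {N M Y : ℕ} {l₁ l₂ : List ℕ} {r₁ r₂ : ℕ} {n : ℕ → ℕ}

lemma mem_free {N L i : ℕ} {T : Finset ℕ} : i ∈ free N L T ↔ i = N ∨ (i < L ∧ i ∉ T) := by
  simp [free]

lemma mem_insert_range {N L i : ℕ} : i ∈ insert N (Finset.range L) ↔ i = N ∨ i < L := by simp

lemma Hyp.nlist₁ (h : Hyp S Y l₁ r₁ l₂ r₂) {k i : ℕ} (hk : k ∈ regular D M l₁ l₂) :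
    (i < Anat2.nlist D l₁ k ↔ i < l₁.length ∧ ((k : ℝ) + 3) * D < lev l₁ i) ∧
      (i < l₁.length → ¬ i < Anat2.nlist D l₁ k → lev l₁ i < ((k : ℝ) + 1) * D) := by
  refine ⟨lt_nlist_iff h.rep₁.1, fun hi hn => ?_⟩
  rw [lt_nlist_iff h.rep₁.1] at hn
  rcases (mem_regular.1 hk).2.1 _ (getD_mem hi) with h' | h'
  · exact h'
  · exact absurd ⟨hi, h'⟩ hn

lemma Hyp.nlist₂ (h : Hyp S Y l₁ r₁ l₂ r₂) {k i : ℕ} (hk : k ∈ regular D M l₁ l₂) :
    (i < Anat2.nlist D l₂ k ↔ i < l₂.length ∧ ((k : ℝ) + 3) * D < lev l₂ i) ∧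
      (i < l₂.length → ¬ i < Anat2.nlist D l₂ k → lev l₂ i < ((k : ℝ) + 1) * D) := by
  refine ⟨lt_nlist_iff h.rep₂.1, fun hi hn => ?_⟩
  rw [lt_nlist_iff h.rep₂.1] at hn
  rcases (mem_regular.1 hk).2.2 _ (getD_mem hi) with h' | h'
  · exact h'
  · exact absurd ⟨hi, h'⟩ hn

lemma count_le_lev (hD : 0 < D) {Rg : Finset ℕ} {t : ℝ} (ht : 0 ≤ t) {P : ℕ → Prop}
    [DecidablePred P] (h : ∀ k ∈ Rg, P k → ((k : ℝ) + 3) * D < t) :
    D * ((Rg.filter P).card : ℝ) ≤ t := by
  have hsub : Rg.filter P ⊆ Finset.range ⌊t / D⌋₊ := by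
    intro k hk
    obtain ⟨h1, h2⟩ := Finset.mem_filter.1 hk
    have h3 := h k h1 h2
    rw [Finset.mem_range]
    have h4 : ((k + 1 : ℕ) : ℝ) ≤ t / D := by
      rw [le_div_iff₀ hD]; push_cast; linarith
    exact Nat.le_floor h4
  have h1 : ((Rg.filter P).card : ℝ) ≤ t / D := by
    refine le_trans ?_ (Nat.floor_le (by positivity))
    exact_mod_cast (Finset.card_le_card hsub).trans (Finset.card_range _).le
  rw [le_div_iff₀ hD] at h1
  linarith

lemma info_of (hp : Par S D tol N M) (h : Hyp S Y l₁ r₁ l₂ r₂)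
    (hn : ∀ k ∈ regular D M l₁ l₂, n k = Anat2.nlist D l₁ k) :
    Info S D N M l₁.length l₂.length (matched N l₁ l₂) (regular D M l₁ l₂) n := by
  classical
  have hD : 0 < D := lt_of_lt_of_le one_pos hp.one_le
  have hlen₁ := h.len₁ hp
  have hlen₂ := h.len₂ hp
  refine ⟨⟨h.pos₁, hlen₁⟩, ⟨h.pos₂, hlen₂⟩, fun i j hij => ?_, matched_injOn_fst h hp,
    matched_injOn_snd h hp, fun k hk x hx => ?_, fun k hk => ?_,
    fun k hk => Finset.mem_range.2 (mem_regular.1 hk).1, ?_, ?_, fun k hk hpos => ?_⟩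
  · obtain ⟨h1, h2, -⟩ := (mem_matched hlen₁ hlen₂).1 hij
    exact ⟨⟨(h.matched_pos hp hij).1, h1⟩, (h.matched_pos hp hij).2, h2⟩
  · obtain ⟨i, j⟩ := x
    obtain ⟨h1, h2, h3⟩ := (mem_matched hlen₁ hlen₂).1 hx
    rw [hn k hk]
    conv_rhs => rw [h.nlist_eq hp hk]
    rw [(h.nlist₁ hk).1, (h.nlist₂ hk).1]
    simp only [lev, h3]
    exact ⟨fun hh => ⟨h2, hh.2⟩, fun hh => ⟨h1, hh.2⟩⟩
  · rw [hn k hk]
    exact ⟨nlist_le_length D l₁ k, (h.nlist_eq hp hk).le.trans (nlist_le_length D l₂ k)⟩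
  · refine (card_irregular hD M l₁ l₂).trans ?_
    omega
  · have e : ∀ k ∈ regular D M l₁ l₂, D * ((n k : ℝ) * log (n k) - (max 1 (n k : ℝ) - 1))
        = ∑ i ∈ Finset.range l₁.length, if i < Anat2.nlist D l₁ k then D * coef i else 0 := by
      intro k hk
      rw [hn k hk, ← Anat2.sum_coef, Finset.mul_sum, ← Finset.sum_filter]
      refine Finset.sum_congr ?_ fun i _ => rfl
      ext i
      simp only [Finset.mem_filter, Finset.mem_range]
      exact ⟨fun hi => ⟨lt_of_lt_of_le hi (nlist_le_length D l₁ k), hi⟩, fun hi => hi.2⟩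
    rw [Finset.sum_congr rfl e, Finset.sum_comm]
    refine le_trans ?_ h.hcost
    rw [cost]
    refine Finset.sum_le_sum fun i hi => ?_
    rw [← Finset.sum_filter, Finset.sum_const, nsmul_eq_mul]
    have h1 := count_le_lev (Rg := regular D M l₁ l₂) (P := fun k => i < Anat2.nlist D l₁ k) hD
      (u_nonneg (l₁.getD i 0)) fun k hk hik => ((h.nlist₁ hk).1.1 hik).2
    calc _ = coef i * (D * _) := by ring
      _ ≤ coef i * u (l₁.getD i 0) := mul_le_mul_of_nonneg_left h1 (coef_nonneg i)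
  · rw [hn k hk] at hpos
    have h1 := ((h.nlist₁ hk).1.1 hpos).2
    have h2 := (abs_le.1 h.near).2
    linarith

/-- The products of the rows and columns of a matrix recover the two representations. -/
def Recovers (N : ℕ) (l₁ : List ℕ) (r₁ : ℕ) (l₂ : List ℕ) (r₂ : ℕ) (Mt : Finset (ℕ × ℕ))
    (e : ℕ × ℕ → ℕ) : Prop :=
  (∀ i ∈ insert N (Finset.range l₁.length),
      ∏ x ∈ (ent N l₁.length l₂.length Mt).filter (fun x => x.1 = i), e x = side N l₁ r₁ i) ∧
    ∀ j ∈ insert N (Finset.range l₂.length),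
      ∏ x ∈ (ent N l₁.length l₂.length Mt).filter (fun x => x.2 = j), e x = side N l₂ r₂ j

lemma prod_side (N : ℕ) (l : List ℕ) (r : ℕ) (hl : l.length ≤ N) :
    ∏ i ∈ insert N (Finset.range l.length), side N l r i = pval l * r := by
  rw [Finset.prod_insert (by simp; omega), pval_eq_prod, side, if_pos rfl, mul_comm]
  congr 1
  refine Finset.prod_congr rfl fun i hi => ?_
  rw [Finset.mem_range] at hi
  rw [side, if_neg (by omega)]

lemma side_pos {N : ℕ} {l : List ℕ} {r : ℕ} (hr : r ≠ 0) (hp : ∀ q ∈ l, q.Prime) {i : ℕ}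
    (hi : i ∈ insert N (Finset.range l.length)) : 0 < side N l r i := by
  rw [side]
  split
  · exact Nat.pos_of_ne_zero hr
  · have := mem_insert_range.1 hi
    have := (hp _ (getD_mem (show i < l.length by omega))).two_le
    omega

lemma prod_split {N L : ℕ} {T : Finset ℕ} (hT : ∀ i ∈ T, i < L) (hL : L ≤ N) (f : ℕ → ℕ) :
    ∏ i ∈ insert N (Finset.range L), f i = (∏ i ∈ T, f i) * ∏ i ∈ free N L T, f i := by
  have hd : Disjoint T (free N L T) := Finset.disjoint_left.2 fun i h1 h2 => by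
    rcases mem_free.1 h2 with rfl | ⟨-, h3⟩
    · exact absurd (hT _ h1) (by omega)
    · exact h3 h1
  rw [← Finset.prod_union hd]
  refine Finset.prod_congr ?_ fun i _ => rfl
  ext i
  rw [mem_insert_range, Finset.mem_union, mem_free]
  constructor
  · rintro (rfl | hi)
    · exact Or.inr (Or.inl rfl)
    · by_cases hiT : i ∈ T
      · exact Or.inl hiT
      · exact Or.inr (Or.inr ⟨hi, hiT⟩)
  · rintro (hiT | rfl | ⟨hi, -⟩)
    · exact Or.inr (hT i hiT)
    · exact Or.inl rfl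
    · exact Or.inr hi

lemma exists_recovers (hp : Par S D tol N M) (h : Hyp S Y l₁ r₁ l₂ r₂) :
    ∃ e : ℕ × ℕ → ℕ, (∀ x, 1 ≤ e x) ∧
      (∀ x ∉ ent N l₁.length l₂.length (matched N l₁ l₂), e x = 1) ∧
      ∏ x ∈ ent N l₁.length l₂.length (matched N l₁ l₂), e x = pval l₁ * r₁ ∧
      Recovers N l₁ r₁ l₂ r₂ (matched N l₁ l₂) e := by
  classical
  have hlen₁ := h.len₁ hp
  have hlen₂ := h.len₂ hp
  set Mt := matched N l₁ l₂ with hMt
  set T := Mt.image Prod.fst with hT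
  set T' := Mt.image Prod.snd with hT'
  set I := free N l₁.length T with hI
  set J := free N l₂.length T' with hJ
  have hmem : ∀ x ∈ Mt, x.1 < l₁.length ∧ x.2 < l₂.length ∧ l₁.getD x.1 0 = l₂.getD x.2 0 :=
    fun x hx => (mem_matched hlen₁ hlen₂).1 hx
  have hTlt : ∀ i ∈ T, i < l₁.length := fun i hi => by
    obtain ⟨x, hx, rfl⟩ := Finset.mem_image.1 hi; exact (hmem x hx).1
  have hTlt' : ∀ i ∈ T', i < l₂.length := fun i hi => by
    obtain ⟨x, hx, rfl⟩ := Finset.mem_image.1 hi; exact (hmem x hx).2.1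
  have hside : ∀ x ∈ Mt, side N l₁ r₁ x.1 = side N l₂ r₂ x.2 := fun x hx => by
    obtain ⟨h1, h2, h3⟩ := hmem x hx
    rw [side, if_neg (show x.1 ≠ N by omega), side, if_neg (show x.2 ≠ N by omega), h3]
  have hsub : ∀ i ∈ I, i ∈ insert N (Finset.range l₁.length) := fun i hi =>
    mem_insert_range.2 ((mem_free.1 hi).imp id And.left)
  have hsub' : ∀ i ∈ J, i ∈ insert N (Finset.range l₂.length) := fun i hi =>
    mem_insert_range.2 ((mem_free.1 hi).imp id And.left)
  have hpos₁ : ∀ i ∈ insert N (Finset.range l₁.length), 0 < side N l₁ r₁ i := fun i hi =>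
    side_pos h.rep₁.2.2.2.1 (fun q hq => (h.rep₁.2.2.1 q hq).1.1) hi
  have hpos₂ : ∀ i ∈ insert N (Finset.range l₂.length), 0 < side N l₂ r₂ i := fun i hi =>
    side_pos h.rep₂.2.2.2.1 (fun q hq => (h.rep₂.2.2.1 q hq).1.1) hi
  set P := ∏ x ∈ Mt, side N l₁ r₁ x.1 with hP
  have hP0 : 0 < P := Finset.prod_pos fun x hx =>
    hpos₁ _ (mem_insert_range.2 (Or.inr (hmem x hx).1))
  have hv₁ : P * ∏ i ∈ I, side N l₁ r₁ i = pval l₁ * r₁ := by
    rw [← prod_side N l₁ r₁ hlen₁, prod_split hTlt hlen₁, hT,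
      Finset.prod_image (matched_injOn_fst h hp)]
  have hv₂ : P * ∏ i ∈ J, side N l₂ r₂ i = pval l₂ * r₂ := by
    rw [← prod_side N l₂ r₂ hlen₂, prod_split hTlt' hlen₂, hT',
      Finset.prod_image (matched_injOn_snd h hp), hP, Finset.prod_congr rfl hside]
  obtain ⟨e0, he1, he2⟩ := refine_exists I J (side N l₁ r₁) (side N l₂ r₂)
    (fun i hi => hpos₁ i (hsub i hi)) (fun i hi => hpos₂ i (hsub' i hi))
    (Nat.eq_of_mul_eq_mul_left hP0 (hv₁.trans (h.value.trans hv₂.symm)))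
  set e : ℕ × ℕ → ℕ := fun x =>
    if x ∈ Mt then side N l₁ r₁ x.1 else if x ∈ I ×ˢ J then e0 x.1 x.2 else 1 with he
  have hIJ : ∀ x ∈ I ×ˢ J, x ∉ Mt := by
    intro x hx hxm
    rcases mem_free.1 (Finset.mem_product.1 hx).1 with h1 | ⟨-, h1⟩
    · have := (hmem x hxm).1; omega
    · exact h1 (Finset.mem_image_of_mem _ hxm)
  have heM : ∀ x ∈ Mt, e x = side N l₁ r₁ x.1 := fun x hx => if_pos hx
  have heIJ : ∀ x ∈ I ×ˢ J, e x = e0 x.1 x.2 := fun x hx => by
    simp only [he, if_neg (hIJ x hx), if_pos hx]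
  have hent : ent N l₁.length l₂.length Mt = Mt ∪ I ×ˢ J := rfl
  refine ⟨e, fun x => ?_, fun x hx => ?_, ?_, fun i hi => ?_, fun j hj => ?_⟩
  · by_cases hx : x ∈ Mt
    · rw [heM x hx]; exact hpos₁ _ (mem_insert_range.2 (Or.inr (hmem x hx).1))
    by_cases hx' : x ∈ I ×ˢ J
    · rw [heIJ x hx']
      obtain ⟨h1, h2⟩ := Finset.mem_product.1 hx'
      refine Nat.pos_of_ne_zero fun h0 => ?_
      exact (hpos₁ _ (hsub _ h1)).ne' ((he1 _ h1).symm.trans (Finset.prod_eq_zero h2 h0))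
    · simp only [he, if_neg hx, if_neg hx', le_refl]
  · rw [hent, Finset.mem_union, not_or] at hx
    simp only [he, if_neg hx.1, if_neg hx.2]
  · rw [hent, Finset.prod_union (Finset.disjoint_right.2 hIJ), Finset.prod_congr rfl heM,
      Finset.prod_congr rfl heIJ, Finset.prod_product, Finset.prod_congr rfl he1]
    exact hv₁
  · by_cases hiT : i ∈ T
    · obtain ⟨x, hx, rfl⟩ := Finset.mem_image.1 hiT
      have : (ent N l₁.length l₂.length Mt).filter (fun y => y.1 = x.1) = {x} := by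
        ext y
        rw [hent, Finset.mem_filter, Finset.mem_union, Finset.mem_singleton]
        constructor
        · rintro ⟨hy | hy, hyx⟩
          · exact matched_injOn_fst h hp hy hx hyx
          · rcases mem_free.1 (Finset.mem_product.1 hy).1 with h1 | ⟨-, h1⟩
            · have := (hmem x hx).1; omega
            · exact absurd (hyx ▸ hiT) h1
        · rintro rfl; exact ⟨Or.inl hx, rfl⟩
      rw [this, Finset.prod_singleton, heM x hx]
    · have hiI : i ∈ I := mem_free.2 ((mem_insert_range.1 hi).imp id fun h => ⟨h, hiT⟩)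
      have : (ent N l₁.length l₂.length Mt).filter (fun y => y.1 = i) = {i} ×ˢ J := by
        ext y
        rw [hent, Finset.mem_filter, Finset.mem_union, Finset.mem_product, Finset.mem_product,
          Finset.mem_singleton]
        constructor
        · rintro ⟨hy | hy, hyi⟩
          · exact absurd (Finset.mem_image.2 ⟨y, hy, hyi⟩) hiT
          · exact ⟨hyi, hy.2⟩
        · rintro ⟨rfl, hy⟩; exact ⟨Or.inr ⟨hiI, hy⟩, rfl⟩
      rw [this, Finset.prod_product, Finset.prod_singleton, ← he1 i hiI]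
      exact Finset.prod_congr rfl fun j hj => heIJ (i, j) (Finset.mem_product.2 ⟨hiI, hj⟩)
  · by_cases hjT : j ∈ T'
    · obtain ⟨x, hx, rfl⟩ := Finset.mem_image.1 hjT
      have : (ent N l₁.length l₂.length Mt).filter (fun y => y.2 = x.2) = {x} := by
        ext y
        rw [hent, Finset.mem_filter, Finset.mem_union, Finset.mem_singleton]
        constructor
        · rintro ⟨hy | hy, hyx⟩
          · exact matched_injOn_snd h hp hy hx hyx
          · rcases mem_free.1 (Finset.mem_product.1 hy).2 with h1 | ⟨-, h1⟩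
            · have := (hmem x hx).2.1; omega
            · exact absurd (hyx ▸ hjT) h1
        · rintro rfl; exact ⟨Or.inl hx, rfl⟩
      rw [this, Finset.prod_singleton, heM x hx, hside x hx]
    · have hjJ : j ∈ J := mem_free.2 ((mem_insert_range.1 hj).imp id fun h => ⟨h, hjT⟩)
      have : (ent N l₁.length l₂.length Mt).filter (fun y => y.2 = j) = I ×ˢ {j} := by
        ext y
        rw [hent, Finset.mem_filter, Finset.mem_union, Finset.mem_product, Finset.mem_product,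
          Finset.mem_singleton]
        constructor
        · rintro ⟨hy | hy, hyj⟩
          · exact absurd (Finset.mem_image.2 ⟨y, hy, hyj⟩) hjT
          · exact ⟨hy.1, hyj⟩
        · rintro ⟨hy, rfl⟩; exact ⟨Or.inr ⟨hy, hjJ⟩, rfl⟩
      rw [this, Finset.prod_product, ← he2 j hjJ]
      exact Finset.prod_congr rfl fun i hi => by
        rw [Finset.prod_singleton, heIJ (i, j) (Finset.mem_product.2 ⟨hi, hjJ⟩)]

lemma exists_mat (hp : Par S D tol N M) (h : Hyp S Y l₁ r₁ l₂ r₂)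
    (hn : ∀ k ∈ regular D M l₁ l₂, n k = Anat2.nlist D l₁ k) :
    ∃ e : ℕ × ℕ → ℕ,
      MatOK Y S D tol N M l₁.length l₂.length (matched N l₁ l₂) (regular D M l₁ l₂) n e ∧
      Recovers N l₁ r₁ l₂ r₂ (matched N l₁ l₂) e := by
  classical
  obtain ⟨e, he1, he0, hev, hrec⟩ := exists_recovers hp h
  refine ⟨e, ?_, hrec⟩
  have hinfo := info_of hp h hn
  have hlen₁ := h.len₁ hp
  have hlen₂ := h.len₂ hp
  have hD : 0 < D := lt_of_lt_of_le one_pos hp.one_le
  set Mt := matched N l₁ l₂ with hMt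
  set L := l₁.length with hL
  set L' := l₂.length with hL'
  set Rg := regular D M l₁ l₂ with hRg
  obtain ⟨hrow, hcol⟩ := hrec
  have hfst : ∀ x ∈ ent N L L' Mt,
      x.1 ∈ insert N (Finset.range L) ∧ x.2 ∈ insert N (Finset.range L') := by
    intro x hx
    rcases Finset.mem_union.1 hx with hx | hx
    · obtain ⟨⟨-, h1⟩, -, h2⟩ := hinfo.hMt x.1 x.2 hx
      exact ⟨mem_insert_range.2 (Or.inr h1), mem_insert_range.2 (Or.inr h2)⟩
    · obtain ⟨h1, h2⟩ := Finset.mem_product.1 hx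
      exact ⟨mem_insert_range.2 ((mem_free.1 h1).imp id And.left),
        mem_insert_range.2 ((mem_free.1 h2).imp id And.left)⟩
  have hdiv₁ : ∀ x ∈ ent N L L' Mt, e x ∣ side N l₁ r₁ x.1 := fun x hx => by
    rw [← hrow x.1 (hfst x hx).1]
    exact Finset.dvd_prod_of_mem e (Finset.mem_filter.2 ⟨hx, rfl⟩)
  have hdiv₂ : ∀ x ∈ ent N L L' Mt, e x ∣ side N l₂ r₂ x.2 := fun x hx => by
    rw [← hcol x.2 (hfst x hx).2]
    exact Finset.dvd_prod_of_mem e (Finset.mem_filter.2 ⟨hx, rfl⟩)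
  have hside₁ : ∀ i, i < L → side N l₁ r₁ i = l₁.getD i 0 - 1 := fun i hi => if_neg (by omega)
  have hside₂ : ∀ j, j < L' → side N l₂ r₂ j = l₂.getD j 0 - 1 := fun j hj => if_neg (by omega)
  have hprime₁ : ∀ i, i < L → (side N l₁ r₁ i + 1).Prime := fun i hi => by
    have := (h.rep₁.2.2.1 _ (getD_mem hi)).1.1
    rw [hside₁ i hi, Nat.sub_add_cancel this.one_le]
    exact this
  have hprime₂ : ∀ j, j < L' → (side N l₂ r₂ j + 1).Prime := fun j hj => by
    have := (h.rep₂.2.2.1 _ (getD_mem hj)).1.1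
    rw [hside₂ j hj, Nat.sub_add_cancel this.one_le]
    exact this
  have hlrow : ∀ i, 1 ≤ i → (rest N L L' Mt).filter (fun x => x.1 = i)
      = (ent N L L' Mt).filter (fun x => x.1 = i) := fun i hi => by
    ext x
    simp only [rest, Finset.mem_filter, Finset.mem_erase]
    exact ⟨fun hx => ⟨hx.1.2, hx.2⟩, fun hx => ⟨⟨fun h0 => by rw [h0] at hx; omega, hx.1⟩, hx.2⟩⟩
  have hlcol : ∀ j, 1 ≤ j → (rest N L L' Mt).filter (fun x => x.2 = j)
      = (ent N L L' Mt).filter (fun x => x.2 = j) := fun j hj => by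
    ext x
    simp only [rest, Finset.mem_filter, Finset.mem_erase]
    exact ⟨fun hx => ⟨hx.1.2, hx.2⟩, fun hx => ⟨⟨fun h0 => by rw [h0] at hx; omega, hx.1⟩, hx.2⟩⟩
  have hle2 : ∀ q, u q ≤ 2 * S → (u q) ^ (3 / 5 : ℝ) ≤ tol := fun q hq =>
    (Real.rpow_le_rpow (u_nonneg q) hq (by norm_num)).trans hp.htol
  have hbig : ∀ (B : Finset (ℕ × ℕ)) (q : ℕ), Normal q → D < u q → u q ≤ 2 * S →
      ∏ x ∈ B, e x = q - 1 →
      ∃ x ∈ B, ∃ p : ℕ, p.Prime ∧ p ∣ e x ∧ u q - 3 * tol < u p ∧ u q - 3 * tol ≤ u (e x) := by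
    intro B q hq hDq hq2 heq
    obtain ⟨p, hpp, hpd, hpu⟩ := hp.hbig q hq hDq
    rw [← heq] at hpd
    obtain ⟨x, hx, hpx⟩ := (Prime.dvd_finsetProd_iff hpp.prime _).1 hpd
    have h1 : u q - 3 * tol < u p := by linarith [hle2 q hq2]
    exact ⟨x, hx, p, hpp, hpx, h1,
      h1.le.trans (u_mono (Nat.le_of_dvd (he1 x) hpx))⟩
  have hmem₁ : ∀ i, i < L → Normal (l₁.getD i 0) ∧ u (l₁.getD i 0) ≤ 2 * S :=
    fun i hi => h.normal₁ hp _ (getD_mem hi)
  have hmem₂ : ∀ j, j < L' → Normal (l₂.getD j 0) ∧ u (l₂.getD j 0) ≤ 2 * S :=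
    fun j hj => h.normal₂ hp _ (getD_mem hj)
  have h00 : ((0, 0) : ℕ × ℕ) ∈ ent N L L' Mt := by
    refine Finset.mem_union_right _ (Finset.mem_product.2 ⟨?_, ?_⟩) <;>
      refine mem_free.2 (Or.inr ⟨?_, ?_⟩)
    · exact h.pos₁
    · rw [Finset.mem_image]
      rintro ⟨⟨i, j⟩, hm, rfl⟩
      exact absurd (h.matched_pos hp hm).1 (by decide)
    · exact h.pos₂
    · rw [Finset.mem_image]
      rintro ⟨⟨i, j⟩, hm, rfl⟩
      exact absurd (h.matched_pos hp hm).2 (by decide)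
  have hrow0 : e (0, 0) * ∏ x ∈ (rest N L L' Mt).filter (fun x => x.1 = 0), e x
      = side N l₁ r₁ 0 := by
    have hm : ((0, 0) : ℕ × ℕ) ∈ (ent N L L' Mt).filter (fun x => x.1 = 0) :=
      Finset.mem_filter.2 ⟨h00, rfl⟩
    rw [rest, Finset.filter_erase, Finset.mul_prod_erase _ _ hm]
    exact hrow 0 (mem_insert_range.2 (Or.inr h.pos₁))
  have hcol0 : e (0, 0) * ∏ x ∈ (rest N L L' Mt).filter (fun x => x.2 = 0), e x
      = side N l₂ r₂ 0 := by
    have hm : ((0, 0) : ℕ × ℕ) ∈ (ent N L L' Mt).filter (fun x => x.2 = 0) :=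
      Finset.mem_filter.2 ⟨h00, rfl⟩
    rw [rest, Finset.filter_erase, Finset.mul_prod_erase _ _ hm]
    exact hcol 0 (mem_insert_range.2 (Or.inr h.pos₂))
  refine ⟨he1, he0, hev.le.trans h.bound, ?_, ?_, ?_, ?_, ?_, ?_, ?_⟩
  · intro f hf
    rw [forms, Finset.mem_disjSum] at hf
    rcases hf with ⟨i, hi, rfl⟩ | ⟨j, hj, rfl⟩
    · obtain ⟨hi1, hi2⟩ := Finset.mem_Icc.1 hi
      have hiL : i < L := by omega
      have heq : ∏ x ∈ line N L L' Mt (Sum.inl i), e x = l₁.getD i 0 - 1 := by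
        rw [line, Sum.elim_inl, hlrow i hi1, hrow i (mem_insert_range.2 (Or.inr hiL)), hside₁ i hiL]
      refine ⟨by rw [heq, ← hside₁ i hiL]; exact hprime₁ i hiL, ?_⟩
      obtain ⟨x, hx, -, -, -, -, hge⟩ := hbig _ _ (hmem₁ i hiL).1 (h.D_lt_lev₁ hp hiL)
        (hmem₁ i hiL).2 heq
      refine ⟨x, hx, le_trans ?_ hge⟩
      have := count_le_lev (Rg := Rg) (P := fun k => i < n k) hD (u_nonneg (l₁.getD i 0))
        fun k hk hik => ((h.nlist₁ hk).1.1 (hn k hk ▸ hik)).2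
      simp only [gain, Sum.elim_inl, id_eq]
      exact sub_le_sub_right this _
    · rw [Finset.mem_filter, Finset.mem_Icc] at hj
      have hjL : j < L' := by omega
      have heq : ∏ x ∈ line N L L' Mt (Sum.inr j), e x = l₂.getD j 0 - 1 := by
        rw [line, Sum.elim_inr, hlcol j hj.1.1, hcol j (mem_insert_range.2 (Or.inr hjL)),
          hside₂ j hjL]
      refine ⟨by rw [heq, ← hside₂ j hjL]; exact hprime₂ j hjL, ?_⟩
      obtain ⟨x, hx, -, -, -, -, hge⟩ := hbig _ _ (hmem₂ j hjL).1 (h.D_lt_lev₂ hp hjL)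
        (hmem₂ j hjL).2 heq
      refine ⟨x, hx, le_trans ?_ hge⟩
      have := count_le_lev (Rg := Rg) (P := fun k => j < n k) hD (u_nonneg (l₂.getD j 0))
        fun k hk hjk => ((h.nlist₂ hk).1.1 (h.nlist_eq hp hk ▸ hn k hk ▸ hjk)).2
      simp only [gain, Sum.elim_inr, id_eq]
      exact sub_le_sub_right this _
  · intro f hf f' hf' hff
    have hval : ∀ f ∈ forms L L' Mt, (∃ i, f = Sum.inl i ∧ i < L ∧
          ∏ x ∈ line N L L' Mt f, e x = l₁.getD i 0 - 1) ∨
        ∃ j, f = Sum.inr j ∧ j < L' ∧ j ∉ Mt.image Prod.snd ∧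
          ∏ x ∈ line N L L' Mt f, e x = l₂.getD j 0 - 1 := by
      intro f hf
      rw [forms, Finset.mem_disjSum] at hf
      rcases hf with ⟨i, hi, rfl⟩ | ⟨j, hj, rfl⟩
      · obtain ⟨hi1, hi2⟩ := Finset.mem_Icc.1 hi
        exact Or.inl ⟨i, rfl, by omega, by
          rw [line, Sum.elim_inl, hlrow i hi1, hrow i (mem_insert_range.2 (Or.inr (by omega))),
            hside₁ i (by omega)]⟩
      · rw [Finset.mem_filter, Finset.mem_Icc] at hj
        exact Or.inr ⟨j, rfl, by omega, hj.2, by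
          rw [line, Sum.elim_inr, hlcol j hj.1.1, hcol j (mem_insert_range.2 (Or.inr (by omega))),
            hside₂ j (by omega)]⟩
    have hget : ∀ q q' : ℕ, q.Prime → q'.Prime → q - 1 = q' - 1 → q = q' := fun q q' hq hq' he => by
      have := hq.one_le
      have := hq'.one_le
      omega
    simp only at hff
    rcases hval f hf with ⟨i, rfl, hi, e1⟩ | ⟨i, rfl, hi, hni, e1⟩ <;>
      rcases hval f' hf' with ⟨i', rfl, hi', e2⟩ | ⟨i', rfl, hi', hni', e2⟩ <;>
      rw [e1, e2] at hff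
    · rw [getD_injOn h.rep₁.1 hi hi' (hget _ _ (hmem₁ i hi).1.1 (hmem₁ i' hi').1.1 hff)]
    · refine absurd (Finset.mem_image.2 ⟨(i, i'), ?_, rfl⟩) hni'
      exact (mem_matched hlen₁ hlen₂).2
        ⟨hi, hi', hget _ _ (hmem₁ i hi).1.1 (hmem₂ i' hi').1.1 hff⟩
    · refine absurd (Finset.mem_image.2 ⟨(i', i), ?_, rfl⟩) hni
      exact (mem_matched hlen₁ hlen₂).2
        ⟨hi', hi, hget _ _ (hmem₁ i' hi').1.1 (hmem₂ i hi).1.1 hff.symm⟩
    · rw [getD_injOn h.rep₂.1 hi hi' (hget _ _ (hmem₂ i hi).1.1 (hmem₂ i' hi').1.1 hff)]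
  · rw [hrow0]; exact hprime₁ 0 h.pos₁
  · rw [hcol0]; exact hprime₂ 0 h.pos₂
  · intro hEq
    have h1 : side N l₁ r₁ 0 = side N l₂ r₂ 0 := by rw [← hrow0, ← hcol0, hEq]
    rw [hside₁ 0 h.pos₁, hside₂ 0 h.pos₂] at h1
    have := h.top_lt
    have := (hmem₂ 0 h.pos₂).1.1.one_le
    omega
  · obtain ⟨x, hx, p, hpp, hpx, hpu, hge⟩ := hbig ((ent N L L' Mt).filter (fun x => x.1 = 0)) _
      (hmem₁ 0 h.pos₁).1 (h.D_lt_lev₁ hp h.pos₁) (hmem₁ 0 h.pos₁).2
      ((hrow 0 (mem_insert_range.2 (Or.inr h.pos₁))).trans (hside₁ 0 h.pos₁))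
    obtain ⟨hxe, hx0⟩ := Finset.mem_filter.1 hx
    have hnear := (abs_le.1 h.near).1
    simp only [lev] at hnear
    have hlow : S - D < u p := by linarith [hp.hsmall, Real.sqrt_nonneg S]
    have hx2 : x.2 = 0 := by
      by_contra hne
      rcases mem_insert_range.1 (hfst x hxe).2 with h2 | h2
      · have h3 := hdiv₂ x hxe
        rw [side, if_pos h2] at h3
        have := (h.smooth₂ hp).2 p hpp (hpx.trans h3)
        linarith [hp.hS, hp.hgap, hp.one_le, show (0 : ℝ) ≤ N from Nat.cast_nonneg N,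
          mul_nonneg (show (0 : ℝ) ≤ N from Nat.cast_nonneg N) hD.le]
      · have h3 := hdiv₂ x hxe
        rw [hside₂ _ h2] at h3
        have h4 := u_sub_one_le (hpx.trans h3) (hmem₂ _ h2).1.1
        have h5 := (h.second hp).1 x.2 (by omega) h2
        simp only [lev] at h5
        linarith
    have hxeq : x = (0, 0) := Prod.ext hx0 hx2
    rw [hxeq] at hge
    linarith
  · refine weight_ge hD hinfo.hRg _ e (fun x _ => by have := he1 x; omega) (fun x hx p hp' => ?_)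
      fun k hk => ?_
    · obtain ⟨hpp, hpx, -⟩ := Nat.mem_primeFactors.1 hp'
      rcases le_or_gt (u p) D with hu | hu
      · exact Or.inl hu
      have h1 := hdiv₁ x hx
      have h2 := hdiv₂ x hx
      rcases mem_insert_range.1 (hfst x hx).1 with hi | hi
      · rw [side, if_pos hi] at h1
        exact absurd ((h.smooth₁ hp).2 p hpp (hpx.trans h1)) (not_le.2 hu)
      rcases mem_insert_range.1 (hfst x hx).2 with hj | hj
      · rw [side, if_pos hj] at h2
        exact absurd ((h.smooth₂ hp).2 p hpp (hpx.trans h2)) (not_le.2 hu)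
      rw [hside₁ _ hi] at h1
      rw [hside₂ _ hj] at h2
      have hu₁ := u_sub_one_le (hpx.trans h1) (hmem₁ _ hi).1.1
      have hu₂ := u_sub_one_le (hpx.trans h2) (hmem₂ _ hj).1.1
      refine Or.inr ⟨by linarith [hp.hM, (hmem₁ _ hi).2, hp.one_le_S, hp.one_le], fun hk => ?_⟩
      have hcell := (Anat2.idx_iff hD hu).1 (rfl : idx D p = idx D p)
      rw [hn _ hk]
      constructor
      · by_contra hc
        have := (h.nlist₁ hk).2 hi hc
        simp only [lev] at this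
        linarith [hcell.1]
      · by_contra hc
        rw [h.nlist_eq hp hk] at hc
        have := (h.nlist₂ hk).2 hj hc
        simp only [lev] at this
        linarith [hcell.1]
    · rw [hev, hn k hk]
      have := (abs_le.1 (h.cnt_bound₁ hp (mem_regular.1 hk).2.1)).2
      linarith

/-- A matrix determines the pair of representations. -/
lemma recovers_inj {l₁' l₂' : List ℕ} {r₁' r₂' : ℕ} (hp : Par S D tol N M)
    (h : Hyp S Y l₁ r₁ l₂ r₂) (h' : Hyp S Y l₁' r₁' l₂' r₂') {Mt : Finset (ℕ × ℕ)}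
    (hl₁ : l₁'.length = l₁.length) (hl₂ : l₂'.length = l₂.length) {e : ℕ × ℕ → ℕ}
    (he : Recovers N l₁ r₁ l₂ r₂ Mt e) (he' : Recovers N l₁' r₁' l₂' r₂' Mt e) :
    ((l₁, r₁), (l₂, r₂)) = ((l₁', r₁'), (l₂', r₂')) := by
  have key : ∀ (l l' : List ℕ) (r r' : ℕ), l'.length = l.length → l.length ≤ N →
      (∀ q ∈ l, q.Prime) → (∀ q ∈ l', q.Prime) →
      (∀ i ∈ insert N (Finset.range l.length), side N l r i = side N l' r' i) →
      (l, r) = (l', r') := by
    intro l l' r r' hlen hN hpl hpl' hs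
    have hr : r = r' := by simpa [side] using hs N (mem_insert_range.2 (Or.inl rfl))
    have hll : l = l' := by
      refine List.ext_getElem hlen.symm fun i hi hi' => ?_
      have := hs i (mem_insert_range.2 (Or.inr hi))
      rw [side, side, if_neg (by omega), if_neg (by omega)] at this
      have h1 := (hpl _ (getD_mem hi)).one_le
      have h2 := (hpl' _ (getD_mem hi')).one_le
      simp only [List.getD_eq_getElem?_getD, List.getElem?_eq_getElem hi,
        List.getElem?_eq_getElem hi', Option.getD_some] at this h1 h2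
      omega
    rw [hr, hll]
  obtain ⟨a1, a2⟩ := he
  obtain ⟨b1, b2⟩ := he'
  rw [hl₁, hl₂] at b1 b2
  rw [Prod.mk.injEq]
  exact ⟨key _ _ _ _ hl₁ (h.len₁ hp) (fun q hq => (h.rep₁.2.2.1 q hq).1.1)
      (fun q hq => (h'.rep₁.2.2.1 q hq).1.1) (fun i hi => (a1 i hi).symm.trans (b1 i hi)),
    key _ _ _ _ hl₂ (h.len₂ hp) (fun q hq => (h.rep₂.2.2.1 q hq).1.1)
      (fun q hq => (h'.rep₂.2.2.1 q hq).1.1) (fun i hi => (a2 i hi).symm.trans (b2 i hi))⟩

end Col
end Vale.Agent.P031
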