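import Vale.Agent.P031.CollideCells

/-!
P031: the shape of a colliding pair of representations and its basic properties.
-/

open Finset Real Filter

namespace Vale.Agent.P031
namespace Col

/-- The inequalities between the parameters: cell width `D`, tolerance `tol`, maximal length `N`
and number of cells `M`. -/
structure Par (S D tol : ℝ) (N M : ℕ) : Prop where
  one_le_S : 1 ≤ S
  one_le : 1 ≤ D
  tol_nonneg : 0 ≤ tol
  hND : 2 * (N : ℝ) * tol < D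
  hsqrt : √(2 * S) ≤ D
  htol : (2 * S) ^ (3 / 5 : ℝ) ≤ tol
  hM : 3 * S ≤ (M : ℝ) * D
  hsmall : 2 * √S + 3 * tol ≤ D
  hgap : (6 * (N : ℝ) + 10) * D ≤ S ^ (9 / 10 : ℝ)
  hS : S ^ (9 / 10 : ℝ) + 3 * D ≤ S
  hDdef : D = S ^ (3 / 4 : ℝ)
  hlen : ∀ n : ℕ, (n : ℝ) ≤ S ^ (1 / 50 : ℝ) → n ≤ N
  hbig : ∀ q : ℕ, Normal q → D < u q →
    ∃ p : ℕ, p.Prime ∧ p ∣ q - 1 ∧ u q - 3 * (u q) ^ (3 / 5 : ℝ) < u p

/-- The hypotheses on a colliding pair. -/
structure Hyp (S : ℝ) (Y : ℕ) (l₁ : List ℕ) (r₁ : ℕ) (l₂ : List ℕ) (r₂ : ℕ) : Prop where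
  rep₁ : Rep S l₁ r₁
  rep₂ : Rep S l₂ r₂
  pos₁ : 1 ≤ l₁.length
  pos₂ : 1 ≤ l₂.length
  top_lt : l₂.getD 0 0 < l₁.getD 0 0
  near : |lev l₁ 0 - S| ≤ √S
  hcost : cost l₁ ≤ S - S ^ (9 / 10 : ℝ)
  low : ∀ i, 1 ≤ i → i < l₁.length → lev l₁ i ≤ S - S ^ (9 / 10 : ℝ)
  value : pval l₁ * r₁ = pval l₂ * r₂
  bound : pval l₁ * r₁ ≤ Y

open Classical in
/-- The positions of the common primes. -/
noncomputable def matched (N : ℕ) (l₁ l₂ : List ℕ) : Finset (ℕ × ℕ) :=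
  ((Finset.range N) ×ˢ (Finset.range N)).filter
    (fun ij => ij.1 < l₁.length ∧ ij.2 < l₂.length ∧ l₁.getD ij.1 0 = l₂.getD ij.2 0)

lemma mem_matched {N : ℕ} {l₁ l₂ : List ℕ} (h₁ : l₁.length ≤ N) (h₂ : l₂.length ≤ N) {i j : ℕ} :
    (i, j) ∈ matched N l₁ l₂ ↔ i < l₁.length ∧ j < l₂.length ∧ l₁.getD i 0 = l₂.getD j 0 := by
  classical
  simp only [matched, Finset.mem_filter, Finset.mem_product, Finset.mem_range]
  constructor
  · exact fun h => h.2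
  · exact fun h => ⟨⟨by omega, by omega⟩, h⟩

open Classical in
/-- The regular cells. -/
noncomputable def regular (D : ℝ) (M : ℕ) (l₁ l₂ : List ℕ) : Finset ℕ :=
  (Finset.range M).filter (fun k => RegFor D l₁ k ∧ RegFor D l₂ k)

lemma mem_regular {D : ℝ} {M k : ℕ} {l₁ l₂ : List ℕ} :
    k ∈ regular D M l₁ l₂ ↔ k < M ∧ RegFor D l₁ k ∧ RegFor D l₂ k := by
  classical
  simp [regular]

/-- At most three cells are spoilt by one prime. -/
lemma card_irregular {D : ℝ} (hD : 0 < D) (M : ℕ) (l₁ l₂ : List ℕ) :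
    ((Finset.range M) \ regular D M l₁ l₂).card ≤ 3 * (l₁.length + l₂.length) := by
  classical
  have hsub : (Finset.range M) \ regular D M l₁ l₂ ⊆
      (l₁ ++ l₂).toFinset.biUnion fun q => Finset.Icc (⌊u q / D⌋₊ - 3) (⌊u q / D⌋₊ - 1) := by
    intro k hk
    obtain ⟨hkM, hk'⟩ := Finset.mem_sdiff.1 hk
    rw [mem_regular] at hk'
    have : ∃ q ∈ l₁ ++ l₂, ¬ (u q < ((k : ℝ) + 1) * D ∨ ((k : ℝ) + 3) * D < u q) := by
      by_contra hc
      push Not at hc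
      exact hk' ⟨Finset.mem_range.1 hkM, fun q hq => hc q (List.mem_append_left _ hq),
        fun q hq => hc q (List.mem_append_right _ hq)⟩
    obtain ⟨q, hq, hne⟩ := this
    simp only [not_or, not_lt] at hne
    refine Finset.mem_biUnion.2 ⟨q, List.mem_toFinset.2 hq, Finset.mem_Icc.2 ?_⟩
    have h1 : ((k + 1 : ℕ) : ℝ) ≤ u q / D := by
      rw [le_div_iff₀ hD]; push_cast; exact hne.1
    have h2 : k + 1 ≤ ⌊u q / D⌋₊ := Nat.le_floor h1
    have h3 : ⌊u q / D⌋₊ ≤ k + 3 := by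
      refine Nat.floor_le_of_le ?_
      rw [div_le_iff₀ hD]; push_cast; exact hne.2
    omega
  refine (Finset.card_le_card hsub).trans (Finset.card_biUnion_le.trans ?_)
  refine (Finset.sum_le_sum fun q _ => show _ ≤ 3 from by simp only [Nat.card_Icc]; omega).trans ?_
  rw [Finset.sum_const, smul_eq_mul, mul_comm]
  refine Nat.mul_le_mul_left 3 ((List.toFinset_card_le _).trans ?_)
  rw [List.length_append]

variable {S D tol : ℝ} {N M Y : ℕ} {l₁ l₂ : List ℕ} {r₁ r₂ : ℕ}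

lemma Hyp.len₁ (h : Hyp S Y l₁ r₁ l₂ r₂) (hp : Par S D tol N M) : l₁.length ≤ N :=
  hp.hlen _ h.rep₁.2.1

lemma Hyp.len₂ (h : Hyp S Y l₁ r₁ l₂ r₂) (hp : Par S D tol N M) : l₂.length ≤ N :=
  hp.hlen _ h.rep₂.2.1

lemma lev_anti {l : List ℕ} (hl : l.Pairwise (fun p q => q < p)) {i j : ℕ} (hij : i ≤ j)
    (hj : j < l.length) : lev l j ≤ lev l i := Anat2.u_getD_anti hl hij hj

lemma Hyp.top_le (h : Hyp S Y l₁ r₁ l₂ r₂) (hp : Par S D tol N M) : lev l₁ 0 ≤ 2 * S := by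
  have := (abs_le.1 h.near).2
  have : √S ≤ S := Real.sqrt_le_self_iff.2 (Or.inr hp.one_le_S)
  linarith

lemma Hyp.normal₁ (h : Hyp S Y l₁ r₁ l₂ r₂) (hp : Par S D tol N M) :
    ∀ q ∈ l₁, Normal q ∧ u q ≤ 2 * S := by
  intro q hq
  refine ⟨(h.rep₁.2.2.1 q hq).1, ?_⟩
  obtain ⟨i, hi, rfl⟩ := List.getElem_of_mem hq
  have h1 := lev_anti h.rep₁.1 (Nat.zero_le i) hi
  simp only [lev, List.getD_eq_getElem?_getD, List.getElem?_eq_getElem hi, Option.getD_some] at h1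
  have := h.top_le hp
  simp only [lev, List.getD_eq_getElem?_getD] at this
  linarith

lemma Hyp.normal₂ (h : Hyp S Y l₁ r₁ l₂ r₂) (hp : Par S D tol N M) :
    ∀ q ∈ l₂, Normal q ∧ u q ≤ 2 * S := by
  intro q hq
  refine ⟨(h.rep₂.2.2.1 q hq).1, ?_⟩
  obtain ⟨i, hi, rfl⟩ := List.getElem_of_mem hq
  have h1 := lev_anti h.rep₂.1 (Nat.zero_le i) hi
  simp only [lev, List.getD_eq_getElem?_getD, List.getElem?_eq_getElem hi, Option.getD_some] at h1
  have h2 := u_mono h.top_lt.le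
  have := h.top_le hp
  simp only [lev, List.getD_eq_getElem?_getD] at this h2
  linarith

lemma Hyp.smooth₁ (h : Hyp S Y l₁ r₁ l₂ r₂) (hp : Par S D tol N M) : Smooth D r₁ := by
  rw [hp.hDdef]; exact h.rep₁.2.2.2

lemma Hyp.smooth₂ (h : Hyp S Y l₁ r₁ l₂ r₂) (hp : Par S D tol N M) : Smooth D r₂ := by
  rw [hp.hDdef]; exact h.rep₂.2.2.2

lemma Hyp.D_lt_lev₁ (h : Hyp S Y l₁ r₁ l₂ r₂) (hp : Par S D tol N M) {i : ℕ}
    (hi : i < l₁.length) : D < lev l₁ i := by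
  rw [hp.hDdef]; exact (h.rep₁.2.2.1 _ (getD_mem hi)).2

lemma Hyp.D_lt_lev₂ (h : Hyp S Y l₁ r₁ l₂ r₂) (hp : Par S D tol N M) {i : ℕ}
    (hi : i < l₂.length) : D < lev l₂ i := by
  rw [hp.hDdef]; exact (h.rep₂.2.2.1 _ (getD_mem hi)).2

lemma Hyp.cnt_bound₁ (h : Hyp S Y l₁ r₁ l₂ r₂) (hp : Par S D tol N M) {k : ℕ}
    (hk : RegFor D l₁ k) :
    |(cnt (((k : ℝ) + 1) * D) (((k : ℝ) + 2) * D) (pval l₁ * r₁) : ℝ)
      - (Anat2.nlist D l₁ k : ℝ) * D| ≤ (Anat2.nlist D l₁ k : ℝ) * tol :=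
  cnt_rep hp.one_le h.rep₁.1 (h.normal₁ hp) hp.hsqrt hp.htol (h.smooth₁ hp) hk

lemma Hyp.cnt_bound₂ (h : Hyp S Y l₁ r₁ l₂ r₂) (hp : Par S D tol N M) {k : ℕ}
    (hk : RegFor D l₂ k) :
    |(cnt (((k : ℝ) + 1) * D) (((k : ℝ) + 2) * D) (pval l₂ * r₂) : ℝ)
      - (Anat2.nlist D l₂ k : ℝ) * D| ≤ (Anat2.nlist D l₂ k : ℝ) * tol :=
  cnt_rep hp.one_le h.rep₂.1 (h.normal₂ hp) hp.hsqrt hp.htol (h.smooth₂ hp) hk

/-- The two lists have the same counts above a regular cell. -/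
lemma Hyp.nlist_eq (h : Hyp S Y l₁ r₁ l₂ r₂) (hp : Par S D tol N M) {k : ℕ}
    (hk : k ∈ regular D M l₁ l₂) : Anat2.nlist D l₁ k = Anat2.nlist D l₂ k := by
  obtain ⟨-, h1, h2⟩ := mem_regular.1 hk
  have a1 := abs_le.1 (h.cnt_bound₁ hp h1)
  have a2 := abs_le.1 (h.cnt_bound₂ hp h2)
  rw [h.value] at a1
  have b1 : (Anat2.nlist D l₁ k : ℝ) ≤ N := by
    exact_mod_cast (nlist_le_length D l₁ k).trans (h.len₁ hp)
  have b2 : (Anat2.nlist D l₂ k : ℝ) ≤ N := by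
    exact_mod_cast (nlist_le_length D l₂ k).trans (h.len₂ hp)
  have c1 := mul_le_mul_of_nonneg_right b1 hp.tol_nonneg
  have c2 := mul_le_mul_of_nonneg_right b2 hp.tol_nonneg
  have hD0 : 0 < D := lt_of_lt_of_le one_pos hp.one_le
  have := hp.hND
  by_contra hne
  rcases Nat.lt_or_gt_of_ne hne with hlt | hlt
  · have : (Anat2.nlist D l₁ k : ℝ) + 1 ≤ Anat2.nlist D l₂ k := by exact_mod_cast hlt
    have := mul_le_mul_of_nonneg_right this hD0.le
    linarith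
  · have : (Anat2.nlist D l₂ k : ℝ) + 1 ≤ Anat2.nlist D l₁ k := by exact_mod_cast hlt
    have := mul_le_mul_of_nonneg_right this hD0.le
    linarith

/-- The second top is high and the other primes of the second list are low. -/
lemma Hyp.second (h : Hyp S Y l₁ r₁ l₂ r₂) (hp : Par S D tol N M) :
    (∀ j, 1 ≤ j → j < l₂.length → lev l₂ j ≤ S - 2 * D) ∧
      S - S ^ (9 / 10 : ℝ) < lev l₂ 0 := by
  classical
  have hD0 : 0 < D := lt_of_lt_of_le one_pos hp.one_le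
  set A := S - S ^ (9 / 10 : ℝ) with hA
  set K₀ := ⌈A / D⌉₊ with hK₀
  have hsqrt0 := Real.sqrt_nonneg S
  have hA0 : 0 ≤ A := by linarith [hp.hS]
  have hK1 : A ≤ (K₀ : ℝ) * D := by
    have := Nat.le_ceil (A / D); rw [div_le_iff₀ hD0] at this; exact this
  have hK2 : (K₀ : ℝ) * D ≤ A + D := by
    have := Nat.ceil_lt_add_one (show 0 ≤ A / D by positivity)
    rw [← hK₀] at this
    calc (K₀ : ℝ) * D ≤ (A / D + 1) * D := mul_le_mul_of_nonneg_right this.le hD0.le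
      _ = A + D := by field_simp
  set Kset := Finset.Icc K₀ (K₀ + 6 * N) with hKset
  have hup : ∀ k ∈ Kset, ((k : ℝ) + 3) * D ≤ S - 2 * D ∧ k < M := by
    intro k hk
    have hk2 : (k : ℝ) ≤ (K₀ : ℝ) + 6 * N := by exact_mod_cast (Finset.mem_Icc.1 hk).2
    have h1 := mul_le_mul_of_nonneg_right hk2 hD0.le
    have h2 := hp.hgap
    have h3 : ((k : ℝ) + 3) * D ≤ S - 2 * D := by linarith
    refine ⟨h3, ?_⟩
    have : (k : ℝ) * D < (M : ℝ) * D := by linarith [hp.hM, hp.one_le_S]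
    exact_mod_cast lt_of_mul_lt_mul_right this hD0.le
  obtain ⟨k, hk, hreg⟩ : ∃ k ∈ Kset, k ∈ regular D M l₁ l₂ := by
    by_contra hc
    push Not at hc
    have hsub : Kset ⊆ Finset.range M \ regular D M l₁ l₂ := fun k hk =>
      Finset.mem_sdiff.2 ⟨Finset.mem_range.2 (hup k hk).2, hc k hk⟩
    have := (Finset.card_le_card hsub).trans (card_irregular hD0 M l₁ l₂)
    have := h.len₁ hp
    have := h.len₂ hp
    simp only [hKset, Nat.card_Icc] at *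
    omega
  obtain ⟨-, -, hr2⟩ := mem_regular.1 hreg
  have hk1 : A ≤ (k : ℝ) * D := hK1.trans
    (mul_le_mul_of_nonneg_right (by exact_mod_cast (Finset.mem_Icc.1 hk).1) hD0.le)
  obtain ⟨hk3, -⟩ := hup k hk
  have hn1 : Anat2.nlist D l₁ k = 1 := by
    have h0 : 0 < Anat2.nlist D l₁ k := by
      rw [lt_nlist_iff h.rep₁.1]
      exact ⟨h.pos₁, by linarith [(abs_le.1 h.near).1, hp.hsmall, hp.tol_nonneg]⟩
    have h1 : ¬ 1 < Anat2.nlist D l₁ k := by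
      rw [lt_nlist_iff h.rep₁.1]
      rintro ⟨hl, hu⟩
      have := h.low 1 le_rfl hl
      linarith
    omega
  have hn2 := (h.nlist_eq hp hreg).symm.trans hn1
  refine ⟨fun j hj hjl => ?_, ?_⟩
  · have : ¬ j < Anat2.nlist D l₂ k := by omega
    rw [lt_nlist_iff h.rep₂.1] at this
    push Not at this
    have h1 := this hjl
    rcases hr2 _ (getD_mem hjl) with h2 | h2
    · simp only [lev]
      linarith
    · exact absurd h1 (not_le.2 h2)
  · have : 0 < Anat2.nlist D l₂ k := by omega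
    rw [lt_nlist_iff h.rep₂.1] at this
    linarith [this.2]

lemma Hyp.matched_pos (h : Hyp S Y l₁ r₁ l₂ r₂) (hp : Par S D tol N M) {i j : ℕ}
    (hij : (i, j) ∈ matched N l₁ l₂) : 1 ≤ i ∧ 1 ≤ j := by
  obtain ⟨hi, hj, he⟩ := (mem_matched (h.len₁ hp) (h.len₂ hp)).1 hij
  constructor
  · by_contra hc
    have hi0 : i = 0 := by omega
    subst hi0
    have h1 : l₂.getD j 0 ≤ l₂.getD 0 0 := by
      rcases Nat.eq_zero_or_pos j with rfl | hj0
      · exact le_rfl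
      · exact (getD_lt h.rep₂.1 hj0 hj).le
    have := h.top_lt
    omega
  · by_contra hc
    have hj0 : j = 0 := by omega
    subst hj0
    rcases Nat.eq_zero_or_pos i with rfl | hi0
    · have := h.top_lt; omega
    · have h1 := h.low i hi0 hi
      have h2 := (h.second hp).2
      simp only [lev, he] at h1 h2
      linarith

lemma matched_injOn_fst (h : Hyp S Y l₁ r₁ l₂ r₂) (hp : Par S D tol N M) :
    Set.InjOn Prod.fst (matched N l₁ l₂ : Set (ℕ × ℕ)) := by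
  rintro ⟨i, j⟩ hx ⟨i', j'⟩ hy (rfl : i = i')
  rw [Finset.mem_coe, mem_matched (h.len₁ hp) (h.len₂ hp)] at hx hy
  rw [getD_injOn h.rep₂.1 hx.2.1 hy.2.1 (hx.2.2.symm.trans hy.2.2)]

lemma matched_injOn_snd (h : Hyp S Y l₁ r₁ l₂ r₂) (hp : Par S D tol N M) :
    Set.InjOn Prod.snd (matched N l₁ l₂ : Set (ℕ × ℕ)) := by
  rintro ⟨i, j⟩ hx ⟨i', j'⟩ hy (rfl : j = j')
  rw [Finset.mem_coe, mem_matched (h.len₁ hp) (h.len₂ hp)] at hx hy
  rw [getD_injOn h.rep₁.1 hx.1 hy.1 (hx.2.2.trans hy.2.2.symm)]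

end Col
end Vale.Agent.P031
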