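import Vale.Agent.P031.Chains

/-!
P031: distinctness of the values of core items, up to negligible mass.
-/

open Finset Real Filter
open scoped Nat Topology

namespace Vale.Agent.P031

/-- All core items, over all numbers of levels. -/
noncomputable def coreItems (X : ℕ) : Finset ((L : ℕ) × ((Fin L → ℕ) × ℕ)) :=
  (levRange X).sigma (fun L => coreSet X L)

/-- The distinct values of core items. -/
noncomputable def coreVals (X : ℕ) : Finset ℕ := (coreItems X).image (fun z => itemVal z.2)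

/-- The first `i` levels and the value of the rest. -/
def key (i : ℕ) (z : (L : ℕ) × ((Fin L → ℕ) × ℕ)) : List ℕ × ℕ :=
  ((List.ofFn z.2.1).take i, pval ((List.ofFn z.2.1).drop i) * z.2.2)

/-- The projection from stage `i + 1` to stage `i`. -/
def keyDown (i : ℕ) (a : List ℕ × ℕ) : List ℕ × ℕ := (a.1.take i, pval (a.1.drop i) * a.2)

/-- The weight of a key. -/
noncomputable def keyWt (a : List ℕ × ℕ) : ℝ := 1 / ((pval a.1 * a.2 : ℕ) : ℝ)

lemma keyWt_nonneg (a : List ℕ × ℕ) : 0 ≤ keyWt a := by unfold keyWt; positivity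

lemma keyDown_key (i : ℕ) (z : (L : ℕ) × ((Fin L → ℕ) × ℕ)) :
    keyDown i (key (i + 1) z) = key i z := by
  set l := List.ofFn z.2.1
  simp only [keyDown, key, List.take_take]
  refine Prod.ext ?_ ?_
  · simp
  · simp only
    rw [← mul_assoc, ← pval_append]
    congr 2
    rw [List.drop_take, show i + 1 - i = 1 by omega, ← List.drop_drop, List.take_append_drop]

lemma keyWt_down (i : ℕ) (a : List ℕ × ℕ) : keyWt (keyDown i a) = keyWt a := by
  unfold keyWt keyDown
  rw [← mul_assoc, ← pval_append, List.take_append_drop]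

lemma keyWt_key (i : ℕ) (z : (L : ℕ) × ((Fin L → ℕ) × ℕ)) :
    keyWt (key i z) = 1 / (itemVal z.2 : ℝ) := by
  unfold keyWt key
  rw [← mul_assoc, ← pval_append, List.take_append_drop, pval_ofFn]
  rfl

lemma mem_coreItems {X : ℕ} {z : (L : ℕ) × ((Fin L → ℕ) × ℕ)} :
    z ∈ coreItems X ↔ z.1 ∈ levRange X ∧ z.2 ∈ coreSet X z.1 := Finset.mem_sigma

/-- Merging equal values loses at most the mass of the colliding pairs. -/
lemma sum_sub_sum_image_le {α β : Type*} [DecidableEq α] [DecidableEq β] (B : Finset α) (g : α → β)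
    (f : α → ℝ) (F : β → ℝ) (hf : ∀ a, 0 ≤ f a) (hF : ∀ a, F (g a) = f a) :
    ∑ a ∈ B, f a - ∑ y ∈ B.image g, F y
      ≤ ∑ p ∈ B.offDiag.filter (fun p => g p.1 = g p.2), f p.1 := by
  have h1 : ∑ p ∈ B.offDiag.filter (fun p => g p.1 = g p.2), f p.1
      = ∑ a ∈ B, ((B.filter (fun b => b ≠ a ∧ g b = g a)).card : ℝ) * f a := by
    have h2 : B.offDiag.filter (fun p => g p.1 = g p.2)
        = (B ×ˢ B).filter (fun p => p.2 ≠ p.1 ∧ g p.2 = g p.1) := by
      ext p
      simp only [Finset.mem_filter, Finset.mem_offDiag, Finset.mem_product]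
      constructor
      · rintro ⟨⟨a, b, c⟩, d⟩; exact ⟨⟨a, b⟩, Ne.symm c, d.symm⟩
      · rintro ⟨⟨a, b⟩, c, d⟩; exact ⟨⟨a, b, Ne.symm c⟩, d.symm⟩
    rw [h2, Finset.sum_filter, Finset.sum_product]
    refine Finset.sum_congr rfl fun a _ => ?_
    simp only
    rw [← Finset.sum_filter, Finset.sum_const, nsmul_eq_mul]
  rw [h1, ← Finset.sum_fiberwise_of_maps_to (g := g) (fun x hx => Finset.mem_image_of_mem g hx),
    ← Finset.sum_fiberwise_of_maps_to (g := g) (t := B.image g)
      (fun x hx => Finset.mem_image_of_mem g hx)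
      (fun a => ((B.filter (fun b => b ≠ a ∧ g b = g a)).card : ℝ) * f a),
    ← Finset.sum_sub_distrib]
  refine Finset.sum_le_sum fun y hy => ?_
  obtain ⟨a₀, ha₀, rfl⟩ := Finset.mem_image.1 hy
  set A := B.filter (fun a => g a = g a₀)
  have hA : ∀ a ∈ A, f a = f a₀ := fun a ha => by
    rw [← hF, (Finset.mem_filter.1 ha).2, hF]
  have hcard : ∀ a ∈ A,
      ((B.filter (fun b => b ≠ a ∧ g b = g a)).card : ℝ) = (A.card : ℝ) - 1 := by
    intro a ha
    have he : B.filter (fun b => b ≠ a ∧ g b = g a) = A.erase a := by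
      ext b
      simp only [A, Finset.mem_filter, Finset.mem_erase, (Finset.mem_filter.1 ha).2]
      tauto
    rw [he, Finset.card_erase_of_mem ha, Nat.cast_sub (Finset.card_pos.2 ⟨a, ha⟩), Nat.cast_one]
  rw [hF, Finset.sum_congr rfl hA, Finset.sum_const, nsmul_eq_mul,
    Finset.sum_congr rfl (g := fun _ => ((A.card : ℝ) - 1) * f a₀)
      (fun a ha => by rw [hcard a ha, hA a ha]), Finset.sum_const, nsmul_eq_mul]
  have h1 : (1 : ℝ) ≤ A.card := by
    have : 0 < A.card := Finset.card_pos.2 ⟨a₀, Finset.mem_filter.2 ⟨ha₀, rfl⟩⟩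
    exact_mod_cast this
  have h2 := hf a₀
  nlinarith [mul_nonneg (mul_nonneg (sub_nonneg.2 h1) (sub_nonneg.2 h1)) h2]

/-- Colliding chains below the top have small logarithmic mass. -/
lemma log_pairs (hC : CollideStatement) :
    ∃ D : ℝ, ∀ᶠ X : ℕ in atTop, ∀ Q : Finset ((ℕ × ℕ) × (ℕ × ℕ)),
      (∀ x ∈ Q, x.2.1 < x.1.1 ∧ tailLevel (scale X) < u x.1.1 ∧ x.1.1 ≤ X ^ 3 ∧
        (∃ l e, Chain (scale X) (u x.1.1) x.1.1 l e ∧ pval l * e = x.1.2) ∧
        (∃ top l e, Chain (scale X) top x.2.1 l e ∧ pval l * e = x.2.2) ∧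
        (x.1.1 - 1) * x.1.2 = (x.2.1 - 1) * x.2.2) →
      ∑ x ∈ Q, 1 / (((x.1.1 - 1) * x.1.2 : ℕ) : ℝ)
        ≤ exp (D + 3 * log (scale X) - tailLevel (scale X) ^ (4 / 5 : ℝ)) := by
  classical
  obtain ⟨M, hM0, hM⟩ := exists_log_bounds
  refine ⟨M + log 800, ?_⟩
  have hT : ∀ᶠ T : ℝ in atTop, 3 ≤ T ∧ 1 ≤ log T ∧ 2 * floorLevel T ≤ tailLevel T ∧
      2 * M + log (30 * log T) + 10 ≤ tailLevel T := by
    filter_upwards [eventually_ge_atTop 3,
      Real.tendsto_log_atTop.eventually_ge_atTop (2 * M + 50)] with T hT hl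
    have h1 : (1 : ℝ) ≤ log T := by linarith
    refine ⟨hT, h1, ?_, ?_⟩
    · simp only [floorLevel, tailLevel]
      rw [show log T ^ 400 = log T ^ 200 * log T ^ 200 by ring]
      exact mul_le_mul_of_nonneg_right (le_trans (by linarith) (le_self_pow₀ h1 (by norm_num)))
        (by positivity)
    · have h2 : log (30 * log T) ≤ 30 * log T := by
        have := Real.log_le_sub_one_of_pos (show (0 : ℝ) < 30 * log T by linarith); linarith
      have h3 : log T * log T ≤ tailLevel T := by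
        rw [← sq]; exact pow_le_pow_right₀ h1 (by norm_num)
      nlinarith
  filter_upwards [eventually_scale (chain_pairs hC), eventually_scale hT, eventually_u_le_pow 3,
    eventually_scale params_ev] with X hpairs hT hu hp Q hQ
  have hη3 : 0 ≤ 1 - 3 * eta (scale X) := by linarith [hp.2.1]
  obtain ⟨hT3, hl, hFK, hKM⟩ := hT
  set T := scale X
  set K := tailLevel T
  set F := floorLevel T
  set σ : (ℕ × ℕ) × (ℕ × ℕ) → ℕ := fun x => ⌈u x.1.1⌉₊
  set w : (ℕ × ℕ) × (ℕ × ℕ) → ℕ := fun x => (x.1.1 - 1) * x.1.2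
  have hQ1 : ∀ x ∈ Q, K < (σ x : ℝ) ∧ u x.1.1 ≤ (σ x : ℝ) ∧ (σ x : ℝ) ≤ u x.1.1 + 1 := by
    intro x hx
    obtain ⟨-, hK, -⟩ := hQ x hx
    have h1 : u x.1.1 ≤ (σ x : ℝ) := Nat.le_ceil _
    have h2 : (σ x : ℝ) < u x.1.1 + 1 := Nat.ceil_lt_add_one (u_nonneg _)
    exact ⟨lt_of_lt_of_le hK h1, h1, h2.le⟩
  have hw : ∀ x ∈ Q, 2 ≤ w x ∧ log (w x : ℝ) ≤ 25 * log T * exp ((σ x : ℝ) + M) := by
    intro x hx
    obtain ⟨-, hK, -, ⟨l, e, hc, hwl⟩, -, -⟩ := hQ x hx
    obtain ⟨hpw, hnorm, hlen, hsm, he, -, -⟩ := hc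
    obtain ⟨hK', hu1, -⟩ := hQ1 x hx
    set q := x.1.1
    have hq := (hnorm q List.mem_cons_self).1.1
    have hq3 : 3 ≤ q := by
      by_contra hc3
      have h2 : q = 2 := by have := hq.two_le; omega
      rw [h2, u_prime_eq Nat.prime_two, show (2 - 1 : ℕ) = 1 from rfl, u_one] at hK
      norm_num at hK
      linarith
    have hlp : 0 < pval l := pval_pos fun y hy => ((hnorm y (List.mem_cons_of_mem _ hy)).1).1
    have he0 : 0 < e := Nat.pos_of_ne_zero hsm.1
    have hwe : w x = pval (q :: l) * e := by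
      simp only [w]; rw [pval_cons, mul_assoc, hwl]
    refine ⟨?_, ?_⟩
    · rw [hwe, pval_cons]
      have := Nat.mul_pos hlp he0
      have h3 := Nat.mul_le_mul (show 2 ≤ q - 1 by omega) (show 1 ≤ pval l * e by omega)
      rw [mul_assoc]; omega
    · have hpv : pval (q :: l) ≤ q ^ (l.length + 1) := by
        have hb : ∀ a ∈ (q :: l).map (fun y => y - 1), a ≤ q := by
          intro a ha
          obtain ⟨y, hy, rfl⟩ := List.mem_map.1 ha
          rcases List.mem_cons.1 hy with rfl | hy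
          · omega
          · have := (List.pairwise_cons.1 hpw).1 y hy; omega
        have := List.prod_le_pow_card _ _ hb
        rw [List.length_map, List.length_cons] at this
        exact this
      have hql : log (q : ℝ) ≤ exp ((σ x : ℝ) + M) :=
        (hM q hq3).2.trans (Real.exp_le_exp.2 (by linarith))
      have he2 : log (e : ℝ) ≤ exp ((σ x : ℝ) + M) := he.trans (Real.exp_le_exp.2 (by linarith))
      have h1 : log (w x : ℝ) ≤ ((l.length + 1 : ℕ) : ℝ) * log q + log e := by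
        rw [hwe, Nat.cast_mul, Real.log_mul (by exact_mod_cast (pval_pos fun y hy =>
          ((hnorm y hy).1).1).ne') (by exact_mod_cast he0.ne'), ← Real.log_pow]
        gcongr
        · exact_mod_cast pval_pos fun y hy => ((hnorm y hy).1).1
        · exact_mod_cast hpv
      push_cast at h1
      have h2 : ((l.length : ℝ) + 1) * log q ≤ 24 * log T * exp ((σ x : ℝ) + M) :=
        mul_le_mul hlen hql (Real.log_natCast_nonneg q) (by linarith)
      have h3 := le_mul_of_one_le_left (exp_pos ((σ x : ℝ) + M)).le hl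
      linarith
  set κ : (ℕ × ℕ) × (ℕ × ℕ) → ℕ × ℕ := fun x => (σ x, Nat.log 2 (w x))
  rw [← Finset.sum_fiberwise_of_maps_to (g := κ) (fun x hx => Finset.mem_image_of_mem κ hx)]
  have hfib : ∀ y ∈ Q.image κ, ∑ x ∈ Q.filter (fun x => κ x = y),
      1 / (((x.1.1 - 1) * x.1.2 : ℕ) : ℝ) ≤ 2 * exp (-(y.1 : ℝ) - (y.1 : ℝ) ^ (4 / 5 : ℝ)) := by
    intro y hy
    obtain ⟨x₀, hx₀, rfl⟩ := Finset.mem_image.1 hy
    set j := Nat.log 2 (w x₀)
    obtain ⟨hK₀, hu₀, hu₀'⟩ := hQ1 x₀ hx₀
    obtain ⟨hw2, hlw⟩ := hw x₀ hx₀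
    set S := (σ x₀ : ℝ)
    have hYu : u (2 ^ (j + 1)) ≤ 3 * S := by
      have hle : 2 ^ j ≤ w x₀ := Nat.pow_log_le_self 2 (by omega)
      have hj1 : 1 ≤ j := Nat.le_log_of_pow_le one_lt_two (by simpa using hw2)
      have h3 : 3 ≤ 2 ^ (j + 1) := le_trans (by norm_num : 3 ≤ 2 ^ 2)
        (Nat.pow_le_pow_right two_pos (by omega))
      have h4 := (hM _ h3).1
      have h5 : log ((2 ^ (j + 1) : ℕ) : ℝ) ≤ 26 * log T * exp (S + M) := by
        have h6 : ((2 ^ (j + 1) : ℕ) : ℝ) ≤ 2 * (w x₀ : ℝ) := by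
          exact_mod_cast (show 2 ^ (j + 1) ≤ 2 * w x₀ by rw [pow_succ]; omega)
        have h7 := Real.log_le_log (by positivity) h6
        rw [Real.log_mul (by norm_num) (by exact_mod_cast (show w x₀ ≠ 0 by omega))] at h7
        have := Real.log_two_lt_d9
        have h8 : 1 ≤ log T * exp (S + M) :=
          le_trans (by norm_num) (mul_le_mul hl (Real.one_le_exp (by linarith)) zero_le_one (by linarith))
        linarith
      have h9 : u (2 ^ (j + 1)) - M ≤ log (26 * log T * exp (S + M)) :=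
        (Real.le_log_iff_exp_le (by positivity)).2 (h4.trans h5)
      rw [Real.log_mul (by positivity) (exp_pos _).ne', Real.log_exp] at h9
      have h10 : log (26 * log T) ≤ log (30 * log T) := Real.log_le_log (by positivity) (by linarith)
      linarith
    have hc : ((Q.filter (fun x => κ x = κ x₀)).card : ℝ)
        ≤ ((2 ^ (j + 1) : ℕ) : ℝ) * exp (-S - S ^ (4 / 5 : ℝ)) := by
      refine hpairs S (S + 1) (2 ^ (j + 1)) hK₀.le le_rfl hYu _ fun x hx => ?_
      obtain ⟨hx, hxe⟩ := Finset.mem_filter.1 hx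
      obtain ⟨hlt, hK, -, ⟨l, e, hc, hwl⟩, hsec, heq⟩ := hQ x hx
      obtain ⟨h1, h2, h3⟩ := hQ1 x hx
      have hσ : σ x = σ x₀ := congrArg Prod.fst hxe
      have hj : Nat.log 2 (w x) = j := show (κ x).2 = (κ x₀).2 by rw [hxe]
      rw [hσ] at h1 h2 h3
      refine ⟨hlt, ?_, ⟨l, e, ⟨hc.1, hc.2.1, hc.2.2.1, hc.2.2.2.1, hc.2.2.2.2.1,
        hc.2.2.2.2.2.1.trans ?_, fun y hy => (hc.2.2.2.2.2.2 y hy).trans ?_⟩, hwl⟩, hsec, heq, ?_⟩
      · have : 1 ≤ √S := Real.one_le_sqrt.2 (by linarith)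
        rw [abs_le]; constructor <;> linarith
      · exact mul_le_mul_of_nonneg_left (by linarith) hη3
      · exact mul_le_mul_of_nonneg_left (by linarith) hη3
      · have := Nat.lt_pow_succ_log_self one_lt_two (w x)
        rw [hj] at this
        exact this.le
    calc ∑ x ∈ Q.filter (fun x => κ x = κ x₀), 1 / (((x.1.1 - 1) * x.1.2 : ℕ) : ℝ)
        ≤ ∑ _x ∈ Q.filter (fun x => κ x = κ x₀), 1 / ((2 ^ j : ℕ) : ℝ) := by
          refine Finset.sum_le_sum fun x hx => one_div_le_one_div_of_le (by positivity) ?_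
          obtain ⟨hx, hxe⟩ := Finset.mem_filter.1 hx
          have hj : Nat.log 2 (w x) = j := show (κ x).2 = (κ x₀).2 by rw [hxe]
          have := Nat.pow_log_le_self 2 (show w x ≠ 0 by have := (hw x hx).1; omega)
          rw [hj] at this
          exact_mod_cast this
      _ ≤ ((2 ^ (j + 1) : ℕ) : ℝ) * exp (-S - S ^ (4 / 5 : ℝ)) * (1 / ((2 ^ j : ℕ) : ℝ)) := by
          rw [Finset.sum_const, nsmul_eq_mul]
          exact mul_le_mul_of_nonneg_right hc (by positivity)
      _ = 2 * exp (-S - S ^ (4 / 5 : ℝ)) := by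
          push_cast; rw [pow_succ]; field_simp
  refine (Finset.sum_le_sum hfib).trans ?_
  rw [← Finset.sum_fiberwise_of_maps_to (g := Prod.fst) (t := (Q.image κ).image Prod.fst)
    (fun x hx => Finset.mem_image_of_mem Prod.fst hx)]
  have hper : ∀ S ∈ (Q.image κ).image Prod.fst,
      ∑ y ∈ (Q.image κ).filter (fun y => y.1 = S),
          2 * exp (-(y.1 : ℝ) - (y.1 : ℝ) ^ (4 / 5 : ℝ))
        ≤ 200 * log T * exp (M - K ^ (4 / 5 : ℝ)) := by
    intro S hS
    obtain ⟨y, hy, rfl⟩ := Finset.mem_image.1 hS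
    obtain ⟨x₀, hx₀, rfl⟩ := Finset.mem_image.1 hy
    obtain ⟨hK₀, hu₀, -⟩ := hQ1 x₀ hx₀
    set S := (σ x₀ : ℝ)
    have hl2 : (2 / 3 : ℝ) ≤ log 2 := by linarith [Real.log_two_gt_d9]
    set J := ⌊40 * log T * exp (S + M)⌋₊
    have hsub : ((Q.image κ).filter (fun y => y.1 = (κ x₀).1))
        ⊆ (Finset.range (J + 1)).image (fun j => (σ x₀, j)) := by
      intro y hy
      obtain ⟨hy, hy1⟩ := Finset.mem_filter.1 hy
      obtain ⟨x, hx, rfl⟩ := Finset.mem_image.1 hy
      refine Finset.mem_image.2 ⟨Nat.log 2 (w x), Finset.mem_range.2 (Nat.lt_succ_of_le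
        (Nat.le_floor ?_)), ?_⟩
      · obtain ⟨hw2, hlw⟩ := hw x hx
        have h1 : ((2 ^ Nat.log 2 (w x) : ℕ) : ℝ) ≤ (w x : ℝ) := by
          exact_mod_cast Nat.pow_log_le_self 2 (show w x ≠ 0 by omega)
        have h2 := Real.log_le_log (by positivity) h1
        push_cast at h2
        rw [Real.log_pow] at h2
        have hσ : σ x = σ x₀ := hy1
        rw [hσ] at hlw
        have h3 := mul_le_mul_of_nonneg_left hl2 (Nat.cast_nonneg (α := ℝ) (Nat.log 2 (w x)))
        have h4 : 0 ≤ log T * exp (S + M) := by positivity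
        linarith
      · exact Prod.ext hy1.symm rfl
    refine (Finset.sum_le_card_nsmul _ _ (2 * exp (-S - S ^ (4 / 5 : ℝ))) fun y hy => ?_).trans ?_
    · rw [(Finset.mem_filter.1 hy).2]
    rw [nsmul_eq_mul]
    have hc : ((((Q.image κ).filter (fun y => y.1 = (κ x₀).1)).card : ℕ) : ℝ)
        ≤ 80 * log T * exp (S + M) := by
      have h1 := (Finset.card_le_card hsub).trans Finset.card_image_le
      rw [Finset.card_range] at h1
      have h2 : ((((Q.image κ).filter (fun y => y.1 = (κ x₀).1)).card : ℕ) : ℝ) ≤ (J : ℝ) + 1 := by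
        exact_mod_cast h1
      have h3 : (J : ℝ) ≤ 40 * log T * exp (S + M) := Nat.floor_le (by positivity)
      have h4 : 1 ≤ log T * exp (S + M) := le_trans (by norm_num)
        (mul_le_mul hl (Real.one_le_exp (by linarith)) zero_le_one (by linarith))
      linarith
    calc _ ≤ 80 * log T * exp (S + M) * (2 * exp (-S - S ^ (4 / 5 : ℝ))) :=
          mul_le_mul_of_nonneg_right hc (by positivity)
      _ = 160 * log T * exp (M - S ^ (4 / 5 : ℝ)) := by
          rw [sub_eq_add_neg (-S), Real.exp_add, Real.exp_add, sub_eq_add_neg M, Real.exp_add,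
            Real.exp_neg S]
          field_simp
          ring
      _ ≤ 200 * log T * exp (M - K ^ (4 / 5 : ℝ)) := by
          refine mul_le_mul (by linarith) (Real.exp_le_exp.2 ?_) (exp_pos _).le (by linarith)
          have := Real.rpow_le_rpow (show 0 ≤ K by linarith) hK₀.le (show (0:ℝ) ≤ 4/5 by norm_num)
          linarith
  refine (Finset.sum_le_card_nsmul _ _ _ hper).trans ?_
  rw [nsmul_eq_mul]
  have hcardS : (((Q.image κ).image Prod.fst).card : ℝ) ≤ 4 * T := by
    have hsub : (Q.image κ).image Prod.fst ⊆ Finset.range (⌈2 * T⌉₊ + 1) := fun S hS => by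
      obtain ⟨y, hy, rfl⟩ := Finset.mem_image.1 hS
      obtain ⟨x, hx, rfl⟩ := Finset.mem_image.1 hy
      have h2 : √T ≤ T := by rw [Real.sqrt_le_iff]; constructor <;> nlinarith
      exact Finset.mem_range.2 (Nat.lt_succ_of_le (Nat.ceil_le_ceil
        (by linarith [hu x.1.1 (hQ x hx).2.2.1])))
    have hc := Finset.card_le_card hsub
    rw [Finset.card_range] at hc
    have : (((Q.image κ).image Prod.fst).card : ℝ) ≤ (⌈2 * T⌉₊ : ℝ) + 1 := by exact_mod_cast hc
    have := Nat.ceil_lt_add_one (show (0 : ℝ) ≤ 2 * T by linarith)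
    linarith
  calc _ ≤ 4 * T * (200 * log T * exp (M - K ^ (4 / 5 : ℝ))) :=
        mul_le_mul_of_nonneg_right hcardS (by positivity)
    _ ≤ exp (M + log 800 + 3 * log T - K ^ (4 / 5 : ℝ)) := by
        rw [show M + log 800 + 3 * log T - K ^ (4 / 5 : ℝ)
          = log 800 + 3 * log T + (M - K ^ (4 / 5 : ℝ)) by ring, Real.exp_add _ (M - _),
          Real.exp_add, Real.exp_log (by norm_num : (0:ℝ) < 800),
          show 4 * T * (200 * log T * exp (M - K ^ (4 / 5 : ℝ)))
            = 800 * (T * log T) * exp (M - K ^ (4 / 5 : ℝ)) by ring]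
        refine mul_le_mul_of_nonneg_right (mul_le_mul_of_nonneg_left ?_ (by norm_num)) (exp_pos _).le
        rw [show 3 * log T = log (T ^ 3) by rw [Real.log_pow]; push_cast; ring,
          Real.exp_log (by positivity)]
        have := Real.log_le_sub_one_of_pos (show (0:ℝ) < T by linarith)
        calc T * log T ≤ T * T := mul_le_mul_of_nonneg_left (by linarith) (by linarith)
          _ = T ^ 2 := (sq T).symm
          _ ≤ T ^ 3 := pow_le_pow_right₀ (by linarith) (by norm_num)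

end Vale.Agent.P031
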