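import Vale.Agent.P031.Collisions

/-!
P031: core items have essentially distinct values.
-/

open Finset Real Filter
open scoped Nat Topology

namespace Vale.Agent.P031

/-- The totient of the tail is smooth below the threshold. -/
lemma tail_totient_smooth {T : ℝ} {L : ℕ} {x : (Fin L → ℕ) × ℕ} (h : BodyItem T L x) :
    Smooth (tailLevel T) x.2 := by
  obtain ⟨hr, hd, -⟩ := tailOf_spec h
  exact hd ▸ smooth_totient hr.2.2.1

lemma take_succ_ofFn {L i : ℕ} (q : Fin L → ℕ) (hi : i < L) :
    (List.ofFn q).take (i + 1) = (List.ofFn q).take i ++ [q ⟨i, hi⟩] := by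
  rw [List.take_succ_eq_append_getElem (by simpa using hi)]
  simp

/-- The data of an element of a key stage. -/
lemma key_data {i : ℕ} {z : (L : ℕ) × ((Fin L → ℕ) × ℕ)} (hi : i < z.1) :
    key (i + 1) z = ((List.ofFn z.2.1).take i ++ [z.2.1 ⟨i, hi⟩],
      pval ((List.ofFn z.2.1).drop (i + 1)) * z.2.2) := by
  simp only [key]
  rw [take_succ_ofFn _ hi]

lemma key_short {i : ℕ} {z : (L : ℕ) × ((Fin L → ℕ) × ℕ)} (hi : z.1 ≤ i) :
    key i z = (List.ofFn z.2.1, z.2.2) := by
  simp only [key]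
  rw [List.take_of_length_le (by simpa using hi), List.drop_eq_nil_of_le (by simpa using hi)]
  simp [pval]

/-- Merging equal values of core items loses negligible mass. -/
theorem coreVals_mass (hC : CollideStatement) {ε : ℝ} (hε : 0 < ε) :
    ∀ᶠ X : ℕ in atTop, coreMass X - ε ≤ ∑ m ∈ coreVals X, 1 / (m : ℝ) := by
  classical
  obtain ⟨D, hlog⟩ := log_pairs hC
  obtain ⟨t₀, hns⟩ := normal_not_smooth
  have hT : ∀ᶠ T : ℝ in atTop, 3 ≤ T ∧ 1 ≤ log T ∧ t₀ ≤ tailLevel T ∧
      (∀ t, (1 + 4 * eta T) * tailLevel T ≤ t → tailLevel T + 4 * t ^ (3 / 5 : ℝ) ≤ t) ∧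
      24 * log T + 36 * log T * log T + (D + 3 * log T - tailLevel T ^ (4 / 5 : ℝ))
        ≤ log ε := by
    filter_upwards [eventually_ge_atTop 3, Real.tendsto_log_atTop.eventually_ge_atTop (8 : ℝ),
      eventually_log_poly_le_floor (max t₀ 0), params_ev,
      eventually_floor_rpow (max (36 : ℝ) (max |D| |log ε|) * 2) (r := 4 / 5) (by norm_num)]
      with T hT hl h1 hp h2
    obtain ⟨hη, hη1, hK, -, -, -, -, -⟩ := hp
    have hl1 : (1 : ℝ) ≤ log T := by linarith
    have hFK : floorLevel T ≤ tailLevel T := pow_le_pow_right₀ hl1 (by norm_num)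
    have hF0 : 0 ≤ floorLevel T := by simp only [floorLevel]; positivity
    have h3 := Real.rpow_le_rpow hF0 hFK (show (0 : ℝ) ≤ 4 / 5 by norm_num)
    have a1 := le_max_left t₀ 0
    have a2 := le_max_right t₀ 0
    have b1 := le_max_left (36 : ℝ) (max |D| |log ε|)
    have b2 := (le_max_left |D| |log ε|).trans (le_max_right (36 : ℝ) _)
    have b3 := (le_max_right |D| |log ε|).trans (le_max_right (36 : ℝ) _)
    refine ⟨hT, hl1, by nlinarith [sq_nonneg (log T)], fun t ht => ?_, ?_⟩
    · have ht1 : tailLevel T ≤ t := le_trans (le_mul_of_one_le_left (by linarith) (by linarith)) ht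
      have h5 : 2 * eta T * t ≤ t - tailLevel T := by nlinarith
      have h6 : 4 * t ^ (3 / 5 : ℝ) ≤ 2 * eta T * t := by
        have h7 : 2 * log T ^ 10 ≤ t ^ (2 / 5 : ℝ) := by
          have h8 : (log T ^ 400) ^ (2 / 5 : ℝ) = log T ^ 160 := by
            rw [← Real.rpow_natCast, ← Real.rpow_natCast (log T) 160,
              ← Real.rpow_mul (by linarith)]
            norm_num
          refine le_trans ?_ (Real.rpow_le_rpow (by linarith) ht1 (by norm_num))
          simp only [tailLevel]
          rw [h8, show log T ^ 160 = log T ^ 150 * log T ^ 10 by ring]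
          exact mul_le_mul_of_nonneg_right
            (le_trans (by linarith) (le_self_pow₀ hl1 (show 150 ≠ 0 by norm_num))) (by positivity)
        have h9 : t ^ (2 / 5 : ℝ) * t ^ (3 / 5 : ℝ) = t := by
          rw [← Real.rpow_add (by linarith)]; norm_num
        simp only [eta]
        rw [mul_one_div, div_mul_eq_mul_div, le_div_iff₀ (by positivity)]
        have h10 : 0 ≤ t ^ (3 / 5 : ℝ) := Real.rpow_nonneg (by linarith) _
        have h11 := mul_le_mul_of_nonneg_right h7 h10
        rw [h9] at h11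
        linarith
      linarith
    · have := le_abs_self D
      have := neg_abs_le (log ε)
      nlinarith [sq_nonneg (log T)]
  filter_upwards [hlog, eventually_scale hT, item_chains, eventually_u_le_pow 3,
    eventually_scale params_ev] with X hlog hT hchains hu hp
  obtain ⟨hT3, hl, ht0, hgapK, hE⟩ := hT
  obtain ⟨hη, -, hK, -, -, -, -, -⟩ := hp
  set T := scale X
  set K := tailLevel T
  set N := maxLen T + 1 with hN
  set V : ℕ → Finset (List ℕ × ℕ) := fun i => (coreItems X).image (key i) with hV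
  set δ := exp (3 * log T) ^ maxLen T * (2 * exp (D + 3 * log T - K ^ (4 / 5 : ℝ))) with hδ
  have hprops : ∀ z ∈ coreItems X, z.1 ≤ maxLen T ∧ BodyItem T z.1 z.2 ∧
      (∀ k, Normal (z.2.1 k)) ∧ (∀ k, z.2.1 k ≤ X ^ 3) := by
    intro z hz
    obtain ⟨hL, hx⟩ := mem_coreItems.1 hz
    obtain ⟨hxB, hn⟩ := Finset.mem_filter.1 hx
    obtain ⟨hall, hb⟩ := Finset.mem_filter.1 hxB
    exact ⟨Nat.le_of_lt_succ (Finset.mem_range.1 hL), hb, hn, fun k => ((mem_allItems.1 hall).1 k).1⟩
  have hlev : ∀ z ∈ coreItems X, ∀ k, (1 + 4 * eta T) * K < u (z.2.1 k) := by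
    intro z hz k
    obtain ⟨-, -, hreg⟩ := tailOf_spec (hprops z hz).2.1
    have := (hreg.1 k.val k.isLt).1
    rwa [yy_lev T _ k.isLt] at this
  -- the weight of a stage
  have hstep : ∀ i < maxLen T, ∑ a ∈ V (i + 1), keyWt a - ∑ a ∈ V i, keyWt a ≤ δ := by
    intro i hi
    have himg : V i = (V (i + 1)).image (keyDown i) := by
      simp only [hV, Finset.image_image]
      exact Finset.image_congr fun z _ => (keyDown_key i z).symm
    rw [himg]
    refine (sum_sub_sum_image_le (V (i + 1)) (keyDown i) keyWt keyWt keyWt_nonneg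
      (keyWt_down i)).trans ?_
    set P := (V (i + 1)).offDiag.filter (fun p => keyDown i p.1 = keyDown i p.2)
    -- both members of a colliding pair have more than `i` levels
    have hlong : ∀ p ∈ P, ∃ (za : (L : ℕ) × ((Fin L → ℕ) × ℕ)) (ha : i < za.1)
        (zb : (L : ℕ) × ((Fin L → ℕ) × ℕ)) (hb : i < zb.1),
        za ∈ coreItems X ∧ zb ∈ coreItems X ∧
        p.1 = ((List.ofFn za.2.1).take i ++ [za.2.1 ⟨i, ha⟩],
          pval ((List.ofFn za.2.1).drop (i + 1)) * za.2.2) ∧
        p.2 = ((List.ofFn zb.2.1).take i ++ [zb.2.1 ⟨i, hb⟩],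
          pval ((List.ofFn zb.2.1).drop (i + 1)) * zb.2.2) ∧
        (List.ofFn za.2.1).take i = (List.ofFn zb.2.1).take i ∧
        (za.2.1 ⟨i, ha⟩ - 1) * p.1.2 = (zb.2.1 ⟨i, hb⟩ - 1) * p.2.2 ∧
        za.2.1 ⟨i, ha⟩ ≠ zb.2.1 ⟨i, hb⟩ := by
      intro p hp
      obtain ⟨hp, heq⟩ := Finset.mem_filter.1 hp
      obtain ⟨ha, hb, hne⟩ := Finset.mem_offDiag.1 hp
      obtain ⟨za, hza, hpa⟩ := Finset.mem_image.1 ha
      obtain ⟨zb, hzb, hpb⟩ := Finset.mem_image.1 hb
      rw [← hpa, ← hpb] at heq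
      have absurd_mixed : ∀ (z w : (L : ℕ) × ((Fin L → ℕ) × ℕ)), z ∈ coreItems X → w ∈ coreItems X →
          z.1 ≤ i → i < w.1 → keyDown i (key (i + 1) z) = keyDown i (key (i + 1) w) → False := by
        intro z w hz hw hzi hwi h
        rw [keyDown_key, keyDown_key, key_short hzi] at h
        have h2 := congrArg Prod.snd h
        simp only [key] at h2
        have hd := hlev w hw ⟨i, hwi⟩
        refine hns (w.2.1 ⟨i, hwi⟩) z.2.2 K ((hprops w hw).2.2.1 _) (by
            have : K ≤ (1 + 4 * eta T) * K := le_mul_of_one_le_left (by linarith) (by linarith)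
            linarith) (hgapK _ hd.le) (by linarith) ?_ (tail_totient_smooth (hprops z hz).2.1)
        rw [h2, List.drop_eq_getElem_cons (by simpa using hwi), pval_cons]
        simp [mul_assoc]
      rcases le_or_gt za.1 i with h1 | h1 <;> rcases le_or_gt zb.1 i with h2 | h2
      · exfalso
        apply hne
        rw [← hpa, ← hpb]
        rw [keyDown_key, keyDown_key, key_short h1, key_short h2] at heq
        rw [key_short (by omega), key_short (by omega), heq]
      · exact (absurd_mixed za zb hza hzb h1 h2 heq).elim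
      · exact (absurd_mixed zb za hzb hza h2 h1 heq.symm).elim
      · have e1 : p.1 = ((List.ofFn za.2.1).take i ++ [za.2.1 ⟨i, h1⟩],
            pval ((List.ofFn za.2.1).drop (i + 1)) * za.2.2) := by rw [← hpa, key_data h1]
        have e2 : p.2 = ((List.ofFn zb.2.1).take i ++ [zb.2.1 ⟨i, h2⟩],
            pval ((List.ofFn zb.2.1).drop (i + 1)) * zb.2.2) := by rw [← hpb, key_data h2]
        rw [keyDown_key, keyDown_key] at heq
        have hl1 := congrArg Prod.fst heq
        have hl2 := congrArg Prod.snd heq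
        simp only [key] at hl1 hl2
        rw [List.drop_eq_getElem_cons (by simpa using h1),
          List.drop_eq_getElem_cons (l := List.ofFn zb.2.1) (by simpa using h2),
          pval_cons, pval_cons, mul_assoc, mul_assoc] at hl2
        simp only [List.getElem_ofFn] at hl2
        refine ⟨za, h1, zb, h2, hza, hzb, e1, e2, hl1, by rw [e1, e2]; exact hl2, fun hq => ?_⟩
        apply hne
        rw [hq] at hl2
        have hq2 : 0 < zb.2.1 ⟨i, h2⟩ - 1 := by
          have := ((hprops zb hzb).2.2.1 ⟨i, h2⟩).1.two_le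
          omega
        rw [e1, e2, hl1, hq, Nat.eq_of_mul_eq_mul_left hq2 hl2]
    choose za ha zb hb hza hzb e1 e2 hpre hval hneq using hlong
    -- the map to a prefix and a pair
    set ψ : (List ℕ × ℕ) × (List ℕ × ℕ) → List ℕ × ((ℕ × ℕ) × (ℕ × ℕ)) := fun p =>
      if p.2.1.getD i 0 < p.1.1.getD i 0 then
        (p.1.1.take i, ((p.1.1.getD i 0, p.1.2), (p.2.1.getD i 0, p.2.2)))
      else (p.1.1.take i, ((p.2.1.getD i 0, p.2.2), (p.1.1.getD i 0, p.1.2))) with hψ
    have hget : ∀ p (hp : p ∈ P), p.1.1.getD i 0 = (za p hp).2.1 ⟨i, ha p hp⟩ ∧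
        p.2.1.getD i 0 = (zb p hp).2.1 ⟨i, hb p hp⟩ ∧
        p.1.1.take i = (List.ofFn (za p hp).2.1).take i ∧ p.2.1.take i = p.1.1.take i ∧
        p.1.1.take i ++ [p.1.1.getD i 0] = p.1.1 ∧ p.2.1.take i ++ [p.2.1.getD i 0] = p.2.1 := by
      intro p hp
      have f1 : p.1.1 = (List.ofFn (za p hp).2.1).take i ++ [(za p hp).2.1 ⟨i, ha p hp⟩] :=
        congrArg Prod.fst (e1 p hp)
      have f2 : p.2.1 = (List.ofFn (za p hp).2.1).take i ++ [(zb p hp).2.1 ⟨i, hb p hp⟩] := by
        rw [hpre p hp]; exact congrArg Prod.fst (e2 p hp)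
      have hlen : ((List.ofFn (za p hp).2.1).take i).length = i := by
        simp [(ha p hp).le]
      rw [f1, f2]
      simp [hlen]
    have hQ : ∀ y ∈ (P.image ψ).image Prod.snd,
        y.2.1 < y.1.1 ∧ K < u y.1.1 ∧ y.1.1 ≤ X ^ 3 ∧
        (∃ l e, Chain T (u y.1.1) y.1.1 l e ∧ pval l * e = y.1.2) ∧
        (∃ top l e, Chain T top y.2.1 l e ∧ pval l * e = y.2.2) ∧
        (y.1.1 - 1) * y.1.2 = (y.2.1 - 1) * y.2.2 := by
      intro y hy
      obtain ⟨s, hs, rfl⟩ := Finset.mem_image.1 hy
      obtain ⟨p, hp, rfl⟩ := Finset.mem_image.1 hs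
      obtain ⟨g1, g2, -, -, -, -⟩ := hget p hp
      have hd : ∀ (z : (L : ℕ) × ((Fin L → ℕ) × ℕ)) (hz : z ∈ coreItems X) (h : i < z.1),
          Chain T (u (z.2.1 ⟨i, h⟩)) (z.2.1 ⟨i, h⟩) ((levelsOf T z.2).drop (i + 1)) (cofOf T z.2) ∧
          K < u (z.2.1 ⟨i, h⟩) ∧ z.2.1 ⟨i, h⟩ ≤ X ^ 3 ∧
          pval ((levelsOf T z.2).drop (i + 1)) * cofOf T z.2
            = pval ((List.ofFn z.2.1).drop (i + 1)) * z.2.2 := fun z hz h =>
        ⟨(hchains z.1 (mem_coreItems.1 hz).1 z.2 (mem_coreItems.1 hz).2).2.1 ⟨i, h⟩,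
          lt_of_le_of_lt (le_mul_of_one_le_left (by linarith) (by linarith)) (hlev z hz ⟨i, h⟩),
          (hprops z hz).2.2.2 _, pval_drop_ofFn_mul (hprops z hz).2.1 h⟩
      obtain ⟨a1, a2, a3, a4⟩ := hd _ (hza p hp) (ha p hp)
      obtain ⟨b1, b2, b3, b4⟩ := hd _ (hzb p hp) (hb p hp)
      have v1 : p.1.2 = pval ((List.ofFn (za p hp).2.1).drop (i + 1)) * (za p hp).2.2 :=
        congrArg Prod.snd (e1 p hp)
      have v2 : p.2.2 = pval ((List.ofFn (zb p hp).2.1).drop (i + 1)) * (zb p hp).2.2 :=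
        congrArg Prod.snd (e2 p hp)
      have hv := hval p hp
      simp only [hψ]
      split_ifs with hlt
      · simp only [g1, g2] at hlt ⊢
        exact ⟨hlt, a2, a3, ⟨_, _, a1, a4.trans v1.symm⟩, ⟨_, _, _, b1, b4.trans v2.symm⟩, hv⟩
      · simp only [g1, g2] at hlt ⊢
        exact ⟨lt_of_le_of_ne (not_lt.1 hlt) (hneq p hp), b2, b3, ⟨_, _, b1, b4.trans v2.symm⟩,
          ⟨_, _, _, a1, a4.trans v1.symm⟩, hv.symm⟩
    have hwt : ∀ p ∈ P, keyWt p.1 = (1 / (pval (ψ p).1 : ℝ)) *
        (1 / ((((ψ p).2.1.1 - 1) * (ψ p).2.1.2 : ℕ) : ℝ)) := by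
      intro p hp
      obtain ⟨g1, g2, -, -, g5, -⟩ := hget p hp
      have hv := hval p hp
      rw [← g1, ← g2] at hv
      have hw : keyWt p.1
          = (1 / (pval (p.1.1.take i) : ℝ)) * (1 / (((p.1.1.getD i 0 - 1) * p.1.2 : ℕ) : ℝ)) := by
        conv_lhs => rw [keyWt, ← g5, pval_append, pval_cons]
        rw [one_div_mul_one_div]
        simp [pval, mul_assoc]
      rw [hw]
      simp only [hψ]
      split_ifs
      · rfl
      · simp only [hv]
    set Pre := (P.image ψ).image Prod.fst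
    set Q := (P.image ψ).image Prod.snd
    set f : List ℕ × ((ℕ × ℕ) × (ℕ × ℕ)) → ℝ := fun y =>
      (1 / (pval y.1 : ℝ)) * (1 / (((y.2.1.1 - 1) * y.2.1.2 : ℕ) : ℝ)) with hf
    have hf0 : ∀ y, 0 ≤ f y := fun y => by simp only [hf]; positivity
    rw [Finset.sum_congr rfl hwt,
      ← Finset.sum_fiberwise_of_maps_to (g := ψ) (fun p hp => Finset.mem_image_of_mem ψ hp)]
    have hfib : ∀ y ∈ P.image ψ, ∑ p ∈ P.filter (fun p => ψ p = y), (1 / (pval (ψ p).1 : ℝ)) *
        (1 / ((((ψ p).2.1.1 - 1) * (ψ p).2.1.2 : ℕ) : ℝ)) ≤ 2 * f y := by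
      intro y hy
      refine (Finset.sum_le_card_nsmul _ _ (f y) fun p hp => ?_).trans ?_
      · rw [(Finset.mem_filter.1 hp).2]
      rw [nsmul_eq_mul]
      refine mul_le_mul_of_nonneg_right ?_ (hf0 y)
      have hsub : P.filter (fun p => ψ p = y) ⊆
          {((y.1 ++ [y.2.1.1], y.2.1.2), (y.1 ++ [y.2.2.1], y.2.2.2)),
           ((y.1 ++ [y.2.2.1], y.2.2.2), (y.1 ++ [y.2.1.1], y.2.1.2))} := by
        intro p hp'
        obtain ⟨hpP, hpy⟩ := Finset.mem_filter.1 hp'
        subst hpy
        obtain ⟨-, -, -, g4, g5, g6⟩ := hget p hpP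
        rw [g4] at g6
        simp only [hψ, Finset.mem_insert, Finset.mem_singleton]
        split_ifs
        · simp only [g5, g6, true_or]
        · simp only [g5, g6, or_true]
      exact_mod_cast (Finset.card_le_card hsub).trans Finset.card_le_two
    refine (Finset.sum_le_sum hfib).trans ?_
    rw [← Finset.mul_sum]
    refine (mul_le_mul_of_nonneg_left ((Finset.sum_le_sum_of_subset_of_nonneg
      (fun y hy => Finset.mem_product.2 ⟨Finset.mem_image_of_mem _ hy, Finset.mem_image_of_mem _ hy⟩)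
      fun y _ _ => hf0 y : _ ≤ ∑ y ∈ Pre ×ˢ Q, f y)) zero_le_two).trans ?_
    rw [Finset.sum_product]
    simp only [hf]
    rw [← Finset.sum_mul_sum]
    have hQs := hlog Q hQ
    have hPre : ∑ l ∈ Pre, 1 / (pval l : ℝ) ≤ exp (3 * log T) ^ maxLen T := by
      have hsub : Pre ⊆ (Fintype.piFinset (fun _ : Fin i => primesTo (X ^ 3))).image List.ofFn := by
        intro l hl
        obtain ⟨y, hy, rfl⟩ := Finset.mem_image.1 hl
        obtain ⟨p, hp, rfl⟩ := Finset.mem_image.1 hy
        have hi' : i < (za p hp).1 := ha p hp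
        have hψ1 : (ψ p).1 = p.1.1.take i := by simp only [hψ]; split_ifs <;> rfl
        refine Finset.mem_image.2 ⟨fun j => (za p hp).2.1 ⟨j.val, j.isLt.trans hi'⟩,
          Fintype.mem_piFinset.2 fun j => mem_primesTo.2 ⟨(hprops _ (hza p hp)).2.2.2 _,
            ((hprops _ (hza p hp)).2.2.1 _).1⟩, ?_⟩
        rw [hψ1, (hget p hp).2.2.1]
        refine List.ext_getElem (by simp [hi'.le]) fun j h1 h2 => ?_
        simp
      refine (Finset.sum_le_sum_of_subset_of_nonneg hsub fun l _ _ => by positivity).trans ?_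
      refine (Finset.sum_image_le_of_nonneg fun l _ => by positivity).trans ?_
      calc ∑ q ∈ Fintype.piFinset (fun _ : Fin i => primesTo (X ^ 3)),
            1 / (pval (List.ofFn q) : ℝ)
          = ∑ q ∈ Fintype.piFinset (fun _ : Fin i => primesTo (X ^ 3)),
              ∏ k, 1 / ((q k : ℝ) - 1) := by
            refine Finset.sum_congr rfl fun q hq => ?_
            rw [pval_ofFn, Finset.prod_div_distrib, Finset.prod_const_one, Nat.cast_prod]
            congr 1
            refine Finset.prod_congr rfl fun k _ => ?_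
            rw [Nat.cast_sub (mem_primesTo.1 (Fintype.mem_piFinset.1 hq k)).2.one_le, Nat.cast_one]
        _ = ∏ _k : Fin i, u (X ^ 3) := by
            rw [← Finset.prod_univ_sum (fun _ : Fin i => primesTo (X ^ 3))
              (fun _ (q : ℕ) => 1 / ((q : ℝ) - 1))]
            rfl
        _ = u (X ^ 3) ^ i := by simp
        _ ≤ exp (3 * log T) ^ i := by
            refine pow_le_pow_left₀ (u_nonneg _) ((hu _ le_rfl).trans ?_) i
            rw [show 3 * log T = log (T ^ 3) by rw [Real.log_pow]; push_cast; ring,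
              Real.exp_log (by positivity)]
            have h1 : √T ≤ T := by rw [Real.sqrt_le_iff]; constructor <;> nlinarith
            nlinarith [mul_le_mul hT3 hT3 (by norm_num) (by linarith)]
        _ ≤ exp (3 * log T) ^ maxLen T :=
            pow_le_pow_right₀ (Real.one_le_exp (by linarith)) hi.le
    rw [hδ, mul_left_comm]
    refine mul_le_mul hPre (mul_le_mul_of_nonneg_left hQs zero_le_two)
      (mul_nonneg zero_le_two (Finset.sum_nonneg fun y _ => by positivity)) (by positivity)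
  have htop : ∑ a ∈ V (maxLen T), keyWt a = coreMass X := by
    simp only [hV]
    rw [Finset.sum_image]
    · rw [coreMass, coreItems, Finset.sum_sigma]
      refine Finset.sum_congr rfl fun L _ => Finset.sum_congr rfl fun x hx => ?_
      rw [keyWt_key, one_div_itemVal _ (allItems_prime (bodySet_subset_all X L
        (coreSet_subset_body X L hx)))]
    · rintro ⟨L, q, d⟩ hz ⟨L', q', d'⟩ hz' h
      rw [key_short (hprops _ hz).1, key_short (hprops _ hz').1] at h
      obtain ⟨h1, h2⟩ := Prod.mk.inj h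
      simp only at h1 h2
      subst h2
      have hL : L = L' := by simpa using congrArg List.length h1
      subst hL
      rw [List.ofFn_injective h1]
  have hbot : ∑ a ∈ V 0, keyWt a = ∑ m ∈ coreVals X, 1 / (m : ℝ) := by
    have e : V 0 = (coreVals X).image (fun m => (([] : List ℕ), m)) := by
      simp only [hV, coreVals, Finset.image_image]
      refine Finset.image_congr fun z _ => ?_
      simp [key, itemVal, pval_ofFn]
    rw [e, Finset.sum_image fun a _ b _ h => (Prod.mk.inj h).2]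
    refine Finset.sum_congr rfl fun m _ => ?_
    simp [keyWt, pval]
  have htel : ∀ n ≤ maxLen T, ∑ a ∈ V n, keyWt a - ∑ a ∈ V 0, keyWt a ≤ n * δ := by
    intro n
    induction n with
    | zero => simp
    | succ n ih =>
      intro hn
      have := hstep n (by omega)
      have := ih (by omega)
      push_cast
      linarith
  have h1 := htel _ le_rfl
  rw [htop, hbot] at h1
  have hfin : (maxLen T : ℝ) * δ ≤ ε := by
    have hN' := maxLen_le (T := T) hl
    have h2 : exp (3 * log T) ^ maxLen T ≤ exp (36 * log T * log T) := by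
      rw [← Real.exp_nat_mul]
      refine Real.exp_le_exp.2 ?_
      calc (maxLen T : ℝ) * (3 * log T) ≤ 12 * log T * (3 * log T) :=
            mul_le_mul_of_nonneg_right (by linarith) (by linarith)
        _ = _ := by ring
    have h3 : (maxLen T : ℝ) * 2 ≤ exp (24 * log T) := by
      linarith [Real.add_one_le_exp (24 * log T)]
    calc (maxLen T : ℝ) * δ
        = ((maxLen T : ℝ) * 2) * exp (3 * log T) ^ maxLen T
            * exp (D + 3 * log T - K ^ (4 / 5 : ℝ)) := by rw [hδ]; ring
      _ ≤ exp (24 * log T) * exp (36 * log T * log T)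
            * exp (D + 3 * log T - K ^ (4 / 5 : ℝ)) := by gcongr
      _ ≤ ε := by
          rw [← Real.exp_add, ← Real.exp_add, ← Real.le_log_iff_exp_le hε]
          linarith
  linarith

end Vale.Agent.P031
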