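import Vale.Agent.P031.Asymp

/-!
P031: the number of totient values in `[1, Y]` is `(Y / log X) · coreMass X` up to a factor
`1 + o(1)`, for `X ≤ Y ≤ B X`.
-/

open Finset Real Filter
open scoped Nat Topology

namespace Vale.Agent.P031

/-- Values `(p-1)m` with `log p` at least `log X / w`. -/
lemma prime_item_count (B : ℕ) :
    ∃ C : ℝ, 0 < C ∧ ∀ X : ℕ, 3 ≤ X → ∀ w : ℝ, 0 < w → ∀ (M s : Finset ℕ),
      (∀ v ∈ s, 1 ≤ v ∧ v ≤ B * X ∧ ∃ p m : ℕ, m ∈ M ∧ p.Prime ∧
        log X / w ≤ log p ∧ (p - 1) * m = v) →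
      (s.card : ℝ) ≤ C * w * ((X : ℝ) / log X) * ∑ m ∈ M, 1 / (m : ℝ) := by
  classical
  obtain ⟨C, hC, hpi⟩ := primeCounting_le
  refine ⟨C * 2 * (B + 1), by positivity, fun X hX w hw M s hs => ?_⟩
  have hlog : 0 < log (X : ℝ) := Real.log_pos (by exact_mod_cast (show 1 < X by omega))
  set P : ℕ → Finset ℕ := fun m => (primesTo (B * X / m + 1)).filter
    (fun p => log X / w ≤ log p ∧ 1 ≤ (p - 1) * m ∧ (p - 1) * m ≤ B * X) with hP
  have hcover : s ⊆ M.biUnion (fun m => (P m).image (fun p => (p - 1) * m)) := by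
    intro v hv
    obtain ⟨hv1, hvY, p, m, hm, hp, hlp, rfl⟩ := hs v hv
    refine Finset.mem_biUnion.2 ⟨m, hm, Finset.mem_image.2 ⟨p, Finset.mem_filter.2
      ⟨mem_primesTo.2 ⟨?_, hp⟩, hlp, hv1, hvY⟩, rfl⟩⟩
    have hm0 : 0 < m := Nat.pos_of_ne_zero fun h => by subst h; simp at hv1
    have := (Nat.le_div_iff_mul_le hm0).2 hvY
    omega
  have h1 := (Finset.card_le_card hcover).trans Finset.card_biUnion_le
  refine (show (s.card : ℝ) ≤ ∑ m ∈ M, (((P m).image (fun p => (p - 1) * m)).card : ℝ) by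
    exact_mod_cast h1).trans ?_
  rw [Finset.mul_sum]
  refine Finset.sum_le_sum fun m _ => ?_
  refine (Nat.cast_le.2 Finset.card_image_le).trans ?_
  rcases (P m).eq_empty_or_nonempty with he | ⟨p, hp⟩
  · rw [he]; simp; positivity
  obtain ⟨hpZ, hlp, hv1, hvY⟩ := Finset.mem_filter.1 hp
  obtain ⟨hpZ, hpp⟩ := mem_primesTo.1 hpZ
  have hm0 : 0 < m := Nat.pos_of_ne_zero fun h => by subst h; simp at hv1
  set Z := B * X / m + 1
  have hcard : ((P m).card : ℝ) ≤ (Nat.primeCounting Z : ℝ) := by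
    have : (P m).card ≤ (primesTo Z).card := Finset.card_filter_le _ _
    refine (Nat.cast_le.2 this).trans (le_of_eq ?_)
    rw [primesTo, Nat.primeCounting, Nat.primeCounting', Nat.count_eq_card_filter_range]
  have hZ2 : 2 ≤ Z := hpp.two_le.trans hpZ
  refine hcard.trans ((hpi Z hZ2).trans ?_)
  have hlZ : log X / w ≤ log (Z : ℝ) :=
    hlp.trans (Real.log_le_log (by exact_mod_cast hpp.pos) (by exact_mod_cast hpZ))
  have hZle : (Z : ℝ) ≤ 2 * (((B : ℝ) + 1) * X / m) := by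
    have h2 : 1 ≤ B * X / m := by
      have := (Nat.le_div_iff_mul_le hm0).2 hvY
      have := hpp.two_le
      omega
    have h3 : ((B * X / m : ℕ) : ℝ) ≤ ((B : ℝ) + 1) * X / m := by
      refine Nat.cast_div_le.trans ?_
      push_cast
      exact div_le_div_of_nonneg_right (by nlinarith [show (0:ℝ) ≤ X from Nat.cast_nonneg X])
        (Nat.cast_nonneg m)
    have h4 : (Z : ℝ) ≤ 2 * ((B * X / m : ℕ) : ℝ) := by
      exact_mod_cast (show Z ≤ 2 * (B * X / m) by omega)
    linarith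
  calc C * (Z : ℝ) / log Z ≤ C * (2 * (((B : ℝ) + 1) * X / m)) / (log X / w) :=
        div_le_div₀ (by positivity) (mul_le_mul_of_nonneg_left hZle hC.le) (by positivity) hlZ
    _ = C * 2 * (B + 1) * w * ((X : ℝ) / log X) * (1 / (m : ℝ)) := by
        field_simp

lemma primeCounting_succ_le (n : ℕ) : Nat.primeCounting (n + 1) ≤ Nat.primeCounting n + 1 := by
  simp only [Nat.primeCounting, Nat.primeCounting']
  rw [Nat.count_succ]
  split_ifs <;> omega

lemma card_primesTo (n : ℕ) : (primesTo n).card = Nat.primeCounting n := by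
  rw [primesTo, Nat.primeCounting, Nat.primeCounting', Nat.count_eq_card_filter_range]

/-- A finite set of natural numbers with small logarithms is small. -/
lemma card_le_exp (s : Finset ℕ) {a : ℝ} (ha : 0 ≤ a) (h : ∀ m ∈ s, log (m : ℝ) ≤ a) :
    (s.card : ℝ) ≤ 2 * exp a := by
  have hsub : s ⊆ Finset.range (⌊exp a⌋₊ + 1) := fun m hm => by
    refine Finset.mem_range.2 (Nat.lt_succ_of_le (Nat.le_floor ?_))
    rcases Nat.eq_zero_or_pos m with rfl | h0
    · simp; exact (exp_pos a).le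
    · exact (Real.log_le_iff_le_exp (by exact_mod_cast h0)).1 (h m hm)
  have h1 := Finset.card_le_card hsub
  rw [Finset.card_range] at h1
  have h2 : (s.card : ℝ) ≤ (⌊exp a⌋₊ : ℝ) + 1 := by exact_mod_cast h1
  have := Nat.floor_le (exp_pos a).le
  linarith [Real.one_le_exp ha]

/-- Small powers of `X` are negligible against `X / log X`. -/
lemma eventually_small_power {ε : ℝ} (hε : 0 < ε) :
    ∀ᶠ X : ℕ in atTop, exp (3 / 4 * log (X : ℝ)) ≤ ε * ((X : ℝ) / log X) := by
  have h : ∀ᶠ x : ℝ in atTop, log x ^ 1 ≤ ε * x ^ (1 / 4 : ℝ) :=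
    eventually_log_pow_le 1 hε (by norm_num)
  filter_upwards [tendsto_natCast_atTop_atTop.eventually h, eventually_ge_atTop 3] with X h hX
  have hX0 : (0 : ℝ) < X := by exact_mod_cast (show 0 < X by omega)
  have hl : 0 < log (X : ℝ) := Real.log_pos (by exact_mod_cast (show 1 < X by omega))
  rw [pow_one] at h
  have he : exp (3 / 4 * log (X : ℝ)) = (X : ℝ) ^ (3 / 4 : ℝ) := by
    rw [Real.rpow_def_of_pos hX0, mul_comm]
  have hsplit : (X : ℝ) = (X : ℝ) ^ (3 / 4 : ℝ) * (X : ℝ) ^ (1 / 4 : ℝ) := by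
    rw [← Real.rpow_add hX0]; norm_num
  rw [he, mul_div_assoc', le_div_iff₀ hl]
  calc (X : ℝ) ^ (3 / 4 : ℝ) * log (X : ℝ)
      ≤ (X : ℝ) ^ (3 / 4 : ℝ) * (ε * (X : ℝ) ^ (1 / 4 : ℝ)) :=
        mul_le_mul_of_nonneg_left h (by positivity)
    _ = ε * ((X : ℝ) ^ (3 / 4 : ℝ) * (X : ℝ) ^ (1 / 4 : ℝ)) := by ring
    _ = ε * (X : ℝ) := by rw [← hsplit]

/-- The totient values in `[1, Y]` are at most `(1 + o(1)) (Y / log X) · coreMass X`. -/
theorem values_upper (hNC : NormalCountStatement) (hNL : NormalLogStatement)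
    (hAC : AnatomyCountStatement) (hAL : AnatomyLogStatement) (hZ : CrudeTotientStatement)
    (hM : ManyLevelsStatement) (B : ℕ) {ε : ℝ} (hε : 0 < ε) :
    ∀ᶠ X : ℕ in atTop, ∀ Y : ℕ, X ≤ Y → Y ≤ B * X →
      ((valSet Y).card : ℝ)
        ≤ (Y : ℝ) / log X * coreMass X + ε * ((X : ℝ) / log X * coreMass X) := by
  classical
  obtain ⟨C, hC, hcount⟩ := prime_item_count B
  obtain ⟨Cp, -, hpre⟩ := preimage_bound B
  set δ₀ := ε / 5 with hδ₀
  have hd0 : 0 < δ₀ := by positivity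
  obtain ⟨δ, hδ, hδ8, hpi⟩ := prime_count_asymp B (ε := δ₀ / ((B : ℝ) + 1)) (by positivity)
  filter_upwards [hpre, exceptions hNC hNL hAC hAL hZ B hd0, count_small hd0, good_item,
    mass_compare hM hNL hZ (ε := δ₀ / (4 * C)) (by positivity), body_subset_upper, hpi,
    coreVals_small hδ, one_le_coreMass, eventually_small_power (ε := δ₀ / 2) (by positivity),
    eventually_ge_atTop 3, eventually_scale (Real.tendsto_log_atTop.eventually_ge_atTop (1 : ℝ))]
    with X hpre hexc hsmall hgood hmass hBU hpi hcv hM1 hpow hX hl Y hXY hYB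
  set T := scale X
  have hlX : 0 < log (X : ℝ) := Real.log_pos (by exact_mod_cast (show 1 < X by omega))
  set U := (X : ℝ) / log X with hU
  have hU0 : 0 ≤ U := by positivity
  set M := coreMass X
  -- the four pieces
  set s := valSet Y
  have hs : ∀ v ∈ s, 1 ≤ v ∧ v ≤ B * X ∧ ∃ n, φ n = v := fun v hv => by
    obtain ⟨hv, hn⟩ := Finset.mem_filter.1 hv
    exact ⟨(Finset.mem_Icc.1 hv).1, (Finset.mem_Icc.1 hv).2.trans hYB, hn⟩
  set A₁ := s.filter (fun v => ∃ n, φ n = v ∧ ¬ GoodPre X n)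
  set A₂ := s.filter (fun v : ℕ => (v : ℝ) ≤ (X : ℝ) / log X ^ 2)
  set A₃ := (coreVals X).biUnion
    (fun m => (primesTo (Y / m + 1)).image (fun p => (p - 1) * m))
  set D := (upperItems X \ coreItems X).image (fun z => itemVal z.2)
  set A₄ := s.filter (fun v => ∃ p m : ℕ, m ∈ D ∧ p.Prime ∧
    log X / (4 * ((maxLen T : ℝ) + 1)) ≤ log p ∧ (p - 1) * m = v)
  have hcover : s ⊆ A₁ ∪ A₂ ∪ A₃ ∪ A₄ := by
    intro v hv
    obtain ⟨hv1, hvB, n, hn⟩ := hs v hv
    by_cases h1 : ∃ n, φ n = v ∧ ¬ GoodPre X n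
    · exact Finset.mem_union_left _ (Finset.mem_union_left _ (Finset.mem_union_left _
        (Finset.mem_filter.2 ⟨hv, h1⟩)))
    by_cases h2 : (v : ℝ) ≤ (X : ℝ) / log X ^ 2
    · exact Finset.mem_union_left _ (Finset.mem_union_left _ (Finset.mem_union_right _
        (Finset.mem_filter.2 ⟨hv, h2⟩)))
    push Not at h1 h2
    obtain ⟨z, hz, p, hp, hlp, hval⟩ :=
      hgood n (h1 n hn) (hpre n (hn.symm ▸ hvB)).1 (hn.symm ▸ h2)
    rw [hn] at hval
    by_cases hc : z ∈ coreItems X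
    · refine Finset.mem_union_left _ (Finset.mem_union_right _ ?_)
      have hm : itemVal z.2 ∈ coreVals X := Finset.mem_image.2 ⟨z, hc, rfl⟩
      refine Finset.mem_biUnion.2 ⟨_, hm, Finset.mem_image.2 ⟨p, mem_primesTo.2 ⟨?_, hp⟩, hval⟩⟩
      have hvY : v ≤ Y := (Finset.mem_Icc.1 (Finset.mem_filter.1 hv).1).2
      have := (Nat.le_div_iff_mul_le (hcv _ hm).1).2 (hval.le.trans hvY)
      omega
    · refine Finset.mem_union_right _ (Finset.mem_filter.2 ⟨hv, p, itemVal z.2,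
        Finset.mem_image.2 ⟨z, Finset.mem_sdiff.2 ⟨hz, hc⟩, rfl⟩, hp, le_trans ?_ hlp, hval⟩)
      have hN : (0 : ℝ) < maxLen T := by exact_mod_cast Nat.ceil_pos.2 (by linarith)
      exact div_le_div_of_nonneg_left hlX.le (by positivity) (by linarith)
  have hsum : (s.card : ℝ) ≤ A₁.card + A₂.card + A₃.card + A₄.card := by
    have h := Finset.card_le_card hcover
    have h1 := Finset.card_union_le (A₁ ∪ A₂ ∪ A₃) A₄
    have h2 := Finset.card_union_le (A₁ ∪ A₂) A₃
    have h3 := Finset.card_union_le A₁ A₂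
    exact_mod_cast (show s.card ≤ A₁.card + A₂.card + A₃.card + A₄.card by omega)
  have hUM : U ≤ U * M := le_mul_of_one_le_right hU0 hM1
  have e1 : (A₁.card : ℝ) ≤ δ₀ * (U * M) := by
    refine (hexc A₁ fun v hv => ?_).trans (mul_le_mul_of_nonneg_left hUM hd0.le)
    obtain ⟨hv, n, hn, hg⟩ := Finset.mem_filter.1 hv
    exact ⟨(hs v hv).1, (hs v hv).2.1, n, hn, hg⟩
  have e2 : (A₂.card : ℝ) ≤ δ₀ * (U * M) :=
    (hsmall A₂ fun v hv => (Finset.mem_filter.1 hv).2).trans
      (mul_le_mul_of_nonneg_left hUM hd0.le)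
  have e3 : (A₃.card : ℝ) ≤ (Y : ℝ) / log X * M + 2 * δ₀ * (U * M) := by
    have h1 : (A₃.card : ℝ) ≤ ∑ m ∈ coreVals X, ((Nat.primeCounting (Y / m) : ℝ) + 1) := by
      refine (Nat.cast_le.2 Finset.card_biUnion_le).trans ?_
      rw [Nat.cast_sum]
      refine Finset.sum_le_sum fun m _ => ?_
      refine (Nat.cast_le.2 (Finset.card_image_le.trans
        ((card_primesTo _).le.trans (primeCounting_succ_le _)))).trans (le_of_eq ?_)
      push_cast; ring
    refine h1.trans ?_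
    rw [Finset.sum_add_distrib, Finset.sum_const, nsmul_one]
    have h2 : ((coreVals X).card : ℝ) ≤ δ₀ * (U * M) := by
      refine le_trans (card_le_exp _ (a := 3 / 4 * log (X : ℝ)) (by positivity)
        fun m hm => (hcv m hm).2.trans ?_) ?_
      · exact mul_le_mul_of_nonneg_right (by linarith) hlX.le
      · calc 2 * exp (3 / 4 * log (X : ℝ)) ≤ 2 * (δ₀ / 2 * U) :=
              mul_le_mul_of_nonneg_left hpow zero_le_two
          _ = δ₀ * U := by ring
          _ ≤ δ₀ * (U * M) := mul_le_mul_of_nonneg_left hUM hd0.le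
    have h3 : ∑ m ∈ coreVals X, (Nat.primeCounting (Y / m) : ℝ)
        ≤ (1 + δ₀ / ((B : ℝ) + 1)) * ((Y : ℝ) / log X) * M := by
      refine le_trans ?_ (mul_le_mul_of_nonneg_left (coreVals_sum_le X) (by positivity))
      rw [Finset.mul_sum]
      refine Finset.sum_le_sum fun m hm => (hpi Y m hXY hYB (hcv m hm).1 (hcv m hm).2).2.trans
        (le_of_eq ?_)
      ring
    have h4 : δ₀ / ((B : ℝ) + 1) * ((Y : ℝ) / log X) * M ≤ δ₀ * (U * M) := by
      rw [← mul_assoc δ₀ U M]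
      refine mul_le_mul_of_nonneg_right ?_ (by linarith)
      rw [hU, div_mul_div_comm, mul_div_assoc', div_le_div_iff₀ (by positivity) hlX]
      have : (Y : ℝ) ≤ (B : ℝ) * X := by exact_mod_cast hYB
      have hX0 : (0 : ℝ) ≤ X := Nat.cast_nonneg X
      nlinarith [mul_le_mul_of_nonneg_left
        (show (Y : ℝ) ≤ ((B : ℝ) + 1) * X by linarith) (mul_nonneg hd0.le hlX.le)]
    linarith
  have e4 : (A₄.card : ℝ) ≤ δ₀ * (U * M) := by
    have h1 := hcount X hX (4 * ((maxLen T : ℝ) + 1)) (by positivity) D A₄ fun v hv => by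
      obtain ⟨hv, h⟩ := Finset.mem_filter.1 hv
      exact ⟨(hs v hv).1, (hs v hv).2.1, h⟩
    have hsub : coreItems X ⊆ upperItems X := fun z hz => by
      obtain ⟨hL, hx⟩ := mem_coreItems.1 hz
      exact Finset.mem_sigma.2 ⟨hL, hBU z.1 hL (coreSet_subset_body X z.1 hx)⟩
    have h2 : ∑ m ∈ D, 1 / (m : ℝ)
        ≤ ∑ L ∈ levRange X, (mass (upperSet X L) - mass (coreSet X L)) := by
      refine (Finset.sum_image_le_of_nonneg fun m _ => by positivity).trans (le_of_eq ?_)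
      rw [Finset.sum_sdiff_eq_sub hsub, upperItems, coreItems, Finset.sum_sigma, Finset.sum_sigma,
        Finset.sum_sub_distrib]
      congr 1
      · exact Finset.sum_congr rfl fun L _ => Finset.sum_congr rfl fun x hx =>
          one_div_itemVal x (allItems_prime (upperSet_subset_all X L hx))
      · exact Finset.sum_congr rfl fun L _ => Finset.sum_congr rfl fun x hx =>
          one_div_itemVal x (allItems_prime (bodySet_subset_all X L (coreSet_subset_body X L hx)))
    calc (A₄.card : ℝ) ≤ C * (4 * ((maxLen T : ℝ) + 1)) * U * ∑ m ∈ D, 1 / (m : ℝ) := h1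
      _ ≤ C * (4 * ((maxLen T : ℝ) + 1)) * U
            * ∑ L ∈ levRange X, (mass (upperSet X L) - mass (coreSet X L)) :=
          mul_le_mul_of_nonneg_left h2 (by positivity)
      _ = 4 * C * U * (((maxLen T : ℝ) + 1)
            * ∑ L ∈ levRange X, (mass (upperSet X L) - mass (coreSet X L))) := by ring
      _ ≤ 4 * C * U * (δ₀ / (4 * C) * M) := mul_le_mul_of_nonneg_left hmass (by positivity)
      _ = δ₀ * (U * M) := by field_simp
  calc (s.card : ℝ) ≤ (Y : ℝ) / log X * M + 5 * δ₀ * (U * M) := by linarith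
    _ = (Y : ℝ) / log X * M + ε * (U * M) := by rw [hδ₀]; ring

/-- Core values times a normal top prime are totient values, through chains. -/
lemma item_value :
    ∀ᶠ X : ℕ in atTop, ∀ m ∈ coreVals X, ∀ p : ℕ, Normal p →
      scale X - 2 * log (scale X) ≤ u p →
      (∃ l e, Chain (scale X) (scale X) p l e ∧ pval l * e = m) ∧ ∃ n, φ n = (p - 1) * m := by
  classical
  have hT : ∀ᶠ T : ℝ in atTop, floorLevel T < T - 2 * log T ∧
      (1 - 3 * eta T) * T < T - 2 * log T := by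
    filter_upwards [eventually_log_pow_le 200 (c := 1 / 4) (by norm_num) one_pos,
      eventually_log_pow_le 11 (c := 1) one_pos one_pos,
      Real.tendsto_log_atTop.eventually_ge_atTop (1 : ℝ), eventually_gt_atTop 0] with T h1 h2 hl h0
    rw [Real.rpow_one] at h1 h2
    rw [one_mul] at h2
    refine ⟨?_, ?_⟩
    · simp only [floorLevel]
      have : log T ≤ log T ^ 200 := le_self_pow₀ hl (by norm_num)
      linarith
    · simp only [eta]
      have h3 : log T ≤ 1 / log T ^ 10 * T := by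
        rw [one_div_mul_eq_div, le_div_iff₀ (by positivity), ← pow_succ']
        exact h2
      linarith
  filter_upwards [item_chains, eventually_scale hT] with X hchains hT m hm p hp hup
  obtain ⟨z, hz, rfl⟩ := Finset.mem_image.1 hm
  obtain ⟨hL, hx⟩ := mem_coreItems.1 hz
  obtain ⟨hch, -, hmax⟩ := hchains z.1 hL z.2 hx
  set T := scale X
  set ls := levelsOf T z.2
  have hbody := (Finset.mem_filter.1 (coreSet_subset_body X z.1 hx)).2
  have hq : ∀ q ∈ ls, q < p := fun q hq =>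
    (u_lt_u_iff_of_prime hp.prime).1 (lt_of_le_of_lt (hmax q hq) (lt_of_lt_of_le hT.2 hup))
  have hc := hch p hp (lt_of_lt_of_le hT.1 hup) hq
  have hval : pval ls * cofOf T z.2 = itemVal z.2 := by
    have := pval_drop_ofFn_mul hbody (Nat.zero_le z.1)
    rw [List.drop_zero, List.drop_zero, pval_ofFn] at this
    exact this
  refine ⟨⟨_, _, hc, hval⟩, (p :: ls).prod * smlPart (floorLevel T) (tailOf T z.2), ?_⟩
  obtain ⟨hr, -, -⟩ := tailOf_spec hbody
  rw [totient_prod_primes_mul (p :: ls) _ (fun q hq => (hc.2.1 q hq).1.prime)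
    (hc.1.imp fun {a b} h => (ne_of_lt h).symm) (fun q hq hd =>
      absurd ((smlPart_smooth hr.1 hr.2.1).2 q (hc.2.1 q hq).1.prime hd) (not_le.2 (hc.2.1 q hq).2)),
    pval_cons, mul_assoc]
  rw [← hval]
  rfl

/-- Primes usable on top of the core value `m`. -/
noncomputable def topPrimes (X Y m : ℕ) : Finset ℕ :=
  open Classical in (primesTo (Y / m)).filter (fun p => log X / 2 < log p ∧ Normal p)

/-- Pairs of a core value and a top prime. -/
noncomputable def topPairs (X Y : ℕ) : Finset (Σ _ : ℕ, ℕ) :=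
  (coreVals X).sigma (topPrimes X Y)

/-- The value of a pair. -/
def pairVal (a : Σ _ : ℕ, ℕ) : ℕ := (a.2 - 1) * a.1

/-- Parameter facts at the top scale. -/
lemma top_scale_ev (D : ℝ) {δ₁ : ℝ} : ∀ᶠ T : ℝ in atTop,
    -(T - 2 * log T) - (T - 2 * log T) ^ (1 / 10 : ℝ) + T + D ≤ log δ₁ ∧
    -T - T ^ (4 / 5 : ℝ) + T + D ≤ log δ₁ ∧ 2 * log T ≤ √T ∧ tailLevel T ≤ T ∧
    √T ≤ T ∧ 1 ≤ T := by
    have h1 := eventually_log_pow_le 1 (c := 1 / 16) (by norm_num)
      (show (0 : ℝ) < 1 / 10 by norm_num)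
    have h2 := (tendsto_rpow_atTop (show (0 : ℝ) < 1 / 10 by norm_num)).eventually_ge_atTop
      (4 * (D + |log δ₁|))
    filter_upwards [h1, h2, eventually_log_pow_le 400 (c := 1) one_pos one_pos,
      eventually_ge_atTop (1 : ℝ)] with T h1 h2 h3 hT
    rw [pow_one] at h1
    rw [one_mul, Real.rpow_one] at h3
    have hP0 : 0 ≤ T ^ (1 / 10 : ℝ) := by positivity
    have hPs : T ^ (1 / 10 : ℝ) ≤ √T := by
      rw [Real.sqrt_eq_rpow]; exact Real.rpow_le_rpow_of_exponent_le hT (by norm_num)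
    have hP45 : T ^ (1 / 10 : ℝ) ≤ T ^ (4 / 5 : ℝ) :=
      Real.rpow_le_rpow_of_exponent_le hT (by norm_num)
    have hl0 : 0 ≤ log T := Real.log_nonneg hT
    have hsT : √T ≤ T := by rw [Real.sqrt_le_iff]; constructor <;> nlinarith
    have hhalf : T / 2 ≤ T - 2 * log T := by linarith
    have hP2 : 1 / 2 * T ^ (1 / 10 : ℝ) ≤ (T - 2 * log T) ^ (1 / 10 : ℝ) := by
      refine le_trans ?_ (Real.rpow_le_rpow (by linarith) hhalf (by norm_num))
      rw [show T / 2 = (1 / 2) * T by ring, Real.mul_rpow (by norm_num) (by linarith)]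
      refine mul_le_mul_of_nonneg_right ?_ hP0
      have := Real.rpow_le_rpow_of_exponent_ge (show (0:ℝ) < 1 / 2 by norm_num)
        (by norm_num) (show (1 / 10 : ℝ) ≤ 1 by norm_num)
      rwa [Real.rpow_one] at this
    have := neg_abs_le (log δ₁)
    exact ⟨by linarith, by linarith, by linarith, h3, hsT, hT⟩

lemma top_pairs_mem (B : ℕ) :
    ∀ᶠ X : ℕ in atTop, ∀ Y : ℕ, Y ≤ B * X → ∀ a ∈ topPairs X Y,
      a.1 ∈ coreVals X ∧ 1 ≤ a.1 ∧ Normal a.2 ∧ pairVal a ≤ Y ∧ 0 < a.2 - 1 ∧ a.2 ≤ X ^ 2 ∧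
      scale X - 2 * log (scale X) ≤ u a.2 := by
  classical
  filter_upwards [coreVals_small one_pos, eventually_u_ge, eventually_ge_atTop (max 3 B),
    eventually_scale (eventually_ge_atTop (1 : ℝ))] with X hcv hge hX hT Y hYB a ha
  obtain ⟨ha1, ha2⟩ := Finset.mem_sigma.1 ha
  obtain ⟨hp, hlp, hnorm⟩ := Finset.mem_filter.1 ha2
  obtain ⟨hle, hpr⟩ := mem_primesTo.1 hp
  have h1 := (hcv a.1 ha1).1
  have h2 := (Nat.le_div_iff_mul_le h1).1 hle
  have h3 := hpr.two_le
  refine ⟨ha1, h1, hnorm, (Nat.mul_le_mul_right _ (Nat.sub_le _ _)).trans h2, by omega,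
    (hle.trans (Nat.div_le_self _ _)).trans (hYB.trans ((Nat.mul_le_mul_right X
      ((le_max_right _ _).trans hX)).trans (le_of_eq (sq X).symm))), hge a.2 ?_⟩
  refine le_trans ?_ hlp.le
  exact div_le_div_of_nonneg_left (Real.log_natCast_nonneg X) (by norm_num) (by linarith)

open Classical in
/-- Pairs whose value is also taken by a pair with a smaller top prime are negligible. -/
lemma top_collisions (hC : CollideStatement) (B : ℕ) {δ₁ : ℝ} (hd1 : 0 < δ₁) :
    ∀ᶠ X : ℕ in atTop, ∀ Y : ℕ, Y ≤ B * X →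
      (((topPairs X Y).filter
        (fun a => ∃ b ∈ topPairs X Y, b.2 < a.2 ∧ pairVal b = pairVal a)).card : ℝ)
        ≤ δ₁ * ((Y : ℝ) / log X) := by
  obtain ⟨D, hD0, hD⟩ := exists_log_le_exp_scale
  filter_upwards [eventually_scale (chain_pairs hC), eventually_scale (top_scale_ev D (δ₁ := δ₁)),
    hD, item_value, eventually_u_le_pow 2, top_pairs_mem B, eventually_ge_atTop (max 3 B)]
    with X hpairs hTe hlXT hval hule hmem hX Y hYB
  replace hmem := hmem Y hYB
  obtain ⟨-, hE2, hlT, hKT, hsT, hT1⟩ := hTe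
  have hXB : B ≤ X := (le_max_right _ _).trans hX
  have hlX : 0 < log (X : ℝ) := Real.log_pos (by
    exact_mod_cast (show 1 < X by have := (le_max_left _ _).trans hX; omega))
  set T := scale X
  set Pr := topPairs X Y
  set g := pairVal with hg
  set Bad := Pr.filter (fun a => ∃ b ∈ Pr, b.2 < a.2 ∧ g b = g a)
  set P := ((Pr ×ˢ Pr).filter (fun x => x.2.2 < x.1.2 ∧ g x.2 = g x.1)).image
    (fun x => (((x.1.2, x.1.1), (x.2.2, x.2.1)) : (ℕ × ℕ) × (ℕ × ℕ))) with hP
  have hsub : Bad ⊆ P.image (fun y => (⟨y.1.2, y.1.1⟩ : Σ _ : ℕ, ℕ)) := by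
    intro a ha
    obtain ⟨ha, b, hb, hlt, heq⟩ := Finset.mem_filter.1 ha
    refine Finset.mem_image.2 ⟨((a.2, a.1), (b.2, b.1)), Finset.mem_image.2 ⟨(a, b), ?_, rfl⟩, rfl⟩
    exact Finset.mem_filter.2 ⟨Finset.mem_product.2 ⟨ha, hb⟩, hlt, heq⟩
  have huY : u Y ≤ 3 * T := by
    have := hule Y (hYB.trans ((Nat.mul_le_mul_right X hXB).trans (le_of_eq (sq X).symm)))
    linarith
  have h := hpairs T T Y hKT (by linarith) huY P fun y hy => by
    obtain ⟨x, hx, rfl⟩ := Finset.mem_image.1 hy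
    obtain ⟨hx, hlt, heq⟩ := Finset.mem_filter.1 hx
    obtain ⟨ha, hb⟩ := Finset.mem_product.1 hx
    obtain ⟨a1, -, an, ale, -, aX, au⟩ := hmem _ ha
    obtain ⟨b1, -, bn, -, -, -, bu⟩ := hmem _ hb
    obtain ⟨⟨la, ea, hca, hva⟩, -⟩ := hval _ a1 _ an au
    obtain ⟨⟨lb, eb, hcb, hvb⟩, -⟩ := hval _ b1 _ bn bu
    refine ⟨hlt, ?_, ⟨la, ea, hca, hva⟩, ⟨T, lb, eb, hcb, hvb⟩, heq.symm, ale⟩
    have := hule _ aX
    rw [abs_le]
    constructor <;> simp only <;> linarith
  refine (Nat.cast_le.2 ((Finset.card_le_card hsub).trans Finset.card_image_le)).trans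
    (h.trans ?_)
  rw [mul_div_assoc', le_div_iff₀ hlX, mul_assoc, mul_comm δ₁ (Y : ℝ)]
  refine mul_le_mul_of_nonneg_left ?_ (Nat.cast_nonneg Y)
  refine (mul_le_mul_of_nonneg_left hlXT.2 (exp_pos _).le).trans ?_
  rw [← Real.exp_add, ← Real.le_log_iff_exp_le hd1]
  linarith

/-- Most primes up to `Y / m` are usable on top of `m`. -/
lemma top_prime_count (hNC : NormalCountStatement) (B : ℕ) {δ₁ : ℝ} (hd1 : 0 < δ₁) :
    ∃ δ : ℝ, 0 < δ ∧ δ ≤ 1 / 8 ∧ ∀ᶠ X : ℕ in atTop, ∀ Y m : ℕ, X ≤ Y → Y ≤ B * X → 1 ≤ m →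
      log m ≤ δ * log X →
      (1 - 2 * δ₁) * ((Y : ℝ) / log X) * (1 / (m : ℝ)) - 2 * exp (log X / 2)
        ≤ ((topPrimes X Y m).card : ℝ) := by
  classical
  obtain ⟨Y₀, hY₀⟩ := hNC
  obtain ⟨D, hD0, hD⟩ := exists_log_le_exp_scale
  obtain ⟨δ, hδ, hδ8, hpi⟩ := prime_count_asymp B (ε := δ₁) hd1
  refine ⟨δ, hδ, hδ8, ?_⟩
  filter_upwards [hpi, eventually_scale (top_scale_ev D (δ₁ := δ₁)), hD, eventually_u_ge,
    eventually_ge_atTop (max 3 ((Y₀ + 2) ^ 4)),
    (Real.tendsto_log_atTop.comp tendsto_natCast_atTop_atTop).eventually_ge_atTop (4 : ℝ)]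
    with X hpi hTe hlXT hge hX hlX4 Y m hXY hYB hm1 hlm
  obtain ⟨hE1, -, hlT, -, hsT, hT1⟩ := hTe
  simp only [Function.comp_apply] at hlX4
  have hX3 : 3 ≤ X := (le_max_left _ _).trans hX
  have hXY0 : (Y₀ + 2) ^ 4 ≤ X := (le_max_right _ _).trans hX
  set T := scale X
  set lX := log (X : ℝ) with hlX_def
  have hlX : 0 < lX := by linarith
  set W := (Y : ℝ) / lX with hW
  set R := topPrimes X Y with hR
  have hm0 : (0 : ℝ) < m := by exact_mod_cast hm1
  have hπ := (hpi Y m hXY hYB hm1 hlm).1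
  set Z := Y / m with hZdef
  set S₁ := (primesTo Z).filter (fun p : ℕ => log (p : ℝ) ≤ lX / 2)
  set S₂ := (primesTo Z).filter (fun p => ¬ Normal p)
  have hsplit : (primesTo Z).card ≤ (R m).card + S₁.card + S₂.card := by
    refine le_trans (Finset.card_le_card (t := R m ∪ S₁ ∪ S₂) fun p hp => ?_) ?_
    · by_cases h1 : Normal p
      · by_cases h2 : log (p : ℝ) ≤ lX / 2
        · exact Finset.mem_union_left _ (Finset.mem_union_right _ (Finset.mem_filter.2 ⟨hp, h2⟩))
        · exact Finset.mem_union_left _ (Finset.mem_union_left _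
            (Finset.mem_filter.2 ⟨hp, not_le.1 h2, h1⟩))
      · exact Finset.mem_union_right _ (Finset.mem_filter.2 ⟨hp, h1⟩)
    · exact (Finset.card_union_le _ _).trans (Nat.add_le_add_right (Finset.card_union_le _ _) _)
  have hS1 : (S₁.card : ℝ) ≤ 2 * exp (lX / 2) :=
    card_le_exp _ (by linarith) fun p hp => (Finset.mem_filter.1 hp).2
  have hZbig : lX / 2 ≤ log (Z : ℝ) ∧ Y₀ ≤ Z := by
    have hm4 : (m : ℝ) ^ 4 * (Y₀ + 2) ≤ X ^ 2 := by
      have h1 : (m : ℝ) ^ 4 ≤ X := by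
        rw [← Real.log_le_log_iff (by positivity) (by positivity), Real.log_pow]
        have : δ * lX ≤ 1 / 4 * lX := mul_le_mul_of_nonneg_right (by linarith) hlX.le
        push_cast
        linarith
      have h2 : ((Y₀ : ℝ) + 2) ≤ X := by
        exact_mod_cast (Nat.le_self_pow (by norm_num) _).trans hXY0
      calc (m : ℝ) ^ 4 * (Y₀ + 2) ≤ (X : ℝ) * X :=
            mul_le_mul h1 h2 (by positivity) (by positivity)
        _ = (X : ℝ) ^ 2 := (sq _).symm
    have hlw : 3 / 4 * lX ≤ log ((Y : ℝ) / m) := by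
      have hY0 : (0 : ℝ) < Y := by exact_mod_cast (show 0 < Y by omega)
      rw [Real.log_div hY0.ne' hm0.ne']
      have : lX ≤ log (Y : ℝ) :=
        Real.log_le_log (by positivity) (by exact_mod_cast hXY)
      have : δ * lX ≤ 1 / 4 * lX := mul_le_mul_of_nonneg_right (by linarith) hlX.le
      linarith
    have hZ1 : (Y : ℝ) / m ≤ (Z : ℝ) + 1 := by
      rw [div_le_iff₀ hm0]
      have h2 := Nat.mod_lt Y (show m > 0 by omega)
      have h3 := Nat.div_add_mod Y m
      have : Y ≤ (Z + 1) * m := by rw [add_mul, one_mul, mul_comm, hZdef]; omega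
      exact_mod_cast this
    have hY0Z : (Y₀ : ℝ) + 1 ≤ (Y : ℝ) / m := by
      rw [le_div_iff₀ hm0]
      have hXY' : (X : ℝ) ≤ Y := by exact_mod_cast hXY
      refine le_trans ?_ hXY'
      have h1 : (((Y₀ : ℝ) + 1) * m) ^ 4 ≤ (X : ℝ) ^ 4 := by
        have h2 : ((Y₀ : ℝ) + 1) ^ 4 ≤ X := by
          have : ((Y₀ : ℝ) + 2) ^ 4 ≤ X := by exact_mod_cast hXY0
          exact (pow_le_pow_left₀ (by positivity) (by linarith) 4).trans this
        have h3 : (m : ℝ) ^ 4 ≤ X ^ 2 :=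
          le_trans (le_mul_of_one_le_right (by positivity) (by
            linarith [show (0:ℝ) ≤ Y₀ from Nat.cast_nonneg Y₀])) hm4
        rw [mul_pow]
        calc ((Y₀ : ℝ) + 1) ^ 4 * (m : ℝ) ^ 4 ≤ (X : ℝ) * X ^ 2 :=
              mul_le_mul h2 h3 (by positivity) (by positivity)
          _ ≤ (X : ℝ) * X ^ 3 := by
              refine mul_le_mul_of_nonneg_left (pow_le_pow_right₀ ?_ (by norm_num)) (by positivity)
              exact_mod_cast (show 1 ≤ X by omega)
          _ = (X : ℝ) ^ 4 := by ring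
      exact le_of_pow_le_pow_left₀ (by norm_num) (by positivity) h1
    have hY0Z' : Y₀ ≤ Z := by
      exact_mod_cast (show (Y₀ : ℝ) ≤ Z by linarith)
    have hZpos : (1 : ℝ) ≤ Z := by
      by_contra hc
      have : Z = 0 := by
        have : Z < 1 := by exact_mod_cast not_le.1 hc
        omega
      rw [this] at hZ1
      simp only [Nat.cast_zero, zero_add] at hZ1
      have h4 : log ((Y : ℝ) / m) ≤ 0 := Real.log_nonpos (by positivity) hZ1
      linarith
    refine ⟨?_, hY0Z'⟩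
    have h1 : log ((Y : ℝ) / m) ≤ log 2 + log (Z : ℝ) := by
      rw [← Real.log_mul (by norm_num) (by linarith)]
      refine Real.log_le_log ?_ (by linarith)
      have : (0 : ℝ) < Y := by exact_mod_cast (show 0 < Y by omega)
      positivity
    linarith [Real.log_two_lt_d9]
  have hS2 : (S₂.card : ℝ) ≤ δ₁ * W * (1 / (m : ℝ)) := by
    have h1 := hY₀ Z hZbig.2 S₂ fun q hq => by
      obtain ⟨hq, hn⟩ := Finset.mem_filter.1 hq
      exact ⟨(mem_primesTo.1 hq).2, (mem_primesTo.1 hq).1, hn⟩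
    have huZ : T - 2 * log T ≤ u Z := hge Z
      (le_trans (div_le_div_of_nonneg_left hlX.le (by norm_num) (by linarith)) hZbig.1)
    have hexp : exp (-u Z - u Z ^ (1 / 10 : ℝ)) ≤ δ₁ / lX := by
      have h2 : (T - 2 * log T) ^ (1 / 10 : ℝ) ≤ u Z ^ (1 / 10 : ℝ) :=
        Real.rpow_le_rpow (by linarith) huZ (by norm_num)
      rw [le_div_iff₀ hlX]
      refine (mul_le_mul_of_nonneg_left hlXT.2 (exp_pos _).le).trans ?_
      rw [← Real.exp_add, ← Real.le_log_iff_exp_le hd1]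
      linarith
    calc (S₂.card : ℝ) ≤ (Z : ℝ) * exp (-u Z - u Z ^ (1 / 10 : ℝ)) := h1
      _ ≤ ((Y : ℝ) / m) * (δ₁ / lX) :=
          mul_le_mul Nat.cast_div_le hexp (exp_pos _).le (by positivity)
      _ = δ₁ * W * (1 / (m : ℝ)) := by rw [hW]; field_simp
  have hcast : (Nat.primeCounting Z : ℝ) ≤ ((R m).card : ℝ) + S₁.card + S₂.card := by
    rw [← card_primesTo]; exact_mod_cast hsplit
  have e : (1 - δ₁) * ((Y : ℝ) / m / lX) = (1 - δ₁) * W * (1 / (m : ℝ)) := by
    rw [hW]; field_simp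
  rw [e] at hπ
  linarith

/-- The totient values in `[1, Y]` are at least `(1 - o(1)) (Y / log X) · coreMass X`. -/
theorem values_lower (hNC : NormalCountStatement) (hC : CollideStatement) (B : ℕ) {ε : ℝ}
    (hε : 0 < ε) :
    ∀ᶠ X : ℕ in atTop, ∀ Y : ℕ, X ≤ Y → Y ≤ B * X →
      (Y : ℝ) / log X * coreMass X - ε * ((X : ℝ) / log X * coreMass X)
        ≤ ((valSet Y).card : ℝ) := by
  classical
  set δ₀ := ε / 5 with hδ₀
  have hd0 : 0 < δ₀ := by positivity
  set δ₁ := δ₀ / ((B : ℝ) + 1) with hδ₁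
  have hd1 : 0 < δ₁ := by positivity
  obtain ⟨δ, hδ, hδ8, hper⟩ := top_prime_count hNC B hd1
  filter_upwards [hper, coreVals_small hδ, coreVals_mass hC (ε := δ₁) hd1, one_le_coreMass,
    eventually_small_power (ε := δ₁ / 4) (by positivity), top_collisions hC B hd1, item_value,
    top_pairs_mem B, eventually_ge_atTop 3]
    with X hper hcv hmass hM1 hpow hcol hval hmem hX Y hXY hYB
  replace hmem := hmem Y hYB
  replace hcol := hcol Y hYB
  set M := coreMass X
  set lX := log (X : ℝ) with hlX_def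
  have hlX : 0 < lX := Real.log_pos (by exact_mod_cast (show 1 < X by omega))
  set U := (X : ℝ) / lX with hU
  set W := (Y : ℝ) / lX with hW
  have hU0 : 0 ≤ U := by positivity
  have hW0 : 0 ≤ W := by positivity
  have hWU : δ₁ * W ≤ δ₀ * U := by
    rw [hδ₁, hU, hW, div_mul_div_comm, mul_div_assoc', div_le_div_iff₀ (by positivity) hlX]
    have : (Y : ℝ) ≤ (B : ℝ) * X := by exact_mod_cast hYB
    have hX0 : (0 : ℝ) ≤ X := Nat.cast_nonneg X
    nlinarith [mul_le_mul_of_nonneg_left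
      (show (Y : ℝ) ≤ ((B : ℝ) + 1) * X by linarith) (mul_nonneg hd0.le hlX.le)]
  set Pr := topPairs X Y
  set g := pairVal with hg
  have himg : Pr.image g ⊆ valSet Y := by
    intro v hv
    obtain ⟨a, ha, rfl⟩ := Finset.mem_image.1 hv
    obtain ⟨ha1, h1, hnorm, hle, hpos, -, hu⟩ := hmem a ha
    exact Finset.mem_filter.2 ⟨Finset.mem_Icc.2 ⟨Nat.mul_pos hpos h1, hle⟩,
      (hval a.1 ha1 a.2 hnorm hu).2⟩
  set Bad := Pr.filter (fun a => ∃ b ∈ Pr, b.2 < a.2 ∧ g b = g a)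
  have hinj : Set.InjOn g ↑(Pr \ Bad) := by
    intro a ha b hb hab
    obtain ⟨ha, hna⟩ := Finset.mem_sdiff.1 ha
    obtain ⟨hb, hnb⟩ := Finset.mem_sdiff.1 hb
    obtain ⟨a1, a2⟩ := a
    obtain ⟨b1, b2⟩ := b
    rcases lt_trichotomy a2 b2 with h | rfl | h
    · exact absurd (Finset.mem_filter.2 ⟨hb, _, ha, h, hab⟩) hnb
    · have := Nat.eq_of_mul_eq_mul_left (hmem _ ha).2.2.2.2.1 hab
      simp only at this
      rw [this]
    · exact absurd (Finset.mem_filter.2 ⟨ha, _, hb, h, hab.symm⟩) hna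
  have hcard : (Pr.card : ℝ) ≤ ((valSet Y).card : ℝ) + δ₀ * U := by
    have h1 : Pr.card ≤ (Pr \ Bad).card + Bad.card := Finset.card_le_card_sdiff_add_card
    have h2 : (Pr \ Bad).card ≤ (valSet Y).card := by
      rw [← Finset.card_image_of_injOn hinj]
      exact Finset.card_le_card
        ((Finset.image_subset_image Finset.sdiff_subset).trans himg)
    have h3 : (Pr.card : ℝ) ≤ ((valSet Y).card : ℝ) + (Bad.card : ℝ) := by
      exact_mod_cast (show Pr.card ≤ (valSet Y).card + Bad.card by omega)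
    linarith [hcol.trans hWU]
  have hsum : (1 - 2 * δ₁) * W * (∑ m ∈ coreVals X, 1 / (m : ℝ)) - δ₀ * U ≤ (Pr.card : ℝ) := by
    simp only [Pr, topPairs]
    rw [Finset.card_sigma, Nat.cast_sum]
    refine le_trans ?_ (Finset.sum_le_sum fun m hm => hper Y m hXY hYB (hcv m hm).1 (hcv m hm).2)
    rw [Finset.sum_sub_distrib, ← Finset.mul_sum, Finset.sum_const, nsmul_eq_mul]
    have h1 : ((coreVals X).card : ℝ) ≤ 2 * exp (lX / 4) :=
      card_le_exp _ (by linarith) fun m hm => (hcv m hm).2.trans (by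
        rw [div_eq_mul_inv, mul_comm lX]
        exact mul_le_mul_of_nonneg_right (by linarith) hlX.le)
    have h2 : ((coreVals X).card : ℝ) * (2 * exp (lX / 2)) ≤ δ₀ * U := by
      calc ((coreVals X).card : ℝ) * (2 * exp (lX / 2))
          ≤ 2 * exp (lX / 4) * (2 * exp (lX / 2)) :=
            mul_le_mul_of_nonneg_right h1 (by positivity)
        _ = 4 * exp (3 / 4 * lX) := by
            rw [show (3 / 4 : ℝ) * lX = lX / 4 + lX / 2 by ring, Real.exp_add]; ring
        _ ≤ 4 * (δ₁ / 4 * U) := mul_le_mul_of_nonneg_left hpow (by norm_num)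
        _ = δ₁ * U := by ring
        _ ≤ δ₀ * U := mul_le_mul_of_nonneg_right
            (div_le_self hd0.le (by linarith [Nat.cast_nonneg (α := ℝ) B])) hU0
    linarith
  set Sm := ∑ m ∈ coreVals X, 1 / (m : ℝ)
  have hS0 : 0 ≤ Sm := Finset.sum_nonneg fun m _ => by positivity
  have hSM : Sm ≤ M := coreVals_sum_le X
  have hlow : W * M - δ₁ * W * M ≤ W * Sm := by
    have h1 : W * (M - δ₁) ≤ W * Sm := mul_le_mul_of_nonneg_left (by linarith) hW0
    have h2 : δ₁ * W ≤ δ₁ * W * M := le_mul_of_one_le_right (by positivity) hM1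
    linarith
  have h3 : δ₁ * W * Sm ≤ δ₁ * W * M := mul_le_mul_of_nonneg_left hSM (by positivity)
  have h4 : δ₁ * W * M ≤ δ₀ * U * M := mul_le_mul_of_nonneg_right hWU (by linarith)
  have h5 : δ₀ * U ≤ δ₀ * U * M := le_mul_of_one_le_right (by positivity) hM1
  have hfin : ε * (U * M) = 5 * (δ₀ * U * M) := by rw [hδ₀]; ring
  linarith

/-- The asymptotic formula for the number of totient values. -/
theorem values_asymp (hC : CollideStatement) (hNC : NormalCountStatement)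
    (hNL : NormalLogStatement) (hAC : AnatomyCountStatement) (hAL : AnatomyLogStatement)
    (hZ : CrudeTotientStatement) (hM : ManyLevelsStatement) (B : ℕ) {ε : ℝ} (hε : 0 < ε) :
    ∀ᶠ X : ℕ in atTop, ∀ Y : ℕ, X ≤ Y → Y ≤ B * X →
      |((valSet Y).card : ℝ) - (Y : ℝ) / log X * coreMass X|
        ≤ ε * ((X : ℝ) / log X * coreMass X) := by
  filter_upwards [values_upper hNC hNL hAC hAL hZ hM B hε, values_lower hNC hC B hε]
    with X h1 h2 Y hXY hYB
  have := h1 Y hXY hYB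
  have := h2 Y hXY hYB
  rw [abs_le]
  constructor <;> linarith

end Vale.Agent.P031
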