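import Vale.Agent.P031.Weights

/-!
P031: a crude bound for the harmonic sum of the distinct totients of smooth numbers.
-/

open Finset Real Filter
open scoped Nat Topology

namespace Vale.Agent.P031
namespace Crude

/-- `d` is the totient of an `F`-smooth number. -/
def Tot (F : ℝ) (d : ℕ) : Prop := ∃ n : ℕ, Smooth F n ∧ φ n = d

/-- A bound for the harmonic sum over any finite set with property `Q`. -/
def HBound (Q : ℕ → Prop) (B : ℝ) : Prop :=
  ∀ s : Finset ℕ, (∀ d ∈ s, Q d) → ∑ d ∈ s, 1 / (d : ℝ) ≤ B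

lemma tot_exp {F : ℝ} (hF : 0 ≤ F) : HBound (Tot F) (exp F) := by
  intro s hs
  have h := sum_smooth_wt_le F hF ∅ (by simp) (fun _ => 1) (by simp) s fun d hd => by
    obtain ⟨n, hn, rfl⟩ := hs d hd
    exact smooth_totient hn
  simpa [wt] using h

/-- The supremum of the harmonic sums. -/
noncomputable def Z (F : ℝ) : ℝ :=
  sSup {x | ∃ s : Finset ℕ, (∀ d ∈ s, Tot F d) ∧ x = ∑ d ∈ s, 1 / (d : ℝ)}

lemma tot_Z {F : ℝ} (hF : 0 ≤ F) : HBound (Tot F) (Z F) := fun s hs =>
  le_csSup ⟨exp F, by rintro x ⟨t, ht, rfl⟩; exact tot_exp hF t ht⟩ ⟨s, hs, rfl⟩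

lemma Z_nonneg {F : ℝ} (hF : 0 ≤ F) : 0 ≤ Z F := by
  simpa using tot_Z hF ∅ (by simp)

lemma Z_le {F B : ℝ} (h : HBound (Tot F) B) : Z F ≤ B :=
  csSup_le ⟨0, ∅, by simp, by simp⟩ (by rintro x ⟨t, ht, rfl⟩; exact h t ht)

lemma decomp {ι : Type*} {s : Finset ℕ} {K : Finset ι} (c : ι → ℕ) {Q : ℕ → Prop} {B : ℝ}
    (hB : HBound Q B) (h : ∀ d ∈ s, ∃ k ∈ K, ∃ d', Q d' ∧ d = c k * d') :
    ∑ d ∈ s, 1 / (d : ℝ) ≤ (∑ k ∈ K, 1 / (c k : ℝ)) * B := by
  classical
  rcases s.eq_empty_or_nonempty with rfl | ⟨d₀, hd₀⟩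
  · rw [Finset.sum_empty]
    exact mul_nonneg (Finset.sum_nonneg fun k _ => by positivity) (by simpa using hB ∅ (by simp))
  have : Nonempty ι := ⟨(h d₀ hd₀).choose⟩
  choose! kf hk df hQ he using h
  have h1 : ∑ d ∈ s, 1 / (d : ℝ) = ∑ k ∈ K, ∑ d ∈ s with kf d = k, 1 / (d : ℝ) :=
    (Finset.sum_fiberwise_of_maps_to hk _).symm
  rw [h1, Finset.sum_mul]
  refine Finset.sum_le_sum fun k _ => ?_
  have hinj : Set.InjOn df ↑(s.filter (fun d => kf d = k)) := by
    intro x hx y hy hxy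
    simp only [Finset.coe_filter, Set.mem_ofPred_eq] at hx hy
    rw [he x hx.1, he y hy.1, hx.2, hy.2, hxy]
  calc ∑ d ∈ s with kf d = k, 1 / (d : ℝ)
      = (1 / (c k : ℝ)) * ∑ d ∈ s with kf d = k, 1 / (df d : ℝ) := by
        rw [Finset.mul_sum]
        refine Finset.sum_congr rfl fun d hd => ?_
        obtain ⟨hds, hdk⟩ := Finset.mem_filter.1 hd
        have := he d hds
        rw [hdk] at this
        conv_lhs => rw [this]
        push_cast
        rw [one_div_mul_one_div]
    _ = (1 / (c k : ℝ)) * ∑ d' ∈ (s.filter (fun d => kf d = k)).image df, 1 / (d' : ℝ) := by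
        rw [Finset.sum_image hinj]
    _ ≤ (1 / (c k : ℝ)) * B := by
        refine mul_le_mul_of_nonneg_left (hB _ fun d' hd' => ?_) (by positivity)
        obtain ⟨d, hd, rfl⟩ := Finset.mem_image.1 hd'
        exact hQ d (Finset.mem_filter.1 hd).1

open Classical in
/-- The primes of `n` above `G`. -/
noncomputable def above (G : ℝ) (n : ℕ) : Finset ℕ := n.primeFactors.filter (fun p => G < u p)

lemma mem_above {G : ℝ} {n p : ℕ} : p ∈ above G n ↔ p.Prime ∧ p ∣ n ∧ n ≠ 0 ∧ G < u p := by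
  classical
  simp [above, Nat.mem_primeFactors, and_assoc]

/-- At most `j` simple primes above `G`. -/
def Low (F G : ℝ) (j : ℕ) (d : ℕ) : Prop :=
  ∃ n : ℕ, Smooth F n ∧ φ n = d ∧ (above G n).card ≤ j ∧ ∀ p ∈ above G n, ¬ p ^ 2 ∣ n

lemma low_bound {F G : ℝ} (hG : 0 ≤ G) (hGF : G ≤ F) (j : ℕ) :
    HBound (Low F G j) ((1 + (F - G + 1)) ^ j * Z G) := by
  classical
  induction j with
  | zero =>
    rw [pow_zero, one_mul]
    refine fun s hs => tot_Z hG s fun d hd => ?_
    obtain ⟨n, hn, he, hc, -⟩ := hs d hd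
    refine ⟨n, ⟨hn.1, fun p hp hdvd => ?_⟩, he⟩
    by_contra h
    have : p ∈ above G n := mem_above.2 ⟨hp, hdvd, hn.1, not_le.1 h⟩
    rw [Finset.card_eq_zero.1 (Nat.le_zero.1 hc)] at this
    exact Finset.notMem_empty p this
  | succ j ih =>
    intro s hs
    set X := F - G + 1 with hX
    have hB : 0 ≤ (1 + X) ^ j * Z G :=
      mul_nonneg (pow_nonneg (by linarith) _) (Z_nonneg hG)
    rw [← Finset.sum_filter_add_sum_filter_not s (fun d => Low F G j d)]
    have h1 := ih (s.filter (fun d => Low F G j d)) fun d hd => (Finset.mem_filter.1 hd).2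
    have h2 : ∑ d ∈ s with ¬ Low F G j d, 1 / (d : ℝ)
        ≤ (∑ q ∈ band G F, 1 / ((q - 1 : ℕ) : ℝ)) * ((1 + X) ^ j * Z G) := by
      refine decomp (fun q => q - 1) ih fun d hd => ?_
      obtain ⟨hds, hnl⟩ := Finset.mem_filter.1 hd
      obtain ⟨n, hn, he, hc, hsq⟩ := hs d hds
      have hne : (above G n).Nonempty := by
        rw [Finset.nonempty_iff_ne_empty]
        intro h
        exact hnl ⟨n, hn, he, by simp [h], hsq⟩
      obtain ⟨q, hq⟩ := hne
      obtain ⟨hqp, hqn, hn0, hqu⟩ := mem_above.1 hq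
      obtain ⟨m, rfl⟩ := hqn
      have hm0 : m ≠ 0 := right_ne_zero_of_mul hn0
      have hqm : ¬ q ∣ m := fun h => hsq q hq (by rw [sq]; exact mul_dvd_mul_left q h)
      refine ⟨q, mem_band.2 ⟨hqp, hqu, hn.2 q hqp (dvd_mul_right _ _)⟩, φ m,
        ⟨m, hn.of_dvd (dvd_mul_left _ _), rfl, ?_, ?_⟩, ?_⟩
      · have hsub : above G m ⊆ (above G (q * m)).erase q := fun p hp => by
          obtain ⟨a, b, -, c⟩ := mem_above.1 hp
          exact Finset.mem_erase.2 ⟨fun h => hqm (h ▸ b),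
            mem_above.2 ⟨a, b.trans (dvd_mul_left _ _), hn0, c⟩⟩
        have := Finset.card_le_card hsub
        rw [Finset.card_erase_of_mem hq] at this
        omega
      · intro p hp hd2
        obtain ⟨a, b, -, c⟩ := mem_above.1 hp
        exact hsq p (mem_above.2 ⟨a, b.trans (dvd_mul_left _ _), hn0, c⟩)
          (hd2.trans (dvd_mul_left _ _))
      · rw [← he, Nat.totient_mul ((hqp.coprime_iff_not_dvd).2 hqm), Nat.totient_prime hqp]
    have h3 : ∑ q ∈ band G F, 1 / ((q - 1 : ℕ) : ℝ) ≤ X := by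
      refine le_trans (le_of_eq (Finset.sum_congr rfl fun q hq => ?_)) (sum_band_le G F hGF)
      rw [Nat.cast_sub (mem_band.1 hq).1.one_le]; simp
    calc _ ≤ (1 + X) ^ j * Z G + X * ((1 + X) ^ j * Z G) :=
          add_le_add h1 (h2.trans (mul_le_mul_of_nonneg_right h3 hB))
      _ = (1 + X) ^ (j + 1) * Z G := by ring

/-- Some prime above `G` is not normal or divides `n` twice. -/
def Odd1 (F G : ℝ) (d : ℕ) : Prop :=
  ∃ n : ℕ, Smooth F n ∧ φ n = d ∧ ∃ q ∈ above G n, q ^ 2 ∣ n ∨ ¬ Normal q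

lemma odd_bound {F G ε : ℝ} (hF : 0 ≤ F) (hG : 8 ≤ G) (hε : ∀ s : Finset ℕ,
    (∀ q ∈ s, q.Prime ∧ G ≤ u q ∧ ¬ Normal q) → ∑ q ∈ s, 1 / ((q : ℝ) - 1) ≤ ε) :
    HBound (Odd1 F G) ((ε + 1 / 4) * Z F) := by
  classical
  intro s hs
  choose! nf hsm he qf hq hbad using hs
  set E := s.sup (fun d => (nf d).factorization (qf d)) with hE
  set K : Finset (ℕ × ℕ) := ((band G F).filter (fun q => ¬ Normal q)).image (fun q => (q, 0))
    ∪ (band G F) ×ˢ Finset.Ico 1 E with hK
  refine le_trans (decomp (K := K) (fun k => k.1 ^ k.2 * (k.1 - 1)) (tot_Z hF) fun d hd => ?_) ?_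
  · obtain ⟨hqp, hqn, hn0, hqu⟩ := mem_above.1 (hq d hd)
    set n := nf d with hn
    set q := qf d with hqdef
    set e := n.factorization q with hedef
    have he1 : 1 ≤ e := hqp.factorization_pos_of_dvd hn0 hqn
    have heE : e ≤ E := Finset.le_sup (f := fun d => (nf d).factorization (qf d)) hd
    have hband : q ∈ band G F := mem_band.2 ⟨hqp, hqu, (hsm d hd).2 q hqp hqn⟩
    refine ⟨(q, e - 1), ?_, φ (n / q ^ e), ⟨n / q ^ e, (hsm d hd).of_dvd
      (Nat.div_dvd_of_dvd (Nat.ordProj_dvd n q)), rfl⟩, ?_⟩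
    · rcases Nat.lt_or_ge e 2 with h | h
      · have he0 : e - 1 = 0 := by omega
        have hnn : ¬ Normal q := by
          rcases hbad d hd with h2 | h2
          · have := (hqp.pow_dvd_iff_le_factorization hn0).1 h2
            omega
          · exact h2
        rw [he0]
        exact Finset.mem_union_left _
          (Finset.mem_image.2 ⟨q, Finset.mem_filter.2 ⟨hband, hnn⟩, rfl⟩)
      · exact Finset.mem_union_right _
          (Finset.mem_product.2 ⟨hband, Finset.mem_Ico.2 ⟨by omega, by omega⟩⟩)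
    · have h1 : q ^ e * (n / q ^ e) = n := Nat.ordProj_mul_ordCompl_eq_self n q
      have h2 : Nat.Coprime (q ^ e) (n / q ^ e) := Nat.Coprime.pow_left _ (Nat.coprime_ordCompl hqp hn0)
      calc d = φ n := (he d hd).symm
        _ = φ (q ^ e) * φ (n / q ^ e) := by rw [← Nat.totient_mul h2, h1]
        _ = _ := by rw [Nat.totient_prime_pow hqp (by omega)]
  · refine mul_le_mul_of_nonneg_right ?_ (Z_nonneg hF)
    rw [hK, Finset.sum_union]
    swap
    · rw [Finset.disjoint_left]
      intro k hk hk'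
      obtain ⟨q, -, rfl⟩ := Finset.mem_image.1 hk
      exact absurd (Finset.mem_Ico.1 (Finset.mem_product.1 hk').2).1 (by simp)
    refine add_le_add ?_ ?_
    · rw [Finset.sum_image fun a _ b _ h => (Prod.mk.injEq _ _ _ _ ▸ h).1]
      refine le_trans (le_of_eq (Finset.sum_congr rfl fun q hq => ?_))
        (hε ((band G F).filter (fun q => ¬ Normal q)) fun q hq => ?_)
      · rw [pow_zero, one_mul, Nat.cast_sub (mem_band.1 (Finset.mem_filter.1 hq).1).1.one_le]
        simp
      · obtain ⟨h1, h2⟩ := Finset.mem_filter.1 hq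
        exact ⟨(mem_band.1 h1).1, (mem_band.1 h1).2.1.le, h2⟩
    · rw [Finset.sum_product]
      have hfl : (8 : ℕ) ≤ ⌊G⌋₊ := Nat.le_floor (by exact_mod_cast hG)
      have hgt : ∀ q ∈ band G F, ⌊G⌋₊ < q := fun q hq => by
        have h1 : (⌊G⌋₊ : ℝ) ≤ G := Nat.floor_le (by linarith)
        have h2 : (⌊G⌋₊ : ℝ) < q :=
          lt_of_le_of_lt h1 (lt_of_lt_of_le (mem_band.1 hq).2.1 (u_le_self q))
        exact_mod_cast h2
      calc ∑ q ∈ band G F, ∑ e ∈ Finset.Ico 1 E, 1 / ((q ^ e * (q - 1) : ℕ) : ℝ)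
          ≤ ∑ q ∈ band G F, ((((q - 1 : ℕ) : ℝ)) ^ 2)⁻¹ := by
            refine Finset.sum_le_sum fun q hq => ?_
            have hqp := (mem_band.1 hq).1
            have hq2 : (2 : ℝ) ≤ q := by exact_mod_cast hqp.two_le
            rw [Finset.sum_Ico_eq_sum_range, Nat.cast_sub hqp.one_le, Nat.cast_one]
            calc ∑ j ∈ Finset.range (E - 1), 1 / ((q ^ (1 + j) * (q - 1) : ℕ) : ℝ)
                = (1 / ((q : ℝ) - 1)) *
                  ∑ j ∈ Finset.range (E - 1), (1 : ℝ) ^ j / (q : ℝ) ^ (j + 1) := by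
                  rw [Finset.mul_sum]
                  refine Finset.sum_congr rfl fun j _ => ?_
                  push_cast [Nat.cast_sub hqp.one_le]
                  rw [one_pow, add_comm 1 j]
                  field_simp
              _ ≤ (1 / ((q : ℝ) - 1)) * (1 / ((q : ℝ) - 1)) :=
                  mul_le_mul_of_nonneg_left (geom_le zero_le_one (by linarith) _)
                    (div_nonneg zero_le_one (by linarith))
              _ = _ := by rw [one_div_mul_one_div, one_div, sq]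
        _ = ∑ i ∈ (band G F).image (fun q : ℕ => q - 1), ((i : ℝ) ^ 2)⁻¹ := by
            rw [Finset.sum_image]
            intro a ha b hb hab
            have := (mem_band.1 ha).1.one_le
            have := (mem_band.1 hb).1.one_le
            simp only at hab
            omega
        _ ≤ ∑ i ∈ Finset.Ioo (⌊G⌋₊ - 1) ((band G F).sup id + 1), ((i : ℝ) ^ 2)⁻¹ := by
            refine Finset.sum_le_sum_of_subset_of_nonneg (fun i hi => ?_) (fun i _ _ => by positivity)
            obtain ⟨q, hq, rfl⟩ := Finset.mem_image.1 hi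
            have := hgt q hq
            have : q ≤ (band G F).sup id := Finset.le_sup (f := id) hq
            exact Finset.mem_Ioo.2 ⟨by omega, by omega⟩
        _ ≤ 2 / (((⌊G⌋₊ - 1 : ℕ) : ℝ) + 1) := sum_Ioo_inv_sq_le _ _
        _ ≤ 1 / 4 := by
            have h8 : (8 : ℝ) ≤ (⌊G⌋₊ : ℝ) := by exact_mod_cast hfl
            rw [Nat.cast_sub (by omega), Nat.cast_one, sub_add_cancel,
              div_le_div_iff₀ (by linarith) (by norm_num)]
            linarith

/-- At least four normal primes above `F / 2`. -/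
def Many (F : ℝ) (d : ℕ) : Prop :=
  ∃ n : ℕ, Smooth F n ∧ φ n = d ∧ 4 ≤ (above (F / 2) n).card ∧
    ∀ q ∈ above (F / 2) n, Normal q

lemma many_bound {F : ℝ} (hF : 40000 ≤ F) (h1 : √F ≤ F / 50)
    (h2 : F ^ (3 / 5 : ℝ) ≤ F / 50) : HBound (Many F) 1 := by
  classical
  intro s hs
  set a := F / 100 with ha
  set b := F / 2 - √F with hb
  set L := b - a - F ^ (3 / 5 : ℝ) with hL
  have hab : a ≤ b := by rw [ha, hb]; linarith
  have hlow : ∀ d ∈ s, 4 * L ≤ (cnt a b d : ℝ) ∧ Smooth F d := by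
    intro d hd
    obtain ⟨n, hn, rfl, hc, hnor⟩ := hs d hd
    refine ⟨?_, smooth_totient hn⟩
    obtain ⟨Q, hQ, hQc⟩ := Finset.exists_subset_card_eq hc
    have hQp : ∀ q ∈ Q.toList, q.Prime := fun q hq =>
      (mem_above.1 (hQ (Finset.mem_toList.1 hq))).1
    have hdvd : Q.toList.prod ∣ n := by
      rw [Finset.prod_toList]
      refine (Finset.prod_dvd_prod_of_subset _ _ _ (hQ.trans ?_)).trans (Nat.prod_primeFactors_dvd n)
      exact Finset.filter_subset _ _
    have hφ : φ (Q.toList.prod * 1) = pval Q.toList * φ 1 :=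
      totient_prod_primes_mul _ 1 hQp Q.nodup_toList
        (fun q hq h => (hQp q hq).one_lt.ne' (Nat.dvd_one.1 h))
    rw [mul_one, Nat.totient_one, mul_one] at hφ
    have hpd : pval Q.toList ∣ φ n := hφ ▸ Nat.totient_dvd_of_dvd hdvd
    refine le_trans ?_ (Nat.cast_le.2 (cnt_le_of_dvd a b
      (Nat.totient_pos.2 (Nat.pos_of_ne_zero hn.1)).ne' hpd))
    rw [cnt_pval a b hQp, Finset.sum_map_toList]
    push_cast
    calc 4 * L = Q.card • L := by rw [hQc, nsmul_eq_mul]; norm_num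
      _ ≤ _ := Finset.card_nsmul_le_sum _ _ _ fun q hq => by
          obtain ⟨hqp, hqn, -, hqu⟩ := mem_above.1 (hQ hq)
          have huF : u q ≤ F := hn.2 q hqp hqn
          have hsq := Real.sqrt_le_sqrt huF
          have h3 := (hnor q (hQ hq)).2 a b (by rw [ha]; linarith) hab (by rw [hb]; linarith)
          have h4 := (abs_le.1 h3).1
          have h5 : (u q) ^ (3 / 5 : ℝ) ≤ F ^ (3 / 5 : ℝ) :=
            Real.rpow_le_rpow (u_nonneg q) huF (by norm_num)
          rw [hL]
          linarith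
  have ha0 : 0 < a := by rw [ha]; linarith
  have hw : ∀ d ∈ s, 1 / (d : ℝ) ≤ exp (-(log 4 * (4 * L))) * (wt (band a b) (fun _ => 4) d / d) := by
    intro d hd
    rw [wt, Finset.prod_pow_eq_pow_sum, ← cnt_eq_sum, ← mul_div_assoc]
    refine div_le_div_of_nonneg_right ?_ (Nat.cast_nonneg d)
    rw [← Real.exp_log (show (0 : ℝ) < 4 by norm_num), ← Real.exp_nat_mul,
      Real.exp_log (show (0 : ℝ) < 4 by norm_num), ← Real.exp_add, Real.one_le_exp_iff]
    nlinarith [(hlow d hd).1, Real.log_nonneg (show (1 : ℝ) ≤ 4 by norm_num)]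
  calc ∑ d ∈ s, 1 / (d : ℝ)
      ≤ exp (-(log 4 * (4 * L))) * ∑ d ∈ s, wt (band a b) (fun _ => 4) d / d := by
        rw [Finset.mul_sum]; exact Finset.sum_le_sum hw
    _ ≤ exp (-(log 4 * (4 * L))) * (exp F * exp ((4 - 1) * (1 + 2 * 4 / a) * (b - a + 1))) := by
        refine mul_le_mul_of_nonneg_left ?_ (exp_pos _).le
        refine (sum_smooth_wt_le F (by linarith) (band a b) (fun p hp => (mem_band.1 hp).1)
          (fun _ => 4) (fun p hp => ⟨by norm_num, ?_⟩) s fun d hd => (hlow d hd).2).trans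
          (mul_le_mul_of_nonneg_left (prod_band_le ha0 hab (by norm_num)
            (by rw [ha]; linarith)) (exp_pos _).le)
        have := u_le_self p
        have := (mem_band.1 hp).2.1
        rw [ha] at this
        linarith
    _ ≤ 1 := by
        rw [← Real.exp_add, ← Real.exp_add, Real.exp_le_one_iff]
        have hl4 : (1.386 : ℝ) ≤ log 4 := by
          rw [show (4 : ℝ) = 2 * 2 by norm_num, Real.log_mul two_ne_zero two_ne_zero]
          linarith [Real.log_two_gt_d9]
        have h8 : 2 * 4 / a ≤ 1 / 50 := by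
          rw [div_le_div_iff₀ ha0 (by norm_num), ha]; linarith
        have hlen : 0 ≤ b - a + 1 := by linarith
        have h9 : (4 - 1) * (1 + 2 * 4 / a) * (b - a + 1) ≤ 3.06 * (b - a + 1) :=
          mul_le_mul_of_nonneg_right (by linarith) hlen
        have hL0 : 0 ≤ L := by rw [hL, hb, ha]; linarith
        have h10 : 1.386 * (4 * L) ≤ log 4 * (4 * L) :=
          mul_le_mul_of_nonneg_right hl4 (by linarith)
        rw [hb, ha] at h9
        rw [hL, hb, ha] at h10
        rw [hL, hb, ha]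
        have := Real.sqrt_nonneg F
        linarith

lemma recursion {F : ℝ} (hF : 40000 ≤ F) (h1 : √F ≤ F / 50) (h2 : F ^ (3 / 5 : ℝ) ≤ F / 50)
    (hε : ∀ s : Finset ℕ, (∀ q ∈ s, q.Prime ∧ F / 2 ≤ u q ∧ ¬ Normal q) →
      ∑ q ∈ s, 1 / ((q : ℝ) - 1) ≤ 1 / 4) :
    Z F ≤ 2 + 2 * (1 + F) ^ 3 * Z (F / 2) := by
  classical
  have hF0 : 0 ≤ F := by linarith
  have hG : 0 ≤ F / 2 := by linarith
  suffices h : HBound (Tot F) ((1 / 4 + 1 / 4) * Z F + 1 + (1 + F) ^ 3 * Z (F / 2)) by
    have := Z_le h; linarith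
  intro s hs
  rw [← Finset.sum_filter_add_sum_filter_not s (fun d => Odd1 F (F / 2) d),
    ← Finset.sum_filter_add_sum_filter_not (s.filter (fun d => ¬ Odd1 F (F / 2) d))
      (fun d => Many F d), ← add_assoc]
  refine add_le_add (add_le_add ?_ ?_) ?_
  · exact odd_bound hF0 (by linarith) hε _ fun d hd => (Finset.mem_filter.1 hd).2
  · exact many_bound hF h1 h2 _ fun d hd => (Finset.mem_filter.1 hd).2
  · refine le_trans (low_bound hG (show F / 2 ≤ F by linarith) 3 _ fun d hd => ?_)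
      (mul_le_mul_of_nonneg_right (pow_le_pow_left₀ (by linarith) (by linarith) 3) (Z_nonneg hG))
    obtain ⟨hd', hnm⟩ := Finset.mem_filter.1 hd
    obtain ⟨hds, hno⟩ := Finset.mem_filter.1 hd'
    obtain ⟨n, hn, he⟩ := hs d hds
    refine ⟨n, hn, he, ?_, fun p hp hd2 => hno ⟨n, hn, he, p, hp, Or.inl hd2⟩⟩
    by_contra hc
    exact hnm ⟨n, hn, he, by omega,
      fun q hq => by_contra fun h => hno ⟨n, hn, he, q, hq, Or.inr h⟩⟩

end Crude

open Crude in
/-- The crude bound, from the logarithmic form of normality. -/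
theorem crude_totient (hn : NormalLogStatement) : CrudeTotientStatement := by
  obtain ⟨t₀, ht₀⟩ := hn
  have hev : ∀ᶠ F : ℝ in atTop, 40000 ≤ F ∧ √F ≤ F / 50 ∧ F ^ (3 / 5 : ℝ) ≤ F / 50 ∧
      t₀ ≤ F / 2 ∧ exp (-(F / 2) ^ (1 / 12 : ℝ)) ≤ 1 / 4 := by
    have h5 : ∀ᶠ F : ℝ in atTop, 50 ≤ F ^ (2 / 5 : ℝ) :=
      (tendsto_rpow_atTop (by norm_num)).eventually_ge_atTop _
    have h12 : ∀ᶠ F : ℝ in atTop, 4 ≤ (F / 2) ^ (1 / 12 : ℝ) :=
      ((tendsto_rpow_atTop (by norm_num)).comp
        (tendsto_id.atTop_div_const two_pos)).eventually_ge_atTop _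
    filter_upwards [eventually_ge_atTop 40000, h5, h12, eventually_ge_atTop (2 * t₀)]
      with F hF h5 h12 ht
    have hF0 : 0 < F := by linarith
    refine ⟨hF, ?_, ?_, by linarith, ?_⟩
    · rw [Real.sqrt_le_left (by linarith)]; nlinarith
    · have e : F ^ (3 / 5 : ℝ) * F ^ (2 / 5 : ℝ) = F := by
        rw [← Real.rpow_add hF0]; norm_num
      have := mul_le_mul_of_nonneg_left h5 (Real.rpow_nonneg hF0.le (3 / 5 : ℝ))
      linarith
    · have h := Real.add_one_le_exp ((F / 2) ^ (1 / 12 : ℝ))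
      rw [Real.exp_neg, show (1 : ℝ) / 4 = 4⁻¹ by norm_num]
      exact inv_anti₀ (show (0 : ℝ) < 4 by norm_num) (by linarith)
  obtain ⟨F₀, hF₀⟩ := Filter.eventually_atTop.1 hev
  set C := max F₀ 15 with hC
  have hC15 : (15 : ℝ) ≤ C := le_max_right _ _
  have hkey : ∀ k : ℕ, ∀ F : ℝ, 0 ≤ F → F ≤ C * 2 ^ k →
      Z F ≤ exp (C * log (F + 3) ^ 2) := by
    have hsmall : ∀ F : ℝ, 0 ≤ F → F ≤ C → Z F ≤ exp (C * log (F + 3) ^ 2) := by
      intro F hF hFC
      refine (Z_le (tot_exp hF)).trans (exp_le_exp.2 ?_)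
      have h1 : 1 ≤ log (F + 3) := by
        rw [Real.le_log_iff_exp_le (by linarith)]
        linarith [Real.exp_one_lt_d9]
      have h2 := mul_le_mul_of_nonneg_left (one_le_pow₀ h1 (n := 2)) (show 0 ≤ C by linarith)
      linarith
    intro k
    induction k with
    | zero => intro F hF hk; exact hsmall F hF (by simpa using hk)
    | succ k ih =>
      intro F hF hk
      rcases le_or_gt F C with hFC | hFC
      · exact hsmall F hF hFC
      obtain ⟨hF4, hs1, hs2, hst, hse⟩ := hF₀ F (le_trans (le_max_left _ _) hFC.le)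
      have hrec := recursion hF4 hs1 hs2 fun s hs => (ht₀ (F / 2) hst s fun q hq =>
        ⟨(hs q hq).1, (hs q hq).2.1, (hs q hq).2.2⟩).trans hse
      have hih := ih (F / 2) (by linarith) (by rw [pow_succ] at hk; linarith)
      refine hrec.trans ?_
      have hp1 : (1 + F) ^ 3 ≤ (F + 3) ^ 3 := pow_le_pow_left₀ (by linarith) (by linarith) 3
      set L := log (F + 3) with hL
      set L' := log (F / 2 + 3) with hL'
      have hL0 : 1 ≤ L := by
        rw [hL, Real.le_log_iff_exp_le (by linarith)]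
        linarith [Real.exp_one_lt_d9]
      have hd : 1 / 3 ≤ L - L' := by
        rw [hL, hL', ← Real.log_div (by linarith) (by linarith)]
        refine le_trans ?_ (Real.one_sub_inv_le_log_of_pos (div_pos (by linarith) (by linarith)))
        rw [inv_div, le_sub_comm, div_le_iff₀ (by linarith)]
        linarith
      have hL'0 : 0 ≤ L' := Real.log_nonneg (by linarith)
      have hsq : C * L' ^ 2 + 5 * L ≤ C * L ^ 2 := by
        have h3 : (L - L') * L ≤ L ^ 2 - L' ^ 2 := by nlinarith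
        have h4 : (1 / 3) * L ≤ (L - L') * L := mul_le_mul_of_nonneg_right hd (by linarith)
        have h6 : C * ((1 / 3) * L) ≤ C * (L ^ 2 - L' ^ 2) :=
          mul_le_mul_of_nonneg_left (h4.trans h3) (by linarith)
        nlinarith
      have hge1 : 1 ≤ exp (C * L' ^ 2) := Real.one_le_exp (by positivity)
      have hcube : (1 : ℝ) ≤ (F + 3) ^ 3 := one_le_pow₀ (by linarith)
      calc 2 + 2 * (1 + F) ^ 3 * Z (F / 2) ≤ 2 + 2 * (F + 3) ^ 3 * exp (C * L' ^ 2) := by
            gcongr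
            exact Z_nonneg (by linarith)
        _ ≤ 4 * (F + 3) ^ 3 * exp (C * L' ^ 2) := by
            nlinarith [one_le_mul_of_one_le_of_one_le hcube hge1]
        _ ≤ exp (C * L ^ 2) := by
            have e : (F + 3) ^ 3 = exp (3 * L) := by
              rw [hL, show (3 : ℝ) * log (F + 3) = ((3 : ℕ) : ℝ) * log (F + 3) by norm_num,
                Real.exp_nat_mul, Real.exp_log (by linarith)]
            have e4 : (4 : ℝ) ≤ exp (2 * L) := by
              rw [show (2 : ℝ) * L = L + L by ring, Real.exp_add, hL, Real.exp_log (by linarith)]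
              nlinarith
            rw [e]
            calc 4 * exp (3 * L) * exp (C * L' ^ 2)
                ≤ exp (2 * L) * exp (3 * L) * exp (C * L' ^ 2) := by gcongr
              _ ≤ exp (C * L ^ 2) := by
                  rw [← Real.exp_add, ← Real.exp_add, exp_le_exp]; linarith
  refine ⟨C, fun F hF s hs => ?_⟩
  obtain ⟨k, hk⟩ := pow_unbounded_of_one_lt (F / C) one_lt_two
  rw [div_lt_iff₀ (by linarith)] at hk
  exact (tot_Z hF s hs).trans (hkey k F hF (by linarith))

end Vale.Agent.P031
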