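import Mathlib.Analysis.SpecialFunctions.Pow.Real
import Mathlib.Analysis.SpecialFunctions.Log.Basic
import Mathlib.Data.Nat.Totient
import Mathlib.Data.Nat.Factors
import Mathlib.MeasureTheory.Measure.Lebesgue.Basic

/-!
P031, Q2: shared definitions and the interfaces between the component files.
See `NOTES.md` in this folder for the mathematical blueprint.
-/

open scoped BigOperators
open MeasureTheory

namespace Vale.Agent.P031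

/-- `u n = ∑_{p ≤ n prime} 1/(p-1)`, which is `log log n + O(1)`. The intervals
`(u q - 1/(q-1), u q]` for primes `q` tile `(0, ∞)`. -/
noncomputable def u (n : ℕ) : ℝ :=
  ∑ p ∈ (Finset.range (n + 1)).filter Nat.Prime, 1 / ((p : ℝ) - 1)

/-- Ford's coefficients `a_j`, with value `0` at `j = 0`. -/
noncomputable def coef (j : ℕ) : ℝ :=
  if j = 0 then 0 else ((j : ℝ) + 1) * Real.log ((j : ℝ) + 1) - (j : ℝ) * Real.log j - 1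

open Classical in
/-- Number of prime factors `p` of `n`, with multiplicity, with `a < u p ≤ b`. -/
noncomputable def cnt (a b : ℝ) (n : ℕ) : ℕ :=
  (n.primeFactorsList.filter (fun p => decide (a < u p ∧ u p ≤ b))).length

/-- A prime `q` such that `q - 1` has about the expected number of prime factors in
every range. -/
def Normal (q : ℕ) : Prop :=
  q.Prime ∧ ∀ a b : ℝ, 1 ≤ a → a ≤ b → b + Real.sqrt (u q) ≤ u q →
    |(cnt a b (q - 1) : ℝ) - (b - a)| ≤ (u q) ^ (3 / 5 : ℝ)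

/-- `n ≠ 0` and every prime factor `p` of `n` has `u p ≤ F`. -/
def Smooth (F : ℝ) (n : ℕ) : Prop :=
  n ≠ 0 ∧ ∀ p : ℕ, p.Prime → p ∣ n → u p ≤ F

/-- `∏ (q - 1)` over a list. -/
def pval (qs : List ℕ) : ℕ := (qs.map (fun q => q - 1)).prod

/-- `∑_j a_j u(q_j)` for a list `q_0, q_1, …`. -/
noncomputable def cost (qs : List ℕ) : ℝ :=
  ∑ i ∈ Finset.range qs.length, coef i * u (qs.getD i 0)

/-! ### Interfaces -/

/-- Mertens' second theorem in the form needed here. -/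
def MertensStatement : Prop :=
  ∃ C : ℝ, ∀ n : ℕ, 3 ≤ n → |u n - Real.log (Real.log n)| ≤ C

/-- Upper bound sieve for at most two linear forms, with multiplicative weights `z ≤ 1`. -/
def SieveStatement : Prop :=
  ∃ C : ℝ, ∃ k : ℕ, 0 < C ∧ ∀ U M : ℕ, 1 ≤ U → U ≤ M → ∀ A : Finset ℕ, A.card ≤ 2 →
    (∀ a ∈ A, 1 ≤ a ∧ a ≤ M) → ∀ z : ℕ → ℝ, (∀ p, 0 ≤ z p ∧ z p ≤ 1) →
    ∑ n ∈ (Finset.Icc 1 U).filter (fun n => ∀ a ∈ A, (a * n + 1).Prime),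
        ∏ p ∈ n.primeFactors, z p
      ≤ C * (u M + 1) ^ k * U * Real.exp (-((A.card : ℝ) * u U)
          - ∑ p ∈ (Finset.range (U + 1)).filter Nat.Prime, (1 - z p) / ((p : ℝ) - 1))

/-- The same with weight `1/n`, over `R ≤ n ≤ Y`. -/
def SieveLogStatement : Prop :=
  ∃ C : ℝ, ∃ k : ℕ, 0 < C ∧ ∀ R Y M : ℕ, 1 ≤ R → Y ≤ M → ∀ A : Finset ℕ, A.card ≤ 2 →
    (∀ a ∈ A, 1 ≤ a ∧ a ≤ M) → ∀ z : ℕ → ℝ, (∀ p, 0 ≤ z p ∧ z p ≤ 1) →
    ∑ n ∈ (Finset.Icc R Y).filter (fun n => ∀ a ∈ A, (a * n + 1).Prime),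
        (∏ p ∈ n.primeFactors, z p) / (n : ℝ)
      ≤ C * (u M + 1) ^ k * Real.exp (-((A.card : ℝ) * u R)
          + ∑ p ∈ (Finset.range (Y + 1)).filter Nat.Prime, z p / ((p : ℝ) - 1))

/-- Few primes fail to be normal (counting form). -/
def NormalCountStatement : Prop :=
  ∃ Y₀ : ℕ, ∀ Y : ℕ, Y₀ ≤ Y → ∀ s : Finset ℕ,
    (∀ q ∈ s, q.Prime ∧ q ≤ Y ∧ ¬ Normal q) →
    (s.card : ℝ) ≤ Y * Real.exp (-u Y - (u Y) ^ (1 / 10 : ℝ))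

/-- Few primes fail to be normal (logarithmic form). -/
def NormalLogStatement : Prop :=
  ∃ t₀ : ℝ, ∀ t : ℝ, t₀ ≤ t → ∀ s : Finset ℕ,
    (∀ q ∈ s, q.Prime ∧ t ≤ u q ∧ ¬ Normal q) →
    ∑ q ∈ s, 1 / ((q : ℝ) - 1) ≤ Real.exp (-t ^ (1 / 12 : ℝ))

/-- A list violating the anatomy inequality at scale `S`. -/
def AnatomyBad (S : ℝ) (qs : List ℕ) : Prop :=
  qs.Pairwise (fun p q => q < p) ∧
  (∀ q ∈ qs, Normal q ∧ S ^ (3 / 4 : ℝ) < u q ∧ u q ≤ S + Real.sqrt S) ∧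
  (qs.length : ℝ) ≤ S ^ (1 / 50 : ℝ) ∧
  S + S ^ (9 / 10 : ℝ) < cost qs

def AnatomyCountStatement : Prop :=
  ∃ S₀ : ℝ, ∀ S : ℝ, S₀ ≤ S → ∀ Y : ℕ, ∀ s : Finset ℕ,
    (∀ v ∈ s, 1 ≤ v ∧ v ≤ Y ∧ ∃ qs, AnatomyBad S qs ∧ pval qs ∣ v) →
    (s.card : ℝ) ≤ Y * Real.exp (-S - S ^ (4 / 5 : ℝ))

def AnatomyLogStatement : Prop :=
  ∃ S₀ : ℝ, ∀ S : ℝ, S₀ ≤ S → ∀ s : Finset ℕ,
    (∀ v ∈ s, Smooth (S + Real.sqrt S) v ∧ ∃ qs, AnatomyBad S qs ∧ pval qs ∣ v) →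
    ∑ v ∈ s, 1 / (v : ℝ) ≤ Real.exp (-S ^ (4 / 5 : ℝ))

/-- Crude bound for the harmonic sum of distinct totients of smooth numbers. -/
def CrudeTotientStatement : Prop :=
  ∃ C : ℝ, ∀ F : ℝ, 0 ≤ F → ∀ s : Finset ℕ,
    (∀ d ∈ s, ∃ n : ℕ, Smooth F n ∧ Nat.totient n = d) →
    ∑ d ∈ s, 1 / (d : ℝ) ≤ Real.exp (C * Real.log (F + 3) ^ 2)

/-- A representation at scale `S`: distinct normal primes in decreasing order, and a smooth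
cofactor. -/
def Rep (S : ℝ) (qs : List ℕ) (r : ℕ) : Prop :=
  qs.Pairwise (fun p q => q < p) ∧ (qs.length : ℝ) ≤ S ^ (1 / 50 : ℝ) ∧
  (∀ q ∈ qs, Normal q ∧ S ^ (3 / 4 : ℝ) < u q) ∧ Smooth (S ^ (3 / 4 : ℝ)) r

/-- Few pairs of representations of the same value have different largest primes, when one
of them has slack. -/
def CollideStatement : Prop :=
  ∃ S₀ : ℝ, ∀ S : ℝ, S₀ ≤ S → ∀ Y : ℕ, u Y ≤ 3 * S →
    ∀ P : Finset ((List ℕ × ℕ) × (List ℕ × ℕ)),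
    (∀ x ∈ P, ∃ q qs r q' qs' r', x = ((q :: qs, r), (q' :: qs', r')) ∧
      Rep S (q :: qs) r ∧ Rep S (q' :: qs') r' ∧ q' < q ∧
      |u q - S| ≤ Real.sqrt S ∧ cost (q :: qs) ≤ S - S ^ (9 / 10 : ℝ) ∧
      (∀ p ∈ qs, u p ≤ S - S ^ (9 / 10 : ℝ)) ∧
      pval (q :: qs) * r = pval (q' :: qs') * r' ∧ pval (q :: qs) * r ≤ Y) →
    (P.card : ℝ) ≤ Y * Real.exp (-S - S ^ (4 / 5 : ℝ))

/-- Coordinates with the top level `T` prepended and zeros appended. -/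
noncomputable def yy {L : ℕ} (T : ℝ) (y : Fin L → ℝ) (i : ℕ) : ℝ :=
  if i = 0 then T else if h : i - 1 < L then y ⟨i - 1, h⟩ else 0

/-- The relaxed region of level vectors. -/
def Relax (L : ℕ) (T η K : ℝ) : Set (Fin L → ℝ) :=
  {y | (∀ i < L, K < yy T y (i + 1)) ∧
    ∀ i ≤ L, ∑ j ∈ Finset.range (L + 1 - i), coef j * yy T y (i + j) ≤ (1 + η) * yy T y i}

/-- The strict region of level vectors. -/
def Strict (L : ℕ) (T η K : ℝ) : Set (Fin L → ℝ) :=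
  {y | (∀ i < L, K < yy T y (i + 1) ∧ yy T y (i + 1) ≤ (1 - η) * yy T y i) ∧
    ∀ i ≤ L, ∑ j ∈ Finset.range (L + 1 - i), coef j * yy T y (i + j) ≤ (1 - η) * yy T y i}

/-- `ρ` is the root of `∑ a_j ρ^j = 1` in `(1/2, 1)`. -/
def IsRho (ρ : ℝ) : Prop :=
  1 / 2 < ρ ∧ ρ < 1 ∧ HasSum (fun j => coef j * ρ ^ j) 1

/-- The geometric point is a centre with relative slack `1/(L+2)`, leaving room for a tail. -/
def CentreStatement : Prop :=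
  ∀ ρ : ℝ, IsRho ρ → ∀ C₁ : ℝ, 0 < C₁ → ∃ C₂ : ℝ, 0 < C₂ ∧
    ∀ T K : ℝ, 1 ≤ K → ∀ L : ℕ, C₂ * K ≤ T * ρ ^ L →
      C₁ * K ≤ T * (ρ * (1 - 1 / ((L : ℝ) + 2))) ^ L ∧
      ∀ i ≤ L, (∑ j ∈ Finset.range (L + 1 - i),
            coef j * (T * (ρ * (1 - 1 / ((L : ℝ) + 2))) ^ (i + j)))
          + C₁ * K * Real.log (((L - i : ℕ) : ℝ) + 2)
        ≤ (1 - 1 / ((L : ℝ) + 2)) * (T * (ρ * (1 - 1 / ((L : ℝ) + 2))) ^ i)

/-- Level vectors with too many levels above `K` have exponentially small relative volume. -/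
def ManyLevelsStatement : Prop :=
  ∀ ρ : ℝ, IsRho ρ → ∀ C₂ : ℝ, 0 < C₂ → ∃ c : ℝ, 0 < c ∧ ∃ T₀ : ℝ,
    ∀ T K η : ℝ, T₀ ≤ T → Real.log T ^ 10 ≤ K → K ≤ Real.log T ^ 1000 →
      0 ≤ η → η ≤ 1 / Real.log T ^ 5 →
      ∀ L : ℕ, T * ρ ^ L < C₂ * K → ∃ L' : ℕ,
        volume (Relax L T η K) ≤
          ENNReal.ofReal (Real.exp (-c * Real.log T)) * volume (Strict L' T η (2 * K))

/-- Level sequences obeying the cone inequalities decay like `ρ ^ n`. -/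
def DecayStatement : Prop :=
  ∀ ρ : ℝ, IsRho ρ → ∃ C : ℝ, 0 < C ∧ ∀ (η : ℝ), 0 ≤ η → ∀ (y : ℕ → ℝ) (n : ℕ),
    (∀ i ≤ n, 0 ≤ y i) →
    (∀ i < n, ∑ j ∈ Finset.range (n + 1 - i), coef j * y (i + j) ≤ (1 + η) * y i) →
    y n ≤ C * ((1 + η) * ρ) ^ n * y 0

def RhoExistsStatement : Prop := ∃ ρ : ℝ, IsRho ρ

end Vale.Agent.P031
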