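import Vale.Agent.P031.ExceptT

/-!
P031: anatomy failures, and the combined bound for exceptional values.
-/

open Finset Real Filter
open scoped Nat Topology

namespace Vale.Agent.P031

lemma maxLen_le {T : ℝ} (h : 1 ≤ log T) : (maxLen T : ℝ) ≤ 11 * log T := by
  have := Nat.ceil_lt_add_one (show (0 : ℝ) ≤ 10 * log T by linarith)
  simp only [maxLen]
  linarith

/-- A failure of the truncated anatomy inequality gives an `AnatomyBad` list. -/
lemma anat_fail_bad :
    ∀ᶠ T : ℝ in atTop, ∀ S : ℝ, floorLevel T ≤ S → ∀ (l : List ℕ) (top : ℝ),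
      l.Pairwise (fun a b => b < a) → (∀ q ∈ l, Normal q ∧ u q ≤ S + √S) → S - 1 ≤ top →
      (1 + eta T) * top < cost (l.take (maxLen T)) →
      ∃ qs, AnatomyBad S qs ∧ pval qs ∣ pval l := by
  filter_upwards [Real.tendsto_log_atTop.eventually_ge_atTop (150 : ℝ)]
    with T hl150 S hS l top hl hq htop hfail
  classical
  set ℓ := log T
  have hℓ1 : (1 : ℝ) ≤ ℓ := by linarith
  have hS0 : (1 : ℝ) ≤ S := le_trans (one_le_pow₀ hℓ1) hS
  set N := maxLen T
  have hN : (N : ℝ) ≤ 11 * ℓ := maxLen_le hℓ1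
  -- powers of `S`
  have hpow : ∀ r : ℝ, 0 ≤ r → ℓ ^ (200 * r : ℝ) ≤ S ^ r := fun r hr => by
    rw [Real.rpow_mul (by linarith), show ℓ ^ (200 : ℝ) = ℓ ^ (200 : ℕ) from Real.rpow_natCast ℓ 200]
    exact Real.rpow_le_rpow (by positivity) hS hr
  have hS50 : (N : ℝ) ≤ S ^ (1 / 50 : ℝ) := by
    refine le_trans ?_ (hpow _ (by norm_num))
    rw [show (200 * (1 / 50) : ℝ) = ((4 : ℕ) : ℝ) by norm_num, Real.rpow_natCast]
    nlinarith [pow_le_pow_right₀ hℓ1 (show 2 ≤ 4 by norm_num)]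
  -- the list
  set qs0 := l.take N
  have hqs0 : qs0.Pairwise (fun a b => b < a) := hl.sublist (List.take_sublist _ _)
  obtain ⟨k, hk, hfil, htail⟩ := filter_eq_take_of_desc
    (fun q => decide (S ^ (3 / 4 : ℝ) < u q)) hqs0 (fun a b hab hb => by
      simp only [decide_eq_true_eq] at hb ⊢
      exact lt_of_lt_of_le hb (u_mono hab.le))
  refine ⟨qs0.take k, ⟨hqs0.sublist (List.take_sublist _ _), ?_, ?_, ?_⟩, ?_⟩
  · intro q hq'
    obtain ⟨hn, hu⟩ := hq q (List.mem_of_mem_take (List.mem_of_mem_take hq'))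
    rw [← hfil, List.mem_filter, decide_eq_true_eq] at hq'
    exact ⟨hn, hq'.2, hu⟩
  · refine le_trans ?_ hS50
    exact_mod_cast (le_trans ((List.length_take_le' k qs0)) (List.length_take_le N l))
  · have hlen : qs0.length ≤ N := List.length_take_le N l
    have hdiff : cost qs0 ≤ cost (qs0.take k) + (N : ℝ) * (N * S ^ (3 / 4 : ℝ)) := by
      clear_value qs0
      rw [cost_take, Nat.min_eq_left hk, cost, ← Finset.sum_range_add_sum_Ico _ hk]
      gcongr
      refine (Finset.sum_le_sum (g := fun _ => (N : ℝ) * S ^ (3 / 4 : ℝ)) fun i hi => ?_).trans ?_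
      · obtain ⟨h1, h2⟩ := Finset.mem_Ico.1 hi
        have hu := htail i h1 h2
        simp only [decide_eq_false_iff_not, not_lt] at hu
        exact mul_le_mul ((coef_le i).trans (by exact_mod_cast (h2.le.trans hlen))) hu
          (u_nonneg _) (Nat.cast_nonneg N)
      · rw [Finset.sum_const, nsmul_eq_mul, Nat.card_Ico]
        exact mul_le_mul_of_nonneg_right (by exact_mod_cast (show qs0.length - k ≤ N by omega))
          (by positivity)
    have h75 : (N : ℝ) * (N * S ^ (3 / 4 : ℝ)) ≤ S ^ (9 / 10 : ℝ) := by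
      rw [← mul_assoc, show (9 / 10 : ℝ) = 3 / 20 + 3 / 4 by norm_num, Real.rpow_add (by linarith)]
      refine mul_le_mul_of_nonneg_right ?_ (by positivity)
      refine le_trans ?_ (hpow _ (by norm_num))
      rw [show (200 * (3 / 20) : ℝ) = ((30 : ℕ) : ℝ) by norm_num, Real.rpow_natCast]
      calc (N : ℝ) * N ≤ (11 * ℓ) * (11 * ℓ) :=
            mul_le_mul hN hN (Nat.cast_nonneg N) (by positivity)
        _ ≤ ℓ ^ 3 := by nlinarith
        _ ≤ ℓ ^ 30 := pow_le_pow_right₀ hℓ1 (by norm_num)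
    have heta : 4 * S ^ (9 / 10 : ℝ) + 4 ≤ eta T * S := by
      have h1 : ℓ ^ 10 * 8 ≤ S ^ (1 / 10 : ℝ) := by
        refine le_trans ?_ (hpow _ (by norm_num))
        rw [show (200 * (1 / 10) : ℝ) = ((20 : ℕ) : ℝ) by norm_num, Real.rpow_natCast,
          show ℓ ^ 20 = ℓ ^ 10 * ℓ ^ 10 by ring]
        refine mul_le_mul_of_nonneg_left ?_ (by positivity)
        linarith [le_self_pow₀ hℓ1 (show 10 ≠ 0 by norm_num)]
      have h2 : S = S ^ (1 / 10 : ℝ) * S ^ (9 / 10 : ℝ) := by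
        rw [← Real.rpow_add (by linarith)]; norm_num
      have h3 : 1 ≤ S ^ (9 / 10 : ℝ) := Real.one_le_rpow hS0 (by norm_num)
      rw [eta, one_div_mul_eq_div, le_div_iff₀ (by positivity)]
      conv_rhs => rw [h2]
      have h4 : (1 : ℝ) ≤ ℓ ^ 10 := one_le_pow₀ hℓ1
      nlinarith [mul_le_mul_of_nonneg_right h1 (show (0 : ℝ) ≤ S ^ (9 / 10 : ℝ) by linarith)]
    have heta1 : eta T ≤ 1 := by
      rw [eta, div_le_one (by positivity)]; exact one_le_pow₀ hℓ1
    have heta0 : 0 ≤ eta T := by rw [eta]; positivity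
    have h5 : (1 + eta T) * (S - 1) ≤ (1 + eta T) * top :=
      mul_le_mul_of_nonneg_left htop (by linarith)
    have h6 : 0 ≤ S ^ (9 / 10 : ℝ) := by positivity
    nlinarith
  · exact ((List.take_sublist k qs0).trans (List.take_sublist N l)).map (fun q => q - 1)
      |>.prod_dvd_prod

/-- Top level anatomy failures are negligible. -/
lemma count_anat_top (hAC : AnatomyCountStatement) (B : ℕ) {ε : ℝ} (hε : 0 < ε) :
    ∀ᶠ X : ℕ in atTop, ∀ s : Finset ℕ,
      (∀ v ∈ s, 1 ≤ v ∧ v ≤ B * X ∧ ∃ n, φ n = v ∧ n ≠ 0 ∧ n ≤ X ^ 3 ∧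
        SqfreeAbove (floorLevel (scale X)) n ∧
        (∀ q ∈ levs (floorLevel (scale X)) n, Normal q) ∧
        (1 + eta (scale X)) * scale X
          < cost ((levs (floorLevel (scale X)) n).take (maxLen (scale X)))) →
      (s.card : ℝ) ≤ ε * ((X : ℝ) / log X) := by
  classical
  obtain ⟨S₀, hS₀⟩ := hAC
  obtain ⟨D, hD0, hD⟩ := exists_log_le_exp_scale
  have hT : ∀ᶠ T : ℝ in atTop, 1 ≤ T ∧ S₀ ≤ T ∧ floorLevel T ≤ T ∧
      log ((B : ℝ) + 1) + (-T - T ^ (4 / 5 : ℝ)) + T + D ≤ log ε := by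
    filter_upwards [eventually_ge_atTop (max 1 S₀),
      eventually_log_pow_le 200 (c := 1) one_pos (r := 1) one_pos,
      (tendsto_rpow_atTop (show (0:ℝ) < 4 / 5 by norm_num)).eventually_ge_atTop
        (log ((B : ℝ) + 1) + D - log ε)] with T hT h1 h2
    have a1 := (le_max_left _ _).trans hT
    have a2 := (le_max_right _ _).trans hT
    rw [one_mul, Real.rpow_one] at h1
    exact ⟨a1, a2, h1, by linarith⟩
  filter_upwards [hD, eventually_scale hT, eventually_scale anat_fail_bad, eventually_u_le_pow 3,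
    eventually_ge_atTop 3] with X hlX hT hbad hu hX s hs
  obtain ⟨hT1, hS, hF, hE⟩ := hT
  set T := scale X
  refine (hS₀ T hS (B * X) s fun v hv => ?_).trans ?_
  · obtain ⟨h1, h2, n, rfl, hn0, hnX, hsq, hnorm, hfail⟩ := hs v hv
    obtain ⟨qs, hqs, hdvd⟩ := hbad T hF _ T (levs_pairwise _ _) (fun q hq => ⟨hnorm q hq,
      hu q ((Nat.le_of_dvd (Nat.pos_of_ne_zero hn0) (mem_levs.1 hq).2.1).trans hnX)⟩)
      (by linarith) hfail
    refine ⟨h1, h2, qs, hqs, hdvd.trans ?_⟩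
    rw [totient_eq_pval hn0 hsq]
    exact dvd_mul_right _ _
  calc ((B * X : ℕ) : ℝ) * exp (-T - T ^ (4 / 5 : ℝ))
      ≤ ((B : ℝ) + 1) * X * exp (-T - T ^ (4 / 5 : ℝ)) := by
        push_cast
        gcongr
        linarith
    _ = (X : ℝ) * exp (log ((B : ℝ) + 1) + (-T - T ^ (4 / 5 : ℝ))) := by
        rw [Real.exp_add, Real.exp_log (by positivity)]; ring
    _ ≤ ε * ((X : ℝ) / log X) :=
        exp_mul_le_div_log hε (Real.log_pos (by exact_mod_cast (show 1 < X by omega))) hlX.2 hE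

lemma sum_biUnion_le' {α β : Type*} [DecidableEq β] (s : Finset α) (t : α → Finset β) (f : β → ℝ)
    (hf : ∀ b, 0 ≤ f b) : ∑ b ∈ s.biUnion t, f b ≤ ∑ a ∈ s, ∑ b ∈ t a, f b := by
  classical
  induction s using Finset.induction_on with
  | empty => simp
  | insert a s ha ih =>
    rw [Finset.biUnion_insert, Finset.sum_insert ha]
    have h := Finset.sum_union_inter (s₁ := t a) (s₂ := s.biUnion t) (f := f)
    have h2 : 0 ≤ ∑ b ∈ t a ∩ s.biUnion t, f b := Finset.sum_nonneg fun b _ => hf b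
    linarith

lemma getD_le_of_mem_drop {l : List ℕ} (hl : l.Pairwise (fun a b => b < a)) {i : ℕ}
    (hi : i < l.length) : ∀ q ∈ l.drop i, q ≤ l.getD i 0 := by
  intro q hq
  have hd : (l.drop i).Pairwise (fun a b => b < a) := hl.sublist (List.drop_sublist _ _)
  rw [List.drop_eq_getElem_cons hi] at hq hd
  rw [List.getD_eq_getElem?_getD, List.getElem?_eq_getElem hi, Option.getD_some]
  rcases List.mem_cons.1 hq with rfl | hq
  · exact le_rfl
  · exact ((List.pairwise_cons.1 hd).1 q hq).le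

/-- Lower level anatomy failures are negligible. -/
lemma count_anat_low (hAL : AnatomyLogStatement) (hZ : CrudeTotientStatement) (B : ℕ)
    {ε : ℝ} (hε : 0 < ε) :
    ∀ᶠ X : ℕ in atTop, ∀ s : Finset ℕ,
      (∀ v ∈ s, 1 ≤ v ∧ v ≤ B * X ∧ ∃ n, φ n = v ∧ n ≠ 0 ∧ n ≤ X ^ 3 ∧
        SqfreeAbove (floorLevel (scale X)) n ∧
        (∀ q ∈ levs (floorLevel (scale X)) n, Normal q) ∧
        ∃ (p : ℕ) (ps : List ℕ), levs (floorLevel (scale X)) n = p :: ps ∧
          log X / (8 * scale X) ≤ log p ∧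
          ∃ i < ps.length, (1 + eta (scale X)) * u (ps.getD i 0)
            < cost ((ps.drop i).take (maxLen (scale X)))) →
      (s.card : ℝ) ≤ ε * ((X : ℝ) / log X) := by
  classical
  obtain ⟨C, hC, hcount⟩ := largePrime_count B
  obtain ⟨Cz, hCz, hsum⟩ := totient_sum_le hZ
  obtain ⟨S₀, hS₀⟩ := hAL
  have hT : ∀ᶠ T : ℝ in atTop, 4 ≤ T ∧ S₀ ≤ floorLevel T ∧ 0 ≤ floorLevel T ∧
      log C + log T + (Cz * log T ^ 2 + (log T + 2 - floorLevel T ^ (4 / 5 : ℝ))) ≤ log ε := by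
    filter_upwards [eventually_ge_atTop 4, eventually_log_poly_le_floor (max S₀ 0),
      eventually_floor_rpow (max 2 (max Cz (log C + 2 - log ε))) (r := 4 / 5) (by norm_num)]
      with T hT h1 h2
    have hl := Real.log_nonneg (show (1:ℝ) ≤ T by linarith)
    have a1 := le_max_left S₀ 0
    have a2 := le_max_right S₀ 0
    have b1 := le_max_left (2 : ℝ) (max Cz (log C + 2 - log ε))
    have b2 := (le_max_left Cz (log C + 2 - log ε)).trans (le_max_right (2 : ℝ) _)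
    have b3 := (le_max_right Cz (log C + 2 - log ε)).trans (le_max_right (2 : ℝ) _)
    refine ⟨hT, by nlinarith [sq_nonneg (log T)], by nlinarith [sq_nonneg (log T)], ?_⟩
    nlinarith [sq_nonneg (log T)]
  filter_upwards [hcount, hsum, eventually_scale hT, eventually_scale anat_fail_bad,
    eventually_u_le_pow 3] with X hcount hsum hT hbad hu s hs
  obtain ⟨hT4, hSF, hF0, hE⟩ := hT
  choose! n hn hn0 hnX hsq hnorm p ps hl hlp i hi hfail using fun v hv => (hs v hv).2.2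
  set T := scale X
  set F := floorLevel T
  set a : ℕ → ℕ := fun v => φ ((ps v).take (i v)).prod with ha
  set w : ℕ → ℕ := fun v => φ (((ps v).drop (i v)).prod * smlPart F (n v)) with hw
  have hsub : ∀ v ∈ s, (ps v).Sublist (levs F (n v)) := fun v hv => by
    rw [hl v hv]; exact List.sublist_cons_self _ _
  have key : ∀ v ∈ s, ((ps v).take (i v)).prod ∣ n v ∧
      ((ps v).drop (i v)).prod * smlPart F (n v) ∣ n v ∧ (p v - 1) * (a v * w v) = v := by
    intro v hv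
    obtain ⟨h1, h2⟩ :=
      totient_sublist_prod (l := (ps v).take (i v)) (F := F) (n := n v)
        ((List.take_sublist _ _).trans (hsub v hv))
    obtain ⟨h3, h4⟩ := totient_sublist (hn0 v hv) (hsq v hv)
      ((List.drop_sublist (i v) (ps v)).trans (hsub v hv))
    refine ⟨h2, h4, ?_⟩
    conv_rhs => rw [← hn v hv, totient_eq_pval (hn0 v hv) (hsq v hv), hl v hv, pval_cons,
      ← List.take_append_drop (i v) (ps v), pval_append]
    simp only [ha, hw, h1, h3]
    ring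
  -- the scale of the failing level
  set t : ℕ → ℝ := fun v => u ((ps v).getD (i v) 0) with ht
  set σ : ℕ → ℕ := fun v => ⌈t v⌉₊ with hσ
  have hti : ∀ v ∈ s, F < t v ∧ t v ≤ T + √T := by
    intro v hv
    have hmem : (ps v).getD (i v) 0 ∈ levs F (n v) := by
      rw [List.getD_eq_getElem?_getD, List.getElem?_eq_getElem (hi v hv), Option.getD_some]
      exact (hsub v hv).subset (List.getElem_mem _)
    obtain ⟨-, hd, -, hu'⟩ := mem_levs.1 hmem
    exact ⟨hu', hu _ ((Nat.le_of_dvd (Nat.pos_of_ne_zero (hn0 v hv)) hd).trans (hnX v hv))⟩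
  have hW : ∀ v ∈ s, Smooth ((σ v : ℝ) + √(σ v)) (w v) ∧
      ∃ qs, AnatomyBad (σ v) qs ∧ pval qs ∣ w v := by
    intro v hv
    obtain ⟨h1, h2⟩ := hti v hv
    have hle : t v ≤ (σ v : ℝ) := Nat.le_ceil _
    have hlt : (σ v : ℝ) - 1 ≤ t v := by
      have := Nat.ceil_lt_add_one (show (0 : ℝ) ≤ t v by linarith)
      simp only [hσ] at *
      linarith
    have hs0 := Real.sqrt_nonneg (σ v : ℝ)
    have hdesc : (ps v).Pairwise (fun a b => b < a) := (levs_pairwise F (n v)).sublist (hsub v hv)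
    have hq : ∀ q ∈ (ps v).drop (i v), q.Prime ∧ u q ≤ t v := fun q hq =>
      ⟨(mem_levs.1 ((hsub v hv).subset (List.mem_of_mem_drop hq))).1,
        u_mono (getD_le_of_mem_drop hdesc (hi v hv) q hq)⟩
    have hwv : w v = pval ((ps v).drop (i v)) * φ (smlPart F (n v)) :=
      (totient_sublist (hn0 v hv) (hsq v hv) ((List.drop_sublist _ _).trans (hsub v hv))).1
    refine ⟨?_, ?_⟩
    · rw [hwv]
      exact ((smooth_pval hq).mono (by linarith)).mul
        ((smooth_totient (smlPart_smooth (hn0 v hv) (hsq v hv))).mono (by linarith))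
    · obtain ⟨qs, hqs, hd⟩ := hbad (σ v) (by linarith) ((ps v).drop (i v)) (t v)
        (hdesc.sublist (List.drop_sublist _ _))
        (fun q hq' => ⟨hnorm v hv q ((hsub v hv).subset (List.mem_of_mem_drop hq')),
          by linarith [(hq q hq').2]⟩) hlt (hfail v hv)
      exact ⟨qs, hqs, hwv ▸ hd.trans (dvd_mul_right _ _)⟩
  set M := s.image (fun v => a v * w v)
  have h := hcount M s fun v hv => ⟨(hs v hv).1, (hs v hv).2.1, p v, _,
    Finset.mem_image_of_mem _ hv,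
    (mem_levs.1 (hl v hv ▸ List.mem_cons_self : p v ∈ levs F (n v))).1, hlp v hv, (key v hv).2.2⟩
  refine h.trans ?_
  have hM := sum_inv_le_of_factor M (s.image a) (s.image w) fun m hm => by
    obtain ⟨v, hv, rfl⟩ := Finset.mem_image.1 hm
    exact ⟨_, Finset.mem_image_of_mem _ hv, _, Finset.mem_image_of_mem _ hv, rfl⟩
  have hA : ∑ b ∈ s.image a, 1 / (b : ℝ) ≤ exp (Cz * log T ^ 2) := by
    refine hsum _ fun b hb => ?_
    obtain ⟨v, hv, rfl⟩ := Finset.mem_image.1 hb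
    refine ⟨_, fun h0 => hn0 v hv (zero_dvd_iff.1 (h0 ▸ (key v hv).1)), ?_, rfl⟩
    exact (Nat.le_of_dvd (Nat.pos_of_ne_zero (hn0 v hv)) (key v hv).1).trans (hnX v hv)
  have hWs : ∑ b ∈ s.image w, 1 / (b : ℝ) ≤ exp (log T + 2 - F ^ (4 / 5 : ℝ)) := by
    have hsub2 : s.image w ⊆ (s.image σ).biUnion
        (fun S => (s.filter (fun v => σ v = S)).image w) := fun b hb => by
      obtain ⟨v, hv, rfl⟩ := Finset.mem_image.1 hb
      exact Finset.mem_biUnion.2 ⟨σ v, Finset.mem_image_of_mem _ hv,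
        Finset.mem_image_of_mem _ (Finset.mem_filter.2 ⟨hv, rfl⟩)⟩
    refine (Finset.sum_le_sum_of_subset_of_nonneg hsub2 fun j _ _ => by positivity).trans ?_
    refine (sum_biUnion_le' _ _ (fun j : ℕ => 1 / (j : ℝ)) (fun j => by positivity)).trans ?_
    refine (Finset.sum_le_sum (g := fun _ => exp (-F ^ (4 / 5 : ℝ))) fun S hS => ?_).trans ?_
    · obtain ⟨v, hv, rfl⟩ := Finset.mem_image.1 hS
      have hσF : F ≤ (σ v : ℝ) := (hti v hv).1.le.trans (Nat.le_ceil _)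
      refine (hS₀ (σ v) (hSF.trans hσF) _ fun b hb => ?_).trans (Real.exp_le_exp.2 ?_)
      · obtain ⟨x, hx, rfl⟩ := Finset.mem_image.1 hb
        obtain ⟨hx, hxe⟩ := Finset.mem_filter.1 hx
        exact hxe ▸ hW x hx
      · exact neg_le_neg (Real.rpow_le_rpow hF0 hσF (by norm_num))
    rw [Finset.sum_const, nsmul_eq_mul, sub_eq_add_neg, Real.exp_add]
    refine mul_le_mul_of_nonneg_right ?_ (exp_pos _).le
    have hsub3 : s.image σ ⊆ Finset.range (⌈2 * T⌉₊ + 1) := fun S hS => by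
      obtain ⟨v, hv, rfl⟩ := Finset.mem_image.1 hS
      have h2 : √T ≤ T := by rw [Real.sqrt_le_iff]; constructor <;> nlinarith
      exact Finset.mem_range.2 (Nat.lt_succ_of_le (Nat.ceil_le_ceil (by linarith [(hti v hv).2])))
    have hc := Finset.card_le_card hsub3
    rw [Finset.card_range] at hc
    have : ((s.image σ).card : ℝ) ≤ (⌈2 * T⌉₊ + 1 : ℕ) := by exact_mod_cast hc
    push_cast at this
    have := Nat.ceil_lt_add_one (show (0 : ℝ) ≤ 2 * T by linarith)
    rw [Real.exp_add, Real.exp_log (by linarith)]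
    have h4 : (3 : ℝ) ≤ exp 2 := by linarith [Real.add_one_le_exp (2 : ℝ)]
    nlinarith
  have hlog : 0 ≤ (X : ℝ) / log X := div_nonneg (Nat.cast_nonneg _) (Real.log_natCast_nonneg _)
  have hprod : C * T * ∑ m ∈ M, 1 / (m : ℝ) ≤ ε := by
    calc C * T * ∑ m ∈ M, 1 / (m : ℝ)
        ≤ C * T * (exp (Cz * log T ^ 2) * exp (log T + 2 - F ^ (4 / 5 : ℝ))) := by
          refine mul_le_mul_of_nonneg_left (hM.trans (mul_le_mul hA hWs
            (Finset.sum_nonneg fun i _ => by positivity) (exp_pos _).le)) ?_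
          exact mul_nonneg hC.le (by linarith)
      _ ≤ ε := by
          rw [← Real.exp_log hC, ← Real.exp_log (show 0 < T by linarith), ← Real.exp_add,
            ← Real.exp_add, ← Real.exp_add, ← Real.le_log_iff_exp_le hε]
          simp only [Real.log_exp]
          linarith
  calc C * T * ((X : ℝ) / log X) * ∑ m ∈ M, 1 / (m : ℝ)
      = (C * T * ∑ m ∈ M, 1 / (m : ℝ)) * ((X : ℝ) / log X) := by ring
    _ ≤ ε * ((X : ℝ) / log X) := mul_le_mul_of_nonneg_right hprod hlog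

/-- Values with a preimage that is not good are negligible. -/
theorem exceptions (hNC : NormalCountStatement) (hNL : NormalLogStatement)
    (hAC : AnatomyCountStatement) (hAL : AnatomyLogStatement) (hZ : CrudeTotientStatement)
    (B : ℕ) {ε : ℝ} (hε : 0 < ε) :
    ∀ᶠ X : ℕ in atTop, ∀ s : Finset ℕ,
      (∀ v ∈ s, 1 ≤ v ∧ v ≤ B * X ∧ ∃ n, φ n = v ∧ ¬ GoodPre X n) →
      (s.card : ℝ) ≤ ε * ((X : ℝ) / log X) := by
  classical
  obtain ⟨C, hC, hpre⟩ := preimage_bound B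
  have hδ : 0 < ε / 8 := by positivity
  filter_upwards [hpre, count_small hδ, count_square C hδ, count_sml C hδ, count_many C hδ,
    count_top_not_normal hNC hZ B hδ, count_lower_not_normal hNL hZ B hδ,
    count_anat_top hAC B hδ, count_anat_low hAL hZ B hδ, eventually_large_prime]
    with X hpre h1 h2 h3 h4 h5 h6 h7 h8 hlp s hs
  choose! n hn hng using fun v hv => (hs v hv).2.2
  set T := scale X
  set F := floorLevel T
  have hn0 : ∀ v ∈ s, n v ≠ 0 := fun v hv h => by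
    have h' := hn v hv
    rw [h, Nat.totient_zero] at h'
    have := (hs v hv).1
    omega
  have hbd : ∀ v ∈ s, n v ≤ X ^ 3 ∧ (n v : ℝ) ≤ C * T * X := fun v hv =>
    hpre (n v) ((hn v hv).symm ▸ (hs v hv).2.1)
  set A₁ := s.filter (fun v : ℕ => (v : ℝ) ≤ (X : ℝ) / log X ^ 2)
  set A₂ := s.filter (fun v => ¬ SqfreeAbove F (n v))
  set A₃ := s.filter (fun v => SqfreeAbove F (n v) ∧ exp (2 * F) < log (smlPart F (n v)))
  set A₄ := s.filter (fun v => 4 * T < ((levs F (n v)).length : ℝ))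
  set A₅ := s.filter (fun v => SqfreeAbove F (n v) ∧ ∃ (p : ℕ) (ps : List ℕ),
    levs F (n v) = p :: ps ∧ log X / (8 * T) ≤ log p ∧ ¬ Normal p)
  set A₆ := s.filter (fun v => SqfreeAbove F (n v) ∧ ∃ (p : ℕ) (ps : List ℕ),
    levs F (n v) = p :: ps ∧ log X / (8 * T) ≤ log p ∧ ∃ q ∈ ps, ¬ Normal q)
  set A₇ := s.filter (fun v => SqfreeAbove F (n v) ∧ (∀ q ∈ levs F (n v), Normal q) ∧
    (1 + eta T) * T < cost ((levs F (n v)).take (maxLen T)))
  set A₈ := s.filter (fun v => SqfreeAbove F (n v) ∧ (∀ q ∈ levs F (n v), Normal q) ∧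
    ∃ (p : ℕ) (ps : List ℕ), levs F (n v) = p :: ps ∧ log X / (8 * T) ≤ log p ∧
      ∃ i < ps.length, (1 + eta T) * u (ps.getD i 0) < cost ((ps.drop i).take (maxLen T)))
  have hcover : s ⊆ A₁ ∪ A₂ ∪ A₃ ∪ A₄ ∪ A₅ ∪ A₆ ∪ A₇ ∪ A₈ := by
    intro v hv
    by_contra hc
    simp only [A₁, A₂, A₃, A₄, A₅, A₆, A₇, A₈, Finset.mem_union, Finset.mem_filter, hv,
      true_and, not_or, not_and, not_exists, not_lt, not_le, not_not] at hc
    obtain ⟨⟨⟨⟨⟨⟨⟨c1, c2⟩, c3⟩, c4⟩, c5⟩, c6⟩, c7⟩, c8⟩ := hc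
    have d3 := c3 c2
    obtain ⟨p, ps, hl, hp⟩ := hlp (n v) (hn0 v hv) (by rw [hn v hv]; exact c1) d3 c4
    have hnorm : ∀ q ∈ levs F (n v), Normal q := fun q hq => by
      rw [hl] at hq
      rcases List.mem_cons.1 hq with rfl | hq
      · exact c5 c2 q ps hl hp
      · exact c6 c2 p ps hl hp q hq
    refine hng v hv ⟨⟨hn0 v hv, c2, hnorm, d3, fun i hi => ?_⟩, p, ps, hl, hp⟩
    rcases i with _ | j
    · rw [if_pos rfl, List.drop_zero]; exact c7 c2 hnorm
    · rw [if_neg j.succ_ne_zero]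
      change j + 1 < (levs F (n v)).length at hi
      change cost (((levs F (n v)).drop (j + 1)).take (maxLen T))
        ≤ (1 + eta T) * u ((levs F (n v)).getD (j + 1) 0)
      rw [hl] at hi ⊢
      simp only [List.drop_succ_cons, List.getD_cons_succ]
      exact c8 c2 hnorm p ps hl hp j (by simpa using hi)
  have himg : ∀ A ⊆ s, A.card = (A.image n).card := fun A hA =>
    (Finset.card_image_of_injOn fun a ha b hb h => by
      rw [← hn a (hA ha), ← hn b (hA hb), h]).symm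
  have e1 : (A₁.card : ℝ) ≤ _ := h1 A₁ fun v hv => (Finset.mem_filter.1 hv).2
  have e2 : (A₂.card : ℝ) ≤ ε / 8 * ((X : ℝ) / log X) := by
    rw [himg A₂ (Finset.filter_subset _ _)]
    refine h2 _ fun m hm => ?_
    obtain ⟨v, hv, rfl⟩ := Finset.mem_image.1 hm
    obtain ⟨hv, h⟩ := Finset.mem_filter.1 hv
    exact ⟨hn0 v hv, (hbd v hv).2, h⟩
  have e3 : (A₃.card : ℝ) ≤ ε / 8 * ((X : ℝ) / log X) := by
    rw [himg A₃ (Finset.filter_subset _ _)]
    refine h3 _ fun m hm => ?_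
    obtain ⟨v, hv, rfl⟩ := Finset.mem_image.1 hm
    obtain ⟨hv, h⟩ := Finset.mem_filter.1 hv
    exact ⟨hn0 v hv, (hbd v hv).2, h⟩
  have e4 : (A₄.card : ℝ) ≤ ε / 8 * ((X : ℝ) / log X) := by
    rw [himg A₄ (Finset.filter_subset _ _)]
    refine h4 _ fun m hm => ?_
    obtain ⟨v, hv, rfl⟩ := Finset.mem_image.1 hm
    obtain ⟨hv, h⟩ := Finset.mem_filter.1 hv
    exact ⟨hn0 v hv, (hbd v hv).1, (hbd v hv).2, h⟩
  have e5 : (A₅.card : ℝ) ≤ _ := h5 A₅ fun v hv => by
    obtain ⟨hv, hsq, h⟩ := Finset.mem_filter.1 hv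
    exact ⟨(hs v hv).1, (hs v hv).2.1, n v, hn v hv, hn0 v hv, (hbd v hv).1, hsq, h⟩
  have e6 : (A₆.card : ℝ) ≤ _ := h6 A₆ fun v hv => by
    obtain ⟨hv, hsq, h⟩ := Finset.mem_filter.1 hv
    exact ⟨(hs v hv).1, (hs v hv).2.1, n v, hn v hv, hn0 v hv, (hbd v hv).1, hsq, h⟩
  have e7 : (A₇.card : ℝ) ≤ _ := h7 A₇ fun v hv => by
    obtain ⟨hv, hsq, h⟩ := Finset.mem_filter.1 hv
    exact ⟨(hs v hv).1, (hs v hv).2.1, n v, hn v hv, hn0 v hv, (hbd v hv).1, hsq, h⟩
  have e8 : (A₈.card : ℝ) ≤ _ := h8 A₈ fun v hv => by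
    obtain ⟨hv, hsq, h⟩ := Finset.mem_filter.1 hv
    exact ⟨(hs v hv).1, (hs v hv).2.1, n v, hn v hv, hn0 v hv, (hbd v hv).1, hsq, h⟩
  have hc := Finset.card_le_card hcover
  have u1 := Finset.card_union_le A₁ A₂
  have u2 := Finset.card_union_le (A₁ ∪ A₂) A₃
  have u3 := Finset.card_union_le (A₁ ∪ A₂ ∪ A₃) A₄
  have u4 := Finset.card_union_le (A₁ ∪ A₂ ∪ A₃ ∪ A₄) A₅
  have u5 := Finset.card_union_le (A₁ ∪ A₂ ∪ A₃ ∪ A₄ ∪ A₅) A₆
  have u6 := Finset.card_union_le (A₁ ∪ A₂ ∪ A₃ ∪ A₄ ∪ A₅ ∪ A₆) A₇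
  have u7 := Finset.card_union_le (A₁ ∪ A₂ ∪ A₃ ∪ A₄ ∪ A₅ ∪ A₆ ∪ A₇) A₈
  have htot : s.card ≤
      A₁.card + A₂.card + A₃.card + A₄.card + A₅.card + A₆.card + A₇.card + A₈.card := by omega
  have htot' : (s.card : ℝ) ≤ (A₁.card : ℝ) + A₂.card + A₃.card + A₄.card + A₅.card + A₆.card
      + A₇.card + A₈.card := by exact_mod_cast htot
  linarith

end Vale.Agent.P031
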