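import Vale.Agent.P031.Scale

/-!
P031: exceptional preimages (small value, repeated large prime, huge smooth part, too many
levels).
-/

open Finset Real Filter
open scoped Nat Topology

namespace Vale.Agent.P031

/-- An auxiliary growth fact. -/
lemma eventually_log_poly_le (D : ℝ) {r : ℝ} (hr : 0 < r) :
    ∀ᶠ T : ℝ in atTop, D * (1 + log T + log T ^ 2) ≤ T ^ r := by
  filter_upwards [eventually_log_pow_le 3 (one_pos (α := ℝ)) hr,
    Real.tendsto_log_atTop.eventually_ge_atTop (max 1 (3 * |D|))] with T hT hl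
  have h1 := (le_max_left _ _).trans hl
  have h2 := (le_max_right _ _).trans hl
  have h3 : log T ≤ log T ^ 2 := by nlinarith
  have h4 : D * (1 + log T + log T ^ 2) ≤ |D| * (3 * log T ^ 2) := by
    refine mul_le_mul (le_abs_self D) (by nlinarith) (by nlinarith) (abs_nonneg D)
  have h5 : |D| * (3 * log T ^ 2) ≤ log T ^ 3 := by
    rw [pow_succ _ 2]; nlinarith [sq_nonneg (log T)]
  linarith

lemma eventually_log_poly_le_floor (D : ℝ) :
    ∀ᶠ T : ℝ in atTop, D * (1 + log T + log T ^ 2) ≤ floorLevel T := by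
  filter_upwards [Real.tendsto_log_atTop.eventually_ge_atTop (max 1 (3 * |D|))] with T hl
  have h1 := (le_max_left _ _).trans hl
  have h2 := (le_max_right _ _).trans hl
  have h4 : D * (1 + log T + log T ^ 2) ≤ |D| * (3 * log T ^ 2) := by
    refine mul_le_mul (le_abs_self D) (by nlinarith) (by nlinarith) (abs_nonneg D)
  have h5 : |D| * (3 * log T ^ 2) ≤ log T ^ 3 := by
    rw [pow_succ _ 2]; nlinarith [sq_nonneg (log T)]
  have h6 : log T ^ 3 ≤ floorLevel T := pow_le_pow_right₀ h1 (by norm_num)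
  linarith

/-- `log X ≤ exp (T + O(1))`. -/
lemma exists_log_le_exp_scale :
    ∃ D : ℝ, 0 ≤ D ∧ ∀ᶠ X : ℕ in atTop, exp (scale X - D) ≤ log X ∧ log X ≤ exp (scale X + D) := by
  obtain ⟨D, hD0, hD⟩ := exists_log_bounds
  exact ⟨D, hD0, (eventually_ge_atTop 3).mono fun X hX => hD X hX⟩

/-- `X · exp(E) ≤ ε X / log X` as soon as `E + T + O(1) ≤ 0`. -/
lemma exp_mul_le_div_log {X : ℕ} {E T D ε : ℝ} (hε : 0 < ε) (hlog : 0 < log (X : ℝ))
    (hup : log (X : ℝ) ≤ exp (T + D)) (h : E + T + D ≤ log ε) :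
    (X : ℝ) * exp E ≤ ε * ((X : ℝ) / log X) := by
  have h2 : exp E * log (X : ℝ) ≤ ε := by
    refine (mul_le_mul_of_nonneg_left hup (exp_pos E).le).trans ?_
    rw [← Real.exp_add, ← Real.le_log_iff_exp_le hε]
    linarith
  rw [show ε * ((X : ℝ) / log X) = (X : ℝ) * (ε / log X) by ring]
  refine mul_le_mul_of_nonneg_left ?_ (Nat.cast_nonneg X)
  rw [le_div_iff₀ hlog]
  exact h2

/-- A bound for preimages. -/
lemma preimage_bound (B : ℕ) :
    ∃ C : ℝ, 0 < C ∧ ∀ᶠ X : ℕ in atTop, ∀ n : ℕ, φ n ≤ B * X →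
      n ≤ X ^ 3 ∧ (n : ℝ) ≤ C * scale X * X := by
  obtain ⟨C, hC, hn⟩ := div_totient_le
  obtain ⟨M, -, hM⟩ := exists_mertens_const
  refine ⟨C * 3 * (B + 1), by positivity, ?_⟩
  have hev : ∀ᶠ n : ℕ in atTop, 3 ≤ n ∧
      C * (log (n : ℝ) + M + 1) * ((B : ℝ) + 1) < (n : ℝ) ^ (1 / 2 : ℝ) := by
    refine (eventually_ge_atTop 3).and ?_
    set A := C * ((B : ℝ) + 1) with hA
    have hA0 : 0 < A := by positivity
    have h1 := tendsto_natCast_atTop_atTop.eventually
      (eventually_log_pow_le 1 (c := 1 / (4 * A)) (by positivity) (r := 1 / 2) (by norm_num))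
    have h2 := ((tendsto_rpow_atTop (show (0 : ℝ) < 1 / 2 by norm_num)).comp
      tendsto_natCast_atTop_atTop).eventually_gt_atTop (4 * A * (M + 1))
    filter_upwards [h1, h2] with n h1 h2
    rw [pow_one, show (1 / (4 * A)) * (n : ℝ) ^ (1 / 2 : ℝ)
      = (n : ℝ) ^ (1 / 2 : ℝ) / (4 * A) by ring, le_div_iff₀ (by positivity)] at h1
    simp only [Function.comp] at h2
    have : 0 ≤ (n : ℝ) ^ (1 / 2 : ℝ) := by positivity
    rw [show C * (log (n : ℝ) + M + 1) * ((B : ℝ) + 1) = A * log n + A * (M + 1) by rw [hA]; ring]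
    linarith
  obtain ⟨N, hN⟩ := eventually_atTop.1 hev
  filter_upwards [eventually_u_le_pow 3, eventually_ge_atTop (max N 3),
    eventually_scale (eventually_ge_atTop (1 : ℝ))] with X hu hX hT n hv
  have hX3 : 3 ≤ X := (le_max_right _ _).trans hX
  have hv' : (φ n : ℝ) ≤ ((B : ℝ) + 1) * X := by
    have : (φ n : ℝ) ≤ (B : ℝ) * X := by exact_mod_cast hv
    nlinarith [show (0 : ℝ) ≤ X from Nat.cast_nonneg X]
  have hle : n ≤ X ^ 3 := by
    by_contra hc
    push Not at hc
    have hXn : X ≤ n := (Nat.le_self_pow (by norm_num) X).trans hc.le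
    obtain ⟨hn3, hbad⟩ := hN n ((le_max_left _ _).trans (hX.trans hXn))
    have hX2 : (X : ℝ) ≤ (n : ℝ) ^ (1 / 2 : ℝ) := by
      rw [← Real.sqrt_eq_rpow]
      refine Real.le_sqrt_of_sq_le ?_
      have : (X : ℝ) ^ 2 ≤ (X : ℝ) ^ 3 := pow_le_pow_right₀ (by exact_mod_cast (show 1 ≤ X by omega)) (by norm_num)
      have : (X : ℝ) ^ 3 ≤ (n : ℝ) := by exact_mod_cast hc.le
      linarith
    have hun : u n ≤ log n + M := by
      have := (hM n hn3).2
      have hl : 0 < log (n : ℝ) := Real.log_pos (by exact_mod_cast (show 1 < n by omega))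
      have := Real.log_le_sub_one_of_pos hl
      linarith
    have h1 : (n : ℝ) ≤ C * (log (n : ℝ) + M + 1) * (((B : ℝ) + 1) * (n : ℝ) ^ (1 / 2 : ℝ)) := by
      calc (n : ℝ) ≤ C * (u n + 1) * (φ n : ℝ) := hn n
        _ ≤ _ := by
          refine mul_le_mul (mul_le_mul_of_nonneg_left (by linarith) hC.le)
            (hv'.trans (mul_le_mul_of_nonneg_left hX2 (by positivity))) (Nat.cast_nonneg _) ?_
          have := u_nonneg n
          exact mul_nonneg hC.le (by linarith)
    have hs : (n : ℝ) ^ (1 / 2 : ℝ) * (n : ℝ) ^ (1 / 2 : ℝ) = n := by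
      rw [← Real.rpow_add (by positivity)]; norm_num
    have hpos : (0 : ℝ) < (n : ℝ) ^ (1 / 2 : ℝ) := by
      have : 0 < n := by omega
      positivity
    nlinarith
  refine ⟨hle, ?_⟩
  have h1 := hu n hle
  have h2 : √(scale X) ≤ scale X := by
    rw [Real.sqrt_le_iff]; constructor <;> nlinarith
  calc (n : ℝ) ≤ C * (u n + 1) * (φ n : ℝ) := hn n
    _ ≤ C * (3 * scale X) * (((B : ℝ) + 1) * X) := by
        refine mul_le_mul (mul_le_mul_of_nonneg_left (by linarith) hC.le) hv'
          (Nat.cast_nonneg _) (by positivity)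
    _ = _ := by ring

/-- Small values are negligible. -/
lemma count_small {ε : ℝ} (hε : 0 < ε) :
    ∀ᶠ X : ℕ in atTop, ∀ s : Finset ℕ, (∀ v ∈ s, (v : ℝ) ≤ (X : ℝ) / log X ^ 2) →
      (s.card : ℝ) ≤ ε * ((X : ℝ) / log X) := by
  have h1 : ∀ᶠ X : ℕ in atTop, 2 / ε ≤ log (X : ℝ) :=
    (Real.tendsto_log_atTop.comp tendsto_natCast_atTop_atTop).eventually_ge_atTop _
  have h2 : ∀ᶠ X : ℕ in atTop, log (X : ℝ) ^ 1 ≤ (ε / 2) * (X : ℝ) ^ (1 : ℝ) :=
    tendsto_natCast_atTop_atTop.eventually (eventually_log_pow_le 1 (by positivity) one_pos)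
  filter_upwards [h1, h2, eventually_ge_atTop 3] with X h1 h2 hX s hs
  have hl : 0 < log (X : ℝ) := Real.log_pos (by exact_mod_cast (show 1 < X by omega))
  rw [pow_one, Real.rpow_one] at h2
  have hsub : s ⊆ Finset.range (⌊(X : ℝ) / log X ^ 2⌋₊ + 1) := fun v hv =>
    Finset.mem_range.2 (Nat.lt_succ_of_le (Nat.le_floor (hs v hv)))
  have hc : (s.card : ℝ) ≤ (X : ℝ) / log X ^ 2 + 1 := by
    have h := Finset.card_le_card hsub
    rw [Finset.card_range] at h
    have : (s.card : ℝ) ≤ (⌊(X : ℝ) / log X ^ 2⌋₊ + 1 : ℕ) := by exact_mod_cast h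
    have := Nat.floor_le (show 0 ≤ (X : ℝ) / log X ^ 2 by positivity)
    push_cast at *
    linarith
  refine hc.trans ?_
  have e1 : (X : ℝ) / log X ^ 2 ≤ (ε / 2) * ((X : ℝ) / log X) := by
    rw [div_le_iff₀ hε] at h1
    rw [show (ε / 2) * ((X : ℝ) / log X) = (ε * log X / 2) * ((X : ℝ) / log X ^ 2) by field_simp]
    exact le_mul_of_one_le_left (by positivity) (by linarith)
  have e2 : (1 : ℝ) ≤ (ε / 2) * ((X : ℝ) / log X) := by
    rw [show (ε / 2) * ((X : ℝ) / log X) = (ε / 2) * (X : ℝ) / log X by ring, le_div_iff₀ hl]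
    linarith
  linarith

lemma card_multiples_le (s : Finset ℕ) (N d : ℕ) (h : ∀ n ∈ s, n ≠ 0 ∧ n ≤ N ∧ d ∣ n) :
    (s.card : ℝ) ≤ (N : ℝ) / d := by
  have hsub : s ⊆ (Finset.range N.succ).filter (fun k => k ≠ 0 ∧ d ∣ k) := fun n hn =>
    Finset.mem_filter.2 ⟨Finset.mem_range.2 (Nat.lt_succ_of_le (h n hn).2.1), (h n hn).1, (h n hn).2.2⟩
  have hc := Finset.card_le_card hsub
  rw [Nat.card_multiples'] at hc
  exact le_trans (by exact_mod_cast hc) Nat.cast_div_le

/-- Repeated large primes are negligible. -/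
lemma count_square (C : ℝ) {ε : ℝ} (hε : 0 < ε) :
    ∀ᶠ X : ℕ in atTop, ∀ s : Finset ℕ,
      (∀ n ∈ s, n ≠ 0 ∧ (n : ℝ) ≤ C * scale X * X ∧ ¬ SqfreeAbove (floorLevel (scale X)) n) →
      (s.card : ℝ) ≤ ε * ((X : ℝ) / log X) := by
  classical
  obtain ⟨D, hD0, hD⟩ := exists_log_le_exp_scale
  obtain ⟨M, hM0, hM⟩ := exists_log_bounds
  have hT : ∀ᶠ T : ℝ in atTop, 1 ≤ T ∧ 2 * log T + M + 1 ≤ floorLevel T ∧
      log (2 * (|C| + 1)) + log T + T + D - log ε ≤ T ^ 2 / exp 0 ∧ 3 ≤ floorLevel T := by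
    set A := log (2 * (|C| + 1)) + D - log ε
    filter_upwards [eventually_ge_atTop (max 1 (|A| + 3)),
      eventually_log_poly_le_floor (max 3 (M + 1))] with T hT hf
    have h1 := (le_max_left _ _).trans hT
    have h2 := (le_max_right _ _).trans hT
    have hl := Real.log_nonneg h1
    have h3 : log T ≤ T := by have := Real.log_le_sub_one_of_pos (show 0 < T by linarith); linarith
    have h4 : A ≤ |A| := le_abs_self A
    have hm1 := le_max_left (3 : ℝ) (M + 1)
    have hm2 := le_max_right (3 : ℝ) (M + 1)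
    refine ⟨h1, ?_, ?_, ?_⟩
    · nlinarith [sq_nonneg (log T)]
    · rw [Real.exp_zero, div_one]
      have : log (2 * (|C| + 1)) + log T + T + D - log ε = A + log T + T := by simp only [A]; ring
      nlinarith [abs_nonneg A]
    · nlinarith [sq_nonneg (log T)]
  filter_upwards [hD, eventually_scale hT, eventually_ge_atTop 3] with X hlX hT hX s hs
  obtain ⟨hT1, hF, hE, hF3⟩ := hT
  set T := scale X
  set F := floorLevel T
  set N := ⌊C * T * (X : ℝ)⌋₊ with hN
  have hlog : 0 < log (X : ℝ) := Real.log_pos (by exact_mod_cast (show 1 < X by omega))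
  set P0 := ⌊exp (T ^ 2)⌋₊ with hP0
  have hbig : ∀ p : ℕ, p.Prime → F < u p → P0 < p := by
    intro p hp hu
    have hp3 : 3 ≤ p := by
      by_contra hc
      have h2 : p = 2 := by have := hp.two_le; omega
      rw [h2, u_prime_eq Nat.prime_two, show (2 - 1 : ℕ) = 1 from rfl, u_one] at hu
      norm_num at hu
      linarith
    have h1 := (hM p hp3).1
    have h2 : T ^ 2 < log (p : ℝ) := by
      refine lt_of_lt_of_le ?_ h1
      rw [← Real.log_lt_iff_lt_exp (by positivity), Real.log_pow]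
      push_cast; linarith
    rw [hP0, Nat.floor_lt (exp_pos _).le]
    exact (Real.lt_log_iff_exp_lt (by exact_mod_cast hp.pos)).1 h2
  have hnN : ∀ n ∈ s, n ≤ N := fun n hn => Nat.le_floor (hs n hn).2.1
  have hcover : s ⊆ (Finset.Ioo P0 (N + 1)).biUnion (fun p => s.filter (fun n => p ^ 2 ∣ n)) := by
    intro n hn
    obtain ⟨hn0, -, hsq⟩ := hs n hn
    simp only [SqfreeAbove, not_forall, not_not, exists_prop] at hsq
    obtain ⟨p, hp, hu, hdvd⟩ := hsq
    have hpn : p ≤ n := Nat.le_of_dvd (Nat.pos_of_ne_zero hn0) ((dvd_pow_self p two_ne_zero).trans hdvd)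
    exact Finset.mem_biUnion.2 ⟨p, Finset.mem_Ioo.2 ⟨hbig p hp hu, Nat.lt_succ_of_le (hpn.trans (hnN n hn))⟩,
      Finset.mem_filter.2 ⟨hn, hdvd⟩⟩
  have hc : (s.card : ℝ) ≤ (N : ℝ) * (2 / ((P0 : ℝ) + 1)) := by
    have h1 := (Finset.card_le_card hcover).trans Finset.card_biUnion_le
    refine (show (s.card : ℝ) ≤ ∑ p ∈ Finset.Ioo P0 (N + 1), ((s.filter (fun n => p ^ 2 ∣ n)).card : ℝ)
      by exact_mod_cast h1).trans ?_
    calc _ ≤ ∑ p ∈ Finset.Ioo P0 (N + 1), (N : ℝ) * ((p : ℝ) ^ 2)⁻¹ := by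
          refine Finset.sum_le_sum fun p _ => ?_
          have := card_multiples_le (s.filter (fun n => p ^ 2 ∣ n)) N (p ^ 2) fun n hn => by
            obtain ⟨h1, h2⟩ := Finset.mem_filter.1 hn
            exact ⟨(hs n h1).1, hnN n h1, h2⟩
          simpa [div_eq_mul_inv] using this
      _ ≤ _ := by
          rw [← Finset.mul_sum]
          exact mul_le_mul_of_nonneg_left (sum_Ioo_inv_sq_le P0 (N + 1)) (Nat.cast_nonneg N)
  have hP : exp (T ^ 2) ≤ (P0 : ℝ) + 1 := (Nat.lt_floor_add_one _).le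
  have hN' : (N : ℝ) ≤ (|C| + 1) * T * X := by
    refine le_trans ?_ (mul_le_mul_of_nonneg_right (mul_le_mul_of_nonneg_right
      (show |C| ≤ |C| + 1 by linarith) (by linarith)) (Nat.cast_nonneg X))
    rcases le_or_gt 0 (C * T * (X : ℝ)) with h | h
    · refine (Nat.floor_le h).trans ?_
      gcongr
      exact le_abs_self C
    · rw [hN, Nat.floor_of_nonpos h.le]
      simp; positivity
  refine hc.trans ?_
  refine le_trans (mul_le_mul hN' (div_le_div_of_nonneg_left two_pos.le (exp_pos _) hP)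
    (by positivity) (by positivity)) ?_
  have e : (|C| + 1) * T * (X : ℝ) * (2 / exp (T ^ 2))
      = (X : ℝ) * exp (log (2 * (|C| + 1)) + log T - T ^ 2) := by
    rw [Real.exp_sub, Real.exp_add, Real.exp_log (by positivity), Real.exp_log (by linarith)]
    ring
  rw [e]
  refine exp_mul_le_div_log hε hlog hlX.2 ?_
  rw [Real.exp_zero, div_one] at hE
  linarith

lemma exp_card_eq (t : Finset ℕ) :
    exp (t.card : ℝ) = ∑ S ∈ t.powerset, (exp 1 - 1) ^ S.card := by
  rw [show exp (t.card : ℝ) = ∏ _p ∈ t, (1 + (exp 1 - 1)) by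
    rw [Finset.prod_const, add_sub_cancel, ← Real.exp_nat_mul, mul_one]]
  rw [Finset.prod_one_add]
  exact Finset.sum_congr rfl fun S _ => by rw [Finset.prod_const]

/-- Numbers with many prime factors are negligible. -/
lemma count_many (C : ℝ) {ε : ℝ} (hε : 0 < ε) :
    ∀ᶠ X : ℕ in atTop, ∀ s : Finset ℕ,
      (∀ n ∈ s, n ≠ 0 ∧ n ≤ X ^ 3 ∧ (n : ℝ) ≤ C * scale X * X ∧
        4 * scale X < ((levs (floorLevel (scale X)) n).length : ℝ)) →
      (s.card : ℝ) ≤ ε * ((X : ℝ) / log X) := by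
  classical
  obtain ⟨D, hD0, hD⟩ := exists_log_le_exp_scale
  have hT : ∀ᶠ T : ℝ in atTop, 1 ≤ T ∧
      log (|C| + 1) + log T + (exp 1 - 1) * (T + √T) - 4 * T + T + D ≤ log ε := by
    set A := log (|C| + 1) + D - log ε
    filter_upwards [eventually_ge_atTop (max 100 (20 * |A|))] with T hT
    have h1 := (le_max_left _ _).trans hT
    have h2 := (le_max_right _ _).trans hT
    have h3 : √T ≤ T / 10 := by rw [Real.sqrt_le_iff]; constructor <;> nlinarith
    have h4 : log T ≤ 2 * √T := by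
      have := Real.log_le_rpow_div (show 0 ≤ T by linarith) (show (0 : ℝ) < 1 / 2 by norm_num)
      rw [← Real.sqrt_eq_rpow] at this
      linarith
    have he : exp 1 - 1 ≤ 1.7183 := by
      have := Real.exp_one_lt_d9; linarith
    refine ⟨by linarith, ?_⟩
    have := le_abs_self A
    have hs0 := Real.sqrt_nonneg T
    have : (exp 1 - 1) * (T + √T) ≤ 1.7183 * (T + √T) :=
      mul_le_mul_of_nonneg_right he (by linarith)
    simp only [A] at *
    linarith
  filter_upwards [hD, eventually_scale hT, eventually_ge_atTop 3, eventually_u_le_pow 3]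
    with X hlX hT hX hu s hs
  obtain ⟨hT1, hE⟩ := hT
  set T := scale X
  set F := floorLevel T
  have hlog : 0 < log (X : ℝ) := Real.log_pos (by exact_mod_cast (show 1 < X by omega))
  set N := min (X ^ 3) ⌊C * T * (X : ℝ)⌋₊ with hN
  have hnN : ∀ n ∈ s, n ≤ N := fun n hn =>
    le_min (hs n hn).2.1 (Nat.le_floor (hs n hn).2.2.1)
  have h1 : (s.card : ℝ) * exp (4 * T) ≤ ∑ n ∈ s, exp (n.primeFactors.card : ℝ) := by
    rw [← nsmul_eq_mul, ← Finset.sum_const]
    refine Finset.sum_le_sum fun n hn => Real.exp_le_exp.2 ?_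
    refine (hs n hn).2.2.2.le.trans ?_
    have : (levs F n).length ≤ n.primeFactors.card := by
      rw [levs, Finset.length_sort]; exact Finset.card_filter_le _ _
    exact_mod_cast this
  have h2 : ∑ n ∈ s, exp (n.primeFactors.card : ℝ)
      ≤ (N : ℝ) * ∏ p ∈ primesTo N, (1 + (exp 1 - 1) / (p : ℝ)) := by
    have he : 0 ≤ exp 1 - 1 := by have := Real.add_one_le_exp (1 : ℝ); linarith
    calc ∑ n ∈ s, exp (n.primeFactors.card : ℝ)
        = ∑ n ∈ s, ∑ S ∈ (primesTo N).powerset,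
            if S ⊆ n.primeFactors then (exp 1 - 1) ^ S.card else 0 := by
          refine Finset.sum_congr rfl fun n hn => ?_
          rw [exp_card_eq, ← Finset.sum_filter]
          congr 1
          ext S
          simp only [Finset.mem_powerset, Finset.mem_filter]
          refine ⟨fun h => ⟨fun p hp => ?_, h⟩, fun h => h.2⟩
          exact mem_primesTo.2 ⟨(Nat.le_of_mem_primeFactors (h hp)).trans (hnN n hn),
            Nat.prime_of_mem_primeFactors (h hp)⟩
      _ = ∑ S ∈ (primesTo N).powerset,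
            ((s.filter (fun n => S ⊆ n.primeFactors)).card : ℝ) * (exp 1 - 1) ^ S.card := by
          rw [Finset.sum_comm]
          refine Finset.sum_congr rfl fun S _ => ?_
          rw [← Finset.sum_filter, Finset.sum_const, nsmul_eq_mul]
      _ ≤ ∑ S ∈ (primesTo N).powerset, (N : ℝ) / (∏ p ∈ S, p : ℕ) * (exp 1 - 1) ^ S.card := by
          refine Finset.sum_le_sum fun S _ => mul_le_mul_of_nonneg_right
            (card_multiples_le _ _ _ fun n hn => ?_) (pow_nonneg he _)
          obtain ⟨h1, h2⟩ := Finset.mem_filter.1 hn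
          exact ⟨(hs n h1).1, hnN n h1,
            (Finset.prod_dvd_prod_of_subset _ _ _ h2).trans (Nat.prod_primeFactors_dvd n)⟩
      _ = _ := by
          rw [Finset.prod_one_add, Finset.mul_sum]
          refine Finset.sum_congr rfl fun S _ => ?_
          rw [Finset.prod_div_distrib, Finset.prod_const]
          push_cast
          ring
  have h3 : ∏ p ∈ primesTo N, (1 + (exp 1 - 1) / (p : ℝ)) ≤ exp ((exp 1 - 1) * (T + √T)) := by
    have he : 0 ≤ exp 1 - 1 := by have := Real.add_one_le_exp (1 : ℝ); linarith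
    refine (prod_one_add_le_exp _ _ fun p _ => by positivity).trans (Real.exp_le_exp.2 ?_)
    refine le_trans ?_ (mul_le_mul_of_nonneg_left (hu N (min_le_left _ _)) he)
    rw [u_def, Finset.mul_sum]
    refine Finset.sum_le_sum fun p hp => ?_
    have := sub_one_pos_of_prime (mem_primesTo.1 hp).2
    rw [mul_one_div]
    exact div_le_div_of_nonneg_left he this (by linarith)
  have hN' : (N : ℝ) ≤ (|C| + 1) * T * X := by
    refine (Nat.cast_le.2 (min_le_right _ _)).trans ?_
    rcases le_or_gt 0 (C * T * (X : ℝ)) with h | h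
    · refine (Nat.floor_le h).trans ?_
      gcongr
      have := le_abs_self C
      linarith
    · rw [Nat.floor_of_nonpos h.le]
      simp; positivity
  have h4 : (s.card : ℝ) * exp (4 * T)
      ≤ (|C| + 1) * T * X * exp ((exp 1 - 1) * (T + √T)) :=
    h1.trans (h2.trans (mul_le_mul hN' h3 (Finset.prod_nonneg fun p _ => by
      have := Real.add_one_le_exp (1 : ℝ)
      have : (0:ℝ) ≤ (exp 1 - 1) / (p : ℝ) := div_nonneg (by linarith) (Nat.cast_nonneg p)
      linarith) (by positivity)))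
  rw [← le_div_iff₀ (exp_pos _)] at h4
  refine h4.trans ?_
  have e : (|C| + 1) * T * X * exp ((exp 1 - 1) * (T + √T)) / exp (4 * T)
      = (X : ℝ) * exp (log (|C| + 1) + log T + (exp 1 - 1) * (T + √T) - 4 * T) := by
    rw [Real.exp_sub, Real.exp_add, Real.exp_add, Real.exp_log (by positivity),
      Real.exp_log (by linarith)]
    ring
  rw [e]
  exact exp_mul_le_div_log hε hlog hlX.2 hE

end Vale.Agent.P031
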