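import Vale.Agent.P031.ExceptN

/-!
P031: huge smooth parts are negligible, and a good preimage has a large largest prime.
-/

open Finset Real Filter
open scoped Nat Topology

namespace Vale.Agent.P031

/-- Rankin's bound for integers with prime factors of level at most `F`. -/
lemma rankin_smooth :
    ∃ M : ℝ, 0 ≤ M ∧ ∀ F E : ℝ, 0 ≤ F → ∀ s : Finset ℕ,
      (∀ m ∈ s, Smooth F m ∧ E < log m) →
      ∑ m ∈ s, 1 / (m : ℝ) ≤ exp (4 * F - E * exp (-F - M - 1)) := by
  classical
  obtain ⟨M, hM0, hM⟩ := exists_log_bounds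
  refine ⟨M, hM0, fun F E hF s hs => ?_⟩
  set P := (finite_primes_u_le F).toFinset with hP
  have hmemP : ∀ p, p ∈ P ↔ p.Prime ∧ u p ≤ F := fun p => by simp [hP]
  set σ := exp (-F - M - 1) with hσ
  have hσ0 : 0 < σ := exp_pos _
  have hσ1 : σ ≤ 1 / 2 := by
    have h : exp (-F - M - 1) ≤ exp (-1) := Real.exp_le_exp.2 (by linarith)
    have := Real.exp_neg_one_lt_d9
    linarith
  let f : ℕ →* ℝ :=
    { toFun := fun n => (n : ℝ) ^ (σ - 1)
      map_one' := by simp
      map_mul' := fun a b => by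
        push_cast
        exact Real.mul_rpow (Nat.cast_nonneg a) (Nat.cast_nonneg b) }
  have hf : ∀ n : ℕ, f n = (n : ℝ) ^ (σ - 1) := fun _ => rfl
  have hlt : ∀ p : ℕ, p.Prime → f p < 1 := fun p hp => by
    rw [hf]
    exact Real.rpow_lt_one_of_one_lt_of_neg (by exact_mod_cast hp.one_lt) (by linarith)
  have h1 : ∀ m ∈ s, 1 / (m : ℝ) ≤ exp (-(E * σ)) * f m := fun m hm => by
    obtain ⟨hsm, hE⟩ := hs m hm
    have hm0 : (0 : ℝ) < m := by exact_mod_cast Nat.pos_of_ne_zero hsm.1
    rw [hf, Real.rpow_def_of_pos hm0, ← Real.exp_add, one_div, ← Real.exp_log hm0, ← Real.exp_neg,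
      Real.log_exp]
    refine Real.exp_le_exp.2 ?_
    nlinarith
  have h2 : ∑ m ∈ s, f m ≤ ∏ p ∈ P with p.Prime, (1 - f p)⁻¹ :=
    sum_smooth_le_prod f (fun n => by rw [hf]; positivity) hlt P s
      fun m hm => ⟨(hs m hm).1.1, fun p hp hd => (hmemP p).2 ⟨hp, (hs m hm).1.2 p hp hd⟩⟩
  have h3 : ∀ p ∈ P, (1 - f p)⁻¹ ≤ exp (4 / ((p : ℝ) - 1)) := by
    intro p hp
    obtain ⟨hpr, hu⟩ := (hmemP p).1 hp
    have hp2 : (2 : ℝ) ≤ p := by exact_mod_cast hpr.two_le
    have hp0 : (0 : ℝ) < p := by linarith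
    have hps2 : (p : ℝ) ^ σ ≤ 2 := by
      rcases eq_or_lt_of_le hpr.two_le with h | h
      · rw [← h]; push_cast
        calc (2 : ℝ) ^ σ ≤ (2 : ℝ) ^ (1 : ℝ) :=
              Real.rpow_le_rpow_of_exponent_le one_le_two (by linarith)
          _ = 2 := Real.rpow_one 2
      · have hl := (hM p h).2
        rw [Real.rpow_def_of_pos hp0, ← Real.le_log_iff_exp_le two_pos]
        have h1 : log (p : ℝ) * σ ≤ exp (u p + M) * exp (-F - M - 1) :=
          mul_le_mul_of_nonneg_right hl hσ0.le
        rw [← Real.exp_add] at h1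
        have h2 : exp (u p + M + (-F - M - 1)) ≤ exp (-1) := Real.exp_le_exp.2 (by linarith)
        have := Real.exp_neg_one_lt_d9
        have := Real.log_two_gt_d9
        linarith
    have hsq : (p : ℝ) ^ σ ≤ √(p : ℝ) := by
      rw [Real.sqrt_eq_rpow]; exact Real.rpow_le_rpow_of_exponent_le (by linarith) hσ1
    have hs1 : (0 : ℝ) < (p : ℝ) ^ σ := by positivity
    have hden : ((p : ℝ) - 1) / 2 ≤ (p : ℝ) - (p : ℝ) ^ σ := by
      have : √(p : ℝ) ≤ ((p : ℝ) + 1) / 2 := by
        rw [Real.sqrt_le_iff]; constructor <;> nlinarith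
      linarith
    have e : (1 - f p)⁻¹ = 1 + (p : ℝ) ^ σ / ((p : ℝ) - (p : ℝ) ^ σ) := by
      have h0 : (p : ℝ) - (p : ℝ) ^ σ ≠ 0 := by
        have : (0 : ℝ) < ((p : ℝ) - 1) / 2 := by linarith
        linarith
      rw [hf, Real.rpow_sub hp0, Real.rpow_one]
      field_simp
      ring
    rw [e, add_comm]
    refine le_trans ?_ (Real.add_one_le_exp _)
    have h4 : (p : ℝ) ^ σ / ((p : ℝ) - (p : ℝ) ^ σ) ≤ 2 / (((p : ℝ) - 1) / 2) :=
      div_le_div₀ two_pos.le hps2 (by linarith) hden
    rw [show (2 : ℝ) / (((p : ℝ) - 1) / 2) = 4 / ((p : ℝ) - 1) by field_simp; ring] at h4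
    linarith
  have h4 : ∏ p ∈ P with p.Prime, (1 - f p)⁻¹ ≤ exp (4 * F) := by
    refine (Finset.prod_le_prod (fun p hp => ?_) (fun p hp => h3 p (Finset.mem_filter.1 hp).1)).trans ?_
    · have := hlt p (Finset.mem_filter.1 hp).2
      exact inv_nonneg.2 (by linarith)
    rw [← Real.exp_sum]
    refine Real.exp_le_exp.2 ?_
    rw [Finset.filter_true_of_mem (fun p hp => ((hmemP p).1 hp).1)]
    rcases P.eq_empty_or_nonempty with h | h
    · rw [h, Finset.sum_empty]; positivity
    · obtain ⟨q, hq, hmax⟩ := P.exists_max_image id h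
      refine le_trans ?_ (mul_le_mul_of_nonneg_left ((hmemP q).1 hq).2 (by norm_num : (0:ℝ) ≤ 4))
      rw [u_def, Finset.mul_sum]
      refine (Finset.sum_le_sum (fun p _ => le_of_eq (mul_one_div 4 _).symm)).trans ?_
      refine Finset.sum_le_sum_of_subset_of_nonneg
        (fun p hp => mem_primesTo.2 ⟨hmax p hp, ((hmemP p).1 hp).1⟩) (fun p hp _ => ?_)
      have := sub_one_pos_of_prime (mem_primesTo.1 hp).2
      positivity
  calc ∑ m ∈ s, 1 / (m : ℝ) ≤ ∑ m ∈ s, exp (-(E * σ)) * f m := Finset.sum_le_sum h1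
    _ = exp (-(E * σ)) * ∑ m ∈ s, f m := (Finset.mul_sum _ _ _).symm
    _ ≤ exp (-(E * σ)) * exp (4 * F) :=
        mul_le_mul_of_nonneg_left (h2.trans h4) (exp_pos _).le
    _ = _ := by rw [← Real.exp_add]; congr 1; ring

/-- Huge smooth parts are negligible. -/
lemma count_sml (C : ℝ) {ε : ℝ} (hε : 0 < ε) :
    ∀ᶠ X : ℕ in atTop, ∀ s : Finset ℕ,
      (∀ n ∈ s, n ≠ 0 ∧ (n : ℝ) ≤ C * scale X * X ∧ SqfreeAbove (floorLevel (scale X)) n ∧
        exp (2 * floorLevel (scale X)) < log (smlPart (floorLevel (scale X)) n)) →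
      (s.card : ℝ) ≤ ε * ((X : ℝ) / log X) := by
  classical
  obtain ⟨D, hD0, hD⟩ := exists_log_le_exp_scale
  obtain ⟨M, hM0, hR⟩ := rankin_smooth
  have hT : ∀ᶠ T : ℝ in atTop, 1 ≤ T ∧ 0 ≤ floorLevel T ∧
      log (|C| + 1) + log T + (4 * floorLevel T - exp (floorLevel T - M - 1)) + T + D ≤ log ε := by
    set A := log (|C| + 1) + D - log ε
    filter_upwards [eventually_ge_atTop (max 1 |A|),
      eventually_log_poly_le_floor (max 64 (2 * M + 2))] with T hT hf
    have h1 := (le_max_left _ _).trans hT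
    have h2 := (le_max_right _ _).trans hT
    have hl := Real.log_nonneg h1
    have hm1 := le_max_left (64 : ℝ) (2 * M + 2)
    have hm2 := le_max_right (64 : ℝ) (2 * M + 2)
    have hF1 : 2 * M + 2 ≤ floorLevel T := by nlinarith [sq_nonneg (log T)]
    have hF2 : 64 * (1 + log T) ≤ floorLevel T := by nlinarith [sq_nonneg (log T)]
    refine ⟨h1, by nlinarith, ?_⟩
    set F := floorLevel T
    have he : exp (F / 2) ≤ exp (F - M - 1) := Real.exp_le_exp.2 (by linarith)
    have hlT : log T ≤ T := by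
      have := Real.log_le_sub_one_of_pos (show (0 : ℝ) < T by linarith); linarith
    have h3 : (F / 4 + 1) * (F / 4 + 1) ≤ exp (F / 2) := by
      rw [show F / 2 = F / 4 + F / 4 by ring, Real.exp_add]
      exact mul_le_mul (Real.add_one_le_exp _) (Real.add_one_le_exp _) (by linarith) (exp_pos _).le
    have h4 : T * T ≤ exp (F / 4) := by
      rw [← Real.exp_log (show (0:ℝ) < T by linarith), ← Real.exp_add, Real.exp_le_exp]
      linarith
    have h5 : exp (F / 4) * (F / 4 + 1) ≤ exp (F / 2) := by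
      rw [show F / 2 = F / 4 + F / 4 by ring, Real.exp_add]
      exact mul_le_mul_of_nonneg_left (Real.add_one_le_exp _) (exp_pos _).le
    have h6 : log (|C| + 1) + D - log ε ≤ T := le_trans (le_abs_self A) h2
    have h7 : 16 ≤ F / 4 + 1 := by linarith
    nlinarith
  filter_upwards [hD, eventually_scale hT, eventually_ge_atTop 3] with X hlX hT hX s hs
  obtain ⟨hT1, hF0, hE⟩ := hT
  set T := scale X
  set F := floorLevel T
  have hlog : 0 < log (X : ℝ) := Real.log_pos (by exact_mod_cast (show 1 < X by omega))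
  set N := ⌊C * T * (X : ℝ)⌋₊ with hN
  have hN' : (N : ℝ) ≤ (|C| + 1) * T * X := by
    rcases le_or_gt 0 (C * T * (X : ℝ)) with h | h
    · refine (Nat.floor_le h).trans ?_
      gcongr
      have := le_abs_self C; linarith
    · rw [hN, Nat.floor_of_nonpos h.le]
      simp; positivity
  set M' := s.image (smlPart F)
  have hcover : (s.card : ℝ) ≤ ∑ m ∈ M', (N : ℝ) * (1 / (m : ℝ)) := by
    rw [show (s.card : ℝ) = ∑ m ∈ M', ((s.filter (fun n => smlPart F n = m)).card : ℝ) by
      exact_mod_cast Finset.card_eq_sum_card_image (smlPart F) s]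
    refine Finset.sum_le_sum fun m _ => ?_
    rw [mul_one_div]
    refine card_multiples_le _ _ _ fun n hn => ?_
    obtain ⟨h1, h2⟩ := Finset.mem_filter.1 hn
    exact ⟨(hs n h1).1, Nat.le_floor (hs n h1).2.1,
      h2 ▸ ⟨(levs F n).prod, by rw [mul_comm, prod_levs_mul_sml]⟩⟩
  have hsum := hR F (exp (2 * F)) hF0 M' fun m hm => by
    obtain ⟨n, hn, rfl⟩ := Finset.mem_image.1 hm
    exact ⟨smlPart_smooth (hs n hn).1 (hs n hn).2.2.1, (hs n hn).2.2.2⟩
  rw [← Real.exp_add, show 2 * F + (-F - M - 1) = F - M - 1 by ring] at hsum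
  rw [← Finset.mul_sum] at hcover
  refine hcover.trans ((mul_le_mul hN' hsum (Finset.sum_nonneg fun m _ => by positivity)
    (by positivity)).trans ?_)
  have e : (|C| + 1) * T * X * exp (4 * F - exp (F - M - 1))
      = (X : ℝ) * exp (log (|C| + 1) + log T + (4 * F - exp (F - M - 1))) := by
    rw [Real.exp_add, Real.exp_add, Real.exp_log (by positivity), Real.exp_log (by linarith)]
    ring
  rw [e]
  exact exp_mul_le_div_log hε hlog hlX.2 hE

/-- The largest prime of a good preimage is large. -/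
lemma eventually_large_prime :
    ∀ᶠ X : ℕ in atTop, ∀ n : ℕ, n ≠ 0 →
      (X : ℝ) / log X ^ 2 < φ n →
      log (smlPart (floorLevel (scale X)) n) ≤ exp (2 * floorLevel (scale X)) →
      ((levs (floorLevel (scale X)) n).length : ℝ) ≤ 4 * scale X →
      ∃ p ps, levs (floorLevel (scale X)) n = p :: ps ∧ log X / (8 * scale X) ≤ log p := by
  obtain ⟨D, hD0, hD⟩ := exists_log_le_exp_scale
  have h1 : ∀ᶠ X : ℕ in atTop, log (log (X : ℝ)) ≤ log X / 16 := by
    refine (Real.tendsto_log_atTop.comp tendsto_natCast_atTop_atTop).eventually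
      (p := fun L : ℝ => log L ≤ L / 16) ?_
    filter_upwards [eventually_log_pow_le 1 (c := 1 / 16) (by norm_num) one_pos] with L hL
    simp at hL; linarith
  have h2 : ∀ᶠ T : ℝ in atTop, 2 * floorLevel T + D + log 8 ≤ T ∧ 1 ≤ T := by
    filter_upwards [eventually_log_pow_le 200 (c := 1 / 4) (by norm_num) one_pos,
      eventually_ge_atTop (max 1 (2 * (D + log 8)))] with T hT h
    rw [Real.rpow_one] at hT
    have h8 := (le_max_left _ _).trans h
    have h9 := (le_max_right _ _).trans h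
    exact ⟨by simp only [floorLevel]; linarith, h8⟩
  filter_upwards [hD, h1, eventually_scale h2, eventually_ge_atTop 3]
    with X hlX hll hT hX n hn hv hsm hlen
  obtain ⟨hF, hT1⟩ := hT
  set T := scale X
  set F := floorLevel T
  have hlog : 0 < log (X : ℝ) := Real.log_pos (by exact_mod_cast (show 1 < X by omega))
  have hnn : log (X : ℝ) - 2 * log (log X) ≤ log n := by
    have h3 : (X : ℝ) / log X ^ 2 ≤ (n : ℝ) := hv.le.trans (by exact_mod_cast Nat.totient_le n)
    have h4 := Real.log_le_log (by positivity) h3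
    rw [Real.log_div (by positivity) (by positivity), Real.log_pow] at h4
    push_cast at h4
    exact h4
  have hsml : exp (2 * F) ≤ log (X : ℝ) / 8 := by
    have : exp (2 * F) * 8 ≤ exp (T - D) := by
      rw [← Real.exp_log (show (0:ℝ) < 8 by norm_num), ← Real.exp_add]
      exact Real.exp_le_exp.2 (by linarith)
    linarith [hlX.1]
  have hsplit : log (n : ℝ)
      = log ((levs F n).prod : ℕ) + log (smlPart F n : ℕ) := by
    conv_lhs => rw [← prod_levs_mul_sml F n]
    rw [Nat.cast_mul, Real.log_mul]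
    · have := (List.prod_pos (fun a (ha : a ∈ levs F n) => (mem_levs.1 ha).1.pos))
      positivity
    · exact_mod_cast smlPart_ne_zero hn
  rcases hl : levs F n with _ | ⟨p, ps⟩
  · exfalso
    rw [hl] at hsplit
    simp at hsplit
    linarith
  refine ⟨p, ps, rfl, ?_⟩
  have hp : p.Prime := (mem_levs.1 (hl ▸ List.mem_cons_self : p ∈ levs F n)).1
  have hmax : ∀ a ∈ levs F n, a ≤ p := by
    intro a ha
    rw [hl] at ha
    rcases List.mem_cons.1 ha with rfl | ha
    · exact le_rfl
    · have := levs_pairwise F n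
      rw [hl] at this
      exact ((List.pairwise_cons.1 this).1 a ha).le
  have hprod : log ((levs F n).prod : ℕ) ≤ 4 * T * log p := by
    have h5 : (levs F n).prod ≤ p ^ (levs F n).length :=
      List.prod_le_pow_card _ _ hmax
    have h6 := Real.log_le_log (by
        have := (List.prod_pos (fun a (ha : a ∈ levs F n) => (mem_levs.1 ha).1.pos))
        exact_mod_cast this) (by exact_mod_cast h5 : ((levs F n).prod : ℝ) ≤ (p : ℝ) ^ (levs F n).length)
    rw [Real.log_pow] at h6
    exact h6.trans (mul_le_mul_of_nonneg_right hlen (Real.log_natCast_nonneg p))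
  rw [div_le_iff₀ (by positivity)]
  linarith

end Vale.Agent.P031
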