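import Vale.Agent.P031.ExceptV

/-!
P031: values whose largest prime is not normal.
-/

open Finset Real Filter
open scoped Nat Topology

namespace Vale.Agent.P031

/-- Values `(p-1)m` with `p` large and not normal. -/
lemma count_top_not_normal (hNC : NormalCountStatement) (hZ : CrudeTotientStatement) (B : ℕ)
    {ε : ℝ} (hε : 0 < ε) :
    ∀ᶠ X : ℕ in atTop, ∀ s : Finset ℕ,
      (∀ v ∈ s, 1 ≤ v ∧ v ≤ B * X ∧ ∃ n, φ n = v ∧ n ≠ 0 ∧ n ≤ X ^ 3 ∧
        SqfreeAbove (floorLevel (scale X)) n ∧
        ∃ (p : ℕ) (ps : List ℕ), levs (floorLevel (scale X)) n = p :: ps ∧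
          log X / (8 * scale X) ≤ log p ∧ ¬ Normal p) →
      (s.card : ℝ) ≤ ε * ((X : ℝ) / log X) := by
  classical
  obtain ⟨Cz, hCz, hsum⟩ := totient_sum_le hZ
  obtain ⟨Y₀, hY₀⟩ := hNC
  obtain ⟨D, hD0, hD⟩ := exists_log_le_exp_scale
  have hT : ∀ᶠ T : ℝ in atTop, 1 ≤ T ∧ 2 * log T ≤ T / 2 ∧
      log ((Y₀ : ℝ) + 2) < exp (T - D) / (8 * T) ∧
      log (2 * ((B : ℝ) + 1)) + (-T + 2 * log T - (T / 2) ^ (1 / 10 : ℝ) + Cz * log T ^ 2) + T + D
        ≤ log ε := by
    set A := log (2 * ((B : ℝ) + 1)) + D - log ε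
    filter_upwards [eventually_ge_atTop 1,
      eventually_log_poly_le (2 * max 2 (max Cz |A|)) (r := 1 / 10) (by norm_num),
      eventually_log_pow_le 1 (c := 1 / 4) (by norm_num) one_pos,
      (Real.tendsto_exp_div_pow_atTop 1).eventually_gt_atTop (8 * log ((Y₀ : ℝ) + 2) * exp D)]
      with T hT h1 h2 h3
    have hl := Real.log_nonneg hT
    have b1 := le_max_left (2 : ℝ) (max Cz |A|)
    have b2 := (le_max_left Cz |A|).trans (le_max_right (2 : ℝ) _)
    have b3 := (le_max_right Cz |A|).trans (le_max_right (2 : ℝ) _)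
    have b4 := le_abs_self A
    rw [pow_one, Real.rpow_one] at h2
    refine ⟨hT, by linarith, ?_, ?_⟩
    · rw [pow_one, lt_div_iff₀ (by linarith)] at h3
      rw [Real.exp_sub, div_div, lt_div_iff₀ (by positivity)]
      linarith
    · have h4 : T ^ (1 / 10 : ℝ) / 2 ≤ (T / 2) ^ (1 / 10 : ℝ) := by
        rw [Real.div_rpow (by linarith) two_pos.le]
        refine div_le_div_of_nonneg_left (by positivity) (by positivity) ?_
        calc (2 : ℝ) ^ (1 / 10 : ℝ) ≤ (2 : ℝ) ^ (1 : ℝ) :=
              Real.rpow_le_rpow_of_exponent_le one_le_two (by norm_num)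
          _ = 2 := Real.rpow_one 2
      simp only [A] at b3 b4
      nlinarith [sq_nonneg (log T)]
  filter_upwards [hsum, hD, eventually_scale hT, eventually_u_ge, eventually_ge_atTop 3]
    with X hsum hlX hT hug hX s hs
  obtain ⟨hT1, hT2, hbig, hE⟩ := hT
  choose! n hn hn0 hnX hsq p ps hl hlp hpn using fun v hv => (hs v hv).2.2
  set T := scale X
  set F := floorLevel T
  set d : ℕ → ℕ := fun v => φ ((ps v).prod * smlPart F (n v)) with hd
  have key : ∀ v ∈ s, (ps v).prod * smlPart F (n v) ∣ n v ∧ (p v - 1) * d v = v := by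
    intro v hv
    have hsub : (ps v).Sublist (levs F (n v)) := by rw [hl v hv]; exact List.sublist_cons_self _ _
    obtain ⟨h1, h2⟩ := totient_sublist (hn0 v hv) (hsq v hv) hsub
    refine ⟨h2, ?_⟩
    conv_rhs => rw [← hn v hv, totient_eq_pval (hn0 v hv) (hsq v hv), hl v hv, pval_cons]
    simp only [hd, h1]
    ring
  have hpp : ∀ v ∈ s, (p v).Prime := fun v hv =>
    (mem_levs.1 (hl v hv ▸ List.mem_cons_self : p v ∈ levs F (n v))).1
  set M := s.image d
  set P : ℕ → Finset ℕ := fun m => (s.filter (fun v => d v = m)).image p with hP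
  have hcover : s ⊆ M.biUnion (fun m => (P m).image (fun q => (q - 1) * m)) := fun v hv =>
    Finset.mem_biUnion.2 ⟨d v, Finset.mem_image_of_mem _ hv, Finset.mem_image.2
      ⟨p v, Finset.mem_image.2 ⟨v, Finset.mem_filter.2 ⟨hv, rfl⟩, rfl⟩, (key v hv).2⟩⟩
  have h1 := (Finset.card_le_card hcover).trans Finset.card_biUnion_le
  refine (show (s.card : ℝ) ≤ ∑ m ∈ M, (((P m).image (fun q => (q - 1) * m)).card : ℝ) by
    exact_mod_cast h1).trans ?_
  set E := exp (-T + 2 * log T - (T / 2) ^ (1 / 10 : ℝ)) with hE'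
  calc ∑ m ∈ M, (((P m).image (fun q => (q - 1) * m)).card : ℝ)
      ≤ ∑ m ∈ M, 2 * ((B : ℝ) + 1) * X * E * (1 / (m : ℝ)) := by
        refine Finset.sum_le_sum fun m hm => (Nat.cast_le.2 Finset.card_image_le).trans ?_
        obtain ⟨v, hv, hdv⟩ := Finset.mem_image.1 hm
        have hk := (key v hv).2
        rw [hdv] at hk
        have hm0 : 0 < m := Nat.pos_of_ne_zero fun h => by
          rw [h, mul_zero] at hk; have := (hs v hv).1; omega
        set Z := B * X / m + 1 with hZdef
        have hle : ∀ w ∈ s, d w = m → p w ≤ Z := fun w hw hdw => by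
          have h2 := (key w hw).2
          rw [hdw] at h2
          have h3 : (p w - 1) * m ≤ B * X := le_of_eq_of_le h2 (hs w hw).2.1
          have := (Nat.le_div_iff_mul_le hm0).2 h3
          omega
        have hpv : p v ≤ Z := hle v hv hdv
        have hZY : Y₀ ≤ Z := by
          have h2 : log ((Y₀ : ℝ) + 2) < log (p v : ℝ) := by
            refine lt_of_lt_of_le hbig (le_trans ?_ (hlp v hv))
            exact div_le_div_of_nonneg_right hlX.1 (by linarith)
          have h3 := (Real.log_lt_log_iff (by positivity) (by exact_mod_cast (hpp v hv).pos)).1 h2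
          have h4 : (Y₀ : ℝ) ≤ (p v : ℝ) := by linarith
          have : Y₀ ≤ p v := by exact_mod_cast h4
          omega
        have huZ : T - 2 * log T ≤ u Z := (hug (p v) (hlp v hv)).trans (u_mono hpv)
        refine (hY₀ Z hZY (P m) fun q hq => ?_).trans ?_
        · obtain ⟨w, hw, rfl⟩ := Finset.mem_image.1 hq
          obtain ⟨hw, hdw⟩ := Finset.mem_filter.1 hw
          exact ⟨hpp w hw, hle w hw hdw, hpn w hw⟩
        have hexp : exp (-u Z - (u Z) ^ (1 / 10 : ℝ)) ≤ E := by
          refine Real.exp_le_exp.2 ?_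
          have : (T / 2) ^ (1 / 10 : ℝ) ≤ (u Z) ^ (1 / 10 : ℝ) :=
            Real.rpow_le_rpow (by linarith) (by linarith) (by norm_num)
          linarith
        have hZle : (Z : ℝ) ≤ 2 * ((B : ℝ) + 1) * X * (1 / (m : ℝ)) := by
          have h2 : 1 ≤ B * X / m := by
            have := (hpp v hv).two_le
            omega
          have h3 : ((B * X / m : ℕ) : ℝ) ≤ ((B : ℝ) + 1) * X / m := by
            refine Nat.cast_div_le.trans ?_
            push_cast
            exact div_le_div_of_nonneg_right (by nlinarith [show (0:ℝ) ≤ X from Nat.cast_nonneg X])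
              (Nat.cast_nonneg m)
          have h4 : (Z : ℝ) ≤ 2 * ((B * X / m : ℕ) : ℝ) := by
            exact_mod_cast (show Z ≤ 2 * (B * X / m) by omega)
          rw [mul_one_div, mul_assoc, mul_div_assoc]
          linarith
        calc (Z : ℝ) * exp (-u Z - (u Z) ^ (1 / 10 : ℝ))
            ≤ (2 * ((B : ℝ) + 1) * X * (1 / (m : ℝ))) * E :=
              mul_le_mul hZle hexp (exp_pos _).le (by positivity)
          _ = _ := by ring
    _ ≤ 2 * ((B : ℝ) + 1) * X * E * exp (Cz * log T ^ 2) := by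
        rw [← Finset.mul_sum]
        refine mul_le_mul_of_nonneg_left (hsum M fun b hb => ?_) (by positivity)
        obtain ⟨v, hv, rfl⟩ := Finset.mem_image.1 hb
        refine ⟨_, fun h0 => hn0 v hv (zero_dvd_iff.1 (h0 ▸ (key v hv).1)), ?_, rfl⟩
        exact (Nat.le_of_dvd (Nat.pos_of_ne_zero (hn0 v hv)) (key v hv).1).trans (hnX v hv)
    _ = (X : ℝ) * exp (log (2 * ((B : ℝ) + 1))
          + (-T + 2 * log T - (T / 2) ^ (1 / 10 : ℝ) + Cz * log T ^ 2)) := by
        rw [Real.exp_add, Real.exp_add, Real.exp_log (by positivity), hE']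
        ring
    _ ≤ ε * ((X : ℝ) / log X) :=
        exp_mul_le_div_log hε (Real.log_pos (by exact_mod_cast (show 1 < X by omega))) hlX.2 hE

end Vale.Agent.P031
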