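import Vale.Agent.P031.ExceptS

/-!
P031: exceptional values coming from non-normal levels and anatomy failures; the combined bound.
-/

open Finset Real Filter
open scoped Nat Topology

namespace Vale.Agent.P031

/-- A preimage is good if it is nice and its largest prime is large. -/
def GoodPre (X n : ℕ) : Prop :=
  Nice (scale X) n ∧ ∃ (p : ℕ) (ps : List ℕ), levs (floorLevel (scale X)) n = p :: ps ∧
    log X / (8 * scale X) ≤ log p

lemma totient_sublist {F : ℝ} {n : ℕ} (hn : n ≠ 0) (hsq : SqfreeAbove F n) {l : List ℕ}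
    (hl : l.Sublist (levs F n)) :
    φ (l.prod * smlPart F n) = pval l * φ (smlPart F n) ∧ l.prod * smlPart F n ∣ n := by
  refine ⟨totient_prod_primes_mul _ _ (fun q hq => (mem_levs.1 (hl.subset hq)).1)
    (((levs_pairwise F n).imp fun {a b} h => (ne_of_lt h).symm).sublist hl)
    (fun q hq => sml_not_dvd hn hsq (hl.subset hq)), ?_⟩
  have h := mul_dvd_mul_right hl.prod_dvd_prod (smlPart F n)
  rwa [prod_levs_mul_sml] at h

lemma totient_sublist_prod {F : ℝ} {n : ℕ} {l : List ℕ}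
    (hl : l.Sublist (levs F n)) :
    φ l.prod = pval l ∧ l.prod ∣ n := by
  refine ⟨?_, (hl.prod_dvd_prod).trans (levs_prod_dvd F n)⟩
  have := totient_prod_primes_mul l 1 (fun q hq => (mem_levs.1 (hl.subset hq)).1)
    (((levs_pairwise F n).imp fun {a b} h => (ne_of_lt h).symm).sublist hl)
    (fun q hq h => by
      have := (mem_levs.1 (hl.subset hq)).1
      exact this.ne_one (Nat.dvd_one.1 h))
  simpa using this

lemma sum_inv_le_of_factor (M A B : Finset ℕ) (h : ∀ m ∈ M, ∃ a ∈ A, ∃ b ∈ B, a * b = m) :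
    ∑ m ∈ M, 1 / (m : ℝ) ≤ (∑ a ∈ A, 1 / (a : ℝ)) * ∑ b ∈ B, 1 / (b : ℝ) := by
  have hsub : M ⊆ (A ×ˢ B).image (fun x => x.1 * x.2) := fun m hm => by
    obtain ⟨a, ha, b, hb, rfl⟩ := h m hm
    exact Finset.mem_image.2 ⟨(a, b), Finset.mem_product.2 ⟨ha, hb⟩, rfl⟩
  refine (Finset.sum_le_sum_of_subset_of_nonneg hsub fun i _ _ => by positivity).trans ?_
  refine (Finset.sum_image_le_of_nonneg fun i _ => by positivity).trans (le_of_eq ?_)
  rw [Finset.sum_mul_sum, ← Finset.sum_product']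
  refine Finset.sum_congr rfl fun x _ => ?_
  push_cast
  rw [one_div_mul_one_div]

lemma primeCounting_le :
    ∃ C : ℝ, 0 < C ∧ ∀ n : ℕ, 2 ≤ n → (Nat.primeCounting n : ℝ) ≤ C * n / log n := by
  refine ⟨2 * log 4 + 2, by positivity, fun n hn => ?_⟩
  have hn1 : (1 : ℝ) < n := by exact_mod_cast hn
  have hl : 0 < log (n : ℝ) := Real.log_pos hn1
  have h := Chebyshev.pi_le_log4_mul_div hn1
  rw [Nat.floor_natCast, Real.log_sqrt (by linarith)] at h
  refine h.trans ?_
  have h2 : log (n : ℝ) ≤ 2 * √(n : ℝ) := by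
    have := Real.log_le_rpow_div (show (0:ℝ) ≤ n by linarith) (show (0 : ℝ) < 1 / 2 by norm_num)
    rw [← Real.sqrt_eq_rpow] at this
    linarith
  have h3 : √(n : ℝ) ≤ 2 * n / log n := by
    rw [le_div_iff₀ hl]
    nlinarith [Real.mul_self_sqrt (show (0 : ℝ) ≤ n by linarith), Real.sqrt_nonneg (n : ℝ)]
  have e : log 4 * (n : ℝ) / (log n / 2) = 2 * log 4 * n / log n := by field_simp
  rw [e]
  rw [add_mul, add_div]
  linarith

/-- Values `(p-1)m` with `p` large. -/
lemma largePrime_count (B : ℕ) :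
    ∃ C : ℝ, 0 < C ∧ ∀ᶠ X : ℕ in atTop, ∀ (M s : Finset ℕ),
      (∀ v ∈ s, 1 ≤ v ∧ v ≤ B * X ∧ ∃ p m : ℕ, m ∈ M ∧ p.Prime ∧
        log X / (8 * scale X) ≤ log p ∧ (p - 1) * m = v) →
      (s.card : ℝ) ≤ C * scale X * ((X : ℝ) / log X) * ∑ m ∈ M, 1 / (m : ℝ) := by
  classical
  obtain ⟨C, hC, hpi⟩ := primeCounting_le
  refine ⟨C * 16 * (B + 1), by positivity, ?_⟩
  filter_upwards [eventually_ge_atTop 3, eventually_scale (eventually_gt_atTop (0 : ℝ))]
    with X hX hT M s hs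
  set T := scale X
  have hlog : 0 < log (X : ℝ) := Real.log_pos (by exact_mod_cast (show 1 < X by omega))
  set P : ℕ → Finset ℕ := fun m => (primesTo (B * X / m + 1)).filter
    (fun p => log X / (8 * T) ≤ log p ∧ 1 ≤ (p - 1) * m ∧ (p - 1) * m ≤ B * X) with hP
  have hcover : s ⊆ M.biUnion (fun m => (P m).image (fun p => (p - 1) * m)) := by
    intro v hv
    obtain ⟨hv1, hvY, p, m, hm, hp, hlp, rfl⟩ := hs v hv
    refine Finset.mem_biUnion.2 ⟨m, hm, Finset.mem_image.2 ⟨p, Finset.mem_filter.2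
      ⟨mem_primesTo.2 ⟨?_, hp⟩, hlp, hv1, hvY⟩, rfl⟩⟩
    have hm0 : 0 < m := Nat.pos_of_ne_zero fun h => by subst h; simp at hv1
    have := (Nat.le_div_iff_mul_le hm0).2 hvY
    omega
  have h1 := (Finset.card_le_card hcover).trans Finset.card_biUnion_le
  refine (show (s.card : ℝ) ≤ ∑ m ∈ M, (((P m).image (fun p => (p - 1) * m)).card : ℝ) by
    exact_mod_cast h1).trans ?_
  rw [Finset.mul_sum]
  refine Finset.sum_le_sum fun m _ => ?_
  refine (Nat.cast_le.2 Finset.card_image_le).trans ?_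
  rcases (P m).eq_empty_or_nonempty with he | ⟨p, hp⟩
  · rw [he]; simp; positivity
  obtain ⟨hpZ, hlp, hv1, hvY⟩ := Finset.mem_filter.1 hp
  obtain ⟨hpZ, hpp⟩ := mem_primesTo.1 hpZ
  have hm0 : 0 < m := Nat.pos_of_ne_zero fun h => by subst h; simp at hv1
  set Z := B * X / m + 1
  have hcard : ((P m).card : ℝ) ≤ (Nat.primeCounting Z : ℝ) := by
    have : (P m).card ≤ (primesTo Z).card := Finset.card_filter_le _ _
    refine (Nat.cast_le.2 this).trans (le_of_eq ?_)
    rw [primesTo, Nat.primeCounting, Nat.primeCounting', Nat.count_eq_card_filter_range]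
  have hZ2 : 2 ≤ Z := hpp.two_le.trans hpZ
  refine hcard.trans ((hpi Z hZ2).trans ?_)
  have hlZ : log X / (8 * T) ≤ log (Z : ℝ) :=
    hlp.trans (Real.log_le_log (by exact_mod_cast hpp.pos) (by exact_mod_cast hpZ))
  have hpos : 0 < log (X : ℝ) / (8 * T) := by positivity
  have hZle : (Z : ℝ) ≤ 2 * ((B + 1) * X / m) := by
    have h2 : 1 ≤ B * X / m := by
      have := (Nat.le_div_iff_mul_le hm0).2 hvY
      have := hpp.two_le
      omega
    have h3 : ((B * X / m : ℕ) : ℝ) ≤ ((B : ℝ) + 1) * X / m := by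
      refine Nat.cast_div_le.trans ?_
      push_cast
      exact div_le_div_of_nonneg_right (by nlinarith [show (0:ℝ) ≤ X from Nat.cast_nonneg X])
        (Nat.cast_nonneg m)
    have h4 : (Z : ℝ) ≤ 2 * ((B * X / m : ℕ) : ℝ) := by
      exact_mod_cast (show Z ≤ 2 * (B * X / m) by omega)
    linarith
  calc C * (Z : ℝ) / log Z ≤ C * (2 * ((B + 1) * X / m)) / (log X / (8 * T)) :=
        div_le_div₀ (by positivity) (mul_le_mul_of_nonneg_left hZle hC.le) hpos hlZ
    _ = C * 16 * (B + 1) * T * ((X : ℝ) / log X) * (1 / (m : ℝ)) := by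
        field_simp; ring

lemma eventually_floor_rpow (D : ℝ) {r : ℝ} (hr : 3 / 200 ≤ r) :
    ∀ᶠ T : ℝ in atTop, D * (1 + log T + log T ^ 2) ≤ floorLevel T ^ r := by
  filter_upwards [Real.tendsto_log_atTop.eventually_ge_atTop (max 1 (3 * |D|))] with T hl
  have h1 := (le_max_left _ _).trans hl
  have h2 := (le_max_right _ _).trans hl
  have h4 : D * (1 + log T + log T ^ 2) ≤ |D| * (3 * log T ^ 2) := by
    refine mul_le_mul (le_abs_self D) (by nlinarith) (by nlinarith) (abs_nonneg D)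
  have h5 : |D| * (3 * log T ^ 2) ≤ log T ^ 3 := by
    rw [pow_succ _ 2]; nlinarith [sq_nonneg (log T)]
  refine h4.trans (h5.trans ?_)
  rw [floorLevel, ← Real.rpow_natCast, ← Real.rpow_natCast (log T) 200,
    ← Real.rpow_mul (by linarith)]
  exact Real.rpow_le_rpow_of_exponent_le h1 (by push_cast; linarith)

lemma log_sq_bound :
    ∀ᶠ T : ℝ in atTop, log (T + √T + 3) ^ 2 ≤ 4 * log T ^ 2 ∧ 1 ≤ T ∧ √T ≤ T ∧ 0 ≤ log T := by
  filter_upwards [eventually_ge_atTop 3] with T hT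
  have h1 : √T ≤ T := by rw [Real.sqrt_le_iff]; constructor <;> nlinarith
  have h0 := Real.sqrt_nonneg T
  have h2 : log (T + √T + 3) ≤ 2 * log T := by
    rw [two_mul, ← Real.log_mul (by linarith) (by linarith)]
    exact Real.log_le_log (by linarith) (by nlinarith)
  have h3 : 0 ≤ log (T + √T + 3) := Real.log_nonneg (by linarith)
  exact ⟨by nlinarith, by linarith, h1, Real.log_nonneg (by linarith)⟩

/-- The totient sum over preimages up to `X ^ 3`. -/
lemma totient_sum_le (hZ : CrudeTotientStatement) :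
    ∃ C : ℝ, 0 ≤ C ∧ ∀ᶠ X : ℕ in atTop, ∀ D : Finset ℕ,
      (∀ d ∈ D, ∃ n, n ≠ 0 ∧ n ≤ X ^ 3 ∧ φ n = d) →
      ∑ d ∈ D, 1 / (d : ℝ) ≤ exp (C * log (scale X) ^ 2) := by
  obtain ⟨C, hC⟩ := hZ
  refine ⟨4 * |C|, by positivity, ?_⟩
  filter_upwards [eventually_u_le_pow 3, eventually_scale log_sq_bound] with X hu hT D hD
  obtain ⟨hlog, hT1, -, -⟩ := hT
  have h0 := Real.sqrt_nonneg (scale X)
  refine (hC (scale X + √(scale X)) (by linarith) D fun d hd => ?_).trans (Real.exp_le_exp.2 ?_)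
  · obtain ⟨n, hn0, hn, hφ⟩ := hD d hd
    exact ⟨n, (smooth_of_le hn0 hn).mono (hu _ le_rfl), hφ⟩
  · calc C * log (scale X + √(scale X) + 3) ^ 2 ≤ |C| * log (scale X + √(scale X) + 3) ^ 2 :=
          mul_le_mul_of_nonneg_right (le_abs_self C) (sq_nonneg _)
      _ ≤ |C| * (4 * log (scale X) ^ 2) := mul_le_mul_of_nonneg_left hlog (abs_nonneg C)
      _ = _ := by ring

/-- Non-normal lower levels are negligible. -/
lemma count_lower_not_normal (hNL : NormalLogStatement) (hZ : CrudeTotientStatement) (B : ℕ)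
    {ε : ℝ} (hε : 0 < ε) :
    ∀ᶠ X : ℕ in atTop, ∀ s : Finset ℕ,
      (∀ v ∈ s, 1 ≤ v ∧ v ≤ B * X ∧ ∃ n, φ n = v ∧ n ≠ 0 ∧ n ≤ X ^ 3 ∧
        SqfreeAbove (floorLevel (scale X)) n ∧
        ∃ (p : ℕ) (ps : List ℕ), levs (floorLevel (scale X)) n = p :: ps ∧ log X / (8 * scale X) ≤ log p ∧
          ∃ q ∈ ps, ¬ Normal q) →
      (s.card : ℝ) ≤ ε * ((X : ℝ) / log X) := by
  classical
  obtain ⟨C, hC, hcount⟩ := largePrime_count B
  obtain ⟨Cz, hCz, hsum⟩ := totient_sum_le hZ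
  obtain ⟨t₀, ht₀⟩ := hNL
  have hT : ∀ᶠ T : ℝ in atTop, 1 ≤ T ∧ t₀ ≤ floorLevel T ∧
      log C + log T + (Cz * log T ^ 2 - floorLevel T ^ (1 / 12 : ℝ)) ≤ log ε := by
    filter_upwards [eventually_ge_atTop 1, eventually_log_poly_le_floor (max t₀ 0),
      eventually_floor_rpow (max 1 (max Cz (log C - log ε))) (r := 1 / 12) (by norm_num)]
      with T hT h1 h2
    have hl := Real.log_nonneg hT
    have a1 := le_max_left t₀ 0
    have a2 := le_max_right t₀ 0
    have b1 := le_max_left (1 : ℝ) (max Cz (log C - log ε))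
    have b2 := (le_max_left Cz (log C - log ε)).trans (le_max_right (1 : ℝ) _)
    have b3 := (le_max_right Cz (log C - log ε)).trans (le_max_right (1 : ℝ) _)
    exact ⟨hT, by nlinarith [sq_nonneg (log T)], by nlinarith [sq_nonneg (log T)]⟩
  filter_upwards [hcount, hsum, eventually_scale hT] with X hcount hsum hT s hs
  obtain ⟨hT1, hF, hE⟩ := hT
  choose! n hn hn0 hnX hsq p ps hl hlp q hq hqn using fun v hv => (hs v hv).2.2
  set F := floorLevel (scale X)
  set d : ℕ → ℕ := fun v => φ (((ps v).erase (q v)).prod * smlPart F (n v)) with hd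
  have key : ∀ v ∈ s, ((ps v).erase (q v)).prod * smlPart F (n v) ∣ n v ∧
      (p v - 1) * ((q v - 1) * d v) = v := by
    intro v hv
    have hsub : ((ps v).erase (q v)).Sublist (levs F (n v)) := by
      rw [hl v hv]; exact List.erase_sublist.trans (List.sublist_cons_self _ _)
    obtain ⟨h1, h2⟩ := totient_sublist (hn0 v hv) (hsq v hv) hsub
    refine ⟨h2, ?_⟩
    have h3 : pval (ps v) = (q v - 1) * pval ((ps v).erase (q v)) := by
      rw [← pval_cons]
      exact List.Perm.prod_eq ((List.perm_cons_erase (hq v hv)).map _)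
    conv_rhs => rw [← hn v hv, totient_eq_pval (hn0 v hv) (hsq v hv), hl v hv, pval_cons, h3]
    simp only [hd, h1]
    ring
  set M := s.image (fun v => (q v - 1) * d v)
  have h := hcount M s fun v hv => ⟨(hs v hv).1, (hs v hv).2.1, p v, _,
    Finset.mem_image_of_mem _ hv,
    (mem_levs.1 (hl v hv ▸ List.mem_cons_self : p v ∈ levs F (n v))).1, hlp v hv, (key v hv).2⟩
  refine h.trans ?_
  have hM := sum_inv_le_of_factor M (s.image (fun v => q v - 1)) (s.image d) fun m hm => by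
    obtain ⟨v, hv, rfl⟩ := Finset.mem_image.1 hm
    exact ⟨_, Finset.mem_image_of_mem _ hv, _, Finset.mem_image_of_mem _ hv, rfl⟩
  have hqs : ∀ v ∈ s, q v ∈ levs F (n v) := fun v hv => by
    rw [hl v hv]; exact List.mem_cons_of_mem _ (hq v hv)
  have hQ : ∑ a ∈ s.image (fun v => q v - 1), 1 / (a : ℝ) ≤ exp (-F ^ (1 / 12 : ℝ)) := by
    refine le_trans ?_ (ht₀ F hF (s.image q) fun a ha => by
      obtain ⟨v, hv, rfl⟩ := Finset.mem_image.1 ha
      exact ⟨(mem_levs.1 (hqs v hv)).1, (mem_levs.1 (hqs v hv)).2.2.2.le, hqn v hv⟩)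
    rw [show s.image (fun v => q v - 1) = (s.image q).image (fun a => a - 1) by
      rw [Finset.image_image]; rfl]
    refine (Finset.sum_image_le_of_nonneg fun i _ => by positivity).trans (le_of_eq ?_)
    refine Finset.sum_congr rfl fun a ha => ?_
    obtain ⟨v, hv, rfl⟩ := Finset.mem_image.1 ha
    rw [Nat.cast_sub (mem_levs.1 (hqs v hv)).1.one_le, Nat.cast_one]
  have hDs : ∑ b ∈ s.image d, 1 / (b : ℝ) ≤ exp (Cz * log (scale X) ^ 2) := by
    refine hsum _ fun b hb => ?_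
    obtain ⟨v, hv, rfl⟩ := Finset.mem_image.1 hb
    refine ⟨_, fun h0 => hn0 v hv (zero_dvd_iff.1 (h0 ▸ (key v hv).1)), ?_, rfl⟩
    exact (Nat.le_of_dvd (Nat.pos_of_ne_zero (hn0 v hv)) (key v hv).1).trans (hnX v hv)
  have hlog : 0 ≤ (X : ℝ) / log X := div_nonneg (Nat.cast_nonneg _) (Real.log_natCast_nonneg _)
  have hprod : C * scale X * ∑ m ∈ M, 1 / (m : ℝ) ≤ ε := by
    calc C * scale X * ∑ m ∈ M, 1 / (m : ℝ)
        ≤ C * scale X * (exp (-F ^ (1 / 12 : ℝ)) * exp (Cz * log (scale X) ^ 2)) := by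
          refine mul_le_mul_of_nonneg_left (hM.trans (mul_le_mul hQ hDs
            (Finset.sum_nonneg fun i _ => by positivity) (exp_pos _).le)) (by positivity)
      _ ≤ ε := by
          rw [← Real.exp_log hC, ← Real.exp_log (show 0 < scale X by linarith), ← Real.exp_add,
            ← Real.exp_add, ← Real.exp_add, ← Real.le_log_iff_exp_le hε]
          simp only [Real.log_exp]
          linarith
  calc C * scale X * ((X : ℝ) / log X) * ∑ m ∈ M, 1 / (m : ℝ)
      = (C * scale X * ∑ m ∈ M, 1 / (m : ℝ)) * ((X : ℝ) / log X) := by ring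
    _ ≤ ε * ((X : ℝ) / log X) := mul_le_mul_of_nonneg_right hprod hlog

end Vale.Agent.P031
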