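import Vale.Agent.P031.Regions

/-!
P031: the items (tuple of high levels, totient of the tail) and comparison of their masses.
-/

open Finset Real Filter MeasureTheory
open scoped Nat Topology ENNReal

namespace Vale.Agent.P031

/-- The level vector of a tuple. -/
noncomputable def tval {L : ℕ} (q : Fin L → ℕ) : Fin L → ℝ := fun k => u (q k)

/-- Items whose box lies in the relaxed region. -/
def UpperItem (T : ℝ) (L : ℕ) (x : (Fin L → ℕ) × ℕ) : Prop :=
  (∀ k, (x.1 k).Prime) ∧ ∃ r, TailOK T r ∧ φ r = x.2 ∧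
    box x.1 ⊆ {y | Reg L T (levs (floorLevel T) r) (tailLevel T - 1) (2 * eta T) y}

/-- Items whose level vector lies in the strict region. -/
def BodyItem (T : ℝ) (L : ℕ) (x : (Fin L → ℕ) × ℕ) : Prop :=
  (∀ k, (x.1 k).Prime) ∧ ∃ r, TailOK T r ∧ φ r = x.2 ∧
    Reg L T (levs (floorLevel T) r) ((1 + 4 * eta T) * tailLevel T) (-(3 * eta T)) (tval x.1)

/-- All candidate items. -/
def allItems (X L : ℕ) : Finset ((Fin L → ℕ) × ℕ) :=
  Fintype.piFinset (fun _ : Fin L => primesTo (X ^ 3)) ×ˢ Finset.Icc 1 (X ^ 3)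

open Classical in
/-- The upper items. -/
noncomputable def upperSet (X L : ℕ) : Finset ((Fin L → ℕ) × ℕ) :=
  (allItems X L).filter (fun x => UpperItem (scale X) L x)

open Classical in
/-- The body items. -/
noncomputable def bodySet (X L : ℕ) : Finset ((Fin L → ℕ) × ℕ) :=
  (allItems X L).filter (fun x => BodyItem (scale X) L x)

open Classical in
/-- The core items: body items with normal primes. -/
noncomputable def coreSet (X L : ℕ) : Finset ((Fin L → ℕ) × ℕ) :=
  (bodySet X L).filter (fun x => ∀ k, Normal (x.1 k))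

/-- The value of an item. -/
def itemVal {L : ℕ} (x : (Fin L → ℕ) × ℕ) : ℕ := (∏ k, (x.1 k - 1)) * x.2

/-- The mass of a set of items. -/
noncomputable def mass {L : ℕ} (s : Finset ((Fin L → ℕ) × ℕ)) : ℝ :=
  ∑ x ∈ s, wgt x.1 / (x.2 : ℝ)

/-- The range of numbers of high levels. -/
noncomputable def levRange (X : ℕ) : Finset ℕ := Finset.range (maxLen (scale X) + 1)

/-- The total core mass. -/
noncomputable def coreMass (X : ℕ) : ℝ := ∑ L ∈ levRange X, mass (coreSet X L)

lemma mem_allItems {X L : ℕ} {x : (Fin L → ℕ) × ℕ} :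
    x ∈ allItems X L ↔ (∀ k, x.1 k ≤ X ^ 3 ∧ (x.1 k).Prime) ∧ 1 ≤ x.2 ∧ x.2 ≤ X ^ 3 := by
  simp [allItems, Fintype.mem_piFinset, mem_primesTo]

lemma allItems_prime {X L : ℕ} {x : (Fin L → ℕ) × ℕ} (h : x ∈ allItems X L) :
    ∀ k, (x.1 k).Prime := fun k => ((mem_allItems.1 h).1 k).2

lemma one_div_itemVal {L : ℕ} (x : (Fin L → ℕ) × ℕ) (hp : ∀ k, (x.1 k).Prime) :
    1 / (itemVal x : ℝ) = wgt x.1 / (x.2 : ℝ) := by
  rw [itemVal, wgt, Finset.prod_div_distrib, Finset.prod_const_one]
  push_cast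
  rw [div_div, Finset.prod_congr rfl (fun k _ => show ((x.1 k - 1 : ℕ) : ℝ) = (x.1 k : ℝ) - 1 by
    rw [Nat.cast_sub (hp k).one_le]; simp)]

lemma mass_nonneg {X L : ℕ} {s : Finset ((Fin L → ℕ) × ℕ)} (hs : s ⊆ allItems X L) :
    0 ≤ mass s :=
  Finset.sum_nonneg fun x hx => div_nonneg (wgt_nonneg (allItems_prime (hs hx))) (Nat.cast_nonneg _)

lemma coreSet_subset_body (X L : ℕ) : coreSet X L ⊆ bodySet X L := by
  classical exact Finset.filter_subset _ _

lemma bodySet_subset_all (X L : ℕ) : bodySet X L ⊆ allItems X L := by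
  classical exact Finset.filter_subset _ _

lemma upperSet_subset_all (X L : ℕ) : upperSet X L ⊆ allItems X L := by
  classical exact Finset.filter_subset _ _

lemma dist_box_le {L : ℕ} {q : Fin L → ℕ} (hq : ∀ k, (q k).Prime) {y : Fin L → ℝ}
    (hy : y ∈ box q) (k : Fin L) : |tval q k - y k| ≤ 1 := by
  obtain ⟨h1, h2⟩ := mem_box.1 hy k
  have h3 : (1 : ℝ) / ((q k : ℝ) - 1) ≤ 1 := by
    rw [div_le_one (sub_one_pos_of_prime (hq k))]
    have : (2 : ℝ) ≤ q k := by exact_mod_cast (hq k).two_le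
    linarith
  rw [abs_le, tval]
  constructor <;> linarith

/-- Basic eventual facts about the parameters. -/
lemma params_ev :
    ∀ᶠ T : ℝ in atTop, 0 < eta T ∧ eta T ≤ 1 / 80 ∧ 16 ≤ tailLevel T ∧ 1 ≤ floorLevel T ∧
      2 * tailLevel T ≤ T ∧ 4 * eta T ≤ 1 / log T ^ 5 ∧
      ((maxLen T : ℝ) + 1) ^ 2 + 3 ≤ eta T * (tailLevel T / 2) ∧ 1 ≤ eta T * tailLevel T := by
  filter_upwards [Real.tendsto_log_atTop.eventually_ge_atTop (300 : ℝ),
    eventually_log_pow_le 400 (c := 1 / 2) (by norm_num) one_pos] with T hl hT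
  set ℓ := log T
  have h1 : (1 : ℝ) ≤ ℓ := by linarith
  rw [Real.rpow_one] at hT
  have he : eta T * tailLevel T = ℓ ^ 390 := by
    simp only [eta, tailLevel, ℓ]
    field_simp
  have hN := maxLen_le (T := T) h1
  have h3 : ℓ ^ 3 ≤ ℓ ^ 390 := pow_le_pow_right₀ h1 (by norm_num)
  refine ⟨by simp only [eta]; positivity, ?_, ?_, one_le_pow₀ h1, by
    simp only [tailLevel]; linarith, ?_, ?_, he ▸ one_le_pow₀ h1⟩
  · simp only [eta]
    exact one_div_le_one_div_of_le (by norm_num) (le_trans (by linarith) (le_self_pow₀ h1 (by norm_num)))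
  · exact le_trans (by linarith) (le_self_pow₀ h1 (show 400 ≠ 0 by norm_num))
  · simp only [eta]
    rw [mul_one_div, div_le_div_iff₀ (by positivity) (by positivity)]
    have : 4 * ℓ ^ 5 ≤ ℓ ^ 5 * ℓ ^ 5 := mul_le_mul_of_nonneg_right
      (le_trans (by linarith) (le_self_pow₀ h1 (show 5 ≠ 0 by norm_num))) (by positivity)
    calc 4 * log T ^ 5 ≤ ℓ ^ 5 * ℓ ^ 5 := this
      _ = 1 * log T ^ 10 := by ring
  · rw [mul_div_assoc', he]
    have h4 : ((maxLen T : ℝ) + 1) ^ 2 ≤ (12 * ℓ) ^ 2 :=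
      pow_le_pow_left₀ (by positivity) (by linarith) 2
    have h5 : (300 : ℝ) * ℓ ^ 2 ≤ ℓ ^ 3 := by nlinarith
    have h6 : (1 : ℝ) ≤ ℓ ^ 2 := one_le_pow₀ h1
    linarith

/-- Tails are small. -/
lemma tail_le :
    ∀ᶠ X : ℕ in atTop, ∀ r : ℕ, TailOK (scale X) r → 1 ≤ r ∧ r ≤ X := by
  obtain ⟨D, hD0, hD⟩ := exists_log_le_exp_scale
  obtain ⟨M, hM0, hM⟩ := exists_log_bounds
  have hT : ∀ᶠ T : ℝ in atTop, 1 ≤ log T ∧ 0 ≤ floorLevel T ∧
      2 * floorLevel T + 2 * tailLevel T + M + log (12 * log T) + D ≤ T ∧ 2 ≤ tailLevel T := by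
    filter_upwards [Real.tendsto_log_atTop.eventually_ge_atTop (M + D + 20),
      eventually_log_pow_le 402 (c := 1) one_pos one_pos] with T hl hT
    have h1 : (1 : ℝ) ≤ log T := by linarith
    rw [one_mul, Real.rpow_one] at hT
    have hF : floorLevel T ≤ log T ^ 400 := pow_le_pow_right₀ h1 (by norm_num)
    have h2 : log (12 * log T) ≤ 12 * log T := by
      have := Real.log_le_sub_one_of_pos (show (0 : ℝ) < 12 * log T by linarith); linarith
    have h3 : log T ≤ log T ^ 400 := le_self_pow₀ h1 (by norm_num)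
    have h4 : 20 * log T ^ 400 ≤ log T ^ 402 := by
      rw [show log T ^ 402 = log T ^ 2 * log T ^ 400 by ring]
      exact mul_le_mul_of_nonneg_right (by nlinarith) (by positivity)
    refine ⟨h1, by simp only [floorLevel]; positivity, ?_, ?_⟩
    · simp only [tailLevel]; linarith
    · simp only [tailLevel]; linarith
  filter_upwards [hD, eventually_scale hT, eventually_ge_atTop 3] with X hlX hT hX r hr
  obtain ⟨hl1, hF0, hE, hK2⟩ := hT
  obtain ⟨hr0, -, hsm, -, hsml, hlen, -⟩ := hr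
  set T := scale X
  set F := floorLevel T
  set K := tailLevel T
  refine ⟨Nat.one_le_iff_ne_zero.2 hr0, ?_⟩
  have hlog : ∀ q ∈ levs F r, log (q : ℝ) ≤ exp (K + M) := by
    intro q hq
    obtain ⟨hp, hd, -, -⟩ := mem_levs.1 hq
    rcases Nat.lt_or_ge q 3 with h | h
    · have hq2 : (q : ℝ) ≤ 3 := by exact_mod_cast h.le
      have h1 : log (q : ℝ) ≤ (q : ℝ) - 1 := Real.log_le_sub_one_of_pos (by exact_mod_cast hp.pos)
      have := Real.add_one_le_exp (K + M)
      linarith
    · exact (hM q h).2.trans (Real.exp_le_exp.2 (by linarith [hsm.2 q hp hd]))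
  have h1 : log ((levs F r).prod : ℕ) ≤ ((levs F r).length : ℝ) * exp (K + M) := by
    have hpos : ∀ q ∈ levs F r, (q : ℝ) ≠ 0 := fun q hq => by
      exact_mod_cast (mem_levs.1 hq).1.ne_zero
    rw [Nat.cast_list_prod, Real.log_list_prod (by simpa using hpos), List.map_map]
    refine (List.sum_le_card_nsmul _ (exp (K + M)) ?_).trans (le_of_eq (by simp))
    simpa using hlog
  have h2 : log (r : ℝ) ≤ log (X : ℝ) := by
    have hsp : (r : ℝ) = ((levs F r).prod : ℕ) * (smlPart F r : ℕ) := by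
      exact_mod_cast (prod_levs_mul_sml F r).symm
    have hp0 : 0 < (levs F r).prod := List.prod_pos fun a ha => (mem_levs.1 ha).1.pos
    rw [hsp, Real.log_mul (by exact_mod_cast hp0.ne') (by exact_mod_cast smlPart_ne_zero hr0)]
    have h3 : ((levs F r).length : ℝ) ≤ 11 * log T :=
      le_trans (by exact_mod_cast hlen) (maxLen_le hl1)
    have h4 : 12 * log T * exp (K + M + 2 * F) ≤ exp (T - D) := by
      rw [← Real.exp_log (show (0 : ℝ) < 12 * log T by linarith), ← Real.exp_add, Real.exp_le_exp]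
      linarith
    have h5 : exp (K + M) ≤ exp (K + M + 2 * F) := Real.exp_le_exp.2 (by linarith)
    have h6 : exp (2 * F) ≤ exp (K + M + 2 * F) := Real.exp_le_exp.2 (by linarith)
    have h7 : ((levs F r).length : ℝ) * exp (K + M) ≤ 11 * log T * exp (K + M + 2 * F) :=
      mul_le_mul h3 h5 (exp_pos _).le (by linarith)
    have h8 : exp (2 * F) ≤ log T * exp (K + M + 2 * F) :=
      h6.trans (le_mul_of_one_le_left (exp_pos _).le hl1)
    linarith [hlX.1]
  have := (Real.log_le_log_iff (by exact_mod_cast Nat.pos_of_ne_zero hr0)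
    (by exact_mod_cast (show 0 < X by omega))).1 h2
  exact_mod_cast this

lemma body_subset_upper :
    ∀ᶠ X : ℕ in atTop, ∀ L ∈ levRange X, bodySet X L ⊆ upperSet X L := by
  classical
  filter_upwards [eventually_scale params_ev] with X hp L hL x hx
  obtain ⟨hη, hη1, hK, -, hKT, -, hgap, hηK⟩ := hp
  obtain ⟨hall, hq, r, hr, hd, hreg⟩ := Finset.mem_filter.1 hx
  refine Finset.mem_filter.2 ⟨hall, hq, r, hr, hd, fun y hy => ?_⟩
  refine hreg.perturb (fun k => dist_box_le hq hy k) (by nlinarith) (by linarith) (by linarith)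
    (by linarith) (by linarith) ?_
  have hLN : (L : ℝ) ≤ maxLen (scale X) := by
    exact_mod_cast Nat.le_of_lt_succ (Finset.mem_range.1 hL)
  have : ((L : ℝ) + 1) ^ 2 ≤ ((maxLen (scale X) : ℝ) + 1) ^ 2 :=
    pow_le_pow_left₀ (by positivity) (by linarith) 2
  nlinarith

/-- Points of the strict region are covered by body items. -/
lemma cover_body :
    ∀ᶠ X : ℕ in atTop, ∀ L ∈ levRange X, ∀ r, TailOK (scale X) r → ∀ y : Fin L → ℝ,
      Reg L (scale X) (levs (floorLevel (scale X)) r) ((1 + 5 * eta (scale X)) * tailLevel (scale X))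
          (-(4 * eta (scale X))) y →
      ∃ q : Fin L → ℕ, (q, φ r) ∈ bodySet X L ∧ y ∈ box q := by
  classical
  filter_upwards [eventually_scale params_ev, tail_le, eventually_ge_atTop 1]
    with X hp htail hX L hL r hr y hy
  obtain ⟨hη, hη1, hK, -, hKT, -, hgap, hηK⟩ := hp
  set T := scale X
  have hyT : ∀ i ≤ L, yy T y i ≤ T := by
    intro i
    induction i with
    | zero => exact fun _ => le_of_eq (yy_top T y)
    | succ i ih =>
      intro hi
      have h1 := (hy.1 i hi).2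
      have h2 := ih (by omega)
      have h3 : 0 ≤ yy T y i := by
        rcases i with _ | i
        · rw [yy_top]; linarith
        · exact le_trans (by positivity) (hy.1 i (by omega)).1.le
      nlinarith
  have hpos : ∀ k : Fin L, 0 < y k := fun k => by
    have := (hy.1 k.val k.isLt).1
    rw [yy_lev T y k.isLt] at this
    exact lt_of_le_of_lt (by positivity) this
  obtain ⟨q, hq, hyq⟩ := exists_box hpos
  refine ⟨q, ?_, hyq⟩
  have hqX : ∀ k, q k ≤ X := by
    intro k
    by_contra hc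
    push Not at hc
    have h1 := (mem_box.1 hyq k).1
    have h2 := hyT (k.val + 1) k.isLt
    rw [yy_lev T y k.isLt] at h2
    have h3 := u_prime_eq (hq k)
    have h4 : u X ≤ u (q k - 1) := u_mono (by omega)
    simp only [T, scale] at h2
    linarith
  obtain ⟨hr1, hrX⟩ := htail r hr
  have hX3 : X ≤ X ^ 3 := Nat.le_self_pow (by norm_num) X
  refine Finset.mem_filter.2 ⟨mem_allItems.2 ⟨fun k => ⟨(hqX k).trans hX3, hq k⟩,
    Nat.totient_pos.2 hr1, ((Nat.totient_le r).trans hrX).trans hX3⟩, hq, r, hr, rfl, ?_⟩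
  refine hy.perturb (fun k => by rw [abs_sub_comm]; exact dist_box_le hq hyq k)
    (by nlinarith) (by positivity) (by nlinarith) (by linarith) (by linarith) ?_
  have hLN : (L : ℝ) ≤ maxLen T := by exact_mod_cast Nat.le_of_lt_succ (Finset.mem_range.1 hL)
  have : ((L : ℝ) + 1) ^ 2 ≤ ((maxLen T : ℝ) + 1) ^ 2 :=
    pow_le_pow_left₀ (by positivity) (by linarith) 2
  nlinarith

lemma mass_eq_fibre {L : ℕ} (s : Finset ((Fin L → ℕ) × ℕ)) :
    mass s = ∑ d ∈ s.image Prod.snd,
      (∑ q ∈ (s.filter (fun x => x.2 = d)).image Prod.fst, wgt q) / (d : ℝ) := by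
  classical
  rw [mass, ← Finset.sum_fiberwise_of_maps_to (g := Prod.snd)
    (fun x hx => Finset.mem_image_of_mem Prod.snd hx)]
  refine Finset.sum_congr rfl fun d _ => ?_
  rw [Finset.sum_div, Finset.sum_image]
  · exact Finset.sum_congr rfl fun x hx => by rw [(Finset.mem_filter.1 hx).2]
  · intro a ha b hb h
    exact Prod.ext h ((Finset.mem_filter.1 ha).2.trans (Finset.mem_filter.1 hb).2.symm)

/-- The upper mass is close to the body mass when the centre exists. -/
lemma mass_upper_le {ρ : ℝ} (hρ : IsRho ρ) :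
    ∃ C₂ : ℝ, 0 < C₂ ∧ ∀ᶠ X : ℕ in atTop, ∀ L ∈ levRange X,
      C₂ * tailLevel (scale X) ≤ scale X * ρ ^ L →
      mass (upperSet X L) * (1 - L * shrink (scale X)) ≤ mass (bodySet X L) := by
  classical
  obtain ⟨C₂, hC₂, hc⟩ := contract_mem hρ
  refine ⟨C₂, hC₂, ?_⟩
  filter_upwards [eventually_scale hc, cover_body, eventually_scale params_ev,
    eventually_scale (Real.tendsto_log_atTop.eventually_ge_atTop (1 : ℝ))]
    with X hc hcov hp hl L hL hC
  set T := scale X
  set ε := shrink T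
  have hε0 : 0 ≤ ε := by simp only [ε, shrink]; positivity
  have hε1 : ε ≤ 1 := by
    simp only [ε, shrink]
    rw [div_le_one (by positivity)]
    exact one_le_pow₀ hl
  have hbern : 1 - (L : ℝ) * ε ≤ (1 - ε) ^ L := by
    have := one_add_mul_le_pow (show -2 ≤ -ε by linarith) L
    linarith [show (1 + -ε) ^ L = (1 - ε) ^ L by ring]
  have hU0 := mass_nonneg (upperSet_subset_all X L)
  refine (mul_le_mul_of_nonneg_left hbern hU0).trans ?_
  rw [mass_eq_fibre (upperSet X L), Finset.sum_mul]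
  have hfib : ∀ d ∈ (upperSet X L).image Prod.snd,
      (∑ q ∈ ((upperSet X L).filter (fun x => x.2 = d)).image Prod.fst, wgt q) * (1 - ε) ^ L
        ≤ ∑ q ∈ ((bodySet X L).filter (fun x => x.2 = d)).image Prod.fst, wgt q := by
    intro d _
    set U : Set (Fin L → ℝ) := {y | ∃ r, TailOK T r ∧ φ r = d ∧
      Reg L T (levs (floorLevel T) r) (tailLevel T - 1) (2 * eta T) y}
    set S : Set (Fin L → ℝ) := {y | ∃ r, TailOK T r ∧ φ r = d ∧
      Reg L T (levs (floorLevel T) r) ((1 + 5 * eta T) * tailLevel T) (-(4 * eta T)) y}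
    have hUq : ∀ q ∈ ((upperSet X L).filter (fun x => x.2 = d)).image Prod.fst,
        ∀ k, (q k).Prime := fun q hq => by
      obtain ⟨x, hx, rfl⟩ := Finset.mem_image.1 hq
      exact allItems_prime (upperSet_subset_all X L (Finset.mem_filter.1 hx).1)
    have hBq : ∀ q ∈ ((bodySet X L).filter (fun x => x.2 = d)).image Prod.fst,
        ∀ k, (q k).Prime := fun q hq => by
      obtain ⟨x, hx, rfl⟩ := Finset.mem_image.1 hq
      exact allItems_prime (bodySet_subset_all X L (Finset.mem_filter.1 hx).1)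
    have h1 := sum_wgt_le_volume _ hUq (U := U) fun q hq y hy => by
      obtain ⟨x, hx, rfl⟩ := Finset.mem_image.1 hq
      obtain ⟨hx, hxd⟩ := Finset.mem_filter.1 hx
      obtain ⟨-, -, r, hr, hd, hsub⟩ := Finset.mem_filter.1 hx
      exact ⟨r, hr, hd.trans hxd, hsub hy⟩
    have h2 := volume_le_sum_wgt _ hBq (U := S) fun y hy => by
      obtain ⟨r, hr, hd, hreg⟩ := hy
      obtain ⟨q, hq, hyq⟩ := hcov L hL r hr y hreg
      exact ⟨q, Finset.mem_image.2 ⟨(q, φ r), Finset.mem_filter.2 ⟨hq, hd⟩, rfl⟩, hyq⟩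
    have h3 := volume_contract (centrePt ρ T L) hε1 (U := U) (S := S) fun y hy => by
      obtain ⟨r, hr, hd, hreg⟩ := hy
      exact ⟨r, hr, hd, hc r hr L (Nat.le_of_lt_succ (Finset.mem_range.1 hL)) hC y hreg⟩
    have h4 := ((mul_le_mul_of_nonneg_left h1 (zero_le (a := ENNReal.ofReal ((1 - ε) ^ L)))).trans h3).trans h2
    have hp0 : (0 : ℝ) ≤ (1 - ε) ^ L := by
      have : 0 ≤ 1 - ε := by linarith
      positivity
    rw [← ENNReal.ofReal_mul hp0,
      ENNReal.ofReal_le_ofReal_iff (Finset.sum_nonneg fun q hq => wgt_nonneg (hBq q hq))] at h4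
    linarith
  rw [mass_eq_fibre (bodySet X L)]
  set g : ℕ → ℝ := fun d =>
    (∑ q ∈ ((bodySet X L).filter (fun x => x.2 = d)).image Prod.fst, wgt q) / (d : ℝ) with hg
  have hg0 : ∀ d, 0 ≤ g d := fun d => by
    refine div_nonneg (Finset.sum_nonneg fun q hq => ?_) (Nat.cast_nonneg _)
    obtain ⟨x, hx, rfl⟩ := Finset.mem_image.1 hq
    exact wgt_nonneg (allItems_prime (bodySet_subset_all X L (Finset.mem_filter.1 hx).1))
  calc _ ≤ ∑ d ∈ (upperSet X L).image Prod.snd, g d := by
        refine Finset.sum_le_sum fun d hd => ?_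
        rw [div_mul_eq_mul_div]
        exact div_le_div_of_nonneg_right (hfib d hd) (Nat.cast_nonneg _)
    _ ≤ ∑ d ∈ (upperSet X L).image Prod.snd ∪ (bodySet X L).image Prod.snd, g d :=
        Finset.sum_le_sum_of_subset_of_nonneg Finset.subset_union_left fun d _ _ => hg0 d
    _ = ∑ d ∈ (bodySet X L).image Prod.snd, g d := by
        refine (Finset.sum_subset Finset.subset_union_right fun d _ hd => ?_).symm
        have : (bodySet X L).filter (fun x => x.2 = d) = ∅ :=
          Finset.filter_eq_empty_iff.2 fun x hx h => hd (Finset.mem_image.2 ⟨x, hx, h⟩)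
        simp [hg, this]

end Vale.Agent.P031
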