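import Vale.Agent.P031.NormalTails

/-! P031: few primes fail to be normal. -/

open Finset Real Filter
open scoped Nat Topology

namespace Vale.Agent.P031

lemma eventually_poly_le (a b c : ℝ) (hc : 0 < c) :
    ∀ᶠ T : ℝ in atTop, a * log (T + 2) + b + T ^ (1 / 10 : ℝ) ≤ c * T ^ (1 / 5 : ℝ) := by
  have h1 : ∀ᶠ T : ℝ in atTop, |a * log (T + 2)| ≤ c / 3 * T ^ (1 / 5 : ℝ) := by
    have hlog := (isLittleO_log_rpow_atTop (show (0 : ℝ) < 1 / 5 by norm_num)).bound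
      (show 0 < c / 3 / (2 * |a| + 1) by positivity)
    filter_upwards [hlog, eventually_ge_atTop (2 : ℝ)] with T hT hT2
    rw [norm_eq_abs, norm_eq_abs, abs_of_nonneg (log_nonneg (by linarith)),
      abs_of_nonneg (rpow_nonneg (by linarith) _)] at hT
    have hTT : log (T + 2) ≤ 2 * log T := by
      rw [show (2 : ℝ) * log T = log (T ^ 2) by rw [log_pow]; norm_num]
      exact log_le_log (by linarith) (by nlinarith)
    rw [abs_mul, abs_of_nonneg (log_nonneg (by linarith) : (0 : ℝ) ≤ log (T + 2))]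
    calc |a| * log (T + 2) ≤ (2 * |a| + 1) * log T := by
          nlinarith [abs_nonneg a, log_nonneg (show (1:ℝ) ≤ T by linarith)]
      _ ≤ (2 * |a| + 1) * (c / 3 / (2 * |a| + 1) * T ^ (1 / 5 : ℝ)) :=
          mul_le_mul_of_nonneg_left hT (by positivity)
      _ = _ := by field_simp
  have h2 : ∀ᶠ T : ℝ in atTop, |b| ≤ c / 3 * T ^ (1 / 5 : ℝ) :=
    ((tendsto_rpow_atTop (show (0 : ℝ) < 1 / 5 by norm_num)).const_mul_atTop
      (show (0 : ℝ) < c / 3 by positivity)).eventually_ge_atTop _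
  have h3 : ∀ᶠ T : ℝ in atTop, T ^ (1 / 10 : ℝ) ≤ c / 3 * T ^ (1 / 5 : ℝ) := by
    have h := (tendsto_rpow_atTop (show (0 : ℝ) < 1 / 10 by norm_num)).eventually_ge_atTop (3 / c)
    filter_upwards [h, eventually_gt_atTop (0 : ℝ)] with T hT hT0
    have e : T ^ (1 / 5 : ℝ) = T ^ (1 / 10 : ℝ) * T ^ (1 / 10 : ℝ) := by
      rw [← rpow_add hT0]; norm_num
    rw [e]
    have hp : 0 ≤ T ^ (1 / 10 : ℝ) := rpow_nonneg hT0.le _
    rw [div_le_iff₀ hc] at hT
    nlinarith [mul_le_mul_of_nonneg_right hT hp]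
  filter_upwards [h1, h2, h3] with T a1 a2 a3
  linarith [le_abs_self (a * log (T + 2)), le_abs_self b]

lemma eventually_half (D : ℝ) :
    ∀ᶠ T : ℝ in atTop, D ≤ T ∧ sqrt T / 2 + 1 ≤ sqrt (T - D) ∧
      T ^ (3 / 5 : ℝ) / 2 + 2 ≤ (T - D) ^ (3 / 5 : ℝ) ∧ T ≤ exp (sqrt T / 2 - D) / 40 := by
  have h1 : ∀ᶠ T : ℝ in atTop, 8 ≤ T ^ (3 / 5 : ℝ) :=
    (tendsto_rpow_atTop (by norm_num)).eventually_ge_atTop _
  have h2 : ∀ᶠ T : ℝ in atTop, T ≤ exp (sqrt T / 2 - D) / 40 := by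
    have h := (tendsto_exp_div_pow_atTop 2).comp
      ((tendsto_sqrt_atTop.atTop_div_const (show (0 : ℝ) < 2 by norm_num)))
    filter_upwards [h.eventually_ge_atTop (160 * exp D), eventually_gt_atTop (0 : ℝ)] with T hT hT0
    simp only [Function.comp_apply, div_pow, sq_sqrt hT0.le] at hT
    rw [le_div_iff₀ (by positivity)] at hT
    rw [exp_sub, le_div_iff₀ (by norm_num : (0 : ℝ) < 40), le_div_iff₀ (exp_pos D)]
    linarith
  filter_upwards [h1, h2, eventually_ge_atTop (max (4 * |D| + 16) 4)] with T a1 a2 a3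
  have hT4 : 4 * |D| + 16 ≤ T := (le_max_left _ _).trans a3
  have hD1 := le_abs_self D
  have hD2 := neg_abs_le D
  have hT0 : 0 < T := by linarith [abs_nonneg D]
  have hTD : 3 / 4 * T ≤ T - D := by linarith
  refine ⟨by linarith, ?_, ?_, a2⟩
  · have h4 : sqrt T ≥ 4 := by
      rw [ge_iff_le, show (4 : ℝ) = sqrt 16 by rw [show (16:ℝ) = 4 ^ 2 by norm_num, sqrt_sq]; norm_num]
      exact sqrt_le_sqrt (by linarith)
    rw [le_sqrt (by positivity) (by linarith)]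
    nlinarith [sq_sqrt hT0.le, mul_le_mul_of_nonneg_right h4 (sqrt_nonneg T)]
  · have h5 : (3 / 4 : ℝ) * T ^ (3 / 5 : ℝ) ≤ (T - D) ^ (3 / 5 : ℝ) := by
      refine le_trans ?_ (rpow_le_rpow (by positivity) hTD (by norm_num))
      rw [mul_rpow (by norm_num) hT0.le]
      exact mul_le_mul_of_nonneg_right
        (self_le_rpow_of_le_one (by norm_num) (by norm_num) (by norm_num)) (by positivity)
    linarith

/-- Few `n` have an abnormal number of prime factors in a fixed integer interval. -/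
lemma bad_interval : ∃ K : ℝ, ∃ k : ℕ, 0 < K ∧ ∃ Y₁ : ℕ, ∀ Y : ℕ, Y₁ ≤ Y → ∀ A B : ℕ,
    1 ≤ A → A ≤ B → (B : ℝ) + sqrt (u Y) / 2 ≤ u Y →
    ∀ s : Finset ℕ, (∀ n ∈ s, n ∈ shifted Y ∧
      u Y ^ (3 / 5 : ℝ) / 2 ≤ |(cnt (A : ℝ) (B : ℝ) n : ℝ) - ((B : ℝ) - A)|) →
    (s.card : ℝ) ≤ K * (u Y + 2) ^ k * Y * exp (-u Y - (1 / 100) * u Y ^ (1 / 5 : ℝ)) := by
  classical
  obtain ⟨CL, kL, hCL, hL⟩ := lower_tail
  obtain ⟨CU, E, kU, hCU, hE, hU⟩ := upper_tail
  set k := max kL kU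
  refine ⟨(CL + CU + 1) * exp 1, k, by positivity, ?_⟩
  have hev : ∀ᶠ Y : ℕ in atTop, 81 ≤ Y ∧ 8000 ≤ u Y ∧ E + 1 ≤ sqrt (u Y) / 2 ∧
      u Y ≤ exp (sqrt (u Y) / 2 - E) / 40 := by
    refine (eventually_ge_atTop 81).and ((u_tendsto.eventually (eventually_ge_atTop _)).and ?_)
    refine (u_tendsto.eventually (p := fun T => E + 1 ≤ sqrt T / 2) ?_).and
      (u_tendsto.eventually (p := fun T => T ≤ exp (sqrt T / 2 - E) / 40) ?_)
    · exact (tendsto_sqrt_atTop.atTop_div_const (show (0:ℝ) < 2 by norm_num)).eventually_ge_atTop _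
    · exact (eventually_half E).mono fun T h => h.2.2.2
  obtain ⟨Y₁, hY₁⟩ := eventually_atTop.1 hev
  refine ⟨Y₁, fun Y hY A B hA hAB hB s hs => ?_⟩
  obtain ⟨hY81, hT, hTE, hTexp⟩ := hY₁ Y hY
  set T := u Y with hTdef
  have hT0 : 0 < T := by linarith
  set Δ := T ^ (3 / 5 : ℝ) / 2 with hΔ
  set l := T ^ (-(2 / 5) : ℝ) / 20 with hl
  have hp1 : T ^ (-(2 / 5) : ℝ) ≤ 1 := rpow_le_one_of_one_le_of_nonpos (by linarith) (by norm_num)
  have hl0 : 0 ≤ l := by positivity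
  have hl20 : l ≤ 1 / 20 := by rw [hl]; linarith
  have e1 : l * Δ = T ^ (1 / 5 : ℝ) / 40 := by
    rw [hl, hΔ, show (1 / 5 : ℝ) = -(2 / 5) + 3 / 5 by norm_num, rpow_add hT0]; ring
  have e2 : l ^ 2 * T = T ^ (1 / 5 : ℝ) / 400 := by
    rw [hl, div_pow, ← rpow_natCast (T ^ (-(2 / 5) : ℝ)) 2, ← rpow_mul hT0.le,
      show (-(2 / 5) : ℝ) * ((2 : ℕ) : ℝ) = 1 / 5 - 1 by norm_num, rpow_sub_one hT0.ne']
    field_simp
    ring
  have hT5 : (1 : ℝ) ≤ T ^ (1 / 5 : ℝ) := one_le_rpow (by linarith) (by norm_num)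
  set Λ := (B : ℝ) - A with hΛ
  have hAB' : (A : ℝ) ≤ B := by exact_mod_cast hAB
  have hA' : (1 : ℝ) ≤ A := by exact_mod_cast hA
  have hBT : (B : ℝ) ≤ T := by linarith [sqrt_nonneg T]
  have hΛ0 : 0 ≤ Λ := by linarith
  have hΛT : Λ ≤ T := by linarith
  have hpre : ∀ j ≤ k, (T + 1) ^ j ≤ (T + 2) ^ k := fun j hj =>
    (pow_le_pow_left₀ (by linarith) (by linarith : T + 1 ≤ T + 2) j).trans
      (pow_le_pow_right₀ (by linarith) hj)
  have hone : (1 : ℝ) ≤ (T + 2) ^ k := one_le_pow₀ (by linarith)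
  set F := exp (-T - (1 / 100) * T ^ (1 / 5 : ℝ)) with hF
  set slow := s.filter (fun n => (cnt (A : ℝ) (B : ℝ) n : ℝ) ≤ Λ - Δ) with hslow
  set sup' := s.filter (fun n => Λ + Δ ≤ (cnt (A : ℝ) (B : ℝ) n : ℝ)) with hsup
  have hcover : s ⊆ slow ∪ sup' := fun n hn => by
    rw [mem_union, hslow, hsup, mem_filter, mem_filter]
    rcases le_abs.1 (hs n hn).2 with h | h
    · exact Or.inr ⟨hn, by linarith⟩
    · exact Or.inl ⟨hn, by linarith⟩
  have hlow : (slow.card : ℝ) ≤ CL * exp 1 * (T + 2) ^ k * Y * F := by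
    rcases slow.eq_empty_or_nonempty with h | ⟨n, hn⟩
    · rw [h]; simp only [card_empty, Nat.cast_zero]; positivity
    have hc : 0 ≤ Λ - Δ := le_trans (Nat.cast_nonneg _) (mem_filter.1 hn).2
    refine (hL Y A B (Λ - Δ) l (by omega) hA hAB hBT hl0 (by linarith) hc slow
      fun n hn => ⟨(hs n (mem_filter.1 hn).1).1, (mem_filter.1 hn).2⟩).trans ?_
    rw [← hTdef, ← hΛ]
    have hb : exp (-T - l * (Λ - 1) + (l + 2 * l ^ 2) * (Λ - Δ)) ≤ exp 1 * F := by
      rw [hF, ← exp_add, exp_le_exp]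
      have h1 := mul_le_mul_of_nonneg_left hΛT (sq_nonneg l)
      have h2 : 0 ≤ l ^ 2 * Δ := mul_nonneg (sq_nonneg l) (by positivity)
      linarith
    calc CL * (T + 1) ^ kL * Y * exp (-T - l * (Λ - 1) + (l + 2 * l ^ 2) * (Λ - Δ))
        ≤ CL * (T + 2) ^ k * Y * (exp 1 * F) := by
          gcongr
          exact hpre kL (le_max_left _ _)
      _ = _ := by ring
  have hup : (sup'.card : ℝ) ≤ (CU + 1) * exp 1 * (T + 2) ^ k * Y * F := by
    have hu := hU Y A B (Λ + Δ) l hY81 hA hAB (by linarith) hl0 hl20 sup'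
      fun n hn => ⟨(hs n (mem_filter.1 hn).1).1, (mem_filter.1 hn).2⟩
    rw [← hTdef, ← hΛ] at hu
    have hlz : l - l ^ 2 ≤ log (1 + l) := by
      refine le_trans ?_ (one_sub_inv_le_log_of_pos (by linarith))
      rw [le_sub_comm, inv_le_iff_one_le_mul₀ (by linarith)]
      nlinarith [pow_nonneg hl0 3]
    have hΔ0 : 0 ≤ Δ := by positivity
    have hΔT : Δ ≤ T := by
      rw [hΔ]
      have := rpow_le_rpow_of_exponent_le (show 1 ≤ T by linarith) (show (3 / 5 : ℝ) ≤ 1 by norm_num)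
      rw [rpow_one] at this
      linarith
    have hbase := mul_le_mul_of_nonneg_left hlz (show 0 ≤ Λ + Δ by linarith)
    have hb1 : exp (-T + l * (Λ + 1) - (Λ + Δ) * log (1 + l)) ≤ exp 1 * F := by
      rw [hF, ← exp_add, exp_le_exp]
      have h1 := mul_le_mul_of_nonneg_left (show Λ + Δ ≤ 2 * T by linarith) (sq_nonneg l)
      linarith
    have hlog0 : 0 ≤ (Λ + Δ) * log (1 + l) :=
      mul_nonneg (by linarith) (log_nonneg (by linarith))
    have hb2 : exp (-exp (T - B - E) + 8 * (T + 1) - (Λ + Δ) * log (1 + l)) ≤ exp 1 * F := by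
      rw [hF, ← exp_add, exp_le_exp]
      have h1 : exp (sqrt T / 2 - E) ≤ exp (T - B - E) := exp_le_exp.2 (by linarith)
      have hT15 := rpow_le_rpow_of_exponent_le (show 1 ≤ T by linarith) (show (1 / 5 : ℝ) ≤ 1 by norm_num)
      rw [rpow_one] at hT15
      linarith
    have hexp : (sup'.card : ℝ) ≤ CU * (T + 1) ^ kU * Y * exp (-T + l * (Λ + 1) - (Λ + Δ) * log (1 + l))
        + Y * exp (-exp (T - B - E) + 8 * (T + 1) - (Λ + Δ) * log (1 + l)) := by
      rw [exp_sub, exp_sub, mul_div_assoc', mul_div_assoc', ← add_div, le_div_iff₀ (exp_pos _)]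
      exact hu
    refine hexp.trans ?_
    calc _ ≤ CU * (T + 2) ^ k * Y * (exp 1 * F) + Y * (exp 1 * F) := by
          gcongr
          exact hpre kU (le_max_right _ _)
      _ ≤ CU * (T + 2) ^ k * Y * (exp 1 * F) + (T + 2) ^ k * (Y * (exp 1 * F)) :=
          add_le_add le_rfl (le_mul_of_one_le_left (by positivity) hone)
      _ = _ := by ring
  calc (s.card : ℝ) ≤ (slow.card : ℝ) + (sup'.card : ℝ) := by
        exact_mod_cast (card_le_card hcover).trans (card_union_le _ _)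
    _ ≤ _ := add_le_add hlow hup
    _ = _ := by ring

theorem normal_count : NormalCountStatement := by
  classical
  obtain ⟨K, k, hK, Y₁, hbad⟩ := bad_interval
  obtain ⟨D, hD0, hD⟩ := u_pow_close
  obtain ⟨J, hJ0, hJ⟩ := junk_le
  have hev : ∀ᶠ Y : ℕ in atTop, 81 ≤ Y ∧ Y₁ ≤ Y ∧ (1 ≤ u Y ∧ log (2 * J) ≤ u Y) ∧
      (D ≤ u Y ∧ sqrt (u Y) / 2 + 1 ≤ sqrt (u Y - D) ∧
        u Y ^ (3 / 5 : ℝ) / 2 + 2 ≤ (u Y - D) ^ (3 / 5 : ℝ) ∧
        u Y ≤ exp (sqrt (u Y) / 2 - D) / 40) ∧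
      ((k + 2 : ℕ) : ℝ) * log (u Y + 2) + log (2 * K) + u Y ^ (1 / 10 : ℝ)
        ≤ (1 / 100) * u Y ^ (1 / 5 : ℝ) := by
    refine (eventually_ge_atTop 81).and ((eventually_ge_atTop Y₁).and
      (((u_tendsto.eventually (eventually_ge_atTop _)).and
        (u_tendsto.eventually (eventually_ge_atTop _))).and
        ((u_tendsto.eventually (eventually_half D)).and
          (u_tendsto.eventually (eventually_poly_le _ _ _ (by norm_num))))))
  obtain ⟨Y₀, hY₀⟩ := eventually_atTop.1 hev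
  refine ⟨Y₀, fun Y hY s hs => ?_⟩
  obtain ⟨hY81, hY1, ⟨hT1, hTJ⟩, ⟨hTD, hsq, h35, -⟩, hpoly⟩ := hY₀ Y hY
  set T := u Y with hTdef
  set small := s.filter (fun q => q ≤ Nat.sqrt Y) with hsmall
  set big := s.filter (fun q => ¬ q ≤ Nat.sqrt Y) with hbig
  set pairs := ((Icc 1 ⌊T⌋₊) ×ˢ (Icc 1 ⌊T⌋₊)).filter
    (fun x : ℕ × ℕ => x.1 ≤ x.2 ∧ (x.2 : ℝ) + sqrt T / 2 ≤ T) with hpairs
  set bad : ℕ × ℕ → Finset ℕ := fun x => (shifted Y).filter
    (fun n => T ^ (3 / 5 : ℝ) / 2 ≤ |(cnt (x.1 : ℝ) (x.2 : ℝ) n : ℝ) - ((x.2 : ℝ) - x.1)|) with hbadset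
  have hmap : ∀ q ∈ big, q - 1 ∈ pairs.biUnion bad := by
    intro q hq
    obtain ⟨hqs, hqbig⟩ := mem_filter.1 hq
    obtain ⟨hqp, hqY, hnn⟩ := hs q hqs
    have hq9 : 9 ≤ q := by
      have := Nat.le_sqrt.2 (show 8 * 8 ≤ Y by omega)
      omega
    have hqq : Y ≤ q ^ 4 := by
      have h1 := Nat.sqrt_lt.1 (not_le.1 hqbig)
      calc Y ≤ q * q := h1.le
        _ = q ^ 2 := by ring
        _ ≤ q ^ 4 := Nat.pow_le_pow_right (by omega) (by norm_num)
    have hu1 : T - D ≤ u q := hD q Y (by omega) (by omega) hqq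
    have hu2 : u q ≤ T := u_mono hqY
    simp only [Normal, not_and, not_forall, not_le] at hnn
    obtain ⟨a, b, ha, hab, hb, hgt⟩ := hnn hqp
    have hs1 : sqrt (T - D) ≤ sqrt (u q) := sqrt_le_sqrt hu1
    have hs2 : (T - D) ^ (3 / 5 : ℝ) ≤ u q ^ (3 / 5 : ℝ) := rpow_le_rpow (by linarith) hu1 (by norm_num)
    have hbT : b + sqrt T / 2 + 1 ≤ T := by linarith
    have hb0 : 1 ≤ b := ha.trans hab
    have hn : q - 1 ∈ shifted Y := by
      rw [shifted, mem_filter, mem_Icc]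
      exact ⟨⟨by omega, by omega⟩, by rwa [Nat.sub_add_cancel hqp.one_le]⟩
    have hrange : ∀ i : ℕ, 1 ≤ i → (i : ℝ) + sqrt T / 2 ≤ T → i ∈ Icc 1 ⌊T⌋₊ := fun i hi h =>
      mem_Icc.2 ⟨hi, Nat.le_floor (by linarith [sqrt_nonneg T])⟩
    rw [mem_biUnion]
    rcases lt_abs.1 hgt with h | h
    · set A := ⌊a⌋₊
      set B := ⌈b⌉₊
      have hA1 : 1 ≤ A := (Nat.one_le_floor_iff a).2 ha
      have hAB : A ≤ B := le_trans (Nat.floor_mono hab) (Nat.floor_le_ceil b)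
      have hAa : (A : ℝ) ≤ a := Nat.floor_le (by linarith)
      have hA' : a < A + 1 := Nat.lt_floor_add_one a
      have hBb : b ≤ (B : ℝ) := Nat.le_ceil b
      have hB' : (B : ℝ) < b + 1 := Nat.ceil_lt_add_one (by linarith)
      have hBT : (B : ℝ) + sqrt T / 2 ≤ T := by linarith
      have hAT : (A : ℝ) + sqrt T / 2 ≤ T := by linarith
      refine ⟨(A, B), mem_filter.2 ⟨mem_product.2 ⟨hrange A hA1 hAT, hrange B (hA1.trans hAB) hBT⟩,
        hAB, hBT⟩, mem_filter.2 ⟨hn, ?_⟩⟩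
      have hm : (cnt a b (q - 1) : ℝ) ≤ (cnt (A : ℝ) (B : ℝ) (q - 1) : ℝ) := by
        exact_mod_cast cnt_mono hAa hBb _
      refine le_trans ?_ (le_abs_self _)
      simp only
      linarith
    · set A := ⌈a⌉₊
      set B := ⌊b⌋₊
      have hc0 : (0 : ℝ) ≤ (cnt a b (q - 1) : ℝ) := Nat.cast_nonneg _
      have hT35 : (0 : ℝ) ≤ T ^ (3 / 5 : ℝ) := rpow_nonneg (by linarith) _
      have hAB : A ≤ B := by
        refine Nat.le_floor ?_
        have := Nat.ceil_lt_add_one (show 0 ≤ a by linarith)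
        linarith
      have hA1 : 1 ≤ A := Nat.one_le_iff_ne_zero.2 (by
        have : 0 < A := Nat.ceil_pos.2 (by linarith)
        omega)
      have hAa : a ≤ (A : ℝ) := Nat.le_ceil a
      have hA' : (A : ℝ) < a + 1 := Nat.ceil_lt_add_one (by linarith)
      have hBb : (B : ℝ) ≤ b := Nat.floor_le (by linarith)
      have hB' : b < (B : ℝ) + 1 := Nat.lt_floor_add_one b
      have hBT : (B : ℝ) + sqrt T / 2 ≤ T := by linarith
      have hABr : (A : ℝ) ≤ B := by exact_mod_cast hAB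
      refine ⟨(A, B), mem_filter.2 ⟨mem_product.2 ⟨hrange A hA1 (by linarith),
        hrange B (hA1.trans hAB) hBT⟩, hAB, hBT⟩, mem_filter.2 ⟨hn, ?_⟩⟩
      have hm : (cnt (A : ℝ) (B : ℝ) (q - 1) : ℝ) ≤ (cnt a b (q - 1) : ℝ) := by
        exact_mod_cast cnt_mono hAa hBb _
      refine le_trans ?_ (neg_le_abs _)
      simp only
      linarith
  have hcard : big.card ≤ ∑ x ∈ pairs, (bad x).card := by
    refine le_trans ?_ card_biUnion_le
    refine card_le_card_of_injOn (fun q => q - 1) hmap fun a ha b hb h => ?_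
    have := (hs a (mem_filter.1 ha).1).1.one_le
    have := (hs b (mem_filter.1 hb).1).1.one_le
    simp only at h
    omega
  have hbound : ∀ x ∈ pairs, ((bad x).card : ℝ) ≤
      K * (T + 2) ^ k * Y * exp (-T - (1 / 100) * T ^ (1 / 5 : ℝ)) := fun x hx => by
    obtain ⟨hx1, hx2, hx3⟩ := mem_filter.1 hx
    exact hbad Y hY1 x.1 x.2 (mem_Icc.1 (mem_product.1 hx1).1).1 hx2 hx3 _
      fun n hn => mem_filter.1 hn
  have hnum : (pairs.card : ℝ) ≤ (T + 2) ^ 2 := by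
    have h1 : pairs.card ≤ ⌊T⌋₊ * ⌊T⌋₊ := by
      refine (card_filter_le _ _).trans ?_
      simp
    calc (pairs.card : ℝ) ≤ (⌊T⌋₊ : ℝ) * (⌊T⌋₊ : ℝ) := by exact_mod_cast h1
      _ ≤ (T + 2) * (T + 2) := by
          have := Nat.floor_le (show (0 : ℝ) ≤ T by linarith)
          gcongr <;> linarith
      _ = _ := by ring
  have hbigle : (big.card : ℝ) ≤ (Y : ℝ) * exp (-T - T ^ (1 / 10 : ℝ)) / 2 := by
    calc (big.card : ℝ) ≤ ∑ x ∈ pairs, ((bad x).card : ℝ) := by exact_mod_cast hcard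
      _ ≤ ∑ _x ∈ pairs, K * (T + 2) ^ k * Y * exp (-T - (1 / 100) * T ^ (1 / 5 : ℝ)) := sum_le_sum hbound
      _ = (pairs.card : ℝ) * (K * (T + 2) ^ k * Y * exp (-T - (1 / 100) * T ^ (1 / 5 : ℝ))) := by simp
      _ ≤ (T + 2) ^ 2 * (K * (T + 2) ^ k * Y * exp (-T - (1 / 100) * T ^ (1 / 5 : ℝ))) :=
          mul_le_mul_of_nonneg_right hnum (by positivity)
      _ = (Y : ℝ) * ((2 * K) * (T + 2) ^ (k + 2) * exp (-T - (1 / 100) * T ^ (1 / 5 : ℝ))) / 2 := by ring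
      _ ≤ _ := by
          refine div_le_div_of_nonneg_right (mul_le_mul_of_nonneg_left ?_ (Nat.cast_nonneg Y)) two_pos.le
          rw [← exp_log (show (0 : ℝ) < 2 * K by positivity),
            ← exp_log (show (0 : ℝ) < (T + 2) ^ (k + 2) by positivity), log_pow, ← exp_add, ← exp_add,
            exp_le_exp]
          linarith
  have hsmallle : (small.card : ℝ) ≤ (Y : ℝ) * exp (-T - T ^ (1 / 10 : ℝ)) / 2 := by
    have h1 : small.card ≤ Nat.sqrt Y := by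
      calc small.card ≤ (Icc 1 (Nat.sqrt Y)).card := card_le_card fun q hq =>
            mem_Icc.2 ⟨(hs q (mem_filter.1 hq).1).1.one_le, (mem_filter.1 hq).2⟩
        _ = _ := by simp
    have h2 : (small.card : ℝ) ≤ sqrt Y := le_trans (Nat.cast_le.2 h1) Real.nat_sqrt_le_real_sqrt
    refine h2.trans ?_
    have hpow : T ^ (1 / 10 : ℝ) ≤ T := by
      have := rpow_le_rpow_of_exponent_le hT1 (show (1 / 10 : ℝ) ≤ 1 by norm_num)
      rwa [rpow_one] at this
    have h4 : 2 * exp (T + T ^ (1 / 10 : ℝ)) ≤ sqrt Y := by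
      have h5 : (2 * J) * exp (T + T ^ (1 / 10 : ℝ)) ≤ exp (4 * T) := by
        rw [← exp_log (show (0 : ℝ) < 2 * J by positivity), ← exp_add, exp_le_exp]
        linarith
      have h6 := hJ Y (by omega)
      exact le_of_mul_le_mul_left (by linarith) hJ0
    have hneg : exp (-T - T ^ (1 / 10 : ℝ)) = (exp (T + T ^ (1 / 10 : ℝ)))⁻¹ := by
      rw [← exp_neg]; congr 1; ring
    rw [hneg, ← div_eq_mul_inv, le_div_iff₀ two_pos, le_div_iff₀ (exp_pos _)]
    nlinarith [mul_self_sqrt (Nat.cast_nonneg (α := ℝ) Y), sqrt_nonneg (Y : ℝ)]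
  have hsplit : (s.card : ℝ) = (small.card : ℝ) + (big.card : ℝ) := by
    exact_mod_cast (card_filter_add_card_filter_not (s := s) (fun q => q ≤ Nat.sqrt Y)).symm
  linarith

lemma summable_log_sq : Summable (fun j : ℕ => 1 / (((j : ℝ) + 2) * log ((j : ℝ) + 2) ^ 2)) := by
  have hl : ∀ j : ℕ, 0 < log ((j : ℝ) + 2) := fun j => log_pos (by
    have := Nat.cast_nonneg (α := ℝ) j; linarith)
  rw [← summable_condensed_iff_of_nonneg (fun j => by positivity) (fun m n hm hmn => by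
    have h1 := hl m
    have h2 : (m : ℝ) ≤ n := by exact_mod_cast hmn
    refine one_div_le_one_div_of_le (by positivity) ?_
    gcongr)]
  rw [← summable_nat_add_iff 1]
  refine Summable.of_nonneg_of_le (fun k => by positivity) (fun k => ?_)
    ((Real.summable_one_div_nat_pow.2 one_lt_two).comp_injective (add_left_injective 1) |>.mul_left 4)
  have hl2 := log_two_gt_d9
  have h1 : ((k + 1 : ℕ) : ℝ) * log 2 ≤ log (((2 ^ (k + 1) : ℕ) : ℝ) + 2) := by
    rw [← log_pow]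
    exact log_le_log (by positivity) (by push_cast; linarith)
  have hk : 0 < ((k + 1 : ℕ) : ℝ) := by positivity
  simp only [Function.comp_apply]
  have h2 : (((k + 1 : ℕ) : ℝ) * log 2) ^ 2 ≤ log (((2 ^ (k + 1) : ℕ) : ℝ) + 2) ^ 2 :=
    pow_le_pow_left₀ (mul_nonneg hk.le (by linarith)) h1 2
  rw [mul_one_div, mul_one_div, div_le_div_iff₀ (by
    have := hl (2 ^ (k + 1)); positivity) (by positivity)]
  set X := (2 : ℝ) ^ (k + 1) with hX
  set Lg := log (((2 ^ (k + 1) : ℕ) : ℝ) + 2)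
  have hcast : (((2 ^ (k + 1) : ℕ) : ℝ)) = X := by rw [hX]; push_cast; rfl
  rw [hcast]
  have hX0 : 0 < X := by positivity
  have h4 : ((k + 1 : ℕ) : ℝ) ≤ 2 * Lg := by nlinarith
  have h3 : ((k + 1 : ℕ) : ℝ) ^ 2 ≤ 4 * Lg ^ 2 := by nlinarith
  nlinarith [mul_le_mul_of_nonneg_left h3 hX0.le, sq_nonneg Lg]

theorem normal_log : NormalLogStatement := by
  classical
  obtain ⟨Y₀, hY₀⟩ := normal_count
  obtain ⟨C, hC0, hC⟩ := exp_neg_u_le
  obtain ⟨K, hK0, hK⟩ := exists_mertens_const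
  set W := ∑' j : ℕ, 1 / (((j : ℝ) + 2) * log ((j : ℝ) + 2) ^ 2) with hW
  have hW0 : 0 ≤ W := tsum_nonneg fun j => by positivity
  set K' := K + 2 + |log (log 2)| with hK'
  set Q : ℝ := 4 * C * (2 ^ 20 * (20 ! : ℝ)) * (2 * W) + 1 with hQ
  have hev : ∀ᶠ t : ℝ in atTop, u Y₀ + 1 ≤ t ∧ 2 * K' + 1 ≤ t ∧ 4 ≤ t ∧
      t ^ (1 / 12 : ℝ) + log (4 * Q) ≤ t ^ (1 / 10 : ℝ) / 2 := by
    refine (eventually_ge_atTop _).and ((eventually_ge_atTop _).and ((eventually_ge_atTop _).and ?_))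
    have h1 := (tendsto_rpow_atTop (show (0 : ℝ) < 1 / 60 by norm_num)).eventually_ge_atTop 4
    have h2 := ((tendsto_rpow_atTop (show (0 : ℝ) < 1 / 10 by norm_num)).eventually_ge_atTop
      (4 * log (4 * Q)))
    filter_upwards [h1, h2, eventually_gt_atTop (0 : ℝ)] with t a b h0
    have e : t ^ (1 / 10 : ℝ) = t ^ (1 / 12 : ℝ) * t ^ (1 / 60 : ℝ) := by
      rw [← rpow_add h0]; norm_num
    have := mul_le_mul_of_nonneg_left a (rpow_nonneg h0.le (1 / 12 : ℝ))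
    linarith
  obtain ⟨t₀, ht₀⟩ := eventually_atTop.1 hev
  refine ⟨t₀, fun t ht s hs => ?_⟩
  obtain ⟨htY, htK, ht4, htQ⟩ := ht₀ t ht
  have hblock : ∀ j ∈ s.image (Nat.log 2),
      ∑ q ∈ s.filter (fun q => Nat.log 2 q = j), 1 / ((q : ℝ) - 1) ≤
        exp (-(t ^ (1 / 10 : ℝ)) / 2) *
          (4 * C * (2 ^ 20 * (20 ! : ℝ)) * (2 * (1 / (((j : ℝ) + 2) * log ((j : ℝ) + 2) ^ 2)) * 4)) := by
    intro j hj
    obtain ⟨q0, hq0, rfl⟩ := mem_image.1 hj
    obtain ⟨hq0p, hq0t, -⟩ := hs q0 hq0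
    set j := Nat.log 2 q0
    set Y := 2 ^ (j + 1) with hY
    have hq0Y : q0 < Y := Nat.lt_pow_succ_log_self (by norm_num) q0
    have hjpow : 2 ^ j ≤ q0 := Nat.pow_log_le_self 2 hq0p.ne_zero
    have hj1 : 1 ≤ j := Nat.log_pos (by norm_num) hq0p.two_le
    have huY : t ≤ u Y := hq0t.trans (u_mono hq0Y.le)
    have hY0 : Y₀ ≤ Y := by
      by_contra hc
      linarith [u_mono (not_le.1 hc).le]
    have hcount := hY₀ Y hY0 (s.filter fun q => Nat.log 2 q = j) fun q hq => by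
      obtain ⟨hq1, hq2⟩ := mem_filter.1 hq
      refine ⟨(hs q hq1).1, ?_, (hs q hq1).2.2⟩
      exact (hq2 ▸ Nat.lt_pow_succ_log_self (by norm_num) q : q < 2 ^ (j + 1)).le
    have h2j : (0 : ℝ) < (2 : ℝ) ^ j := by positivity
    have hsum : ∑ q ∈ s.filter (fun q => Nat.log 2 q = j), 1 / ((q : ℝ) - 1) ≤
        ((s.filter (fun q => Nat.log 2 q = j)).card : ℝ) * (2 / (2 : ℝ) ^ j) := by
      rw [← nsmul_eq_mul, ← sum_const]
      refine sum_le_sum fun q hq => ?_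
      obtain ⟨hq1, hq2⟩ := mem_filter.1 hq
      have hp := (hs q hq1).1
      have h1 : (2 : ℝ) ^ j ≤ (q : ℝ) := by
        exact_mod_cast (hq2 ▸ Nat.pow_log_le_self 2 hp.ne_zero : 2 ^ j ≤ q)
      have h2 : (2 : ℝ) ≤ q := by exact_mod_cast hp.two_le
      rw [div_le_div_iff₀ (by linarith) h2j]
      linarith
    refine hsum.trans ((mul_le_mul_of_nonneg_right hcount (by positivity)).trans ?_)
    have hYr : (Y : ℝ) * (2 / (2 : ℝ) ^ j) = 4 := by
      rw [hY]; push_cast; rw [pow_succ]; field_simp; ring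
    set x := u Y with hx
    have hx0 : 0 < x := by linarith
    have hjx : log ((j : ℝ) + 2) ≤ 2 * x := by
      have h3Y : 3 ≤ Y := by
        have := Nat.pow_le_pow_right (show 1 ≤ 2 by norm_num) (show 2 ≤ j + 1 by omega)
        rw [hY]; omega
      have h := (hK Y h3Y).1
      have hlY : log (Y : ℝ) = ((j : ℝ) + 1) * log 2 := by
        rw [hY]; push_cast; rw [log_pow]; push_cast; ring
      rw [hlY, log_mul (by positivity) (log_pos one_lt_two).ne'] at h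
      have h5 : log ((j : ℝ) + 2) ≤ log 2 + log ((j : ℝ) + 1) := by
        rw [← log_mul two_ne_zero (by positivity)]
        exact log_le_log (by positivity) (by linarith [Nat.cast_nonneg (α := ℝ) j])
      have := log_two_lt_d9
      linarith [neg_abs_le (log (log 2))]
    have hlog0 : 0 < log ((j : ℝ) + 2) := log_pos (by linarith [Nat.cast_nonneg (α := ℝ) j])
    have hexpy : exp (-(x ^ (1 / 10 : ℝ)) / 2) ≤ (2 ^ 20 * (20 ! : ℝ)) / x ^ 2 := by
      have h := pow_div_factorial_le_exp (x ^ (1 / 10 : ℝ) / 2) (by positivity) 20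
      have e : (x ^ (1 / 10 : ℝ)) ^ 20 = x ^ 2 := by
        rw [← rpow_natCast (x ^ (1 / 10 : ℝ)), ← rpow_mul hx0.le]; norm_num
      rw [div_pow, e, div_div] at h
      rw [neg_div, exp_neg]
      exact le_of_le_of_eq (inv_anti₀ (by positivity) h) (inv_div _ _)
    have hmono : exp (-(x ^ (1 / 10 : ℝ))) ≤
        exp (-(t ^ (1 / 10 : ℝ)) / 2) * exp (-(x ^ (1 / 10 : ℝ)) / 2) := by
      rw [← exp_add, exp_le_exp]
      linarith [rpow_le_rpow (show (0 : ℝ) ≤ t by linarith) huY (show (0 : ℝ) ≤ 1 / 10 by norm_num)]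
    have hu : exp (-x) ≤ 2 * (C / ((j : ℝ) + 2)) := by
      refine le_trans (hC (j + 1) Y le_rfl) ?_
      push_cast
      rw [show (j : ℝ) + 1 + 1 = (j : ℝ) + 2 by ring]
      have : 0 ≤ C / ((j : ℝ) + 2) := by positivity
      linarith
    have hx2 : 1 / x ^ 2 ≤ 4 / log ((j : ℝ) + 2) ^ 2 := by
      rw [div_le_div_iff₀ (by positivity) (by positivity)]
      nlinarith [mul_self_le_mul_self hlog0.le hjx]
    calc (Y : ℝ) * exp (-x - x ^ (1 / 10 : ℝ)) * (2 / (2 : ℝ) ^ j)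
        = 4 * (exp (-x) * exp (-(x ^ (1 / 10 : ℝ)))) := by
          rw [mul_right_comm, hYr, ← exp_add, sub_eq_add_neg]
      _ ≤ 4 * ((2 * (C / ((j : ℝ) + 2))) * (exp (-(t ^ (1 / 10 : ℝ)) / 2) *
            ((2 ^ 20 * (20 ! : ℝ)) * (4 / log ((j : ℝ) + 2) ^ 2)))) := by
          gcongr
          refine hmono.trans (mul_le_mul_of_nonneg_left (hexpy.trans ?_) (exp_pos _).le)
          rw [div_eq_mul_one_div]
          exact mul_le_mul_of_nonneg_left hx2 (by positivity)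
      _ = exp (-(t ^ (1 / 10 : ℝ)) / 2) * (4 * C * (2 ^ 20 * (20 ! : ℝ)) *
            (2 * (1 / (((j : ℝ) + 2) * log ((j : ℝ) + 2) ^ 2)) * 4)) := by
          have : (j : ℝ) + 2 ≠ 0 := by positivity
          field_simp
  rw [← sum_fiberwise_of_maps_to (t := s.image (Nat.log 2)) fun q hq => mem_image_of_mem _ hq]
  refine (sum_le_sum hblock).trans ?_
  rw [← mul_sum, ← mul_sum, ← sum_mul, ← mul_sum]
  have hts : ∑ j ∈ s.image (Nat.log 2), 1 / (((j : ℝ) + 2) * log ((j : ℝ) + 2) ^ 2) ≤ W :=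
    summable_log_sq.sum_le_tsum _ fun j _ => by positivity
  have hfin : exp (-(t ^ (1 / 10 : ℝ)) / 2) * (4 * Q) ≤ exp (-t ^ (1 / 12 : ℝ)) := by
    rw [← exp_log (show 0 < 4 * Q by positivity), ← exp_add, exp_le_exp]
    linarith
  refine le_trans ?_ hfin
  refine mul_le_mul_of_nonneg_left ?_ (exp_pos _).le
  rw [hQ]
  have := mul_le_mul_of_nonneg_left hts (show 0 ≤ 32 * (C * (2 ^ 20 * (20 ! : ℝ))) by positivity)
  linarith

end Vale.Agent.P031
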