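import Vale.Agent.P031.Simplex

/-!
P031: level vectors with too many levels above `K` have small relative volume.
-/

open Finset MeasureTheory Real
open scoped Topology Pointwise ENNReal

namespace Vale.Agent.P031

variable {L : ℕ} {T η K C ρ : ℝ}

lemma relax_pos (hT : 0 < T) (hK : 0 < K) {y : Fin L → ℝ} (hy : y ∈ Relax L T η K) {i : ℕ}
    (hi : i ≤ L) : 0 < yy T y i := by
  rcases i with _ | i
  · rwa [yy_zero]
  · exact hK.trans (hy.1 i hi)

lemma relax_decay (hdec : ∀ η : ℝ, 0 ≤ η → ∀ (y : ℕ → ℝ) (n : ℕ), (∀ i ≤ n, 0 ≤ y i) →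
      (∀ i < n, ∑ j ∈ range (n + 1 - i), coef j * y (i + j) ≤ (1 + η) * y i) →
      y n ≤ C * ((1 + η) * ρ) ^ n * y 0)
    (hT : 0 < T) (hK : 0 < K) (hη : 0 ≤ η) {y : Fin L → ℝ} (hy : y ∈ Relax L T η K) {i : ℕ}
    (hi : i ≤ L) : yy T y i ≤ C * ((1 + η) * ρ) ^ i * T := by
  have h := hdec η hη (yy T y) i (fun k hk => (relax_pos hT hK hy (hk.trans hi)).le) fun k hk => by
    refine le_trans ?_ (hy.2 k (by omega))
    refine Finset.sum_le_sum_of_subset_of_nonneg (Finset.range_subset_range.2 (by omega)) ?_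
    intro j hj _
    have := Finset.mem_range.1 hj
    exact mul_nonneg (coef_nonneg j) (relax_pos hT hK hy (by omega)).le
  rwa [yy_zero] at h

/-- The upper bound: one slack carries a fixed fraction of the budget. -/
lemma relax_le (hρ : IsRho ρ) (hC : 0 ≤ C)
    (hdec : ∀ η : ℝ, 0 ≤ η → ∀ (y : ℕ → ℝ) (n : ℕ), (∀ i ≤ n, 0 ≤ y i) →
      (∀ i < n, ∑ j ∈ range (n + 1 - i), coef j * y (i + j) ≤ (1 + η) * y i) →
      y n ≤ C * ((1 + η) * ρ) ^ n * y 0)
    (hT : 0 < T) (hK : 0 < K) (hη : 0 ≤ η) (hL : 1 ≤ L) (hηL : (1 + η) ^ L ≤ 2) {q : ℝ}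
    (hq : 0 < q) (hbudget : (1 + η) * T + 2 * C * η * T * L - gseq L * K ≤ q * T) :
    volume (Relax L T η K) ≤ ENNReal.ofReal (q ^ L) * volume (simplex L T) := by
  set e : Fin L → ℝ := fun i =>
    if i.1 + 1 = L then -K else 2 * C * η * T * ρ ^ (i.1 + 1) with he
  have hsub : Relax L T η K ⊆ Gmap L '' ((fun w => -e + w) '' simplex L (q * T)) := by
    intro y hy
    set Y : ℕ → ℝ := fun m =>
      if m = 0 then ∑ j ∈ range (L + 1), coef j * yy T y j else yy T y m with hY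
    have hYpos : ∀ m, m ≠ 0 → Y m = yy T y m := fun m hm => if_neg hm
    have hcone : ∀ m, ∑ j ∈ range (L + 1 - m), coef j * Y (m + j)
        = ∑ j ∈ range (L + 1 - m), coef j * yy T y (m + j) := by
      intro m
      refine Finset.sum_congr rfl fun j _ => ?_
      rcases eq_or_ne j 0 with rfl | hj
      · simp [coef_zero]
      · rw [hYpos _ (by omega)]
    set Z : ℕ → ℝ := fun m => Y m - ∑ j ∈ range (L + 1 - m), coef j * Y (m + j) with hZ
    have hZ0 : Z 0 = 0 := by
      show Y 0 - _ = 0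
      rw [hcone 0]; simp [hY]
    let z : Fin L → ℝ := fun i => Z (i.1 + 1)
    have hz : ∀ m, m ≤ L → yy 0 z m = Z m := by
      intro m hm
      rcases m with _ | m
      · rw [yy_zero, hZ0]
      · exact yy_succ 0 z ⟨m, hm⟩
    have hYs : ∀ i, i ≤ L → Yseq L (yy 0 z) i = Y i := by
      intro i hi
      rw [show Yseq L (yy 0 z) i = Yseq L Z i from Finset.sum_congr rfl fun k hk => by
        have := Finset.mem_range.1 hk
        rw [hz _ (by omega)]]
      exact Yseq_slack hi Y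
    refine ⟨z, ⟨e + z, ⟨fun i => ?_, ?_⟩, by simp⟩, ?_⟩
    · have hi : i.1 + 1 ≤ L := i.2
      simp only [Pi.add_apply, he, z]
      split_ifs with h
      · have h1 : Z (i.1 + 1) = yy T y (i.1 + 1) := by
          show Y _ - _ = _
          rw [hcone, hYpos _ (Nat.succ_ne_zero _), show L + 1 - (i.1 + 1) = 1 by omega]
          simp [coef_zero]
        rw [h1]
        linarith [hy.1 i.1 i.2]
      · have h1 := hy.2 (i.1 + 1) hi
        have h2 : -(η * yy T y (i.1 + 1)) ≤ Z (i.1 + 1) := by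
          show _ ≤ Y _ - _
          rw [hcone, hYpos _ (Nat.succ_ne_zero _)]
          linarith
        have h3 : (1 + η) ^ (i.1 + 1) ≤ 2 := (pow_le_pow_right₀ (by linarith) hi).trans hηL
        have h4 : yy T y (i.1 + 1) ≤ C * (2 * ρ ^ (i.1 + 1)) * T := by
          refine (relax_decay hdec hT hK hη hy hi).trans ?_
          rw [mul_pow]
          exact mul_le_mul_of_nonneg_right (mul_le_mul_of_nonneg_left
            (mul_le_mul_of_nonneg_right h3 (pow_nonneg hρ.pos.le _)) hC) hT.le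
        have := mul_le_mul_of_nonneg_left h4 hη
        linarith
    · have h1 : ∑ i : Fin L, gseq (i.1 + 1) * z i ≤ (1 + η) * T := by
        rw [← budget_eq, hYs 0 (Nat.zero_le _)]
        have := hy.2 0 (Nat.zero_le _)
        rw [yy_zero] at this
        simpa [hY] using this
      let last : Fin L := ⟨L - 1, by omega⟩
      have h2 : ∑ i : Fin L, gseq (i.1 + 1) * e i ≤ 2 * C * η * T * L - gseq L * K := by
        have h3 : ∀ i : Fin L, gseq (i.1 + 1) * e i ≤
            2 * C * η * T - (if i = last then gseq L * K else 0) := by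
          intro i
          have hnn : 0 ≤ 2 * C * η * T := by positivity
          by_cases h : i.1 + 1 = L
          · have : i = last := Fin.ext (show i.1 = L - 1 by omega)
            rw [if_pos this]
            simp only [he, if_pos h, h]
            linarith
          · have : i ≠ last := fun hc => h (by rw [hc]; show L - 1 + 1 = L; omega)
            rw [if_neg this, sub_zero]
            simp only [he, if_neg h]
            calc gseq (i.1 + 1) * (2 * C * η * T * ρ ^ (i.1 + 1))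
                = 2 * C * η * T * (gseq (i.1 + 1) * ρ ^ (i.1 + 1)) := by ring
              _ ≤ 2 * C * η * T := mul_le_of_le_one_right hnn (gseq_mul_pow_le hρ _)
        refine (Finset.sum_le_sum fun i _ => h3 i).trans_eq ?_
        simp [Finset.sum_sub_distrib, mul_comm, mul_left_comm, mul_assoc]
      simp only [Pi.add_apply, mul_add, Finset.sum_add_distrib]
      linarith
    · funext i
      rw [Gmap_apply, hYs _ i.2, hYpos _ (Nat.succ_ne_zero _), yy_succ]
  refine (measure_mono hsub).trans_eq ?_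
  rw [volume_Gmap_image, Set.image_add_left, measure_preimage_add, volume_simplex_smul L hq]

/-- Slacks of moderate size make up at least half of the simplex. -/
lemma simplex_le_two_mul_moderate (hT : 0 < T) {b : ℝ} (hb0 : 0 ≤ b) (hb : b < 1)
    (hhalf : (L : ℝ) * (1 - b) ^ L ≤ 1 / 2) :
    volume (simplex L T) ≤
      2 * volume {w | w ∈ simplex L T ∧ ∀ i : Fin L, gseq (i.1 + 1) * w i ≤ b * T} := by
  set G := {w | w ∈ simplex L T ∧ ∀ i : Fin L, gseq (i.1 + 1) * w i ≤ b * T}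
  set p := ENNReal.ofReal ((1 - b) ^ L) * volume (simplex L T) with hp
  have hcov : simplex L T ⊆ G ∪ ⋃ i : Fin L,
      (fun w => Pi.single i (b * T / gseq (i.1 + 1)) + w) '' simplex L ((1 - b) * T) := by
    intro w hw
    by_cases h : ∀ i : Fin L, gseq (i.1 + 1) * w i ≤ b * T
    · exact Or.inl ⟨hw, h⟩
    obtain ⟨i, hi⟩ := not_forall.1 h
    refine Or.inr (Set.mem_iUnion.2 ⟨i, -Pi.single i (b * T / gseq (i.1 + 1)) + w, ⟨fun j => ?_, ?_⟩,
      by simp⟩)
    · rcases eq_or_ne j i with rfl | hji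
      · simp only [Pi.add_apply, Pi.neg_apply, Pi.single_eq_same]
        rw [le_neg_add_iff_add_le, add_zero, div_le_iff₀ (gseq_pos _), mul_comm (w j)]
        exact (not_le.1 hi).le
      · simp [hji, hw.1 j]
    · have e : ∑ j : Fin L, gseq (j.1 + 1) *
          (-Pi.single i (b * T / gseq (i.1 + 1)) + w : Fin L → ℝ) j
          = ∑ j : Fin L, gseq (j.1 + 1) * w j - b * T := by
        simp only [Pi.add_apply, Pi.neg_apply, mul_add, Finset.sum_add_distrib, mul_neg,
          Finset.sum_neg_distrib, Pi.single_apply, mul_ite, mul_zero, Finset.sum_ite_eq',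
          Finset.mem_univ, if_true]
        rw [mul_div_cancel₀ _ (gseq_pos _).ne']
        ring
      rw [e]
      linarith [hw.2]
  have h1 : volume (simplex L T) ≤ volume G + (L : ℝ≥0∞) * p := by
    refine ((measure_mono hcov).trans (measure_union_le _ _)).trans (add_le_add le_rfl ?_)
    refine (measure_iUnion_fintype_le _ _).trans_eq ?_
    simp only [Set.image_add_left, measure_preimage_add,
      volume_simplex_smul L (sub_pos.2 hb), Finset.sum_const, Finset.card_univ, Fintype.card_fin,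
      nsmul_eq_mul, hp]
  have h2 : (L : ℝ≥0∞) * p ≤ ENNReal.ofReal (1 / 2) * volume (simplex L T) := by
    rw [hp, ← mul_assoc, ← ENNReal.ofReal_natCast, ← ENNReal.ofReal_mul L.cast_nonneg]
    exact mul_le_mul' (ENNReal.ofReal_le_ofReal hhalf) le_rfl
  have hfin := volume_simplex_ne_top L T
  have hGfin : volume G ≠ ⊤ := ne_top_of_le_ne_top hfin (measure_mono fun w hw => hw.1)
  have h3 := h1.trans (add_le_add le_rfl h2)
  rw [← ENNReal.ofReal_toReal hfin, ← ENNReal.ofReal_toReal hGfin,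
    ← ENNReal.ofReal_mul (by norm_num : (0 : ℝ) ≤ 1 / 2),
    ← ENNReal.ofReal_add ENNReal.toReal_nonneg (by positivity),
    ENNReal.ofReal_le_ofReal_iff (by positivity)] at h3
  rw [← ENNReal.ofReal_toReal hfin, ← ENNReal.ofReal_toReal hGfin,
    show (2 : ℝ≥0∞) = ENNReal.ofReal 2 by norm_num, ← ENNReal.ofReal_mul two_pos.le]
  exact ENNReal.ofReal_le_ofReal (by linarith)

/-- The lower bound for the strict region. -/
lemma simplex_le_strict (hρ : IsRho ρ) (hC : 0 ≤ C)
    (hdec : ∀ η : ℝ, 0 ≤ η → ∀ (y : ℕ → ℝ) (n : ℕ), (∀ i ≤ n, 0 ≤ y i) →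
      (∀ i < n, ∑ j ∈ range (n + 1 - i), coef j * y (i + j) ≤ (1 + η) * y i) →
      y n ≤ C * ((1 + η) * ρ) ^ n * y 0)
    {c : ℝ} (hc : 0 < c) (hlow : ∀ n, c ≤ gseq n * ρ ^ n)
    (hT : 0 < T) (hη : 0 ≤ η) {b lam : ℝ} (hb0 : 0 ≤ b) (hb : b < 1) (hl0 : 0 ≤ lam)
    (hl1 : lam < 1) (hhalf : (L : ℝ) * (1 - b) ^ L ≤ 1 / 2)
    (hKL : 2 * K < lam * Real.exp (-2) * (T * ρ ^ L))
    (hslack : η * (C + 1) ≤ lam * Real.exp (-2) / ((L : ℝ) + 2))
    (hgap : η * (C + 1) + b / c ≤ lam * Real.exp (-2) * (1 - ρ)) :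
    ENNReal.ofReal ((1 - lam) ^ L) * volume (simplex L T) ≤ 2 * volume (Strict L T η K) ∧
    ENNReal.ofReal ((1 - lam) ^ L) * volume (simplex L T) ≤ 2 * volume (Strict L T η (2 * K)) := by
  suffices key : ∀ K' : ℝ, K' < lam * Real.exp (-2) * (T * ρ ^ L) →
      ENNReal.ofReal ((1 - lam) ^ L) * volume (simplex L T) ≤ 2 * volume (Strict L T η K') by
    refine ⟨key K ?_, key (2 * K) hKL⟩
    rcases le_or_gt 0 K with hK | hK
    · linarith
    · exact hK.trans_le (mul_nonneg (mul_nonneg hl0 (Real.exp_pos _).le)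
        (mul_nonneg hT.le (pow_nonneg hρ.pos.le _)))
  intro K' hK'
  set σ : ℝ := 1 / ((L : ℝ) + 2) with hσ
  have hσ0 : 0 ≤ σ := by positivity
  have hσ2 : σ ≤ 1 / 2 := by rw [hσ]; gcongr; linarith [L.cast_nonneg (α := ℝ)]
  set r := ρ * (1 - σ) with hr
  have hρ0 := hρ.pos
  have hr0 : 0 ≤ r := mul_nonneg hρ0.le (by linarith)
  have hrρ : r ≤ ρ := mul_le_of_le_one_right hρ0.le (by linarith)
  have hrpow : ∀ i, r ^ i ≤ ρ ^ i := fun i => pow_le_pow_left₀ hr0 hrρ i
  have hrlow : ∀ i, i ≤ L → Real.exp (-2) * ρ ^ i ≤ r ^ i := by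
    intro i hi
    rw [hr, mul_pow, mul_comm (ρ ^ i)]
    exact mul_le_mul_of_nonneg_right ((exp_neg_two_le L).trans
      (pow_le_pow_of_le_one (by linarith) (by linarith) hi)) (pow_nonneg hρ0.le i)
  set G := {w | w ∈ simplex L T ∧ ∀ i : Fin L, gseq (i.1 + 1) * w i ≤ b * T}
  let y0 : Fin L → ℝ := fun i => lam * (T * r ^ (i.1 + 1))
  have hsub : (fun v => y0 + v) '' ((1 - lam) • (Gmap L '' G)) ⊆ Strict L T η K' := by
    rintro _ ⟨_, ⟨_, ⟨w, ⟨hw, hwb⟩, rfl⟩, rfl⟩, rfl⟩
    set W := Yseq L (yy 0 w) with hW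
    have hw0 : ∀ m, 0 ≤ yy 0 w m := by
      intro m; simp only [yy]; split_ifs <;> first | rfl | exact hw.1 _
    have hW0 : ∀ i, 0 ≤ W i := fun i =>
      Finset.sum_nonneg fun k _ => mul_nonneg (gseq_nonneg _) (hw0 _)
    have hbud : W 0 ≤ T := by rw [hW, budget_eq]; exact hw.2
    have hWle : ∀ i, i ≤ L → W i ≤ C * ρ ^ i * T := by
      intro i hi
      have h := hdec 0 le_rfl W i (fun k _ => hW0 k) fun k hk => by
        refine le_trans (Finset.sum_le_sum_of_subset_of_nonneg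
          (Finset.range_subset_range.2 (show i + 1 - k ≤ L + 1 - k by omega))
          fun j _ _ => mul_nonneg (coef_nonneg j) (hW0 _)) ?_
        rw [hW, cone_Yseq (by omega : k ≤ L)]
        have := hw0 k
        linarith
      rw [add_zero, one_mul] at h
      exact h.trans (mul_le_mul_of_nonneg_left hbud (mul_nonneg hC (pow_nonneg hρ0.le i)))
    set v : Fin L → ℝ := y0 + (1 - lam) • Gmap L w with hv
    have hY : ∀ i, 1 ≤ i → i ≤ L →
        yy T v i = lam * (T * r ^ i) + (1 - lam) * W i := by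
      intro i hi hiL
      obtain ⟨k, rfl⟩ : ∃ k, i = k + 1 := ⟨i - 1, by omega⟩
      rw [show yy T v (k + 1) = v ⟨k, hiL⟩ from yy_succ T v ⟨k, hiL⟩]
      simp [hv, y0, hW, Gmap_apply]
    have hsum : ∀ i, i ≤ L → ∑ j ∈ range (L + 1 - i), coef j * yy T v (i + j) ≤
        lam * (T * r ^ i * (1 - σ)) + (1 - lam) * (W i - yy 0 w i) := by
      intro i hi
      calc ∑ j ∈ range (L + 1 - i), coef j * yy T v (i + j)
          ≤ ∑ j ∈ range (L + 1 - i), (lam * (T * r ^ i * (1 - σ)) * (coef j * ρ ^ j)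
              + (1 - lam) * (coef j * W (i + j))) := by
            refine Finset.sum_le_sum fun j hj => ?_
            have hjL := Finset.mem_range.1 hj
            rcases eq_or_ne j 0 with rfl | hj0
            · simp [coef_zero]
            rw [hY (i + j) (by omega) (by omega), pow_add]
            have h2 : r ^ j ≤ ρ ^ j * (1 - σ) := by
              rw [hr, mul_pow]
              exact mul_le_mul_of_nonneg_left
                (pow_le_of_le_one (by linarith) (by linarith) hj0) (pow_nonneg hρ0.le j)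
            have := mul_le_mul_of_nonneg_left h2 (show 0 ≤ coef j * lam * T * r ^ i from
              mul_nonneg (mul_nonneg (mul_nonneg (coef_nonneg j) hl0) hT.le) (pow_nonneg hr0 i))
            linarith
        _ ≤ _ := by
            rw [Finset.sum_add_distrib, ← Finset.mul_sum, ← Finset.mul_sum, hW, cone_Yseq hi]
            refine add_le_add (mul_le_of_le_one_right ?_ (hρ.sum_le_one _)) le_rfl
            exact mul_nonneg hl0 (mul_nonneg (mul_nonneg hT.le (pow_nonneg hr0 i)) (by linarith))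
    have hyle : ∀ i, i ≤ L → yy T v i ≤ (C + 1) * ρ ^ i * T := by
      intro i hi
      rcases i with _ | i
      · rw [yy_zero]; simp only [pow_zero, mul_one]
        exact le_mul_of_one_le_left hT.le (by linarith)
      rw [hY (i + 1) (by omega) hi]
      have h1 : lam * (T * r ^ (i + 1)) ≤ T * ρ ^ (i + 1) :=
        (mul_le_of_le_one_left (mul_nonneg hT.le (pow_nonneg hr0 _)) hl1.le).trans
          (mul_le_mul_of_nonneg_left (hrpow _) hT.le)
      have h2 : (1 - lam) * W (i + 1) ≤ C * ρ ^ (i + 1) * T :=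
        (mul_le_of_le_one_left (hW0 _) (by linarith)).trans (hWle _ hi)
      linarith
    refine ⟨fun i hi => ⟨?_, ?_⟩, fun i hi => ?_⟩
    · show K' < yy T v (i + 1)
      rw [hY (i + 1) (by omega) hi]
      have h1 : ρ ^ L ≤ ρ ^ (i + 1) := pow_le_pow_of_le_one hρ0.le hρ.2.1.le hi
      have h2 := mul_le_mul_of_nonneg_left (hrlow (i + 1) hi) (mul_nonneg hl0 hT.le)
      have h3 := mul_le_mul_of_nonneg_left h1
        (mul_nonneg (mul_nonneg hl0 hT.le) (Real.exp_pos (-2)).le)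
      have h4 : 0 ≤ (1 - lam) * W (i + 1) := mul_nonneg (by linarith) (hW0 _)
      linarith
    · -- ordering
      have hWstep : W (i + 1) - b * T * ρ ^ i / c ≤ (if i = 0 then T else W i) := by
        have hbT : ∀ k : Fin L, w k ≤ b * T * ρ ^ k.1 / c := by
          intro k
          rw [le_div_iff₀ hc]
          have h1 := mul_le_mul_of_nonneg_left (hlow (k.1 + 1)) (hw.1 k)
          have h2 := mul_le_mul_of_nonneg_right (hwb k) (pow_nonneg hρ0.le (k.1 + 1))
          have h3 : ρ ^ (k.1 + 1) ≤ ρ ^ k.1 := pow_le_pow_of_le_one hρ0.le hρ.2.1.le (by omega)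
          have h4 := mul_le_mul_of_nonneg_left h3 (mul_nonneg hb0 hT.le)
          linarith
        have key : W (i + 1) - yy 0 w (i + 1) ≤ W i := by
          simp only [hW, Yseq]
          rw [show L + 1 - i = L - i + 1 by omega, Finset.sum_range_succ' _ (L - i),
            show L + 1 - (i + 1) = L - i by omega]
          have h0 : 0 ≤ gseq 0 * yy 0 w (i + 0) := mul_nonneg (gseq_nonneg _) (hw0 _)
          have h5 : ∑ k ∈ range (L - i), gseq k * yy 0 w (i + 1 + k) - yy 0 w (i + 1) ≤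
              ∑ k ∈ range (L - i), gseq (k + 1) * yy 0 w (i + (k + 1)) := by
            rw [show L - i = L - i - 1 + 1 by omega, Finset.sum_range_succ' _ (L - i - 1),
              Finset.sum_range_succ' _ (L - i - 1), gseq_zero, one_mul]
            have h6 : ∑ k ∈ range (L - i - 1), gseq (k + 1) * yy 0 w (i + 1 + (k + 1)) ≤
                ∑ k ∈ range (L - i - 1), gseq (k + 1 + 1) * yy 0 w (i + (k + 1 + 1)) := by
              refine Finset.sum_le_sum fun k _ => ?_
              rw [show i + (k + 1 + 1) = i + 1 + (k + 1) by ring]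
              exact mul_le_mul_of_nonneg_right (gseq_mono_succ (by omega)) (hw0 _)
            have h7 : 0 ≤ gseq (0 + 1) * yy 0 w (i + (0 + 1)) :=
              mul_nonneg (gseq_nonneg _) (hw0 _)
            simp only [Nat.add_zero]
            linarith
          linarith
        have := hbT ⟨i, hi⟩
        rw [← yy_succ 0 w ⟨i, hi⟩] at this
        simp only at this
        split_ifs with h0
        · subst h0; linarith
        · linarith
      show yy T v (i + 1) ≤ (1 - η) * yy T v i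
      rw [hY (i + 1) (by omega) hi]
      have hyi : yy T v i = lam * (T * r ^ i) + (1 - lam) * (if i = 0 then T else W i) := by
        split_ifs with h0
        · subst h0; rw [yy_zero]; ring
        · exact hY i (by omega) (by omega)
      rw [show (1 - η) * yy T v i = yy T v i - η * yy T v i by ring, le_sub_iff_add_le]
      refine le_trans (add_le_add le_rfl (mul_le_mul_of_nonneg_left (hyle i hi.le) hη)) ?_
      rw [hyi]
      have h1 := mul_le_mul_of_nonneg_left hWstep (show 0 ≤ 1 - lam by linarith)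
      have h2 : (1 - lam) * (b * T * ρ ^ i / c) ≤ b * T * ρ ^ i / c :=
        mul_le_of_le_one_left (by positivity) (by linarith)
      have h3 := mul_le_mul_of_nonneg_left hgap (mul_nonneg hT.le (pow_nonneg hρ0.le i))
      have h4 : lam * Real.exp (-2) * (1 - ρ) * (T * ρ ^ i) ≤ lam * (T * r ^ i) * (1 - r) := by
        have := mul_le_mul (hrlow i hi.le) (show 1 - ρ ≤ 1 - r by linarith)
          (by linarith [hρ.2.1]) (pow_nonneg hr0 i)
        have := mul_le_mul_of_nonneg_left this (mul_nonneg hl0 hT.le)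
        linarith
      rw [pow_succ]
      linarith [show T * ρ ^ i * (η * (C + 1) + b / c) =
        η * ((C + 1) * ρ ^ i * T) + b * T * ρ ^ i / c by ring]
    · refine (hsum i hi).trans ?_
      rw [show (1 - η) * yy T v i = yy T v i - η * yy T v i by ring, le_sub_iff_add_le]
      refine le_trans (add_le_add le_rfl (mul_le_mul_of_nonneg_left (hyle i hi) hη)) ?_
      have h1 := mul_le_mul_of_nonneg_left hslack (mul_nonneg hT.le (pow_nonneg hρ0.le i))
      have h2 : lam * Real.exp (-2) / ((L : ℝ) + 2) * (T * ρ ^ i) ≤ lam * (T * r ^ i) * σ := by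
        have := mul_le_mul_of_nonneg_left (hrlow i hi) (mul_nonneg (mul_nonneg hl0 hσ0) hT.le)
        rw [hσ] at this ⊢
        ring_nf at this ⊢
        linarith
      rcases Nat.eq_zero_or_pos i with rfl | hi0
      · rw [show yy T v 0 = T from yy_zero T v]
        have := mul_le_mul_of_nonneg_left hbud (show 0 ≤ 1 - lam by linarith)
        have := mul_nonneg (show 0 ≤ 1 - lam by linarith) (hw0 0)
        simp only [pow_zero, mul_one] at h1 h2 ⊢
        linarith
      · rw [hY i hi0 hi]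
        have := mul_nonneg (show 0 ≤ 1 - lam by linarith) (hw0 i)
        linarith
  calc ENNReal.ofReal ((1 - lam) ^ L) * volume (simplex L T)
      ≤ ENNReal.ofReal ((1 - lam) ^ L) * (2 * volume G) :=
        mul_le_mul' le_rfl (simplex_le_two_mul_moderate hT hb0 hb hhalf)
    _ = 2 * (ENNReal.ofReal ((1 - lam) ^ L) * volume G) := by ring
    _ ≤ 2 * volume (Strict L T η K') := by
        refine mul_le_mul' le_rfl (le_trans (le_of_eq ?_) (measure_mono hsub))
        rw [Set.image_add_left, measure_preimage_add,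
          MeasureTheory.Measure.addHaar_smul_of_nonneg _ (by linarith), volume_Gmap_image,
          Module.finrank_fin_fun]

lemma log_quad_le_sqrt {x : ℝ} (hx : 1 ≤ x) : (1 + Real.log x) ^ 2 ≤ 25 * Real.sqrt x := by
  have h0 : 0 ≤ Real.log x := Real.log_nonneg hx
  have h := Real.log_le_rpow_div (show 0 ≤ x by linarith) (show (0 : ℝ) < 1 / 4 by norm_num)
  have h1 : 1 ≤ x ^ (1 / 4 : ℝ) := Real.one_le_rpow hx (by norm_num)
  calc (1 + Real.log x) ^ 2 ≤ (5 * x ^ (1 / 4 : ℝ)) ^ 2 := by gcongr; linarith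
    _ = 25 * Real.sqrt x := by
      rw [mul_pow, ← Real.rpow_natCast (x ^ (1 / 4 : ℝ)) 2, ← Real.rpow_mul (by linarith),
        Real.sqrt_eq_rpow]
      norm_num

lemma log_rho_eq (ρ : ℝ) : Real.log ρ = -Real.log (1 / ρ) := by
  rw [one_div, Real.log_inv]; ring

lemma levels_lower (hρ : 0 < ρ) {lr : ℝ} (hlr : lr = Real.log (1 / ρ)) (hlr0 : 0 < lr)
    {C₂ : ℝ} (hC₂ : 0 < C₂) (hT : 0 < T) (hK : 0 < K) (hTL : T * ρ ^ L < C₂ * K)
    (hsmall : |Real.log C₂| + Real.log K ≤ Real.log T / 2) :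
    1 / (2 * lr) * Real.log T ≤ L := by
  have h := Real.log_lt_log (mul_pos hT (pow_pos hρ L)) hTL
  rw [Real.log_mul hT.ne' (pow_pos hρ L).ne', Real.log_pow,
    Real.log_mul hC₂.ne' hK.ne', log_rho_eq ρ, ← hlr] at h
  have := le_abs_self (Real.log C₂)
  rw [div_mul_eq_mul_div, one_mul, div_le_iff₀ (by positivity)]
  linarith

lemma eta_rho_le_sqrt (hρ : IsRho ρ) (hη : 0 ≤ η) (h : η ≤ (1 - ρ) / 3) :
    (1 + η) * ρ ≤ √ρ := by
  have hρ0 := hρ.pos
  have hρ1 := hρ.2.1
  rw [Real.le_sqrt (by positivity) hρ0.le]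
  have h1 : (1 + η) ^ 2 ≤ 2 - ρ := by nlinarith
  have h2 := mul_le_mul_of_nonneg_right h1 (mul_nonneg hρ0.le hρ0.le)
  have h3 := mul_nonneg hρ0.le (sq_nonneg (1 - ρ))
  nlinarith

lemma levels_upper (hρ : IsRho ρ) {lr : ℝ} (hlr : lr = Real.log (1 / ρ)) (hlr0 : 0 < lr)
    (hC : 0 < C) (hT : 0 < T) (hK : 1 ≤ K) (hη : 0 ≤ η) (hη1 : η ≤ (1 - ρ) / 3)
    (hlC : |Real.log C| ≤ Real.log T) (h : K < C * ((1 + η) * ρ) ^ L * T) :
    (L : ℝ) ≤ 4 / lr * Real.log T := by
  have hρ0 := hρ.pos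
  have h1 : K < C * √ρ ^ L * T := by
    refine h.trans_le ?_
    gcongr
    exact eta_rho_le_sqrt hρ hη hη1
  have h2 := Real.log_lt_log (by linarith) h1
  rw [Real.log_mul (by positivity) hT.ne', Real.log_mul hC.ne' (by positivity), Real.log_pow,
    Real.log_sqrt hρ0.le, log_rho_eq ρ, ← hlr] at h2
  have := le_abs_self (Real.log C)
  have := Real.log_nonneg hK
  rw [div_mul_eq_mul_div, le_div_iff₀ hlr0]
  linarith

lemma one_add_pow_le_two (hη : 0 ≤ η) (h : η * L ≤ 1 / 2) : (1 + η) ^ L ≤ 2 := by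
  have h1 : (1 + η) ^ L ≤ Real.exp (η * L) := by
    rw [mul_comm, Real.exp_nat_mul]
    exact pow_le_pow_left₀ (by linarith) (by linarith [Real.add_one_le_exp η]) L
  refine h1.trans ((Real.exp_le_exp.2 h).trans ?_)
  have h5 := Real.exp_one_lt_d9
  have h6 : Real.exp (1 / 2) * Real.exp (1 / 2) = Real.exp 1 := by
    rw [← Real.exp_add]; norm_num
  nlinarith [Real.exp_pos (1 / 2 : ℝ)]

lemma slab_small {A B s : ℝ} (hA : 0 ≤ A) (hB : 0 < B) (hs : 1 < s)
    (hL1 : B * (s * s) ≤ L) (hL2 : (L : ℝ) ≤ A * (s * s)) (hbig : 48 * A / B ^ 4 ≤ s * s) :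
    (L : ℝ) * (1 - 1 / s) ^ L ≤ 1 / 2 := by
  have hs0 : 0 < s := by linarith
  set x := (L : ℝ) * (1 / s) with hx
  have hx1 : B * s ≤ x := by
    rw [hx, mul_one_div, le_div_iff₀ hs0]; linarith
  have hb1 : 1 / s ≤ 1 := by rw [div_le_one hs0]; linarith
  have h1 : (1 - 1 / s) ^ L ≤ Real.exp (-x) := by
    rw [hx, ← mul_neg, Real.exp_nat_mul]
    exact pow_le_pow_left₀ (by linarith) (by linarith [Real.add_one_le_exp (-(1 / s))]) L
  have hx0 : 0 ≤ x := by positivity
  have h2 := Real.pow_div_factorial_le_exp x hx0 4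
  rw [show ((Nat.factorial 4 : ℕ) : ℝ) = 24 by norm_num [Nat.factorial]] at h2
  have h3 : (B * s) ^ 4 / 24 ≤ Real.exp x :=
    le_trans (div_le_div_of_nonneg_right (pow_le_pow_left₀ (by positivity) hx1 4) (by norm_num)) h2
  calc (L : ℝ) * (1 - 1 / s) ^ L ≤ A * (s * s) * Real.exp (-x) :=
        mul_le_mul hL2 h1 (pow_nonneg (by linarith) _) (by positivity)
    _ ≤ 1 / 2 := by
        rw [Real.exp_neg, ← div_eq_mul_inv, div_le_iff₀ (Real.exp_pos x)]
        rw [div_le_iff₀ (by positivity)] at hbig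
        have h4 := mul_le_mul_of_nonneg_right hbig (mul_self_nonneg s)
        have h5 : (B * s) ^ 4 = s * s * B ^ 4 * (s * s) := by ring
        linarith

lemma exists_shift (hρ : IsRho ρ) {lr : ℝ} (hlr : lr = Real.log (1 / ρ)) (hlr0 : 0 < lr)
    {Q : ℝ} (hQ : 0 < Q) {l : ℝ} (hl : 1 ≤ l) :
    ∃ m : ℕ, (m : ℝ) ≤ (|Real.log Q| + lr + 1) / lr * (1 + Real.log l) ∧ Q * √l * ρ ^ m ≤ 1 := by
  have hρ0 := hρ.pos
  have hs0 : 0 < √l := Real.sqrt_pos.2 (by linarith)
  have hlog : 0 ≤ Real.log l := Real.log_nonneg hl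
  have hlogQs : Real.log (Q * √l) = Real.log Q + Real.log l / 2 := by
    rw [Real.log_mul hQ.ne' hs0.ne', Real.log_sqrt (by linarith)]
  refine ⟨⌈Real.log (Q * √l) / lr⌉₊, ?_, ?_⟩
  · have h1 : (⌈Real.log (Q * √l) / lr⌉₊ : ℝ) ≤ (|Real.log Q| + Real.log l / 2) / lr + 1 := by
      have h2 : Real.log (Q * √l) / lr ≤ (|Real.log Q| + Real.log l / 2) / lr := by
        rw [hlogQs]; gcongr; exact le_abs_self _
      refine le_trans (Nat.cast_le.2 (Nat.ceil_mono h2)) (Nat.ceil_lt_add_one ?_).le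
      positivity
    refine h1.trans ?_
    rw [div_add_one hlr0.ne', div_mul_eq_mul_div]
    gcongr
    nlinarith [mul_nonneg (abs_nonneg (Real.log Q)) hlog, mul_nonneg hlr0.le hlog]
  · set m := ⌈Real.log (Q * √l) / lr⌉₊
    have h1 : Real.log (Q * √l) / lr ≤ m := Nat.le_ceil _
    rw [div_le_iff₀ hlr0] at h1
    have h2 : Q * √l ≤ (1 / ρ) ^ m := by
      rw [← Real.exp_log (mul_pos hQ hs0), ← Real.exp_log (pow_pos (one_div_pos.2 hρ0) m),
        Real.exp_le_exp, Real.log_pow, ← hlr]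
      exact h1
    rw [one_div, inv_pow] at h2
    have := mul_le_mul_of_nonneg_right h2 (pow_nonneg hρ0.le m)
    rwa [inv_mul_cancel₀ (pow_pos hρ0 m).ne'] at this

lemma threshold_lt {C3 s : ℝ} {m L' : ℕ} (hρ : 0 < ρ) (hC : 0 < C) (hC3 : 0 < C3) (hs : 0 < s)
    (hT : 0 < T) (hm : 8 * C * Real.exp 2 / C3 * s * ρ ^ m ≤ 1)
    (hK : K < 2 * C * ρ ^ (L' + m) * T) :
    2 * K < C3 / s * Real.exp (-2) * (T * ρ ^ L') := by
  have h1 : K * (4 * (Real.exp 2 * s)) < C3 * (T * ρ ^ L') := by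
    have h2 := mul_lt_mul_of_pos_right hK (show 0 < 4 * (Real.exp 2 * s) by positivity)
    have h3 := mul_le_mul_of_nonneg_left hm (show 0 ≤ C3 * (T * ρ ^ L') by positivity)
    have h4 : C3 * (T * ρ ^ L') * (8 * C * Real.exp 2 / C3 * s * ρ ^ m)
        = 2 * C * ρ ^ (L' + m) * T * (4 * (Real.exp 2 * s)) := by
      rw [pow_add]; field_simp; ring
    linarith
  have h5 : C3 / s * Real.exp (-2) * (T * ρ ^ L') = C3 * (T * ρ ^ L') / (Real.exp 2 * s) := by
    rw [Real.exp_neg]; field_simp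
  rw [h5, lt_div_iff₀ (by positivity)]
  have : 0 < C3 * (T * ρ ^ L') := by positivity
  linarith

lemma total_log_le {a0 B A A2 A3 C3 s lr Lb q bd lam : ℝ} {m L' : ℕ}
    (hq : q ≤ -(a0 / 2)) (ha0 : 0 ≤ a0) (hL : B * (s * s) ≤ (L' : ℝ) + m)
    (hbd : bd ≤ Lb) (hmLb : (m : ℝ) * Lb ≤ A2 * A3 * (25 * s)) (hlam : -(2 * lam) ≤ lr)
    (hlamA : (L' : ℝ) * (2 * lam) ≤ 2 * C3 * A * s) (h2 : Real.log 2 ≤ s)
    (hfin : (25 * A2 * A3 + 2 * C3 * A + 1) * s ≤ a0 * B / 4 * (s * s)) :
    ((L' : ℝ) + m) * q + (m : ℝ) * bd + (Real.log 2 - (L' : ℝ) * lr) ≤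
      -(a0 * B / 4) * (s * s) := by
  have h1 := mul_le_mul_of_nonneg_left hq (show 0 ≤ (L' : ℝ) + m by positivity)
  have h3 := mul_le_mul_of_nonneg_left hbd m.cast_nonneg
  have h4 := mul_le_mul_of_nonneg_left hlam (L'.cast_nonneg (α := ℝ))
  have h5 := mul_le_mul_of_nonneg_left hL (show 0 ≤ a0 / 2 by linarith)
  linarith

lemma neg_two_mul_le_log {x : ℝ} (h0 : 0 ≤ x) (h : x ≤ 1 / 2) : -(2 * x) ≤ Real.log (1 - x) := by
  have h7 := Real.one_sub_inv_le_log_of_pos (show 0 < 1 - x by linarith)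
  have h8 : (1 - x)⁻¹ ≤ 1 + 2 * x := by
    rw [inv_le_iff_one_le_mul₀ (by linarith)]
    nlinarith [mul_nonneg h0 (show 0 ≤ 1 - 2 * x by linarith)]
  linarith

lemma coord_div_le {c C₂ : ℝ} {m L' i : ℕ} (hρ : 0 < ρ) (hρ1 : ρ ≤ 1) (hc : 0 < c)
    (hlow : ∀ n, c ≤ gseq n * ρ ^ n) (hT : 0 < T) (hTL : T * ρ ^ (L' + m) ≤ C₂ * K)
    (hi : i ≤ L' + m) (hi' : L' ≤ i) : T / gseq i ≤ C₂ * K / c / ρ ^ m := by
  rw [div_div, div_le_div_iff₀ (gseq_pos i) (by positivity)]
  calc T * (c * ρ ^ m) ≤ T * (gseq i * ρ ^ i * ρ ^ m) := by gcongr; exact hlow i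
    _ = gseq i * (T * ρ ^ (i + m)) := by rw [pow_add]; ring
    _ ≤ gseq i * (T * ρ ^ (L' + m)) := by
        refine mul_le_mul_of_nonneg_left (mul_le_mul_of_nonneg_left ?_ hT.le) (gseq_nonneg i)
        exact pow_le_pow_of_le_one hρ.le hρ1 (by omega)
    _ ≤ gseq i * (C₂ * K) := mul_le_mul_of_nonneg_left hTL (gseq_nonneg i)
    _ = C₂ * K * gseq i := by ring

set_option maxHeartbeats 1000000 in
theorem many_levels : ManyLevelsStatement := by
  intro ρ hρ C₂ hC₂
  obtain ⟨C, hC, hdec⟩ := decay ρ hρ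
  obtain ⟨c, hc, hlow⟩ := exists_gseq_lower hρ
  have hρ0 := hρ.pos
  have hρ1 : 0 < 1 - ρ := by linarith [hρ.2.1]
  obtain ⟨lr, hlr⟩ : ∃ lr, lr = Real.log (1 / ρ) := ⟨_, rfl⟩
  have hlr0 : 0 < lr := hlr ▸ Real.log_pos (one_lt_one_div hρ0 hρ.2.1)
  obtain ⟨a0, ha0⟩ : ∃ a0, a0 = min (c / C₂) (1 / 2) := ⟨_, rfl⟩
  have ha0p : 0 < a0 := ha0 ▸ lt_min (by positivity) (by norm_num)
  have ha0h : a0 ≤ 1 / 2 := ha0 ▸ min_le_right _ _
  have ha0c : a0 ≤ c / C₂ := ha0 ▸ min_le_left _ _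
  obtain ⟨B, hB⟩ : ∃ B, B = 1 / (2 * lr) := ⟨_, rfl⟩
  have hB0 : 0 < B := by rw [hB]; positivity
  obtain ⟨A, hA⟩ : ∃ A, A = 4 / lr := ⟨_, rfl⟩
  have hA0 : 0 < A := by rw [hA]; positivity
  obtain ⟨C3, hC3⟩ : ∃ C3, C3 = 2 * Real.exp 2 / (c * (1 - ρ)) := ⟨_, rfl⟩
  have hC30 : 0 < C3 := by rw [hC3]; positivity
  obtain ⟨A2, hA2⟩ : ∃ A2, A2 = (|Real.log (8 * C * Real.exp 2 / C3)| + lr + 1) / lr := ⟨_, rfl⟩
  have hA20 : 0 < A2 := by rw [hA2]; positivity
  obtain ⟨A3, hA3⟩ : ∃ A3, A3 = |Real.log (C₂ / c)| + 1000 + lr * A2 := ⟨_, rfl⟩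
  have hA30 : 0 < A3 := by rw [hA3]; positivity
  refine ⟨a0 * B / 4, by positivity, ?_⟩
  have hev : ∀ᶠ l : ℝ in Filter.atTop,
      2 ≤ l ∧ 4 * |Real.log C₂| ≤ l ∧ |Real.log C| ≤ l ∧ 3 / (1 - ρ) ≤ l ∧ 2 * A ≤ l ∧
      2 * C3 + 2 ≤ √l ∧ (2 * C + 1) * (A + 1) * 2 / a0 ≤ l ∧
      (C + 1) * ((A + 2) * Real.exp 2) / C3 ≤ l ∧ (C + 1) * c ≤ l ∧
      48 * A / (B / 2) ^ 4 ≤ l ∧
      (25 * A2 * A3 + 2 * C3 * A + 1) * (4 / (a0 * B)) ≤ √l ∧
      2 * A2 * 25 / B ≤ √l ∧ 100000 ≤ √l := by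
    have hs := Real.tendsto_sqrt_atTop
    filter_upwards [Filter.eventually_ge_atTop (2 : ℝ),
      Filter.eventually_ge_atTop (4 * |Real.log C₂|),
      Filter.eventually_ge_atTop |Real.log C|, Filter.eventually_ge_atTop (3 / (1 - ρ)),
      Filter.eventually_ge_atTop (2 * A), hs.eventually_ge_atTop (2 * C3 + 2),
      Filter.eventually_ge_atTop ((2 * C + 1) * (A + 1) * 2 / a0),
      Filter.eventually_ge_atTop ((C + 1) * ((A + 2) * Real.exp 2) / C3),
      Filter.eventually_ge_atTop ((C + 1) * c),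
      Filter.eventually_ge_atTop (48 * A / (B / 2) ^ 4),
      hs.eventually_ge_atTop ((25 * A2 * A3 + 2 * C3 * A + 1) * (4 / (a0 * B))),
      hs.eventually_ge_atTop (2 * A2 * 25 / B),
      hs.eventually_ge_atTop 100000] with l h1 h2 h3 h4 h5 h6 h7 h8 h9 h10 h11 h12 h13
    exact ⟨h1, h2, h3, h4, h5, h6, h7, h8, h9, h10, h11, h12, h13⟩
  obtain ⟨T₀, hT₀⟩ := Filter.eventually_atTop.1
    ((Real.tendsto_log_atTop.eventually hev).and (Filter.eventually_gt_atTop (0 : ℝ)))
  refine ⟨T₀, fun T K η hT₁ hK1 hK2 hη0 hη L hTL => ?_⟩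
  obtain ⟨⟨hl2, hlC2, hlC, hlρ, hlA, hlC3, hlη1, hlη2, hlη3, hlhalf, hlfin, hlm, hlbig⟩, hT⟩ :=
    hT₀ T hT₁
  rcases (Relax L T η K).eq_empty_or_nonempty with hemp | ⟨y, hy⟩
  · exact ⟨0, by simp [hemp]⟩
  generalize hl : Real.log T = l at *
  clear hT₀ hev
  have hl1 : 1 ≤ l := by linarith
  have hl0 : 0 < l := by linarith
  generalize hs : √l = s at *
  have hs0 : 0 < s := by linarith
  have hss : s * s = l := by rw [← hs]; exact Real.mul_self_sqrt hl0.le
  have hsl : s ≤ l := by nlinarith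
  have hK11 : 1 ≤ K := le_trans (one_le_pow₀ hl1) hK1
  have hK0 : 0 < K := by linarith
  have hlogK : Real.log K ≤ 1000 * Real.log l := by
    have := Real.log_le_log hK0 hK2
    rwa [Real.log_pow, Nat.cast_ofNat] at this
  have hlogl : 0 ≤ Real.log l := Real.log_nonneg hl1
  have hquad : (1 + Real.log l) ^ 2 ≤ 25 * s := by rw [← hs]; exact log_quad_le_sqrt hl1
  have hloglin : 1 + Real.log l ≤ 25 * s := le_trans (by nlinarith) hquad
  have hLlow : B * l ≤ L := by
    rw [hB, ← hl]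
    refine levels_lower hρ0 hlr hlr0 hC₂ hT hK0 hTL ?_
    rw [hl]
    have : 100000 * s ≤ s * s := mul_le_mul_of_nonneg_right hlbig hs0.le
    linarith
  have hLpos : 1 ≤ L := by
    by_contra h
    have h0 : L = 0 := by omega
    rw [h0, Nat.cast_zero] at hLlow
    nlinarith
  have hηl : ∀ k : ℕ, k ≤ 5 → η * l ^ k ≤ 1 := by
    intro k hk
    calc η * l ^ k ≤ 1 / l ^ 5 * l ^ 5 := by gcongr
      _ = 1 := by field_simp
  have hη1 : η * l ≤ 1 := by simpa using hηl 1 (by norm_num)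
  have hη2 : η * l * l ≤ 1 := by
    have := hηl 2 (by norm_num); rwa [pow_two, ← mul_assoc] at this
  have hη3 : η * l * l * l ≤ 1 := by
    calc η * l * l * l = η * l ^ 3 := by ring
      _ ≤ 1 := hηl 3 (by norm_num)
  have hηρ : η ≤ (1 - ρ) / 3 := by
    rw [div_le_iff₀ hρ1] at hlρ
    have := mul_le_mul_of_nonneg_left hlρ hη0
    have := mul_le_mul_of_nonneg_right hη1 hρ1.le
    linarith
  have hyL : K < yy T y L := by
    have := hy.1 (L - 1) (by omega)
    rwa [Nat.sub_add_cancel hLpos] at this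
  have hyle := relax_decay hdec hT hK0 hη0 hy le_rfl
  have hLhigh : (L : ℝ) ≤ A * l := by
    rw [hA, ← hl]
    exact levels_upper hρ hlr hlr0 hC hT hK11 hη0 hηρ (by rw [hl]; exact hlC) (hyL.trans_le hyle)
  have hηL : (1 + η) ^ L ≤ 2 := by
    refine one_add_pow_le_two hη0 ?_
    have h2 := mul_le_mul_of_nonneg_left hLhigh hη0
    have h3 := mul_le_mul_of_nonneg_left hlA (mul_nonneg hη0 hl0.le)
    linarith
  have hgK : a0 * T ≤ gseq L * K := by
    have h2 : c * T ≤ C₂ * (gseq L * K) := by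
      have := mul_le_mul_of_nonneg_right (hlow L) hT.le
      have := mul_le_mul_of_nonneg_left hTL.le (gseq_nonneg L)
      linarith
    refine (mul_le_mul_of_nonneg_right ha0c hT.le).trans ?_
    rw [div_mul_eq_mul_div, div_le_iff₀ hC₂]
    linarith
  have hupper := relax_le hρ hC.le hdec hT hK0 hη0 hLpos hηL (q := 1 - a0 / 2) (by linarith) (by
    have h1 : η * (1 + 2 * C * L) ≤ a0 / 2 := by
      have h2 : 1 + 2 * C * (L : ℝ) ≤ (2 * C + 1) * (A + 1) * l := by
        nlinarith [mul_le_mul_of_nonneg_left hLhigh (show 0 ≤ 2 * C by positivity),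
          mul_nonneg hA0.le hl0.le, mul_nonneg hC.le hl0.le]
      have h3 := mul_le_mul_of_nonneg_left h2 hη0
      rw [div_le_iff₀ ha0p] at hlη1
      have h5 := mul_le_mul_of_nonneg_left hlη1 (mul_nonneg hη0 hl0.le)
      have h6 := mul_le_mul_of_nonneg_right hη2 ha0p.le
      linarith
    have := mul_le_mul_of_nonneg_right h1 hT.le
    linarith)
  obtain ⟨m, hmle, hmρ⟩ :=
    exists_shift hρ hlr hlr0 (show 0 < 8 * C * Real.exp 2 / C3 by positivity) hl1
  rw [← hA2] at hmle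
  rw [hs] at hmρ
  have hmhalf : 2 * (m : ℝ) ≤ B * l := by
    rw [div_le_iff₀ hB0] at hlm
    have h2 := mul_le_mul_of_nonneg_left hloglin hA20.le
    have h3 := mul_le_mul_of_nonneg_right hlm hs0.le
    rw [← hss]
    linarith
  have hmL : m ≤ L := by
    have : (m : ℝ) ≤ L := by linarith [m.cast_nonneg (α := ℝ)]
    exact_mod_cast this
  obtain ⟨L', rfl⟩ : ∃ L', L = L' + m := ⟨L - m, by omega⟩
  push_cast at hLlow hLhigh
  have hm0 : (0 : ℝ) ≤ m := m.cast_nonneg
  have hlamh : C3 / s ≤ 1 / 2 := by rw [div_le_iff₀ hs0]; linarith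
  have hhalf : (L' : ℝ) * (1 - 1 / s) ^ L' ≤ 1 / 2 := by
    refine slab_small (B := B / 2) hA0.le (by positivity) (by linarith) ?_ ?_ ?_ <;> rw [hss] <;>
      linarith
  have hTL' : 2 * K < C3 / s * Real.exp (-2) * (T * ρ ^ L') := by
    refine threshold_lt hρ0 hC hC30 hs0 hT hmρ (hyL.trans_le (hyle.trans ?_))
    rw [mul_pow]
    have := mul_le_mul_of_nonneg_right hηL (show 0 ≤ C * ρ ^ (L' + m) * T by positivity)
    linarith
  have hEinv : Real.exp (-2) = 1 / Real.exp 2 := by rw [Real.exp_neg, one_div]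
  have hslack : η * (C + 1) ≤ C3 / s * Real.exp (-2) / ((L' : ℝ) + 2) := by
    rw [hEinv, mul_one_div, div_div, div_div, le_div_iff₀ (by positivity)]
    rw [div_le_iff₀ hC30] at hlη2
    calc η * (C + 1) * (s * (Real.exp 2 * ((L' : ℝ) + 2)))
        ≤ η * (C + 1) * (l * (Real.exp 2 * ((A + 2) * l))) := by
          gcongr
          linarith
      _ = η * l * l * ((C + 1) * ((A + 2) * Real.exp 2)) := by ring
      _ ≤ η * l * l * (l * C3) := mul_le_mul_of_nonneg_left hlη2 (by positivity)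
      _ = η * l * l * l * C3 := by ring
      _ ≤ C3 := mul_le_of_le_one_left hC30.le hη3
  have hgap : η * (C + 1) + 1 / s / c ≤ C3 / s * Real.exp (-2) * (1 - ρ) := by
    have h1 : η * (C + 1) ≤ 1 / s / c := by
      rw [div_div, le_div_iff₀ (by positivity)]
      calc η * (C + 1) * (s * c) ≤ η * (C + 1) * (l * c) := by gcongr
        _ = η * l * ((C + 1) * c) := by ring
        _ ≤ η * l * l := mul_le_mul_of_nonneg_left hlη3 (by positivity)
        _ ≤ 1 := hη2
    calc η * (C + 1) + 1 / s / c ≤ 2 * (1 / s / c) := by linarith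
      _ = C3 / s * Real.exp (-2) * (1 - ρ) := by rw [hC3, hEinv]; field_simp
  have hb1 : (1 : ℝ) / s < 1 := by rw [div_lt_one hs0]; linarith
  have hlam0 : 0 < C3 / s := by positivity
  obtain ⟨-, hlower⟩ := simplex_le_strict (L := L') (K := K) (η := η) hρ hC.le hdec hc hlow hT hη0
    (by positivity) hb1 hlam0.le (by linarith) hhalf hTL' hslack hgap
  refine ⟨L', hupper.trans ?_⟩
  obtain ⟨Bd, hBd⟩ : ∃ Bd, Bd = C₂ * K / c / ρ ^ m := ⟨_, rfl⟩
  have hBd0 : 0 < Bd := by rw [hBd]; positivity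
  have hadd := volume_simplex_add_le (t := T) hBd0.le L' m fun i hi1 hi2 =>
    hBd ▸ coord_div_le hρ0 hρ.2.1.le hc hlow hT hTL.le hi2 hi1.le
  have hf0 : 0 < (1 - C3 / s) ^ L' := pow_pos (by linarith) _
  have hq0 : 0 < 1 - a0 / 2 := by linarith
  have hexp : (1 - a0 / 2) ^ (L' + m) * Bd ^ m * (2 / (1 - C3 / s) ^ L') ≤
      Real.exp (-(a0 * B / 4) * l) := by
    have hpos : 0 < (1 - a0 / 2) ^ (L' + m) * Bd ^ m * (2 / (1 - C3 / s) ^ L') := by positivity
    rw [← Real.exp_log hpos, Real.exp_le_exp, Real.log_mul (by positivity) (by positivity),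
      Real.log_mul (by positivity) (by positivity), Real.log_pow, Real.log_pow,
      Real.log_div two_ne_zero hf0.ne', Real.log_pow, ← hss]
    push_cast
    have hLb : Real.log Bd ≤ A3 * (1 + Real.log l) := by
      rw [hBd, show C₂ * K / c / ρ ^ m = C₂ / c * K * (1 / ρ) ^ m by
        rw [one_div, inv_pow]; field_simp]
      rw [Real.log_mul (by positivity) (by positivity), Real.log_mul (by positivity) hK0.ne',
        Real.log_pow, ← hlr]
      have h1 := le_abs_self (Real.log (C₂ / c))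
      have h2 := mul_le_mul_of_nonneg_right hmle hlr0.le
      have h3 := mul_nonneg (abs_nonneg (Real.log (C₂ / c))) hlogl
      rw [hA3]
      linarith
    refine total_log_le (A := A) (A2 := A2) (A3 := A3) (C3 := C3)
      (by linarith [Real.log_le_sub_one_of_pos hq0]) ha0p.le (by rw [hss]; linarith) hLb ?_
      (neg_two_mul_le_log hlam0.le hlamh) ?_ (by linarith [Real.log_two_lt_d9]) ?_
    · calc (m : ℝ) * (A3 * (1 + Real.log l)) ≤ A2 * (1 + Real.log l) * (A3 * (1 + Real.log l)) :=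
            mul_le_mul_of_nonneg_right hmle (by positivity)
        _ = A2 * A3 * (1 + Real.log l) ^ 2 := by ring
        _ ≤ _ := mul_le_mul_of_nonneg_left hquad (by positivity)
    · calc (L' : ℝ) * (2 * (C3 / s)) ≤ A * (s * s) * (2 * (C3 / s)) := by
            gcongr; rw [hss]; linarith
        _ = _ := by field_simp
    · rw [← mul_div_assoc, div_le_iff₀ (by positivity)] at hlfin
      have := mul_le_mul_of_nonneg_right hlfin hs0.le
      linarith
  have hstrict : volume (simplex L' T) ≤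
      ENNReal.ofReal (2 / (1 - C3 / s) ^ L') * volume (Strict L' T η (2 * K)) := by
    rw [ENNReal.ofReal_div_of_pos hf0, ENNReal.ofReal_ofNat, ← ENNReal.mul_div_right_comm,
      ENNReal.le_div_iff_mul_le (Or.inl (ENNReal.ofReal_pos.2 hf0).ne')
        (Or.inl ENNReal.ofReal_ne_top), mul_comm]
    exact hlower
  calc ENNReal.ofReal ((1 - a0 / 2) ^ (L' + m)) * volume (simplex (L' + m) T)
      ≤ ENNReal.ofReal ((1 - a0 / 2) ^ (L' + m)) * (ENNReal.ofReal (Bd ^ m) *
          (ENNReal.ofReal (2 / (1 - C3 / s) ^ L') * volume (Strict L' T η (2 * K)))) :=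
        mul_le_mul' le_rfl (hadd.trans (mul_le_mul' le_rfl hstrict))
    _ = ENNReal.ofReal ((1 - a0 / 2) ^ (L' + m) * Bd ^ m * (2 / (1 - C3 / s) ^ L')) *
          volume (Strict L' T η (2 * K)) := by
        rw [ENNReal.ofReal_mul (by positivity), ENNReal.ofReal_mul (by positivity)]
        ring
    _ ≤ _ := mul_le_mul' (ENNReal.ofReal_le_ofReal hexp) le_rfl

end Vale.Agent.P031
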