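import Vale.Agent.P031.Count
import Vale.Agent.P031.Normal
import Vale.Agent.P031.Anatomy
import Vale.Agent.P031.Crude
import Vale.Agent.P031.Volume

/-!
P031: the ratio of totient counts, from the collision estimate.
-/

open Finset Real Filter
open scoped Nat Topology

namespace Vale.Agent.P031

/-- The set in the problem's counting function is `valSet ⌊x⌋₊`. -/
lemma card_values_eq {x : ℝ} (hx : 0 ≤ x) :
    Nat.card {v : ℕ | (v : ℝ) ≤ x ∧ ∃ n : ℕ, 0 < n ∧ φ n = v} = (valSet ⌊x⌋₊).card := by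
  classical
  have e : {v : ℕ | (v : ℝ) ≤ x ∧ ∃ n : ℕ, 0 < n ∧ φ n = v} = ↑(valSet ⌊x⌋₊) := by
    ext v
    simp only [Set.mem_ofPred_eq, Finset.mem_coe, valSet, Finset.mem_filter, Finset.mem_Icc]
    constructor
    · rintro ⟨hv, n, hn, rfl⟩
      exact ⟨⟨Nat.totient_pos.2 hn, Nat.le_floor hv⟩, n, rfl⟩
    · rintro ⟨⟨h1, h2⟩, n, rfl⟩
      exact ⟨(Nat.le_floor_iff hx).1 h2, n, Nat.totient_pos.1 h1, rfl⟩
  rw [e, Nat.card_eq_card_finite_toFinset (Finset.finite_toSet _), Finset.finite_toSet_toFinset]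

/-- The normalising function. -/
noncomputable def mainTerm (X : ℕ) : ℝ := (X : ℝ) / log X * coreMass X

lemma mainTerm_pos : ∀ᶠ X : ℕ in atTop, 0 < mainTerm X := by
  filter_upwards [one_le_coreMass, eventually_ge_atTop 3] with X h hX
  have : 0 < log (X : ℝ) := Real.log_pos (by exact_mod_cast (show 1 < X by omega))
  have : (0 : ℝ) < X := by exact_mod_cast (show 0 < X by omega)
  unfold mainTerm
  positivity

lemma values_scaled (hC : CollideStatement) {a : ℝ} (ha : 1 ≤ a) :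
    Tendsto (fun x : ℝ => ((valSet ⌊a * x⌋₊).card : ℝ) / mainTerm ⌊x⌋₊) atTop (𝓝 a) := by
  have hfloor : Tendsto (fun x : ℝ => ⌊x⌋₊) atTop atTop := tendsto_nat_floor_atTop
  have h1 : Tendsto (fun x : ℝ => (⌊a * x⌋₊ : ℝ) / (⌊x⌋₊ : ℝ)) atTop (𝓝 a) := by
    have h := (tendsto_nat_floor_mul_div_atTop (R := ℝ) (show 0 ≤ a by linarith)).div
      (tendsto_nat_floor_div_atTop (R := ℝ)) one_ne_zero
    rw [div_one] at h
    refine h.congr' ?_
    filter_upwards [eventually_gt_atTop 0] with x hx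
    exact div_div_div_cancel_right₀ hx.ne' _ _
  have h2 : Tendsto (fun x : ℝ => ((valSet ⌊a * x⌋₊).card : ℝ) / mainTerm ⌊x⌋₊
      - (⌊a * x⌋₊ : ℝ) / (⌊x⌋₊ : ℝ)) atTop (𝓝 0) := by
    rw [Metric.tendsto_nhds]
    intro ε hε
    have hv := values_asymp hC normal_count normal_log anatomy_count anatomy_log
      (crude_totient normal_log) many_levels (⌈a⌉₊ + 1) (ε := ε / 2) (by positivity)
    filter_upwards [hfloor.eventually hv, hfloor.eventually mainTerm_pos,
      hfloor.eventually (eventually_ge_atTop (⌈a⌉₊ + 1)), eventually_ge_atTop (1 : ℝ)]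
      with x hv hpos hXa hx
    set X := ⌊x⌋₊
    set Y := ⌊a * x⌋₊
    have hXY : X ≤ Y := Nat.floor_mono (le_mul_of_one_le_left (by linarith) ha)
    have hX0 : 0 < X := by omega
    have hYB : Y ≤ (⌈a⌉₊ + 1) * X := by
      have h1 : x ≤ (X : ℝ) + 1 := (Nat.lt_floor_add_one x).le
      have h2 : a ≤ (⌈a⌉₊ : ℝ) := Nat.le_ceil a
      have h3 : (⌈a⌉₊ : ℝ) + 1 ≤ X := by exact_mod_cast hXa
      refine Nat.le_of_lt_succ ?_
      refine (Nat.floor_lt (by positivity)).2 ?_
      push_cast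
      nlinarith [mul_le_mul_of_nonneg_left h1 (show 0 ≤ a by linarith),
        mul_le_mul_of_nonneg_right h2 (show (0 : ℝ) ≤ (X : ℝ) by positivity)]
    have h := hv Y hXY hYB
    have e : (Y : ℝ) / log X * coreMass X = (Y : ℝ) / X * mainTerm X := by
      have : (X : ℝ) ≠ 0 := by exact_mod_cast hX0.ne'
      unfold mainTerm
      field_simp
    rw [e] at h
    rw [Real.dist_eq, sub_zero,
      show ((valSet Y).card : ℝ) / mainTerm X - (Y : ℝ) / X
        = (((valSet Y).card : ℝ) - (Y : ℝ) / X * mainTerm X) / mainTerm X by field_simp,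
      abs_div, abs_of_pos hpos, div_lt_iff₀ hpos]
    refine lt_of_le_of_lt h ?_
    change ε / 2 * mainTerm X < ε * mainTerm X
    exact mul_lt_mul_of_pos_right (by linarith) hpos
  have h3 := h2.add h1
  rw [zero_add] at h3
  exact h3.congr fun x => sub_add_cancel _ _

/-- The answer to the question of Erdős and Hall, given the collision estimate. -/
theorem ratio_tendsto (hC : CollideStatement) (c : ℝ) (hc : 1 < c) :
    Tendsto (fun x : ℝ =>
      (Nat.card {v : ℕ | (v : ℝ) ≤ c * x ∧ ∃ n : ℕ, 0 < n ∧ φ n = v} : ℝ)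
        / (Nat.card {v : ℕ | (v : ℝ) ≤ x ∧ ∃ n : ℕ, 0 < n ∧ φ n = v} : ℝ)) atTop (𝓝 c) := by
  have h := (values_scaled hC hc.le).div (values_scaled hC le_rfl) one_ne_zero
  rw [div_one] at h
  refine h.congr' ?_
  filter_upwards [eventually_ge_atTop (0 : ℝ),
    (tendsto_nat_floor_atTop (α := ℝ)).eventually mainTerm_pos] with x hx hpos
  show ((valSet ⌊c * x⌋₊).card : ℝ) / mainTerm ⌊x⌋₊
    / (((valSet ⌊1 * x⌋₊).card : ℝ) / mainTerm ⌊x⌋₊) = _
  rw [div_div_div_cancel_right₀ hpos.ne', one_mul, card_values_eq (by nlinarith : 0 ≤ c * x),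
    card_values_eq hx]

end Vale.Agent.P031
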