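import Vale.Agent.P031.Items

/-!
P031: the upper mass exceeds the core mass only negligibly.
-/

open Finset Real Filter MeasureTheory
open scoped Nat Topology ENNReal

namespace Vale.Agent.P031

/-- The total body mass. -/
noncomputable def bodyMass (X : ℕ) : ℝ := ∑ L ∈ levRange X, mass (bodySet X L)

lemma levs_one (F : ℝ) : levs F 1 = [] := by simp [levs]

lemma tailOK_one (T : ℝ) : TailOK T 1 := by
  refine ⟨one_ne_zero, fun p hp _ h => ?_, ⟨one_ne_zero, fun p hp h => ?_⟩, ?_, ?_, ?_, ?_⟩
  · exact hp.ne_one (Nat.dvd_one.1 ((dvd_pow_self p two_ne_zero).trans h))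
  · exact absurd (Nat.dvd_one.1 h) hp.ne_one
  · simp [levs_one]
  · simp only [smlPart, levs_one, List.prod_nil, Nat.div_one, Nat.cast_one, Real.log_one]
    exact (exp_pos _).le
  · simp [levs_one]
  · simp [levs_one]

lemma one_le_coreMass : ∀ᶠ X : ℕ in atTop, 1 ≤ coreMass X := by
  classical
  filter_upwards [eventually_scale params_ev, eventually_ge_atTop 1] with X hp hX
  obtain ⟨hη, hη1, hK, -, hKT, -, -, -⟩ := hp
  set x : (Fin 0 → ℕ) × ℕ := (Fin.elim0, 1)
  have h0 : (0 : ℕ) ∈ levRange X := Finset.mem_range.2 (Nat.succ_pos _)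
  have hx : x ∈ coreSet X 0 := by
    refine Finset.mem_filter.2 ⟨Finset.mem_filter.2 ⟨mem_allItems.2
      ⟨fun k => k.elim0, le_rfl, Nat.one_le_pow _ _ hX⟩, fun k => k.elim0, 1, tailOK_one _,
      Nat.totient_one, fun i hi => absurd hi (Nat.not_lt_zero i), fun i hi => ?_⟩, fun k => k.elim0⟩
    rw [Nat.le_zero.1 hi, yy_top]
    simp only [lhs, tailTerm, levs_one, List.length_nil, Finset.range_zero, Finset.sum_empty]
    simp [coef_zero]
    nlinarith
  have hnn : ∀ L, 0 ≤ mass (coreSet X L) := fun L =>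
    mass_nonneg ((coreSet_subset_body X L).trans (bodySet_subset_all X L))
  refine le_trans ?_ (Finset.single_le_sum (fun L _ => hnn L) h0)
  refine le_trans ?_ (Finset.single_le_sum (fun y hy => ?_) hx)
  · simp [x, wgt]
  · exact div_nonneg (wgt_nonneg (allItems_prime (bodySet_subset_all X 0
      (coreSet_subset_body X 0 hy)))) (Nat.cast_nonneg _)

/-- With too many levels the mass is negligible. -/
lemma mass_many (hM : ManyLevelsStatement) (hZ : CrudeTotientStatement) {ρ : ℝ} (hρ : IsRho ρ)
    {C₂ : ℝ} (hC₂ : 0 < C₂) :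
    ∃ c D : ℝ, 0 < c ∧ ∀ᶠ X : ℕ in atTop, ∀ L ∈ levRange X,
      scale X * ρ ^ L < C₂ * tailLevel (scale X) →
      mass (upperSet X L)
        ≤ exp (D * log (log (scale X)) ^ 2 - c * log (scale X)) * bodyMass X := by
  classical
  obtain ⟨c, hc, T₀, hmany⟩ := hM ρ hρ (2 * C₂) (by positivity)
  obtain ⟨Cz, hCz⟩ := hZ
  refine ⟨c, |Cz| * 401 ^ 2, hc, ?_⟩
  have hT : ∀ᶠ T : ℝ in atTop, T₀ ≤ T ∧ log T ^ 10 ≤ tailLevel T - 1 ∧
      tailLevel T - 1 ≤ log T ^ 1000 ∧ log (tailLevel T + 3) ≤ 401 * log (log T) ∧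
      0 ≤ log (tailLevel T + 3) ∧ 1 ≤ T := by
    filter_upwards [eventually_ge_atTop (max T₀ 1),
      Real.tendsto_log_atTop.eventually_ge_atTop (4 : ℝ)] with T hT hl
    have h1 : (1 : ℝ) ≤ log T := by linarith
    have hK : (4 : ℝ) ≤ tailLevel T := le_trans hl (le_self_pow₀ h1 (by norm_num))
    refine ⟨(le_max_left _ _).trans hT, ?_, ?_, ?_, Real.log_nonneg (by linarith),
      (le_max_right _ _).trans hT⟩
    · have : 2 * log T ^ 10 ≤ tailLevel T := by
        simp only [tailLevel]
        rw [show log T ^ 400 = log T ^ 390 * log T ^ 10 by ring]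
        exact mul_le_mul_of_nonneg_right (le_trans (by linarith) (le_self_pow₀ h1 (by norm_num)))
          (by positivity)
      have : (1 : ℝ) ≤ log T ^ 10 := one_le_pow₀ h1
      linarith
    · have : log T ^ 400 ≤ log T ^ 1000 := pow_le_pow_right₀ h1 (by norm_num)
      simp only [tailLevel]; linarith
    · have h2 : tailLevel T + 3 ≤ log T ^ 401 := by
        simp only [tailLevel] at hK ⊢
        rw [pow_succ]
        nlinarith
      have h3 := Real.log_le_log (by linarith) h2
      rw [Real.log_pow] at h3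
      exact_mod_cast h3
  filter_upwards [eventually_scale hT, eventually_scale params_ev, cover_body,
    eventually_scale chain_length] with X hT hp hcov hchain L hL hLC
  obtain ⟨hT0, hK10, hK1000, hlogK, hlogK0, hT1⟩ := hT
  obtain ⟨hη, hη1, hK, -, hKT, hη5, -, -⟩ := hp
  set T := scale X
  set K := tailLevel T
  obtain ⟨L', hvol⟩ := hmany T (K - 1) (4 * eta T) hT0 hK10 hK1000 (by linarith) hη5 L (by nlinarith)
  -- the strict region is covered by body items
  have hS : volume (Strict L' T (4 * eta T) (2 * (K - 1))) ≤ ENNReal.ofReal (bodyMass X) := by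
    rcases (Strict L' T (4 * eta T) (2 * (K - 1))).eq_empty_or_nonempty with he | ⟨y₀, hy₀⟩
    · rw [he, measure_empty]; exact zero_le
    have hnn : ∀ (y : Fin L' → ℝ), y ∈ Strict L' T (4 * eta T) (2 * (K - 1)) → ∀ i ≤ L',
        1 ≤ yy T y i := by
      intro y hy i hi
      rcases i with _ | i
      · rw [yy_top]; exact hT1
      · linarith [(hy.2 L' le_rfl), (hy.1 i hi).1]
    have hL' : L' ∈ levRange X := by
      refine Finset.mem_range.2 ?_
      change L' < maxLen T + 1
      have := hchain 0 le_rfl (by norm_num) (yy T y₀) L'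
        (fun i hi => by linarith [hnn y₀ hy₀ i hi]) (fun i hi => by
          refine (hy₀.2 i hi.le).trans (mul_le_mul_of_nonneg_right (by linarith) ?_)
          linarith [hnn y₀ hy₀ i hi.le])
        (by rw [yy_top]; linarith) (hnn y₀ hy₀ L' le_rfl)
      omega
    set F' := ((bodySet X L').filter (fun x => x.2 = 1)).image Prod.fst with hF'
    have hF : ∀ q ∈ F', ∀ k, (q k).Prime := fun q hq => by
      obtain ⟨x, hx, rfl⟩ := Finset.mem_image.1 hq
      exact allItems_prime (bodySet_subset_all X L' (Finset.mem_filter.1 hx).1)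
    refine (volume_le_sum_wgt F' hF fun y hy => ?_).trans (ENNReal.ofReal_le_ofReal ?_)
    · have hreg : Reg L' T (levs (floorLevel T) 1) ((1 + 5 * eta T) * K) (-(4 * eta T)) y := by
        rw [levs_one]
        refine ⟨fun i hi => ⟨?_, ?_⟩, fun i hi => ?_⟩
        · have := (hy.1 i hi).1
          nlinarith
        · rw [← sub_eq_add_neg]; exact (hy.1 i hi).2
        · rw [← sub_eq_add_neg]
          simpa [lhs, tailTerm] using hy.2 i hi
      obtain ⟨q, hq, hyq⟩ := hcov L' hL' 1 (tailOK_one T) y hreg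
      exact ⟨q, Finset.mem_image.2 ⟨(q, φ 1), Finset.mem_filter.2 ⟨hq, Nat.totient_one⟩, rfl⟩, hyq⟩
    · have h1 : ∑ q ∈ F', wgt q ≤ mass (bodySet X L') := by
        rw [hF', Finset.sum_image (fun a ha b hb h => Prod.ext h
          ((Finset.mem_filter.1 ha).2.trans (Finset.mem_filter.1 hb).2.symm)), mass]
        refine le_trans (le_of_eq (Finset.sum_congr rfl fun x hx => ?_))
          (Finset.sum_le_sum_of_subset_of_nonneg (Finset.filter_subset _ _) fun x hx _ =>
            div_nonneg (wgt_nonneg (allItems_prime (bodySet_subset_all X L' hx))) (Nat.cast_nonneg _))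
        rw [(Finset.mem_filter.1 hx).2, Nat.cast_one, div_one]
      exact h1.trans (Finset.single_le_sum (fun i _ => mass_nonneg (bodySet_subset_all X i)) hL')
  have hB0 : 0 ≤ bodyMass X := Finset.sum_nonneg fun i _ => mass_nonneg (bodySet_subset_all X i)
  have hfib : ∀ d ∈ (upperSet X L).image Prod.snd,
      ∑ q ∈ ((upperSet X L).filter (fun x => x.2 = d)).image Prod.fst, wgt q
        ≤ exp (-c * log T) * bodyMass X := by
    intro d _
    have hF : ∀ q ∈ ((upperSet X L).filter (fun x => x.2 = d)).image Prod.fst,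
        ∀ k, (q k).Prime := fun q hq => by
      obtain ⟨x, hx, rfl⟩ := Finset.mem_image.1 hq
      exact allItems_prime (upperSet_subset_all X L (Finset.mem_filter.1 hx).1)
    have h1 := sum_wgt_le_volume _ hF (U := Relax L T (4 * eta T) (K - 1)) fun q hq y hy => by
      obtain ⟨x, hx, rfl⟩ := Finset.mem_image.1 hq
      obtain ⟨hx, -⟩ := Finset.mem_filter.1 hx
      obtain ⟨-, -, r, hr, -, hsub⟩ := Finset.mem_filter.1 hx
      have h := hsub hy
      have hlb := Reg.lb h (by linarith)
      refine ⟨fun i hi => (h.1 i hi).1, fun i hi => le_trans ?_ ((h.2 i hi).trans ?_)⟩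
      · simp only [lhs]
        linarith [tailTerm_nonneg L (levs (floorLevel T) r) i]
      · exact mul_le_mul_of_nonneg_right (by linarith) (by linarith [hlb i hi])
    have h2 := h1.trans (hvol.trans (mul_le_mul_of_nonneg_left hS zero_le))
    rw [← ENNReal.ofReal_mul (exp_pos _).le,
      ENNReal.ofReal_le_ofReal_iff (mul_nonneg (exp_pos _).le hB0)] at h2
    exact h2
  rw [mass_eq_fibre (upperSet X L)]
  calc _ ≤ ∑ d ∈ (upperSet X L).image Prod.snd, exp (-c * log T) * bodyMass X * (1 / (d : ℝ)) := by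
        refine Finset.sum_le_sum fun d hd => ?_
        rw [mul_one_div]
        exact div_le_div_of_nonneg_right (hfib d hd) (Nat.cast_nonneg _)
    _ ≤ exp (-c * log T) * bodyMass X * exp (Cz * log (K + 3) ^ 2) := by
        rw [← Finset.mul_sum]
        refine mul_le_mul_of_nonneg_left (hCz K (by linarith) _ fun d hd => ?_)
          (mul_nonneg (exp_pos _).le hB0)
        obtain ⟨x, hx, rfl⟩ := Finset.mem_image.1 hd
        obtain ⟨-, -, r, hr, hd', -⟩ := Finset.mem_filter.1 hx
        exact ⟨r, hr.2.2.1, hd'⟩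
    _ ≤ exp (-c * log T) * bodyMass X * exp (|Cz| * 401 ^ 2 * log (log T) ^ 2) := by
        refine mul_le_mul_of_nonneg_left (Real.exp_le_exp.2 ?_) (mul_nonneg (exp_pos _).le hB0)
        have h3 : log (K + 3) ^ 2 ≤ (401 * log (log T)) ^ 2 := pow_le_pow_left₀ hlogK0 hlogK 2
        calc Cz * log (K + 3) ^ 2 ≤ |Cz| * log (K + 3) ^ 2 :=
              mul_le_mul_of_nonneg_right (le_abs_self Cz) (sq_nonneg _)
          _ ≤ |Cz| * (401 * log (log T)) ^ 2 := mul_le_mul_of_nonneg_left h3 (abs_nonneg _)
          _ = _ := by ring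
    _ = exp (|Cz| * 401 ^ 2 * log (log T) ^ 2 - c * log T) * bodyMass X := by
        rw [sub_eq_add_neg, Real.exp_add, ← neg_mul]; ring

/-- Non-normal body items are negligible. -/
lemma mass_nonNormal (hNL : NormalLogStatement) (hZ : CrudeTotientStatement) {ε : ℝ} (hε : 0 < ε) :
    ∀ᶠ X : ℕ in atTop, ∀ L ∈ levRange X,
      ((maxLen (scale X) : ℝ) + 1) ^ 2 * (mass (bodySet X L) - mass (coreSet X L)) ≤ ε := by
  classical
  obtain ⟨t₀, ht₀⟩ := hNL
  obtain ⟨Cz, hCz, hsum⟩ := totient_sum_le hZ
  have hT : ∀ᶠ T : ℝ in atTop, 1 ≤ T ∧ 1 ≤ log T ∧ t₀ ≤ tailLevel T ∧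
      36 * log T + (3 * log T + 11 * log T * (3 * log T) + Cz * log T ^ 2
        - tailLevel T ^ (1 / 12 : ℝ)) ≤ log ε := by
    filter_upwards [eventually_ge_atTop 1, Real.tendsto_log_atTop.eventually_ge_atTop (1 : ℝ),
      eventually_log_poly_le_floor (max t₀ 0),
      eventually_floor_rpow (max (39 : ℝ) (max (33 + Cz) |log ε|)) (r := 1 / 12) (by norm_num)]
      with T hT hl h1 h2
    have hFK : floorLevel T ≤ tailLevel T := pow_le_pow_right₀ hl (by norm_num)
    have hF0 : 0 ≤ floorLevel T := by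
      have : (0 : ℝ) ≤ log T := by linarith
      simp only [floorLevel]; positivity
    have h3 := Real.rpow_le_rpow hF0 hFK (show (0 : ℝ) ≤ 1 / 12 by norm_num)
    have a1 := le_max_left t₀ 0
    have a2 := le_max_right t₀ 0
    have b1 := le_max_left (39 : ℝ) (max (33 + Cz) |log ε|)
    have b2 := (le_max_left (33 + Cz) |log ε|).trans (le_max_right (39 : ℝ) _)
    have b3 := (le_max_right (33 + Cz) |log ε|).trans (le_max_right (39 : ℝ) _)
    have := neg_abs_le (log ε)
    exact ⟨hT, hl, by nlinarith [sq_nonneg (log T)], by nlinarith [sq_nonneg (log T)]⟩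
  filter_upwards [eventually_scale hT, hsum, eventually_u_le_pow 3, tail_le,
    eventually_scale params_ev, eventually_ge_atTop 1] with X hT hsum hu htail hp hX L hL
  obtain ⟨hT1, hl, htK, hE⟩ := hT
  obtain ⟨hη, -, hK, -, -, -, -, -⟩ := hp
  set T := scale X
  set K := tailLevel T
  have hsub := coreSet_subset_body X L
  have e : mass (bodySet X L) - mass (coreSet X L)
      = ∑ x ∈ bodySet X L \ coreSet X L, wgt x.1 / (x.2 : ℝ) := by
    rw [mass, mass, ← Finset.sum_sdiff hsub]; ring
  rw [e]
  set N := (primesTo (X ^ 3)).filter (fun q => ¬ Normal q ∧ K ≤ u q)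
  set P := primesTo (X ^ 3)
  set Ds := (bodySet X L).image Prod.snd
  set U := T + √T with hU
  have hcov : bodySet X L \ coreSet X L ⊆ (Finset.univ : Finset (Fin L)).biUnion (fun k =>
      Fintype.piFinset (fun j => if j = k then N else P) ×ˢ Ds) := by
    intro x hx
    obtain ⟨hxB, hxC⟩ := Finset.mem_sdiff.1 hx
    obtain ⟨k, hk⟩ : ∃ k, ¬ Normal (x.1 k) := by
      by_contra hc
      push Not at hc
      exact hxC (Finset.mem_filter.2 ⟨hxB, hc⟩)
    obtain ⟨hall, hq, r, hr, -, hreg⟩ := Finset.mem_filter.1 hxB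
    refine Finset.mem_biUnion.2 ⟨k, Finset.mem_univ _, Finset.mem_product.2
      ⟨Fintype.mem_piFinset.2 fun j => ?_, Finset.mem_image_of_mem _ hxB⟩⟩
    split_ifs with hjk
    · subst hjk
      refine Finset.mem_filter.2 ⟨mem_primesTo.2 ((mem_allItems.1 hall).1 j), hk, ?_⟩
      have := (hreg.1 j.val j.isLt).1
      rw [yy_lev T _ j.isLt] at this
      simp only [tval] at this
      nlinarith
    · exact mem_primesTo.2 ((mem_allItems.1 hall).1 j)
  have hnn : ∀ x : (Fin L → ℕ) × ℕ, 0 ≤ ∏ k, |1 / ((x.1 k : ℝ) - 1)| := fun x =>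
    Finset.prod_nonneg fun k _ => abs_nonneg _
  have hw : ∀ x ∈ bodySet X L \ coreSet X L, wgt x.1 / (x.2 : ℝ)
      = (∏ k, |1 / ((x.1 k : ℝ) - 1)|) * (1 / (x.2 : ℝ)) := fun x hx => by
    rw [mul_one_div, wgt]
    congr 1
    refine Finset.prod_congr rfl fun k _ => (abs_of_nonneg ?_).symm
    have := sub_one_pos_of_prime (allItems_prime (bodySet_subset_all X L
      (Finset.mem_sdiff.1 hx).1) k)
    positivity
  rw [Finset.sum_congr rfl hw]
  have hNsum : ∑ q ∈ N, |1 / ((q : ℝ) - 1)| ≤ exp (-K ^ (1 / 12 : ℝ)) := by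
    refine le_trans (le_of_eq (Finset.sum_congr rfl fun q hq => abs_of_nonneg ?_))
      (ht₀ K htK N fun q hq => ?_)
    · have := sub_one_pos_of_prime (mem_primesTo.1 (Finset.mem_filter.1 hq).1).2
      positivity
    · obtain ⟨h1, h2, h3⟩ := Finset.mem_filter.1 hq
      exact ⟨(mem_primesTo.1 h1).2, h3, h2⟩
  have hPsum : ∑ q ∈ P, |1 / ((q : ℝ) - 1)| ≤ exp (3 * log T) := by
    refine le_trans (le_of_eq (Finset.sum_congr rfl fun q hq => abs_of_nonneg ?_)) ?_
    · have := sub_one_pos_of_prime (mem_primesTo.1 hq).2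
      positivity
    rw [← u_def]
    refine (hu _ le_rfl).trans ?_
    have h1 : √T ≤ T := by rw [Real.sqrt_le_iff]; constructor <;> nlinarith
    rw [show 3 * log T = log (T ^ 3) by rw [Real.log_pow]; push_cast; ring,
      Real.exp_log (by positivity)]
    have h2 : 2 * T ≤ T ^ 3 ∨ T < 2 := by
      by_cases h : T < 2
      · exact Or.inr h
      · exact Or.inl (by nlinarith [mul_le_mul (not_lt.1 h) (not_lt.1 h) (by norm_num) (by linarith)])
    rcases h2 with h2 | h2
    · linarith
    · exfalso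
      have := Real.log_le_sub_one_of_pos (show 0 < T by linarith)
      have h3 : log T ≤ log 2 := Real.log_le_log (by linarith) h2.le
      have := Real.log_two_lt_d9
      linarith
  have hDsum : ∑ d ∈ Ds, 1 / (d : ℝ) ≤ exp (Cz * log T ^ 2) := by
    refine hsum Ds fun d hd => ?_
    obtain ⟨x, hx, rfl⟩ := Finset.mem_image.1 hd
    obtain ⟨-, -, r, hr, hd', -⟩ := Finset.mem_filter.1 hx
    exact ⟨r, hr.1, (htail r hr).2.trans (Nat.le_self_pow (by norm_num) X), hd'⟩
  have hL' : (L : ℝ) ≤ 11 * log T :=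
    le_trans (by exact_mod_cast Nat.le_of_lt_succ (Finset.mem_range.1 hL)) (maxLen_le hl)
  have hsum1 : ∑ x ∈ bodySet X L \ coreSet X L,
        (∏ k, |1 / ((x.1 k : ℝ) - 1)|) * (1 / (x.2 : ℝ))
      ≤ (L : ℝ) * (exp (-K ^ (1 / 12 : ℝ)) * exp (3 * log T) ^ L * exp (Cz * log T ^ 2)) := by
    refine (Finset.sum_le_sum_of_subset_of_nonneg hcov fun x _ _ =>
      mul_nonneg (hnn x) (by positivity)).trans ?_
    refine (sum_biUnion_le' _ _ (fun x : (Fin L → ℕ) × ℕ =>
      (∏ k, |1 / ((x.1 k : ℝ) - 1)|) * (1 / (x.2 : ℝ)))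
      (fun x => mul_nonneg (hnn x) (by positivity))).trans ?_
    refine (Finset.sum_le_card_nsmul _ _
      (exp (-K ^ (1 / 12 : ℝ)) * exp (3 * log T) ^ L * exp (Cz * log T ^ 2)) fun k _ => ?_).trans
      (le_of_eq (by simp))
    rw [Finset.sum_product]
    simp only
    rw [← Finset.sum_mul_sum]
    refine mul_le_mul ?_ hDsum (Finset.sum_nonneg fun d _ => by positivity) (by positivity)
    rw [← Finset.prod_univ_sum (fun j : Fin L => if j = k then N else P) (fun _ (q : ℕ) => |1 / ((q : ℝ) - 1)|)]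
    calc ∏ j, ∑ q ∈ (if j = k then N else P), |1 / ((q : ℝ) - 1)|
        ≤ ∏ j, (if j = k then exp (-K ^ (1 / 12 : ℝ)) else exp (3 * log T)) := by
          refine Finset.prod_le_prod (fun j _ => Finset.sum_nonneg fun q _ => abs_nonneg _)
            fun j _ => ?_
          split_ifs
          exacts [hNsum, hPsum]
      _ = exp (-K ^ (1 / 12 : ℝ)) * exp (3 * log T) ^ (L - 1) := by
          rw [← Finset.mul_prod_erase _ _ (Finset.mem_univ k), if_pos rfl]
          congr 1
          rw [Finset.prod_congr rfl (fun j hj => if_neg (Finset.ne_of_mem_erase hj)),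
            Finset.prod_const, Finset.card_erase_of_mem (Finset.mem_univ k), Finset.card_univ,
            Fintype.card_fin]
      _ ≤ exp (-K ^ (1 / 12 : ℝ)) * exp (3 * log T) ^ L :=
          mul_le_mul_of_nonneg_left (pow_le_pow_right₀ (Real.one_le_exp (by linarith))
            (Nat.sub_le L 1)) (exp_pos _).le
  have hpre : ((maxLen T : ℝ) + 1) ^ 2 * L ≤ exp (36 * log T) := by
    have hN := maxLen_le (T := T) hl
    have h1 : ((maxLen T : ℝ) + 1) ^ 2 * L ≤ (12 * log T) ^ 2 * (12 * log T) :=
      mul_le_mul (pow_le_pow_left₀ (by positivity) (by linarith) 2) (by linarith)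
        (Nat.cast_nonneg L) (by positivity)
    refine h1.trans ?_
    rw [← pow_succ, show 36 * log T = ((3 : ℕ) : ℝ) * (12 * log T) by norm_num; ring,
      Real.exp_nat_mul]
    exact pow_le_pow_left₀ (by linarith) (by linarith [Real.add_one_le_exp (12 * log T)]) 3
  calc ((maxLen T : ℝ) + 1) ^ 2 * ∑ x ∈ bodySet X L \ coreSet X L,
        (∏ k, |1 / ((x.1 k : ℝ) - 1)|) * (1 / (x.2 : ℝ))
      ≤ ((maxLen T : ℝ) + 1) ^ 2 * L * (exp (-K ^ (1 / 12 : ℝ)) * exp (3 * log T) ^ L
          * exp (Cz * log T ^ 2)) := by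
        rw [mul_assoc (((maxLen T : ℝ) + 1) ^ 2)]
        exact mul_le_mul_of_nonneg_left hsum1 (by positivity)
    _ ≤ exp (36 * log T) * (exp (-K ^ (1 / 12 : ℝ)) * exp (11 * log T * (3 * log T))
          * exp (Cz * log T ^ 2)) := by
        refine mul_le_mul hpre ?_ (by positivity) (exp_pos _).le
        gcongr
        rw [← Real.exp_nat_mul]
        exact Real.exp_le_exp.2 (mul_le_mul_of_nonneg_right hL' (by linarith))
    _ ≤ ε := by
        rw [← Real.exp_add, ← Real.exp_add, ← Real.exp_add, ← Real.le_log_iff_exp_le hε]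
        linarith

/-- The upper items outside the core have negligible mass. -/
theorem mass_compare (hM : ManyLevelsStatement) (hNL : NormalLogStatement)
    (hZ : CrudeTotientStatement) {ε : ℝ} (hε : 0 < ε) :
    ∀ᶠ X : ℕ in atTop,
      ((maxLen (scale X) : ℝ) + 1) * ∑ L ∈ levRange X, (mass (upperSet X L) - mass (coreSet X L))
        ≤ ε * coreMass X := by
  classical
  obtain ⟨ρ, hρ⟩ := rho_exists
  obtain ⟨C₂, hC₂, hup⟩ := mass_upper_le hρ
  obtain ⟨c, D, hc, hmany⟩ := mass_many hM hZ hρ hC₂
  set δ := min (ε / 8) (1 / 4) with hδdef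
  have hδ : 0 < δ := by positivity
  have hδε : δ ≤ ε / 8 := min_le_left _ _
  have hδ1 : δ ≤ 1 / 4 := min_le_right _ _
  have hT : ∀ᶠ T : ℝ in atTop, 1 ≤ log T ∧
      exp (D * log (log T) ^ 2 - c * log T) * (12 * log T) ^ 2 ≤ δ ∧
      2 * 12 ^ 3 * log T ^ 3 * shrink T ≤ δ := by
    have h1 : ∀ᶠ l : ℝ in atTop, log l ^ 2 ≤ (c / (2 * (|D| + 1))) * l ^ (1 : ℝ) :=
      eventually_log_pow_le 2 (by positivity) one_pos
    have h2 : ∀ᶠ l : ℝ in atTop, log l ^ 1 ≤ (c / 16) * l ^ (1 : ℝ) :=
      eventually_log_pow_le 1 (by positivity) one_pos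
    filter_upwards [Real.tendsto_log_atTop.eventually h1, Real.tendsto_log_atTop.eventually h2,
      Real.tendsto_log_atTop.eventually_ge_atTop (max (12 : ℝ) (8 / c * (|log δ| + 1))),
      Real.tendsto_log_atTop.eventually_ge_atTop (2 * 12 ^ 3 / δ)] with T h1 h2 hl h3
    have hl12 := (le_max_left _ _).trans hl
    have hl2 := (le_max_right _ _).trans hl
    rw [Real.rpow_one] at h1 h2
    rw [pow_one] at h2
    refine ⟨by linarith, ?_, ?_⟩
    · rw [← Real.exp_log (show 0 < (12 * log T) ^ 2 by positivity), ← Real.exp_add,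
        ← Real.le_log_iff_exp_le hδ, Real.log_pow, Real.log_mul (by norm_num) (by positivity)]
      push_cast
      have h4 : D * log (log T) ^ 2 ≤ c * log T / 2 := by
        calc D * log (log T) ^ 2 ≤ (|D| + 1) * log (log T) ^ 2 :=
              mul_le_mul_of_nonneg_right (by linarith [le_abs_self D]) (sq_nonneg _)
          _ ≤ (|D| + 1) * (c / (2 * (|D| + 1)) * log T) :=
              mul_le_mul_of_nonneg_left h1 (by positivity)
          _ = c * log T / 2 := by field_simp
      have h5 : log 12 ≤ log (log T) := Real.log_le_log (by norm_num) hl12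
      have h6 : |log δ| + 1 ≤ c * log T / 8 := by
        rw [div_mul_eq_mul_div, div_le_iff₀ hc] at hl2
        linarith
      have := neg_abs_le (log δ)
      have := abs_nonneg (log δ)
      linarith
    · simp only [shrink]
      rw [mul_one_div, div_le_iff₀ (by positivity)]
      rw [div_le_iff₀ hδ] at h3
      have : log T * log T ^ 3 * 1 ≤ log T ^ 6 := by
        rw [mul_one, ← pow_succ']; exact pow_le_pow_right₀ (by linarith) (by norm_num)
      have : 0 ≤ log T ^ 3 := by positivity
      nlinarith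
  filter_upwards [eventually_scale hT, hup, hmany, mass_nonNormal hNL hZ hδ, one_le_coreMass,
    body_subset_upper] with X hT hup hmany hnn h1 hBU
  obtain ⟨hl, hexp, hshr⟩ := hT
  set T := scale X
  set N := (maxLen T : ℝ) + 1 with hN
  have hN12 : N ≤ 12 * log T := by linarith [maxLen_le (T := T) hl]
  have hN1 : 1 ≤ N := by linarith [Nat.cast_nonneg (α := ℝ) (maxLen T)]
  set E := exp (D * log (log T) ^ 2 - c * log T)
  have hs0 : 0 ≤ shrink T := by simp only [shrink]; positivity
  have hB0 : 0 ≤ bodyMass X := Finset.sum_nonneg fun i _ => mass_nonneg (bodySet_subset_all X i)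
  have hcardL : ((levRange X).card : ℝ) = N := by rw [levRange, Finset.card_range]; push_cast; ring
  have hcore : N * (bodyMass X - coreMass X) ≤ δ := by
    rw [bodyMass, coreMass, ← Finset.sum_sub_distrib, Finset.mul_sum]
    refine le_trans (Finset.sum_le_card_nsmul _ _ (δ / N) fun L hL => ?_) (le_of_eq ?_)
    · rw [le_div_iff₀ (by linarith)]
      have := hnn L hL
      rw [sq] at this
      linarith
    · rw [nsmul_eq_mul, hcardL]; field_simp
  have hper : ∀ L ∈ levRange X,
      mass (upperSet X L) - mass (bodySet X L) ≤ (2 * N * shrink T + E) * bodyMass X := by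
    intro L hL
    have hBL : mass (bodySet X L) ≤ bodyMass X :=
      Finset.single_le_sum (fun i _ => mass_nonneg (bodySet_subset_all X i)) hL
    have hB := mass_nonneg (bodySet_subset_all X L)
    have hE0 : 0 ≤ E := (exp_pos _).le
    by_cases hC : C₂ * tailLevel T ≤ T * ρ ^ L
    · have h2 := hup L hL hC
      have hLN : (L : ℝ) ≤ N := by
        have : (L : ℝ) ≤ maxLen T := by exact_mod_cast Nat.le_of_lt_succ (Finset.mem_range.1 hL)
        linarith
      have hsm : (L : ℝ) * shrink T ≤ 1 / 2 := by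
        have h3 : N * shrink T ≤ 12 * log T ^ 3 * shrink T := by
          refine mul_le_mul_of_nonneg_right (hN12.trans ?_) hs0
          have : log T ≤ log T ^ 3 := le_self_pow₀ hl (by norm_num)
          linarith
        have h4 : (L : ℝ) * shrink T ≤ N * shrink T := mul_le_mul_of_nonneg_right hLN hs0
        have : 0 ≤ log T ^ 3 * shrink T := by positivity
        linarith
      have hU := mass_nonneg (upperSet_subset_all X L)
      have hU2 : mass (upperSet X L) ≤ 2 * mass (bodySet X L) := by
        have := mul_le_mul_of_nonneg_left hsm hU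
        nlinarith
      have h5 : mass (upperSet X L) * ((L : ℝ) * shrink T) ≤ 2 * bodyMass X * (N * shrink T) :=
        mul_le_mul (by linarith) (mul_le_mul_of_nonneg_right hLN hs0) (by positivity) (by linarith)
      nlinarith
    · have h2 := hmany L hL (not_le.1 hC)
      have h3 : 0 ≤ 2 * N * shrink T * bodyMass X := by positivity
      change mass (upperSet X L) ≤ E * bodyMass X at h2
      linarith
  have htot : ∑ L ∈ levRange X, (mass (upperSet X L) - mass (coreSet X L))
      ≤ N * ((2 * N * shrink T + E) * bodyMass X) + (bodyMass X - coreMass X) := by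
    have e : ∑ L ∈ levRange X, (mass (upperSet X L) - mass (coreSet X L))
        = ∑ L ∈ levRange X, (mass (upperSet X L) - mass (bodySet X L))
          + (bodyMass X - coreMass X) := by
      rw [bodyMass, coreMass, ← Finset.sum_sub_distrib, ← Finset.sum_add_distrib]
      exact Finset.sum_congr rfl fun L _ => by ring
    rw [e]
    exact add_le_add ((Finset.sum_le_card_nsmul _ _ _ hper).trans
      (le_of_eq (by rw [nsmul_eq_mul, hcardL]))) le_rfl
  have hsq : N * N ≤ (12 * log T) ^ 2 := by
    rw [sq]; exact mul_le_mul hN12 hN12 (by linarith) (by linarith)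
  have hA : N * N * (2 * N * shrink T + E) ≤ 2 * δ := by
    have h6 : N * N * N ≤ 12 ^ 3 * log T ^ 3 := by
      calc N * N * N ≤ (12 * log T) ^ 2 * (12 * log T) :=
            mul_le_mul hsq hN12 (by linarith) (by positivity)
        _ = _ := by ring
    have h7 : N * N * E ≤ δ := by
      refine le_trans ?_ hexp
      rw [mul_comm]; exact mul_le_mul_of_nonneg_left hsq (exp_pos _).le
    have h8 := mul_le_mul_of_nonneg_right h6 (show 0 ≤ 2 * shrink T by linarith)
    nlinarith
  have hbody : bodyMass X ≤ 2 * coreMass X := by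
    by_contra hc
    push Not at hc
    have h9 : (1 : ℝ) * 1 ≤ N * (bodyMass X - coreMass X) :=
      mul_le_mul hN1 (by linarith) zero_le_one (by linarith)
    linarith
  have hfin : N * (N * ((2 * N * shrink T + E) * bodyMass X)) ≤ 4 * δ * coreMass X := by
    calc N * (N * ((2 * N * shrink T + E) * bodyMass X))
        = N * N * (2 * N * shrink T + E) * bodyMass X := by ring
      _ ≤ 2 * δ * bodyMass X := mul_le_mul_of_nonneg_right hA hB0
      _ ≤ 2 * δ * (2 * coreMass X) := mul_le_mul_of_nonneg_left hbody (by linarith)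
      _ = _ := by ring
  have hd2 : δ ≤ δ * coreMass X := le_mul_of_one_le_right hδ.le h1
  have hfin2 : δ * coreMass X * 5 ≤ ε * coreMass X := by nlinarith
  nlinarith [mul_le_mul_of_nonneg_left htot (show 0 ≤ N by linarith)]

end Vale.Agent.P031
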