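import Vale.Agent.P031.Sieve
import Mathlib.Analysis.SpecialFunctions.Pow.Asymptotics

/-! P031: tools for the normality estimates. -/

open Finset Real Filter
open scoped Nat

namespace Vale.Agent.P031

open Classical in
/-- Primes up to `Y` with `a < u p ≤ b`. -/
noncomputable def pInt (Y : ℕ) (a b : ℝ) : Finset ℕ :=
  (primesTo Y).filter fun p => a < u p ∧ u p ≤ b

open Classical in
/-- The sum of `1/(p-1)` over primes `p ≤ Y` with `u p ≤ x`. -/
noncomputable def pBelow (Y : ℕ) (x : ℝ) : ℝ :=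
  ∑ p ∈ (primesTo Y).filter (fun p => u p ≤ x), 1 / ((p : ℝ) - 1)

lemma pBelow_bounds {Y : ℕ} {x : ℝ} (hx : 0 < x) (hxY : x ≤ u Y) :
    x - 1 ≤ pBelow Y x ∧ pBelow Y x ≤ x := by
  classical
  constructor
  · obtain ⟨q, hq, hlt, hle⟩ := exists_prime_box (y := x) hx
    have hqY : q ≤ Y := by
      by_contra hc
      have := u_mono (show Y ≤ q - 1 by omega)
      rw [u_prime_eq hq] at hlt
      linarith
    have h2 : (2 : ℝ) ≤ q := by exact_mod_cast hq.two_le
    have h1 : 1 / ((q : ℝ) - 1) ≤ 1 := by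
      rw [div_le_one (by linarith)]; linarith
    have h3 : u (q - 1) ≤ pBelow Y x := by
      rw [u_def, pBelow]
      refine sum_le_sum_of_subset_of_nonneg (fun p hp => ?_) fun p hp _ => ?_
      · obtain ⟨h4, h5⟩ := mem_primesTo.1 hp
        refine mem_filter.2 ⟨mem_primesTo.2 ⟨by omega, h5⟩, ?_⟩
        have := u_mono h4
        rw [u_prime_eq hq] at hlt
        linarith
      · have := sub_one_pos_of_prime (mem_primesTo.1 (mem_filter.1 hp).1).2
        positivity
    rw [u_prime_eq hq] at hle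
    linarith
  · rw [pBelow]
    set s := (primesTo Y).filter (fun p => u p ≤ x)
    rcases s.eq_empty_or_nonempty with h | h
    · rw [h, sum_empty]; exact hx.le
    · obtain ⟨h1, h2⟩ := mem_filter.1 (max'_mem s h)
      refine le_trans ?_ h2
      rw [u_def]
      refine sum_le_sum_of_subset_of_nonneg (fun p hp => ?_) fun p hp _ => ?_
      · exact mem_primesTo.2 ⟨le_max' s p hp, (mem_primesTo.1 (mem_filter.1 hp).1).2⟩
      · have := sub_one_pos_of_prime (mem_primesTo.1 hp).2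
        positivity

lemma pInt_sum {Y : ℕ} {a b : ℝ} (ha : 0 < a) (hab : a ≤ b) (hb : b ≤ u Y) :
    (b - a) - 1 ≤ ∑ p ∈ pInt Y a b, 1 / ((p : ℝ) - 1) ∧
      ∑ p ∈ pInt Y a b, 1 / ((p : ℝ) - 1) ≤ (b - a) + 1 := by
  classical
  have e : pBelow Y b = pBelow Y a + ∑ p ∈ pInt Y a b, 1 / ((p : ℝ) - 1) := by
    rw [pBelow, pBelow, pInt, ← sum_filter_add_sum_filter_not _ (fun p => u p ≤ a), filter_filter,
      filter_filter]
    congr 1
    · refine sum_congr (filter_congr fun p _ => ⟨fun h => h.2, fun h => ⟨h.trans hab, h⟩⟩) fun _ _ => rfl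
    · exact sum_congr (filter_congr fun p _ => ⟨fun h => ⟨not_le.1 h.2, h.1⟩,
        fun h => ⟨h.2, not_le.2 h.1⟩⟩) fun _ _ => rfl
  have h1 := pBelow_bounds ha (hab.trans hb)
  have h2 := pBelow_bounds (lt_of_lt_of_le ha hab) hb
  constructor <;> linarith

lemma cnt_mono {a b a' b' : ℝ} (ha : a' ≤ a) (hb : b ≤ b') (n : ℕ) : cnt a b n ≤ cnt a' b' n := by
  classical
  simp only [cnt]
  refine List.Sublist.length_le (List.monotone_filter_right _ fun p hp => ?_)
  simp only [decide_eq_true_eq] at hp ⊢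
  exact ⟨lt_of_le_of_lt ha hp.1, hp.2.trans hb⟩

lemma card_le_cnt {Y : ℕ} {a b : ℝ} (n : ℕ) :
    (n.primeFactors.filter (fun p => p ∈ pInt Y a b)).card ≤ cnt a b n := by
  classical
  simp only [cnt]
  refine le_trans (card_le_card fun p hp => ?_) (List.toFinset_card_le _)
  obtain ⟨h1, h2⟩ := mem_filter.1 hp
  obtain ⟨-, h3⟩ := mem_filter.1 h2
  rw [List.mem_toFinset, List.mem_filter]
  exact ⟨by simpa [Nat.mem_primeFactorsList (Nat.mem_primeFactors.1 h1).2.2] using
    ⟨(Nat.mem_primeFactors.1 h1).1, (Nat.mem_primeFactors.1 h1).2.1⟩, by simpa using h3⟩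

/-- Splitting off the part of `n` made of primes with `a < u p ≤ b`. -/
lemma exists_split (a b : ℝ) {n : ℕ} (hn : n ≠ 0) :
    ∃ d m : ℕ, n = d * m ∧ d ≠ 0 ∧ m ≠ 0 ∧
      (∀ p : ℕ, p.Prime → p ∣ d → a < u p ∧ u p ≤ b) ∧
      (∀ p : ℕ, p.Prime → p ∣ m → ¬ (a < u p ∧ u p ≤ b)) ∧
      d.primeFactorsList.length = cnt a b n := by
  classical
  set P : ℕ → Bool := fun p => decide (a < u p ∧ u p ≤ b) with hP
  have hperm : (n.primeFactorsList.filter P ++ n.primeFactorsList.filter (fun p => !P p)).Perm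
      n.primeFactorsList := List.filter_append_perm P _
  have hpr : ∀ p ∈ n.primeFactorsList, p.Prime := fun p hp => Nat.prime_of_mem_primeFactorsList hp
  have hmul : n = (n.primeFactorsList.filter P).prod *
      (n.primeFactorsList.filter (fun p => !P p)).prod := by
    rw [← List.prod_append, hperm.prod_eq, Nat.prod_primeFactorsList hn]
  refine ⟨_, _, hmul, fun h => hn (by rw [hmul, h, zero_mul]),
    fun h => hn (by rw [hmul, h, mul_zero]), fun p hp hd => ?_, fun p hp hd => ?_, ?_⟩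
  · obtain ⟨q, hq, hpq⟩ := (Prime.dvd_prod_iff hp.prime).1 hd
    obtain ⟨hq1, hq2⟩ := List.mem_filter.1 hq
    rw [(Nat.prime_dvd_prime_iff_eq hp (hpr q hq1)).1 hpq]
    simpa [hP] using hq2
  · obtain ⟨q, hq, hpq⟩ := (Prime.dvd_prod_iff hp.prime).1 hd
    obtain ⟨hq1, hq2⟩ := List.mem_filter.1 hq
    rw [(Nat.prime_dvd_prime_iff_eq hp (hpr q hq1)).1 hpq]
    simp only [hP, Bool.not_eq_true', decide_eq_false_iff_not] at hq2
    exact hq2
  · rw [cnt]
    exact (Nat.primeFactorsList_unique (l := n.primeFactorsList.filter P) rfl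
      fun p hp => hpr p (List.mem_filter.1 hp).1).length_eq.symm

open Classical in
/-- The completely multiplicative weight `z ^ Ω(n) * n ^ (-s)`. -/
noncomputable def omWeight (z s : ℝ) : ℕ →* ℝ where
  toFun n := if n = 0 then 0 else z ^ n.primeFactorsList.length * (n : ℝ) ^ (-s)
  map_one' := by simp
  map_mul' m n := by
    rcases eq_or_ne m 0 with rfl | hm
    · simp
    rcases eq_or_ne n 0 with rfl | hn
    · simp
    rw [if_neg (mul_ne_zero hm hn), if_neg hm, if_neg hn,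
      (Nat.perm_primeFactorsList_mul hm hn).length_eq, List.length_append, pow_add, Nat.cast_mul,
      Real.mul_rpow (Nat.cast_nonneg m) (Nat.cast_nonneg n)]
    ring

lemma omWeight_apply {z s : ℝ} {n : ℕ} (hn : n ≠ 0) :
    omWeight z s n = z ^ n.primeFactorsList.length * (n : ℝ) ^ (-s) := by
  simp [omWeight, hn]

lemma omWeight_nonneg {z : ℝ} (hz : 0 ≤ z) (s : ℝ) (n : ℕ) : 0 ≤ omWeight z s n := by
  rcases eq_or_ne n 0 with rfl | hn
  · simp [omWeight]
  · rw [omWeight_apply hn]; positivity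

lemma omWeight_prime {z s : ℝ} {p : ℕ} (hp : p.Prime) :
    omWeight z s p = z * (p : ℝ) ^ (-s) := by
  rw [omWeight_apply hp.ne_zero, Nat.primeFactorsList_prime hp]
  simp

lemma euler_exp {ι : Type*} (s : Finset ι) (r : ι → ℝ) (hr : ∀ i ∈ s, 0 ≤ r i ∧ r i < 1) :
    ∏ i ∈ s, (1 - r i)⁻¹ ≤ exp (∑ i ∈ s, r i / (1 - r i)) := by
  have h : ∀ i ∈ s, (1 - r i)⁻¹ = 1 + r i / (1 - r i) := fun i hi => by
    have : 0 < 1 - r i := by linarith [(hr i hi).2]
    field_simp; ring
  rw [prod_congr rfl h]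
  refine prod_one_add_le_exp _ _ fun i hi => ?_
  have : 0 < 1 - r i := by linarith [(hr i hi).2]
  have := (hr i hi).1
  positivity

lemma u_pow_close : ∃ D : ℝ, 0 ≤ D ∧ ∀ n Y : ℕ, 3 ≤ n → 3 ≤ Y → Y ≤ n ^ 4 → u Y - D ≤ u n := by
  obtain ⟨C, hC0, hC⟩ := exists_mertens_const
  refine ⟨2 * C + log 4, by have := log_nonneg (show (1 : ℝ) ≤ 4 by norm_num); linarith,
    fun n Y hn hY h => ?_⟩
  have hlY : 0 < log (Y : ℝ) := log_pos (by exact_mod_cast (show 1 < Y by omega))
  have hln : 0 < log (n : ℝ) := log_pos (by exact_mod_cast (show 1 < n by omega))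
  have h1 : log (Y : ℝ) ≤ 4 * log n := by
    have := log_le_log (by positivity : (0 : ℝ) < Y) (show (Y : ℝ) ≤ (n : ℝ) ^ 4 by exact_mod_cast h)
    rw [log_pow] at this
    simpa using this
  have h2 := log_le_log hlY h1
  rw [log_mul (by norm_num) hln.ne'] at h2
  linarith [(hC n hn).1, (hC Y hY).2]

end Vale.Agent.P031
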