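import Vale.Agent.P031.Basic
import Mathlib.NumberTheory.EulerProduct.Basic
import Mathlib.Data.Finset.Sort

/-!
P031: parameters, the level list of an integer, and structural lemmas.
-/

open Finset Real
open scoped Nat

namespace Vale.Agent.P031

/-- The scale attached to `X`. -/
noncomputable def scale (X : ℕ) : ℝ := u X

/-- `log T`. -/
noncomputable def ell (T : ℝ) : ℝ := Real.log T

/-- The floor above which prime levels are considered. -/
noncomputable def floorLevel (T : ℝ) : ℝ := Real.log T ^ 200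

/-- The threshold separating high levels from the tail. -/
noncomputable def tailLevel (T : ℝ) : ℝ := Real.log T ^ 400

/-- The relative tolerance. -/
noncomputable def eta (T : ℝ) : ℝ := 1 / Real.log T ^ 10

/-- The truncation length for anatomy sums. -/
noncomputable def maxLen (T : ℝ) : ℕ := ⌈10 * Real.log T⌉₊

/-- The primes `p` of `n` with `F < u p`, in decreasing order. -/
noncomputable def levs (F : ℝ) (n : ℕ) : List ℕ :=
  open Classical in (n.primeFactors.filter (fun p => F < u p)).sort (fun a b => b ≤ a)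

/-- `n` divided by the product of its levels. -/
noncomputable def smlPart (F : ℝ) (n : ℕ) : ℕ := n / (levs F n).prod

/-- No square of a prime above `F` divides `n`. -/
def SqfreeAbove (F : ℝ) (n : ℕ) : Prop := ∀ p : ℕ, p.Prime → F < u p → ¬ p ^ 2 ∣ n

/-- The anatomy inequalities, with top scale `T`, truncated at `maxLen T` terms. -/
def Anat (T : ℝ) (qs : List ℕ) : Prop :=
  ∀ i < qs.length,
    cost ((qs.drop i).take (maxLen T)) ≤ (1 + eta T) * (if i = 0 then T else u (qs.getD i 0))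

/-- A preimage with normal levels and typical anatomy. -/
def Nice (T : ℝ) (n : ℕ) : Prop :=
  n ≠ 0 ∧ SqfreeAbove (floorLevel T) n ∧
    (∀ q ∈ levs (floorLevel T) n, Normal q) ∧
    Real.log (smlPart (floorLevel T) n) ≤ Real.exp (2 * floorLevel T) ∧
    Anat T (levs (floorLevel T) n)

lemma mem_levs {F : ℝ} {n p : ℕ} :
    p ∈ levs F n ↔ p.Prime ∧ p ∣ n ∧ n ≠ 0 ∧ F < u p := by
  classical
  simp [levs, Nat.mem_primeFactors, and_assoc]

lemma levs_pairwise (F : ℝ) (n : ℕ) : (levs F n).Pairwise (fun a b => b < a) := by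
  classical
  have h1 := Finset.pairwise_sort (n.primeFactors.filter (fun p => F < u p)) (fun a b => b ≤ a)
  have h2 := Finset.sort_nodup (n.primeFactors.filter (fun p => F < u p)) (fun a b => b ≤ a)
  exact (List.Pairwise.and h1 h2).imp fun {a b} h => lt_of_le_of_ne h.1 (Ne.symm h.2)

lemma levs_prod (F : ℝ) (n : ℕ) :
    (levs F n).prod = ∏ p ∈ (open Classical in n.primeFactors.filter (fun p => F < u p)), p := by
  classical
  rw [levs, Finset.prod_eq_multiset_prod, Multiset.map_id', ← Finset.sort_eq _ (fun a b => b ≤ a),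
    Multiset.prod_coe]

lemma levs_prod_dvd (F : ℝ) (n : ℕ) : (levs F n).prod ∣ n := by
  classical
  rw [levs_prod]
  exact (Finset.prod_dvd_prod_of_subset _ _ _ (Finset.filter_subset _ _)).trans
    (Nat.prod_primeFactors_dvd n)

lemma prod_levs_mul_sml (F : ℝ) (n : ℕ) : (levs F n).prod * smlPart F n = n :=
  Nat.mul_div_cancel' (levs_prod_dvd F n)

lemma smlPart_ne_zero {F : ℝ} {n : ℕ} (hn : n ≠ 0) : smlPart F n ≠ 0 := by
  intro h
  have := prod_levs_mul_sml F n
  rw [h, mul_zero] at this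
  exact hn this.symm

lemma smlPart_smooth {F : ℝ} {n : ℕ} (hn : n ≠ 0) (hsq : SqfreeAbove F n) :
    Smooth F (smlPart F n) := by
  refine ⟨smlPart_ne_zero hn, fun p hp hdvd => ?_⟩
  by_contra hc
  push Not at hc
  have hpn : p ∣ n := hdvd.trans ⟨(levs F n).prod, by rw [mul_comm, prod_levs_mul_sml]⟩
  have hmem : p ∈ levs F n := mem_levs.2 ⟨hp, hpn, hn, hc⟩
  have h2 : p * p ∣ n := by
    rw [← prod_levs_mul_sml F n]
    exact mul_dvd_mul (List.dvd_prod hmem) hdvd
  exact hsq p hp hc (by rwa [sq])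

lemma u_sub_one_le {p q : ℕ} (hp : p ∣ q - 1) (hq : q.Prime) : u p ≤ u q :=
  u_mono ((Nat.le_of_dvd (by have := hq.two_le; omega) hp).trans (Nat.sub_le q 1))

lemma totient_prod_primes_mul (qs : List ℕ) (m : ℕ) (hqs : ∀ q ∈ qs, q.Prime)
    (hnd : qs.Nodup) (hdvd : ∀ q ∈ qs, ¬ q ∣ m) :
    φ (qs.prod * m) = pval qs * φ m := by
  induction qs with
  | nil => simp [pval]
  | cons q qs ih =>
    obtain ⟨hq, hqs'⟩ := List.forall_mem_cons.1 hqs
    obtain ⟨hni, hnd'⟩ := List.nodup_cons.1 hnd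
    obtain ⟨hd, hdvd'⟩ := List.forall_mem_cons.1 hdvd
    have hcop : q.Coprime (qs.prod * m) := by
      refine (hq.coprime_iff_not_dvd).2 fun h => ?_
      rcases hq.dvd_mul.1 h with h | h
      · obtain ⟨a, ha, hqa⟩ := (Prime.dvd_prod_iff hq.prime).1 h
        exact hni ((Nat.prime_dvd_prime_iff_eq hq (hqs' a ha)).1 hqa ▸ ha)
      · exact hd h
    rw [List.prod_cons, mul_assoc, Nat.totient_mul hcop, Nat.totient_prime hq, ih hqs' hnd' hdvd']
    simp [pval, mul_assoc]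

lemma sml_not_dvd {F : ℝ} {n : ℕ} (hn : n ≠ 0) (hsq : SqfreeAbove F n) {q : ℕ}
    (hq : q ∈ levs F n) : ¬ q ∣ smlPart F n := fun h => by
  obtain ⟨hp, -, -, hu⟩ := mem_levs.1 hq
  exact absurd ((smlPart_smooth hn hsq).2 q hp h) (not_le.2 hu)

lemma totient_eq_pval {F : ℝ} {n : ℕ} (hn : n ≠ 0) (hsq : SqfreeAbove F n) :
    φ n = pval (levs F n) * φ (smlPart F n) := by
  conv_lhs => rw [← prod_levs_mul_sml F n]
  exact totient_prod_primes_mul _ _ (fun q hq => (mem_levs.1 hq).1)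
    ((levs_pairwise F n).imp fun {a b} h => (ne_of_lt h).symm) (fun q hq => sml_not_dvd hn hsq hq)

lemma pval_pos {qs : List ℕ} (h : ∀ q ∈ qs, q.Prime) : 0 < pval qs := by
  refine List.prod_pos fun a ha => ?_
  obtain ⟨q, hq, rfl⟩ := List.mem_map.1 ha
  have := (h q hq).two_le
  omega

lemma pval_cons (q : ℕ) (qs : List ℕ) : pval (q :: qs) = (q - 1) * pval qs := by simp [pval]

lemma pval_append (as bs : List ℕ) : pval (as ++ bs) = pval as * pval bs := by simp [pval]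

lemma prime_dvd_totient {p n : ℕ} (hp : p.Prime) (h : p ∣ φ n) (hn : n ≠ 0) :
    ∃ q : ℕ, q.Prime ∧ q ∣ n ∧ (p = q ∨ p ∣ q - 1) := by
  rw [Nat.totient_eq_prod_factorization hn] at h
  obtain ⟨q, hq, hdvd⟩ := (Prime.dvd_finsetProd_iff hp.prime _).1 h
  rw [Nat.support_factorization, Nat.mem_primeFactors] at hq
  refine ⟨q, hq.1, hq.2.1, ?_⟩
  rcases hp.dvd_mul.1 hdvd with h | h
  · exact Or.inl ((Nat.prime_dvd_prime_iff_eq hp hq.1).1 (hp.dvd_of_dvd_pow h))
  · exact Or.inr h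

lemma smooth_totient {F : ℝ} {n : ℕ} (h : Smooth F n) : Smooth F (φ n) := by
  refine ⟨(Nat.totient_pos.2 (Nat.pos_of_ne_zero h.1)).ne', fun p hp hdvd => ?_⟩
  obtain ⟨q, hq, hqn, hpq⟩ := prime_dvd_totient hp hdvd h.1
  rcases hpq with rfl | hpq
  · exact h.2 p hp hqn
  · exact (u_sub_one_le hpq hq).trans (h.2 q hq hqn)

lemma Smooth.mono {F G : ℝ} {n : ℕ} (h : Smooth F n) (hFG : F ≤ G) : Smooth G n :=
  ⟨h.1, fun p hp hd => (h.2 p hp hd).trans hFG⟩

lemma Smooth.mul {F : ℝ} {a b : ℕ} (ha : Smooth F a) (hb : Smooth F b) : Smooth F (a * b) :=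
  ⟨mul_ne_zero ha.1 hb.1, fun p hp hd => (hp.dvd_mul.1 hd).elim (ha.2 p hp) (hb.2 p hp)⟩

lemma Smooth.of_dvd {F : ℝ} {a b : ℕ} (ha : Smooth F a) (hb : b ∣ a) : Smooth F b :=
  ⟨fun h => ha.1 (by subst h; exact zero_dvd_iff.1 hb), fun p hp hd => ha.2 p hp (hd.trans hb)⟩

lemma smooth_pval {F : ℝ} {qs : List ℕ} (h : ∀ q ∈ qs, q.Prime ∧ u q ≤ F) :
    Smooth F (pval qs) := by
  refine ⟨(pval_pos fun q hq => (h q hq).1).ne', fun p hp hd => ?_⟩
  obtain ⟨a, ha, hpa⟩ := (Prime.dvd_prod_iff hp.prime).1 hd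
  obtain ⟨q, hq, rfl⟩ := List.mem_map.1 ha
  exact (u_sub_one_le hpa (h q hq).1).trans (h q hq).2

lemma smooth_of_le {N : ℕ} {n : ℕ} (hn : n ≠ 0) (h : n ≤ N) : Smooth (u N) n :=
  ⟨hn, fun _ _ hd => u_mono ((Nat.le_of_dvd (Nat.pos_of_ne_zero hn) hd).trans h)⟩

/-- A finite sum of a completely multiplicative function over smooth numbers is at most the
Euler product. -/
lemma sum_smooth_le_prod (f : ℕ →* ℝ) (hf : ∀ n, 0 ≤ f n) (hlt : ∀ p : ℕ, p.Prime → f p < 1)
    (P : Finset ℕ) (s : Finset ℕ) (hs : ∀ m ∈ s, m ≠ 0 ∧ ∀ p : ℕ, p.Prime → p ∣ m → p ∈ P) :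
    ∑ m ∈ s, f m ≤ ∏ p ∈ P with p.Prime, (1 - f p)⁻¹ := by
  classical
  obtain ⟨hsum, htsum⟩ := EulerProduct.summable_and_hasSum_factoredNumbers_prod_filter_prime_geometric
    (f := f) (fun {p} hp => by rw [Real.norm_of_nonneg (hf p)]; exact hlt p hp) P
  have hmem : ∀ m ∈ s, m ∈ Nat.factoredNumbers P := fun m hm => by
    refine Nat.mem_factoredNumbers'.2 fun p hp hd => (hs m hm).2 p hp hd
  rw [← htsum.tsum_eq]
  calc ∑ m ∈ s, f m = ∑ m ∈ s.subtype (· ∈ Nat.factoredNumbers P), f m :=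
        (Finset.sum_subtype_of_mem (fun m => f m) hmem).symm
    _ ≤ _ := Summable.sum_le_tsum _ (fun i _ => hf _) htsum.summable

end Vale.Agent.P031
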