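import Vale.Agent.P031.NormalBasic
import Vale.Agent.P031.Params

/-! P031: the two tails for the number of prime factors of `q - 1` in an interval. -/

open Finset Real Filter
open scoped Nat

namespace Vale.Agent.P031

open Classical in
/-- The candidates `n = q - 1`. -/
noncomputable def shifted (Y : ℕ) : Finset ℕ := (Icc 1 Y).filter fun n => (n + 1).Prime

lemma lower_tail : ∃ C : ℝ, ∃ k : ℕ, 0 < C ∧ ∀ Y A B : ℕ, ∀ c l : ℝ, 1 ≤ Y → 1 ≤ A → A ≤ B →
    (B : ℝ) ≤ u Y → 0 ≤ l → l ≤ 1 / 2 → 0 ≤ c →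
    ∀ s : Finset ℕ, (∀ n ∈ s, n ∈ shifted Y ∧ (cnt (A : ℝ) (B : ℝ) n : ℝ) ≤ c) →
    (s.card : ℝ) ≤ C * (u Y + 1) ^ k * Y *
      exp (-u Y - l * (((B : ℝ) - A) - 1) + (l + 2 * l ^ 2) * c) := by
  classical
  obtain ⟨C, k, hC0, hC⟩ := sieve
  refine ⟨C, k, hC0, fun Y A B c l hY hA hAB hB hl hl2 hc s hs => ?_⟩
  set z : ℕ → ℝ := fun p => if p ∈ pInt Y (A : ℝ) (B : ℝ) then 1 - l else 1 with hz
  have hz1 : ∀ p, 0 ≤ z p ∧ z p ≤ 1 := fun p => by
    simp only [hz]; split_ifs <;> constructor <;> linarith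
  have hsv := hC Y Y hY le_rfl {1} (by simp) (by simp [hY]) z hz1
  have hneg : -(l + 2 * l ^ 2) ≤ log (1 - l) := by
    have h := one_sub_inv_le_log_of_pos (show 0 < 1 - l by linarith)
    refine le_trans ?_ h
    rw [le_sub_iff_add_le, ← le_sub_iff_add_le', inv_le_iff_one_le_mul₀' (by linarith)]
    nlinarith [mul_nonneg (sq_nonneg l) (show (0 : ℝ) ≤ 1 - 2 * l by linarith)]
  have hterm : ∀ n ∈ s, exp (-((l + 2 * l ^ 2) * c)) ≤ ∏ p ∈ n.primeFactors, z p := by
    intro n hn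
    obtain ⟨-, hcn⟩ := hs n hn
    have hk : ((n.primeFactors.filter (fun p => p ∈ pInt Y (A : ℝ) (B : ℝ))).card : ℝ) ≤ c :=
      le_trans (by exact_mod_cast card_le_cnt n) hcn
    have e : ∏ p ∈ n.primeFactors, z p
        = exp (((n.primeFactors.filter (fun p => p ∈ pInt Y (A : ℝ) (B : ℝ))).card : ℝ) * log (1 - l)) := by
      rw [exp_nat_mul, exp_log (by linarith)]
      simp only [hz]
      rw [← prod_filter, prod_const]
    rw [e, exp_le_exp]
    have h1 := mul_le_mul_of_nonneg_left hneg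
      (Nat.cast_nonneg (α := ℝ) (n.primeFactors.filter (fun p => p ∈ pInt Y (A : ℝ) (B : ℝ))).card)
    have h2 := mul_le_mul_of_nonneg_right hk (show (0 : ℝ) ≤ l + 2 * l ^ 2 by positivity)
    linarith
  have hsum : (s.card : ℝ) * exp (-((l + 2 * l ^ 2) * c)) ≤
      ∑ n ∈ (Icc 1 Y).filter (fun n => ∀ a ∈ ({1} : Finset ℕ), (a * n + 1).Prime),
        ∏ p ∈ n.primeFactors, z p := by
    rw [← nsmul_eq_mul, ← sum_const]
    refine (sum_le_sum hterm).trans (sum_le_sum_of_subset_of_nonneg (fun n hn => ?_) fun n _ _ => ?_)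
    · have := (hs n hn).1
      rw [shifted, mem_filter] at this
      exact mem_filter.2 ⟨this.1, by simpa using this.2⟩
    · exact prod_nonneg fun p _ => (hz1 p).1
  have hS := pInt_sum (Y := Y) (a := (A : ℝ)) (b := (B : ℝ)) (by exact_mod_cast hA)
    (by exact_mod_cast hAB) hB
  have hexp : ∑ p ∈ (range (Y + 1)).filter Nat.Prime, (1 - z p) / ((p : ℝ) - 1)
      = l * ∑ p ∈ pInt Y (A : ℝ) (B : ℝ), 1 / ((p : ℝ) - 1) := by
    rw [mul_sum]
    symm
    rw [pInt, sum_filter]
    refine sum_congr rfl fun p hp => ?_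
    simp only [hz, pInt, mem_filter]
    have hp' : p ∈ primesTo Y := hp
    by_cases h : (A : ℝ) < u p ∧ u p ≤ (B : ℝ)
    · rw [if_pos h, if_pos ⟨hp', h⟩]; ring
    · rw [if_neg h, if_neg fun h' => h h'.2]; simp
  rw [hexp] at hsv
  have hpre : 0 ≤ C * (u Y + 1) ^ k * Y := by have := u_nonneg Y; positivity
  have h3 := hsum.trans hsv
  rw [← le_div_iff₀ (exp_pos _)] at h3
  refine h3.trans ?_
  rw [mul_div_assoc, ← exp_sub]
  refine mul_le_mul_of_nonneg_left (exp_le_exp.2 ?_) hpre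
  simp only [card_singleton, Nat.cast_one, one_mul]
  linarith [mul_le_mul_of_nonneg_left hS.1 hl]

lemma pInt_two_notMem {Y : ℕ} {a b : ℝ} (ha : 1 ≤ a) {p : ℕ} (hp : p ∈ pInt Y a b) : 3 ≤ p := by
  classical
  obtain ⟨h1, h2, -⟩ := mem_filter.1 hp
  by_contra hc
  have := u_mono (show p ≤ 2 by omega)
  rw [u_succ, u_one] at this
  norm_num [Nat.prime_two] at this
  linarith

lemma upper_tail_aux (Y A B : ℕ) (z : ℝ) (hz0 : 0 ≤ z) (σ : ℝ)
    (s : Finset ℕ) (hs : ∀ d ∈ s, d ≠ 0 ∧ ∀ p : ℕ, p.Prime → p ∣ d → p ∈ pInt Y (A : ℝ) (B : ℝ))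
    (hr : ∀ p ∈ pInt Y (A : ℝ) (B : ℝ), z * (p : ℝ) ^ (-σ) < 1) :
    ∑ d ∈ s, omWeight z σ d ≤
      exp (∑ p ∈ pInt Y (A : ℝ) (B : ℝ), (z * (p : ℝ) ^ (-σ)) / (1 - z * (p : ℝ) ^ (-σ))) := by
  classical
  set P := pInt Y (A : ℝ) (B : ℝ) with hP
  have hPp : ∀ p ∈ P, p.Prime := fun p hp => (mem_primesTo.1 (mem_filter.1 hp).1).2
  -- truncate the weight away from the interval
  set f : ℕ →* ℝ :=
    { toFun := fun n => if n ≠ 0 ∧ ∀ p : ℕ, p.Prime → p ∣ n → p ∈ P then omWeight z σ n else 0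
      map_one' := by
        rw [if_pos ⟨one_ne_zero, fun p hp h => absurd h hp.not_dvd_one⟩, map_one]
      map_mul' := fun m n => by
        by_cases hm : m ≠ 0 ∧ ∀ p : ℕ, p.Prime → p ∣ m → p ∈ P
        · by_cases hn : n ≠ 0 ∧ ∀ p : ℕ, p.Prime → p ∣ n → p ∈ P
          · rw [if_pos hm, if_pos hn, if_pos ⟨mul_ne_zero hm.1 hn.1, fun p hp h =>
              (hp.dvd_mul.1 h).elim (hm.2 p hp) (hn.2 p hp)⟩, map_mul]
          · rw [if_neg hn, if_neg, mul_zero]
            exact fun h => hn ⟨(mul_ne_zero_iff.1 h.1).2, fun p hp hd => h.2 p hp (hd.mul_left m)⟩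
        · rw [if_neg hm, if_neg, zero_mul]
          exact fun h => hm ⟨(mul_ne_zero_iff.1 h.1).1, fun p hp hd => h.2 p hp (hd.mul_right n)⟩ }
    with hf
  have hfapp : ∀ n, f n = if n ≠ 0 ∧ ∀ p : ℕ, p.Prime → p ∣ n → p ∈ P then omWeight z σ n else 0 :=
    fun _ => rfl
  have hfprime : ∀ p : ℕ, p.Prime → f p = if p ∈ P then z * (p : ℝ) ^ (-σ) else 0 := by
    intro p hp
    rw [hfapp]
    by_cases h : p ∈ P
    · rw [if_pos h, if_pos ⟨hp.ne_zero, fun q hq hd => (Nat.prime_dvd_prime_iff_eq hq hp).1 hd ▸ h⟩,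
        omWeight_prime hp]
    · rw [if_neg h, if_neg fun h' => h (h'.2 p hp dvd_rfl)]
  have hf0 : ∀ n, 0 ≤ f n := fun n => by
    rw [hfapp]; split_ifs
    · exact omWeight_nonneg hz0 σ n
    · exact le_rfl
  have hlt : ∀ p : ℕ, p.Prime → f p < 1 := fun p hp => by
    rw [hfprime p hp]; split_ifs with h
    · exact hr p h
    · exact one_pos
  have hmain := sum_smooth_le_prod f hf0 hlt P s fun d hd => hs d hd
  have e1 : ∑ d ∈ s, f d = ∑ d ∈ s, omWeight z σ d :=
    sum_congr rfl fun d hd => by rw [hfapp, if_pos (hs d hd)]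
  rw [e1, filter_true_of_mem hPp] at hmain
  refine hmain.trans (le_trans (le_of_eq ?_) (euler_exp P _ fun p hp => ⟨by positivity, hr p hp⟩))
  exact prod_congr rfl fun p hp => by rw [hfprime p (hPp p hp), if_pos hp]

lemma upper_tail : ∃ C E : ℝ, ∃ k : ℕ, 0 < C ∧ 0 ≤ E ∧ ∀ Y A B : ℕ, ∀ c l : ℝ, 81 ≤ Y → 1 ≤ A → A ≤ B →
    (B : ℝ) < u Y - E → 0 ≤ l → l ≤ 1 / 20 →
    ∀ s : Finset ℕ, (∀ n ∈ s, n ∈ shifted Y ∧ c ≤ (cnt (A : ℝ) (B : ℝ) n : ℝ)) →
    (s.card : ℝ) * exp (c * log (1 + l)) ≤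
      C * (u Y + 1) ^ k * Y * exp (-u Y + l * (((B : ℝ) - A) + 1))
      + Y * exp (-(exp (u Y - B - E)) + 8 * (u Y + 1)) := by
  classical
  obtain ⟨C, k, hC0, hC⟩ := sieve
  obtain ⟨D, hD0, hD⟩ := u_pow_close
  obtain ⟨K, hK0, hK⟩ := exists_mertens_const
  refine ⟨C * exp (D + 4), max D (2 * K + log 16), k, by positivity, le_max_of_le_left hD0,
    fun Y A B c l hY hA hAB hB hl hl2 s hs => ?_⟩
  set E := max D (2 * K + log 16) with hE
  have hED : D ≤ E := le_max_left _ _
  have hEK : 2 * K + log 16 ≤ E := le_max_right _ _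
  have hE0 : 0 ≤ E := hD0.trans hED
  set z := 1 + l with hz
  have hz0 : 0 ≤ z := by linarith
  set T := u Y with hT
  set P := pInt Y (A : ℝ) (B : ℝ) with hP
  have hA1 : (1 : ℝ) ≤ A := by exact_mod_cast hA
  have hAB' : (A : ℝ) ≤ B := by exact_mod_cast hAB
  have hS := pInt_sum (Y := Y) (lt_of_lt_of_le one_pos hA1) hAB' (by linarith)
  rw [← hP] at hS
  -- split each element
  have hsplit : ∀ n : ℕ, n ≠ 0 → ∃ d m : ℕ, n = d * m ∧ d ≠ 0 ∧ m ≠ 0 ∧
      (∀ p : ℕ, p.Prime → p ∣ d → (A : ℝ) < u p ∧ u p ≤ B) ∧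
      (∀ p : ℕ, p.Prime → p ∣ m → ¬ ((A : ℝ) < u p ∧ u p ≤ B)) ∧
      d.primeFactorsList.length = cnt (A : ℝ) B n := fun n hn => exists_split _ _ hn
  choose! dd mm heq hd0 hm0 hdI hmI hlen using hsplit
  have hsn : ∀ n ∈ s, n ≠ 0 ∧ n ≤ Y ∧ (n + 1).Prime := fun n hn => by
    have := (hs n hn).1
    simp only [shifted, mem_filter, mem_Icc] at this
    exact ⟨by omega, this.1.2, this.2⟩
  have hdY : ∀ n ∈ s, dd n ≤ Y := fun n hn => by
    obtain ⟨h0, h1, -⟩ := hsn n hn
    exact (Nat.le_of_dvd (Nat.pos_of_ne_zero h0) ⟨mm n, heq n h0⟩).trans h1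
  have hdP : ∀ n ∈ s, ∀ p : ℕ, p.Prime → p ∣ dd n → p ∈ P := fun n hn p hp hd => by
    obtain ⟨h0, -, -⟩ := hsn n hn
    exact mem_filter.2 ⟨mem_primesTo.2 ⟨(Nat.le_of_dvd (Nat.pos_of_ne_zero (hd0 n h0)) hd).trans
      (hdY n hn), hp⟩, hdI n h0 p hp hd⟩
  have hlow : (s.card : ℝ) * exp (c * log z) ≤ ∑ n ∈ s, z ^ (dd n).primeFactorsList.length := by
    rw [← nsmul_eq_mul, ← sum_const]
    refine sum_le_sum fun n hn => ?_
    rw [hlen n (hsn n hn).1]
    calc exp (c * log z) ≤ exp ((cnt (A : ℝ) B n : ℝ) * log z) :=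
          exp_le_exp.2 (mul_le_mul_of_nonneg_right (hs n hn).2 (log_nonneg (by linarith)))
      _ = z ^ cnt (A : ℝ) B n := by rw [exp_nat_mul, exp_log (by linarith)]
  refine hlow.trans ?_
  rw [← sum_filter_add_sum_filter_not s (fun n => dd n * dd n ≤ Y)]
  refine add_le_add ?_ ?_
  · -- small `d`: sieve the cofactor
    set S1 := s.filter (fun n => dd n * dd n ≤ Y) with hS1
    rw [← sum_fiberwise_of_maps_to (t := S1.image dd) fun n hn => mem_image_of_mem dd hn]
    set w : ℕ → ℝ := fun p => if p ∈ P then 0 else 1 with hw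
    have hfib : ∀ d ∈ S1.image dd, ∑ n ∈ S1.filter (fun n => dd n = d),
        z ^ (dd n).primeFactorsList.length ≤
        omWeight z 1 d * (C * (T + 1) ^ k * Y *
          exp (-(T - D) - ∑ p ∈ P, 1 / ((p : ℝ) - 1))) := by
      intro d hd
      obtain ⟨n0, hn0, rfl⟩ := mem_image.1 hd
      obtain ⟨hn0s, hn0d⟩ := mem_filter.1 hn0
      obtain ⟨hn00, -, -⟩ := hsn n0 hn0s
      set d := dd n0
      have hdne : d ≠ 0 := hd0 n0 hn00
      set U := Y / d with hU
      have hU1 : d * U ≤ Y := Nat.mul_div_le Y d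
      have hU2 : Y < d * (U + 1) := Nat.lt_mul_div_succ Y (Nat.pos_of_ne_zero hdne)
      have hUd : d ≤ U + 1 := by
        by_contra hc
        have := Nat.mul_le_mul_left d (not_le.1 hc).le
        omega
      have hYU : Y < (U + 1) * (U + 1) := lt_of_lt_of_le hU2 (Nat.mul_le_mul_right _ hUd)
      have hU8 : 8 ≤ U := by
        by_contra hc
        have := Nat.mul_le_mul (show U + 1 ≤ 8 by omega) (show U + 1 ≤ 8 by omega)
        omega
      have hY4 : Y ≤ U ^ 4 := by
        refine hYU.le.trans ?_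
        calc (U + 1) * (U + 1) ≤ U ^ 2 * U ^ 2 := by
              refine Nat.mul_le_mul ?_ ?_ <;> nlinarith
          _ = U ^ 4 := by ring
      have huU := hD U Y (by omega) (by omega) hY4
      have hUY : U ≤ Y := Nat.div_le_self _ _
      have hdY' : d ≤ Y := hdY n0 hn0s
      have hw1 : ∀ p, 0 ≤ w p ∧ w p ≤ 1 := fun p => by simp only [hw]; split_ifs <;> norm_num
      have hsv := hC U Y (by omega) hUY {d} (by simp)
        (by simpa using ⟨Nat.pos_of_ne_zero hdne, hdY'⟩) w hw1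
      have hinj : ((S1.filter (fun n => dd n = d)).card : ℝ) ≤
          ∑ m ∈ (Icc 1 U).filter (fun m => ∀ a ∈ ({d} : Finset ℕ), (a * m + 1).Prime),
            ∏ p ∈ m.primeFactors, w p := by
        have hmem : ∀ n ∈ S1.filter (fun n => dd n = d),
            mm n ∈ (Icc 1 U).filter (fun m => ∀ a ∈ ({d} : Finset ℕ), (a * m + 1).Prime) := by
          intro n hn
          obtain ⟨h1, h2⟩ := mem_filter.1 hn
          obtain ⟨h0, hnY, hnp⟩ := hsn n (mem_filter.1 h1).1
          have he : n = d * mm n := by rw [← h2]; exact heq n h0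
          refine mem_filter.2 ⟨mem_Icc.2 ⟨Nat.pos_of_ne_zero (hm0 n h0),
            (Nat.le_div_iff_mul_le (Nat.pos_of_ne_zero hdne)).2 ?_⟩, ?_⟩
          · rw [mul_comm, ← he]; exact hnY
          · simp only [mem_singleton, forall_eq, ← he]; exact hnp
        refine le_trans (le_of_eq ?_) (sum_le_sum_of_subset_of_nonneg
          (s := (S1.filter (fun n => dd n = d)).image mm) ?_ fun m _ _ => prod_nonneg fun p _ => (hw1 p).1)
        · rw [sum_image]
          · rw [sum_congr rfl (g := fun _ => (1 : ℝ)) fun n hn => ?_]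
            · simp
            · refine prod_eq_one fun p hp => ?_
              obtain ⟨h0, -, -⟩ := hsn n (mem_filter.1 (mem_filter.1 hn).1).1
              simp only [hw]
              rw [if_neg]
              intro hpP
              exact hmI n h0 p (Nat.prime_of_mem_primeFactors hp) (Nat.dvd_of_mem_primeFactors hp)
                (mem_filter.1 hpP).2
          · intro a ha b hb hab
            obtain ⟨ha1, ha2⟩ := mem_filter.1 ha
            obtain ⟨hb1, hb2⟩ := mem_filter.1 hb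
            rw [heq a (hsn a (mem_filter.1 ha1).1).1, heq b (hsn b (mem_filter.1 hb1).1).1, ha2, hb2,
              hab]
        · intro m hm
          obtain ⟨n, hn, rfl⟩ := mem_image.1 hm
          exact hmem n hn
      have hsum : ∑ n ∈ S1.filter (fun n => dd n = d), z ^ (dd n).primeFactorsList.length
          = ((S1.filter (fun n => dd n = d)).card : ℝ) * z ^ d.primeFactorsList.length := by
        rw [sum_congr rfl fun n hn => by rw [(mem_filter.1 hn).2], sum_const, nsmul_eq_mul]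
      rw [hsum, omWeight_apply hdne, rpow_neg_one]
      have hPU : ∑ p ∈ P, 1 / ((p : ℝ) - 1) ≤
          ∑ p ∈ (range (U + 1)).filter Nat.Prime, (1 - w p) / ((p : ℝ) - 1) := by
        refine le_trans (le_of_eq (sum_congr rfl fun p hp => ?_))
          (sum_le_sum_of_subset_of_nonneg ?_ fun p hp _ => ?_)
        · simp [hw, hp]
        · intro p hp
          obtain ⟨hp1, -, hp2⟩ := mem_filter.1 hp
          refine mem_primesTo.2 ⟨?_, (mem_primesTo.1 hp1).2⟩
          by_contra hc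
          linarith [u_mono (not_le.1 hc).le]
        · exact div_nonneg (by linarith [(hw1 p).2]) (sub_one_pos_of_prime (mem_filter.1 hp).2).le
      have hexp : exp (-((({d} : Finset ℕ).card : ℝ) * u U)
          - ∑ p ∈ (range (U + 1)).filter Nat.Prime, (1 - w p) / ((p : ℝ) - 1))
          ≤ exp (-(T - D) - ∑ p ∈ P, 1 / ((p : ℝ) - 1)) := by
        rw [exp_le_exp]
        simp only [card_singleton, Nat.cast_one, one_mul]
        linarith
      have hUle : (U : ℝ) ≤ (Y : ℝ) * (d : ℝ)⁻¹ := by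
        rw [← div_eq_mul_inv, le_div_iff₀ (by exact_mod_cast Nat.pos_of_ne_zero hdne), mul_comm]
        exact_mod_cast hU1
      have hchain := hinj.trans hsv
      have hpos : 0 ≤ C * (u Y + 1) ^ k := by have := u_nonneg Y; positivity
      calc ((S1.filter (fun n => dd n = d)).card : ℝ) * z ^ d.primeFactorsList.length
          ≤ (C * (T + 1) ^ k * ((Y : ℝ) * (d : ℝ)⁻¹) *
              exp (-(T - D) - ∑ p ∈ P, 1 / ((p : ℝ) - 1))) * z ^ d.primeFactorsList.length := by
            refine mul_le_mul_of_nonneg_right (hchain.trans ?_) (pow_nonneg hz0 _)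
            exact mul_le_mul (mul_le_mul_of_nonneg_left hUle hpos) hexp (exp_pos _).le
              (mul_nonneg hpos (by positivity))
        _ = _ := by ring
    refine (sum_le_sum hfib).trans ?_
    rw [← sum_mul]
    have hr : ∀ p ∈ P, z * (p : ℝ) ^ (-(1 : ℝ)) < 1 := fun p hp => by
      have : (3 : ℝ) ≤ p := by exact_mod_cast pInt_two_notMem hA1 hp
      rw [rpow_neg_one, ← div_eq_mul_inv, div_lt_one (by linarith)]
      linarith
    have hds : ∀ d ∈ S1.image dd, d ≠ 0 ∧ ∀ p : ℕ, p.Prime → p ∣ d → p ∈ P := fun d hd => by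
      obtain ⟨n, hn, rfl⟩ := mem_image.1 hd
      exact ⟨hd0 n (hsn n (mem_filter.1 hn).1).1, hdP n (mem_filter.1 hn).1⟩
    refine (mul_le_mul_of_nonneg_right (upper_tail_aux Y A B z hz0 1 _ hds hr)
      (by have := u_nonneg Y; positivity)).trans ?_
    have hkey : ∑ p ∈ P, (z * (p : ℝ) ^ (-(1 : ℝ))) / (1 - z * (p : ℝ) ^ (-(1 : ℝ)))
        ≤ (1 + l) * ∑ p ∈ P, 1 / ((p : ℝ) - 1) + 4 := by
      have hpt : ∀ p ∈ P, (z * (p : ℝ) ^ (-(1 : ℝ))) / (1 - z * (p : ℝ) ^ (-(1 : ℝ)))
          ≤ (1 + l) * (1 / ((p : ℝ) - 1)) + 4 * (1 / ((p : ℝ) * ((p : ℝ) - 1))) := by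
        intro p hp
        have h3 : (3 : ℝ) ≤ p := by exact_mod_cast pInt_two_notMem hA1 hp
        have e : (z * (p : ℝ) ^ (-(1 : ℝ))) / (1 - z * (p : ℝ) ^ (-(1 : ℝ))) = z / ((p : ℝ) - z) := by
          have : (p : ℝ) - z ≠ 0 := by linarith
          rw [rpow_neg_one]; field_simp
        have e2 : z / ((p : ℝ) - z) =
            (1 + l) * (1 / ((p : ℝ) - 1)) + z * l / (((p : ℝ) - z) * ((p : ℝ) - 1)) := by
          have : (p : ℝ) - z ≠ 0 := by linarith
          have : (p : ℝ) - 1 ≠ 0 := by linarith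
          field_simp; ring
        rw [e, e2, mul_one_div 4]
        have hnum : z * l ≤ 1 := by nlinarith
        refine add_le_add le_rfl ?_
        rw [div_le_div_iff₀ (mul_pos (by linarith) (by linarith)) (by nlinarith)]
        have hp1 : (0 : ℝ) ≤ (p : ℝ) - 1 := by linarith
        have h4 := mul_le_mul_of_nonneg_right hnum
          (mul_nonneg (by linarith : (0 : ℝ) ≤ (p : ℝ)) hp1)
        nlinarith
      refine (sum_le_sum hpt).trans ?_
      rw [sum_add_distrib, ← mul_sum, ← mul_sum]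
      have : ∑ p ∈ P, 1 / ((p : ℝ) * ((p : ℝ) - 1)) ≤ 1 := by
        refine le_trans ?_ (sum_inv_mul_pred Y)
        refine sum_le_sum_of_subset_of_nonneg (filter_subset _ _) fun p hp _ => ?_
        have := sub_one_pos_of_prime (mem_primesTo.1 hp).2
        positivity
      linarith
    refine le_trans (mul_le_mul_of_nonneg_right (exp_le_exp.2 hkey)
      (by have := u_nonneg Y; positivity)) ?_
    set S := ∑ p ∈ P, 1 / ((p : ℝ) - 1) with hSdef
    have hle : exp ((1 + l) * S + 4) * exp (-(T - D) - S) ≤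
        exp (D + 4) * exp (-T + l * (((B : ℝ) - A) + 1)) := by
      rw [← exp_add, ← exp_add, exp_le_exp]
      linarith [mul_le_mul_of_nonneg_left hS.2 hl]
    calc exp ((1 + l) * S + 4) * (C * (T + 1) ^ k * Y * exp (-(T - D) - S))
        = C * (T + 1) ^ k * Y * (exp ((1 + l) * S + 4) * exp (-(T - D) - S)) := by ring
      _ ≤ C * (T + 1) ^ k * Y * (exp (D + 4) * exp (-T + l * (((B : ℝ) - A) + 1))) :=
          mul_le_mul_of_nonneg_left hle (by have := u_nonneg Y; positivity)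
      _ = _ := by ring
  · -- large `d`: Rankin
    set S2 := s.filter (fun n => ¬ dd n * dd n ≤ Y) with hS2
    set L := exp ((B : ℝ) + K) with hL
    set σ := 1 / (4 * L) with hσ
    have hL0 : 0 < L := exp_pos _
    have hσ0 : 0 < σ := by positivity
    rw [← sum_fiberwise_of_maps_to (t := S2.image dd) fun n hn => mem_image_of_mem dd hn]
    have hlogp : ∀ p ∈ P, log (p : ℝ) ≤ L := fun p hp => by
      have h3 := pInt_two_notMem hA1 hp
      have hl : 0 < log (p : ℝ) := log_pos (by exact_mod_cast (show 1 < p by omega))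
      rw [← exp_log hl, hL, exp_le_exp]
      linarith [(hK p h3).1, (mem_filter.1 hp).2.2]
    have hpσ : ∀ p ∈ P, (p : ℝ) ^ σ ≤ 4 / 3 := fun p hp => by
      have h3 := pInt_two_notMem hA1 hp
      rw [rpow_def_of_pos (by exact_mod_cast (show 0 < p by omega))]
      calc exp (log (p : ℝ) * σ) ≤ exp (1 / 4) := by
            rw [exp_le_exp, hσ, mul_one_div, div_le_div_iff₀ (by positivity) (by norm_num)]
            linarith [hlogp p hp]
        _ ≤ 4 / 3 := by
            have := exp_bound_div_one_sub_of_interval (show (0:ℝ) ≤ 1/4 by norm_num) (by norm_num)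
            refine this.trans ?_
            norm_num
    have hr : ∀ p ∈ P, z * (p : ℝ) ^ (-(1 - σ)) < 1 ∧
        (z * (p : ℝ) ^ (-(1 - σ))) / (1 - z * (p : ℝ) ^ (-(1 - σ))) ≤ 4 * (1 / ((p : ℝ) - 1)) := by
      intro p hp
      have h3 : (3 : ℝ) ≤ p := by exact_mod_cast pInt_two_notMem hA1 hp
      have e : (p : ℝ) ^ (-(1 - σ)) = (p : ℝ) ^ σ / p := by
        rw [show -(1 - σ) = σ - 1 by ring, rpow_sub_one (by linarith)]
      rw [e]
      have h4 : z * ((p : ℝ) ^ σ / p) ≤ (3 / 2) / p := by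
        rw [mul_div_assoc']
        refine div_le_div_of_nonneg_right ?_ (by linarith)
        have := mul_le_mul (show z ≤ 9 / 8 by linarith) (hpσ p hp) (by positivity) (by norm_num)
        linarith
      have h5 : (3 / 2 : ℝ) / p ≤ 1 / 2 := by rw [div_le_iff₀ (by linarith)]; linarith
      have h6 : 0 ≤ z * ((p : ℝ) ^ σ / p) := by positivity
      refine ⟨by linarith, ?_⟩
      calc z * ((p : ℝ) ^ σ / p) / (1 - z * ((p : ℝ) ^ σ / p))
          ≤ (3 / 2 / (p : ℝ)) / (1 / 2) :=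
            div_le_div₀ (by positivity) h4 (by norm_num) (by linarith)
        _ ≤ 4 * (1 / ((p : ℝ) - 1)) := by
            rw [mul_one_div, div_div, div_le_div_iff₀ (by linarith) (by linarith)]
            linarith
    have hfib : ∀ d ∈ S2.image dd, ∑ n ∈ S2.filter (fun n => dd n = d),
        z ^ (dd n).primeFactorsList.length ≤
        omWeight z (1 - σ) d * ((Y : ℝ) * exp (-(σ * (log Y / 2)))) := by
      intro d hd
      obtain ⟨n0, hn0, rfl⟩ := mem_image.1 hd
      obtain ⟨hn0s, hn0d⟩ := mem_filter.1 hn0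
      set d := dd n0
      have hdne : d ≠ 0 := hd0 n0 (hsn n0 hn0s).1
      have hd1 : (1 : ℝ) ≤ d := by exact_mod_cast Nat.pos_of_ne_zero hdne
      have hY1 : (1 : ℝ) ≤ Y := by exact_mod_cast (show 1 ≤ Y by omega)
      have hlog : log (Y : ℝ) / 2 ≤ log d := by
        have := log_le_log (by linarith) (show (Y : ℝ) ≤ (d : ℝ) * d by exact_mod_cast (not_le.1 hn0d).le)
        rw [log_mul (by linarith) (by linarith)] at this
        linarith
      have hcard : ((S2.filter (fun n => dd n = d)).card : ℝ) ≤ (Y : ℝ) / d := by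
        have hc : (S2.filter (fun n => dd n = d)).card ≤ (Icc 1 (Y / d)).card := by
          refine card_le_card_of_injOn mm ?_ ?_
          · intro n hn
            obtain ⟨h1, h2⟩ := mem_filter.1 hn
            obtain ⟨h0, hnY, -⟩ := hsn n (mem_filter.1 h1).1
            rw [mem_coe, mem_Icc]
            refine ⟨Nat.pos_of_ne_zero (hm0 n h0), (Nat.le_div_iff_mul_le (Nat.pos_of_ne_zero hdne)).2 ?_⟩
            rw [mul_comm, ← h2, ← heq n h0]; exact hnY
          · intro a ha b hb hab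
            obtain ⟨ha1, ha2⟩ := mem_filter.1 ha
            obtain ⟨hb1, hb2⟩ := mem_filter.1 hb
            rw [heq a (hsn a (mem_filter.1 ha1).1).1, heq b (hsn b (mem_filter.1 hb1).1).1, ha2, hb2,
              hab]
        rw [Nat.card_Icc, Nat.add_sub_cancel] at hc
        exact le_trans (Nat.cast_le.2 hc) Nat.cast_div_le
      rw [sum_congr rfl fun n hn => by rw [(mem_filter.1 hn).2], sum_const, nsmul_eq_mul,
        omWeight_apply hdne]
      have e : (Y : ℝ) / d ≤ (d : ℝ) ^ (-(1 - σ)) * ((Y : ℝ) * exp (-(σ * (log Y / 2)))) := by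
        rw [rpow_def_of_pos (by linarith), ← mul_assoc, mul_comm (exp _) (Y : ℝ), mul_assoc, ← exp_add,
          div_eq_mul_inv]
        refine mul_le_mul_of_nonneg_left ?_ (by linarith)
        rw [← exp_log (show (0 : ℝ) < d by linarith), ← exp_neg, exp_le_exp, log_exp]
        linarith [mul_le_mul_of_nonneg_left hlog hσ0.le]
      calc ((S2.filter (fun n => dd n = d)).card : ℝ) * z ^ d.primeFactorsList.length
          ≤ ((d : ℝ) ^ (-(1 - σ)) * ((Y : ℝ) * exp (-(σ * (log Y / 2))))) *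
              z ^ d.primeFactorsList.length :=
            mul_le_mul_of_nonneg_right (hcard.trans e) (pow_nonneg hz0 _)
        _ = _ := by ring
    refine (sum_le_sum hfib).trans ?_
    rw [← sum_mul]
    have hds : ∀ d ∈ S2.image dd, d ≠ 0 ∧ ∀ p : ℕ, p.Prime → p ∣ d → p ∈ P := fun d hd => by
      obtain ⟨n, hn, rfl⟩ := mem_image.1 hd
      exact ⟨hd0 n (hsn n (mem_filter.1 hn).1).1, hdP n (mem_filter.1 hn).1⟩
    refine (mul_le_mul_of_nonneg_right (upper_tail_aux Y A B z hz0 (1 - σ) _ hds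
      fun p hp => (hr p hp).1) (by positivity)).trans ?_
    have hsum : ∑ p ∈ P, (z * (p : ℝ) ^ (-(1 - σ))) / (1 - z * (p : ℝ) ^ (-(1 - σ)))
        ≤ 8 * (T + 1) := by
      refine (sum_le_sum fun p hp => (hr p hp).2).trans ?_
      rw [← mul_sum]
      linarith [hS.2, u_nonneg Y]
    have hσY : exp (T - B - E) ≤ σ * (log (Y : ℝ) / 2) := by
      have hlY : 0 < log (Y : ℝ) := log_pos (by exact_mod_cast (show 1 < Y by omega))
      have h1 : exp (T - K) ≤ log (Y : ℝ) := by
        rw [← exp_log hlY, exp_le_exp]; linarith [(hK Y (by omega)).2]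
      calc exp (T - B - E) ≤ exp (T - K - ((B : ℝ) + K) - log 16) := exp_le_exp.2 (by linarith)
        _ = exp (T - K) / (16 * L) := by
            rw [hL, exp_sub, exp_sub, exp_log (by norm_num : (0 : ℝ) < 16)]
            field_simp
        _ ≤ log (Y : ℝ) / (8 * L) := div_le_div₀ hlY.le h1 (by positivity) (by nlinarith)
        _ = σ * (log (Y : ℝ) / 2) := by rw [hσ]; field_simp; ring
    calc exp (∑ p ∈ P, (z * (p : ℝ) ^ (-(1 - σ))) / (1 - z * (p : ℝ) ^ (-(1 - σ)))) *
          ((Y : ℝ) * exp (-(σ * (log Y / 2))))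
        = (Y : ℝ) * exp (∑ p ∈ P, (z * (p : ℝ) ^ (-(1 - σ))) / (1 - z * (p : ℝ) ^ (-(1 - σ)))
            + -(σ * (log Y / 2))) := by rw [exp_add]; ring
      _ ≤ _ := by
          refine mul_le_mul_of_nonneg_left (exp_le_exp.2 ?_) (Nat.cast_nonneg Y)
          linarith

end Vale.Agent.P031
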