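import Vale.Agent.P031.Scale

/-!
P031: the root `ρ`, the renewal sequence of Ford's coefficients, decay of level sequences and
the geometric centre.
-/

open Finset Real Filter
open scoped Topology

namespace Vale.Agent.P031

lemma coef_ge_log_sub (j : ℕ) (hj : j ≠ 0) :
    Real.log ((j : ℝ) + 1) - 1 / ((j : ℝ) + 1) ≤ coef j := by
  have h0 : (0 : ℝ) < j := by exact_mod_cast Nat.pos_of_ne_zero hj
  have h := Real.one_sub_inv_le_log_of_pos (show (0 : ℝ) < 1 + 1 / (j : ℝ) by positivity)
  have h2 := mul_le_mul_of_nonneg_left h h0.le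
  have e : (j : ℝ) * (1 - (1 + 1 / (j : ℝ))⁻¹) = 1 - 1 / ((j : ℝ) + 1) := by field_simp; ring
  rw [coef_eq hj]
  linarith

lemma coef_ge_quarter_log (j : ℕ) (hj : j ≠ 0) : Real.log ((j : ℝ) + 1) / 4 ≤ coef j := by
  have h1 : (1 : ℝ) ≤ j := by exact_mod_cast Nat.pos_of_ne_zero hj
  have h3 : Real.log 2 ≤ Real.log ((j : ℝ) + 1) := Real.log_le_log two_pos (by linarith)
  have h4 : 1 / ((j : ℝ) + 1) ≤ 1 / 2 := by gcongr; linarith
  have := Real.log_two_gt_d9
  have := coef_ge_log_sub j hj
  linarith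

lemma coef_pos {j : ℕ} (hj : j ≠ 0) : 0 < coef j := by
  have h1 : (1 : ℝ) ≤ j := by exact_mod_cast Nat.pos_of_ne_zero hj
  have := coef_ge_quarter_log j hj
  have : (0 : ℝ) < Real.log ((j : ℝ) + 1) := Real.log_pos (by linarith)
  linarith

lemma coef_one : coef 1 = 2 * Real.log 2 - 1 := by norm_num [coef]

lemma coef_mono_succ (j : ℕ) : coef j ≤ coef (j + 1) := by
  rcases eq_or_ne j 0 with rfl | hj
  · rw [coef_zero]; exact coef_nonneg _
  have h0 : (0 : ℝ) ≤ j := j.cast_nonneg
  have hc := Real.convexOn_mul_log.2 (Set.mem_Ici.2 h0)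
    (Set.mem_Ici.2 (show (0 : ℝ) ≤ (j : ℝ) + 2 by linarith)) (show (0 : ℝ) ≤ 1 / 2 by norm_num)
    (show (0 : ℝ) ≤ 1 / 2 by norm_num) (by norm_num)
  simp only [smul_eq_mul] at hc
  rw [show (1 / 2 : ℝ) * j + 1 / 2 * ((j : ℝ) + 2) = (j : ℝ) + 1 by ring] at hc
  simp only [coef, if_neg hj, Nat.succ_ne_zero, if_false, Nat.cast_add, Nat.cast_one]
  rw [show (j : ℝ) + 1 + 1 = (j : ℝ) + 2 by ring]
  linarith

lemma summable_coef_pow {x : ℝ} (hx0 : 0 ≤ x) (hx1 : x < 1) :
    Summable fun j => coef j * x ^ j := by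
  refine Summable.of_nonneg_of_le (fun j => mul_nonneg (coef_nonneg j) (pow_nonneg hx0 j))
    (fun j => mul_le_mul_of_nonneg_right (coef_le j) (pow_nonneg hx0 j)) ?_
  simpa using summable_pow_mul_geometric_of_norm_lt_one 1 (r := x)
    (by rw [Real.norm_eq_abs, abs_of_nonneg hx0]; exact hx1)

lemma tsum_half_lt : ∑' j, coef j * (1 / 2 : ℝ) ^ j < 1 := by
  have hs := summable_coef_pow (x := 1 / 2) (by norm_num) (by norm_num)
  rw [← hs.sum_add_tsum_nat_add 2]
  have hgeo : HasSum (fun n : ℕ => (1 / 2 : ℝ) ^ n) 2 := by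
    have := hasSum_geometric_of_lt_one (r := (1 / 2 : ℝ)) (by norm_num) (by norm_num)
    convert this using 1; norm_num
  have hlin : HasSum (fun n : ℕ => (n : ℝ) * (1 / 2 : ℝ) ^ n) 2 := by
    have := hasSum_coe_mul_geometric_of_norm_lt_one (r := (1 / 2 : ℝ)) (by norm_num)
    rw [show (1 / 2 : ℝ) / (1 - 1 / 2) ^ 2 = 2 by norm_num] at this
    exact this
  have h3 : Real.log 3 ≤ 2 * Real.log 2 - 1 / 4 := by
    have h4 : Real.log 4 = 2 * Real.log 2 := by
      rw [show (4 : ℝ) = 2 * 2 by norm_num, Real.log_mul two_ne_zero two_ne_zero]; ring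
    have := Real.log_le_sub_one_of_pos (show (0 : ℝ) < 3 / 4 by norm_num)
    rw [Real.log_div three_ne_zero four_ne_zero] at this
    linarith
  have hle : ∀ n : ℕ, coef (n + 2) * (1 / 2 : ℝ) ^ (n + 2)
      ≤ (Real.log 3 / 4) * (1 / 2 : ℝ) ^ n + (1 / 12) * ((n : ℝ) * (1 / 2 : ℝ) ^ n) := by
    intro n
    have h := coef_le_log (n + 2)
    push_cast at h
    have h2 := Real.log_le_sub_one_of_pos (show (0 : ℝ) < ((n : ℝ) + 3) / 3 by positivity)
    rw [Real.log_div (by positivity) three_ne_zero] at h2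
    rw [show (n : ℝ) + 2 + 1 = (n : ℝ) + 3 by ring] at h
    have h5 : coef (n + 2) ≤ Real.log 3 + (n : ℝ) / 3 := by linarith
    have := mul_le_mul_of_nonneg_right h5 (pow_nonneg (show (0 : ℝ) ≤ 1 / 2 by norm_num) (n + 2))
    rw [pow_add] at this ⊢
    linarith
  have hb := (hgeo.mul_left (Real.log 3 / 4)).add (hlin.mul_left (1 / 12))
  have ht := ((summable_nat_add_iff 2).2 hs).tsum_le_tsum hle hb.summable
  rw [hb.tsum_eq] at ht
  rw [Finset.sum_range_succ, Finset.sum_range_succ, Finset.sum_range_zero, coef_zero, coef_one]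
  have := Real.log_two_lt_d9
  linarith

lemma tsum_three_quarters_gt : 1 < ∑' j, coef j * (3 / 4 : ℝ) ^ j := by
  have hs := summable_coef_pow (x := 3 / 4) (by norm_num) (by norm_num)
  refine lt_of_lt_of_le ?_ (hs.sum_le_tsum (Finset.range 7)
    (fun j _ => mul_nonneg (coef_nonneg j) (by positivity)))
  have hlow : ∀ j : ℕ, 3 ≤ j → 113 / 100 ≤ coef j := by
    intro j hj
    have h1 : (3 : ℝ) ≤ j := by exact_mod_cast hj
    have h4 : Real.log 4 = 2 * Real.log 2 := by
      rw [show (4 : ℝ) = 2 * 2 by norm_num, Real.log_mul two_ne_zero two_ne_zero]; ring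
    have h3 : Real.log 4 ≤ Real.log ((j : ℝ) + 1) := Real.log_le_log four_pos (by linarith)
    have h5 : 1 / ((j : ℝ) + 1) ≤ 1 / 4 := by gcongr; linarith
    have := Real.log_two_gt_d9
    have := coef_ge_log_sub j (by omega)
    linarith
  simp only [Finset.sum_range_succ, Finset.sum_range_zero, coef_zero]
  have := hlow 3 le_rfl
  have := hlow 4 (by norm_num)
  have := hlow 5 (by norm_num)
  have := hlow 6 (by norm_num)
  have := coef_nonneg 2
  have := coef_nonneg 1
  norm_num
  linarith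

theorem rho_exists : RhoExistsStatement := by
  have hc : ContinuousOn (fun x : ℝ => ∑' j, coef j * x ^ j) (Set.Icc (1 / 2) (3 / 4)) := by
    refine continuousOn_tsum (fun j => by fun_prop)
      (summable_coef_pow (x := 3 / 4) (by norm_num) (by norm_num)) ?_
    intro j x hx
    rw [Real.norm_eq_abs, abs_of_nonneg (mul_nonneg (coef_nonneg j)
      (pow_nonneg (by linarith [hx.1]) j))]
    exact mul_le_mul_of_nonneg_left (pow_le_pow_left₀ (by linarith [hx.1]) hx.2 j) (coef_nonneg j)
  obtain ⟨x, ⟨hx1, hx2⟩, hx⟩ := intermediate_value_Ioo (by norm_num : (1 / 2 : ℝ) ≤ 3 / 4) hc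
    (show (1 : ℝ) ∈ Set.Ioo (∑' j, coef j * (1 / 2 : ℝ) ^ j) (∑' j, coef j * (3 / 4 : ℝ) ^ j) from
      ⟨tsum_half_lt, tsum_three_quarters_gt⟩)
  refine ⟨x, hx1, by linarith, ?_⟩
  have hs := (summable_coef_pow (x := x) (by linarith) (by linarith)).hasSum
  simp only at hx
  rwa [hx] at hs

lemma IsRho.pos {ρ : ℝ} (h : IsRho ρ) : 0 < ρ := lt_trans (by norm_num) h.1

lemma IsRho.sum_le_one {ρ : ℝ} (h : IsRho ρ) (s : Finset ℕ) : ∑ j ∈ s, coef j * ρ ^ j ≤ 1 :=
  sum_le_hasSum s (fun j _ => mul_nonneg (coef_nonneg j) (pow_nonneg h.pos.le j)) h.2.2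

/-! ### The renewal sequence -/

/-- `g_0 = 1`, `g_n = ∑_j a_j g_{n-j}`. -/
noncomputable def gseq : ℕ → ℝ
  | 0 => 1
  | n + 1 => ∑ j : Fin (n + 1), coef (j.1 + 1) * gseq (n - j.1)
termination_by n => n
decreasing_by omega

lemma gseq_zero : gseq 0 = 1 := by rw [gseq]

lemma sum_coef_gseq (n : ℕ) :
    ∑ j ∈ range (n + 1), coef j * gseq (n - j) = if n = 0 then 0 else gseq n := by
  rcases n with _ | n
  · simp [coef_zero]
  rw [Finset.sum_range_succ', coef_zero, zero_mul, add_zero, if_neg (Nat.succ_ne_zero n)]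
  conv_rhs => rw [gseq]
  rw [Fin.sum_univ_eq_sum_range (fun j => coef (j + 1) * gseq (n - j))]
  exact Finset.sum_congr rfl fun j _ => by rw [Nat.succ_sub_succ]

lemma gseq_nonneg (n : ℕ) : 0 ≤ gseq n := by
  induction n using Nat.strong_induction_on with
  | _ n ih =>
    rcases n with _ | n
    · rw [gseq_zero]; exact zero_le_one
    · rw [gseq]
      exact Finset.sum_nonneg fun j _ => mul_nonneg (coef_nonneg _) (ih _ (by omega))

lemma gseq_pos (n : ℕ) : 0 < gseq n := by
  induction n with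
  | zero => rw [gseq_zero]; exact one_pos
  | succ n ih =>
    rw [gseq]
    refine lt_of_lt_of_le ?_ (Finset.single_le_sum
      (fun j _ => mul_nonneg (coef_nonneg _) (gseq_nonneg _)) (Finset.mem_univ (0 : Fin (n + 1))))
    exact mul_pos (coef_pos (by simp)) (by simpa using ih)

lemma gseq_one_le : gseq 1 ≤ 1 := by
  have := sum_coef_gseq 1
  norm_num [Finset.sum_range_succ, coef_zero, gseq_zero, coef_one] at this
  have := Real.log_two_lt_d9
  linarith

lemma gseq_mono_succ {n : ℕ} (hn : 1 ≤ n) : gseq n ≤ gseq (n + 1) := by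
  induction n using Nat.strong_induction_on with
  | _ n ih =>
    have h1 := sum_coef_gseq n
    have h2 := sum_coef_gseq (n + 1)
    rw [if_neg (by omega)] at h1 h2
    rw [Finset.sum_range_succ, Nat.sub_self, gseq_zero] at h1
    rw [Finset.sum_range_succ, Finset.sum_range_succ, Nat.sub_self, gseq_zero,
      show n + 1 - n = 1 by omega] at h2
    have h3 : ∑ j ∈ range n, coef j * gseq (n - j) ≤ ∑ j ∈ range n, coef j * gseq (n + 1 - j) := by
      refine Finset.sum_le_sum fun j hj => ?_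
      rcases Nat.eq_zero_or_pos j with rfl | hj0
      · simp [coef_zero]
      have hjn := Finset.mem_range.1 hj
      refine mul_le_mul_of_nonneg_left ?_ (coef_nonneg j)
      rw [show n + 1 - j = n - j + 1 by omega]
      exact ih (n - j) (by omega) (by omega)
    have h4 := coef_mono_succ n
    have h5 := mul_nonneg (coef_nonneg n) (gseq_nonneg 1)
    linarith

lemma gseq_mul_pow_le {ρ : ℝ} (h : IsRho ρ) (n : ℕ) : gseq n * ρ ^ n ≤ 1 := by
  induction n using Nat.strong_induction_on with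
  | _ n ih =>
    rcases eq_or_ne n 0 with rfl | hn
    · simp [gseq_zero]
    have e := sum_coef_gseq n
    rw [if_neg hn] at e
    rw [← e, Finset.sum_mul]
    refine le_trans (Finset.sum_le_sum fun j hj => ?_) (h.sum_le_one (range (n + 1)))
    rcases Nat.eq_zero_or_pos j with rfl | hj0
    · simp [coef_zero]
    have hjn := Finset.mem_range.1 hj
    have := ih (n - j) (by omega)
    rw [show coef j * gseq (n - j) * ρ ^ n = coef j * ρ ^ j * (gseq (n - j) * ρ ^ (n - j)) by
      rw [show ρ ^ n = ρ ^ j * ρ ^ (n - j) by rw [← pow_add]; congr 1; omega]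
      ring]
    exact mul_le_of_le_one_right (mul_nonneg (coef_nonneg j) (pow_nonneg h.pos.le j)) this

lemma exists_gseq_lower {ρ : ℝ} (h : IsRho ρ) :
    ∃ c : ℝ, 0 < c ∧ ∀ n, c ≤ gseq n * ρ ^ n := by
  set p : ℕ → ℝ := fun j => coef j * ρ ^ j with hp
  set H : ℕ → ℝ := fun n => gseq n * ρ ^ n with hH
  set R : ℕ → ℝ := fun n => 1 - ∑ j ∈ range (n + 1), p j with hR
  have hρ := h.pos
  have hH0 : ∀ n, 0 ≤ H n := fun n => mul_nonneg (gseq_nonneg n) (pow_nonneg hρ.le n)
  have hH1 : ∀ n, H n ≤ 1 := gseq_mul_pow_le h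
  have hR0 : ∀ n, 0 ≤ R n := fun n => sub_nonneg.2 (h.sum_le_one _)
  have hrec : ∀ n, ∑ j ∈ range (n + 1), p j * H (n - j) = if n = 0 then 0 else H n := by
    intro n
    have e := sum_coef_gseq n
    calc ∑ j ∈ range (n + 1), p j * H (n - j)
        = (∑ j ∈ range (n + 1), coef j * gseq (n - j)) * ρ ^ n := by
          rw [Finset.sum_mul]
          refine Finset.sum_congr rfl fun j hj => ?_
          have hjn := Finset.mem_range.1 hj
          rw [show ρ ^ n = ρ ^ j * ρ ^ (n - j) by rw [← pow_add]; congr 1; omega]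
          simp only [hp, hH]; ring
      _ = _ := by rw [e]; split_ifs <;> simp [hH]
  have hid : ∀ n, ∑ i ∈ range (n + 1), H i * R (n - i) = 1 := by
    intro n
    induction n with
    | zero => simp [hH, hR, hp, gseq_zero, coef_zero]
    | succ n ih =>
      rw [Finset.sum_range_succ]
      have e : ∀ i ∈ range (n + 1),
          H i * R (n + 1 - i) = H i * R (n - i) - H i * p (n + 1 - i) := by
        intro i hi
        have hin := Finset.mem_range.1 hi
        rw [show n + 1 - i = n - i + 1 by omega]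
        simp only [hR]
        rw [Finset.sum_range_succ p (n - i + 1)]
        ring
      rw [Finset.sum_congr rfl e, Finset.sum_sub_distrib, ih]
      have e2 := hrec (n + 1)
      rw [if_neg (Nat.succ_ne_zero n), ← Finset.sum_range_reflect, Finset.sum_range_succ] at e2
      simp only [Nat.add_sub_cancel, Nat.sub_self, hp, coef_zero, zero_mul, add_zero] at e2
      have e3 : ∑ i ∈ range (n + 1), H i * p (n + 1 - i) = H (n + 1) := by
        rw [← e2]
        refine Finset.sum_congr rfl fun i hi => ?_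
        have hin := Finset.mem_range.1 hi
        simp only [hp]
        rw [Nat.sub_sub_self (by omega : i ≤ n + 1)]
        ring
      rw [e3]
      simp [hR, hp, coef_zero]
  -- exponential decay of the tails
  obtain ⟨x, hx1, hx2⟩ := exists_between h.2.1
  have hxs := summable_coef_pow (x := x) (hρ.le.trans hx1.le) hx2
  set A := ∑' j, coef j * x ^ j with hA
  have hx0 : 0 < x := hρ.trans hx1
  set q := ρ / x with hq
  have hq0 : 0 ≤ q := by positivity
  have hq1 : q < 1 := (div_lt_one hx0).2 hx1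
  have hRle : ∀ n, R n ≤ A * q ^ n := by
    intro n
    have ht : ∀ m, ∑ j ∈ range m, p (j + (n + 1)) ≤ A * q ^ n := by
      intro m
      calc ∑ j ∈ range m, p (j + (n + 1))
          ≤ ∑ j ∈ range m, (coef (j + (n + 1)) * x ^ (j + (n + 1))) * q ^ n := by
            refine Finset.sum_le_sum fun j _ => ?_
            have e : coef (j + (n + 1)) * ρ ^ (j + (n + 1))
                = coef (j + (n + 1)) * x ^ (j + (n + 1)) * q ^ (j + (n + 1)) := by
              rw [hq, div_pow]; field_simp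
            simp only [hp]
            rw [e]
            exact mul_le_mul_of_nonneg_left (pow_le_pow_of_le_one hq0 hq1.le (by omega))
              (mul_nonneg (coef_nonneg _) (pow_nonneg hx0.le _))
        _ ≤ A * q ^ n := by
            rw [← Finset.sum_mul]
            refine mul_le_mul_of_nonneg_right ?_ (pow_nonneg hq0 n)
            have hinj : Set.InjOn (fun j => j + (n + 1)) (range m : Set ℕ) := fun a _ b _ e => by
              simpa using e
            rw [← Finset.sum_image (f := fun j => coef j * x ^ j) hinj]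
            exact hxs.sum_le_tsum _ fun j _ => mul_nonneg (coef_nonneg j) (pow_nonneg hx0.le _)
    have hs := (hasSum_nat_add_iff' (n + 1)).2 h.2.2
    exact le_of_tendsto' hs.tendsto_sum_nat ht
  have hA0 : 0 ≤ A := tsum_nonneg fun j => mul_nonneg (coef_nonneg j) (pow_nonneg hx0.le j)
  have hRsum : Summable R :=
    Summable.of_nonneg_of_le hR0 hRle ((summable_geometric_of_lt_one hq0 hq1).mul_left A)
  set S := ∑' n, R n with hS
  have hS0 : 0 ≤ S := tsum_nonneg hR0
  obtain ⟨M, hM⟩ : ∃ M, ∀ s : Finset ℕ, Disjoint s (range M) → ∑ i ∈ s, R i < 1 / 2 := by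
    obtain ⟨s, hs⟩ := (summable_iff_vanishing_norm.1 hRsum) (1 / 2) (by norm_num)
    obtain ⟨M, hM⟩ := s.exists_nat_subset_range
    exact ⟨M, fun t ht => lt_of_le_of_lt (Real.le_norm_self _) (hs t (ht.mono_right hM))⟩
  have hp1 : 0 < p 1 := by simp only [hp, pow_one]; exact mul_pos (coef_pos one_ne_zero) hρ
  have hp1' : p 1 ≤ 1 := by simpa [hp] using h.sum_le_one {1}
  have hstep : ∀ n, p 1 * H n ≤ H (n + 1) := by
    intro n
    have e := hrec (n + 1)
    rw [if_neg (Nat.succ_ne_zero n)] at e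
    rw [← e]
    exact Finset.single_le_sum (f := fun j => p j * H (n + 1 - j))
      (fun j _ => mul_nonneg (mul_nonneg (coef_nonneg j) (pow_nonneg hρ.le j)) (hH0 _))
      (show 1 ∈ range (n + 2) by simp)
  refine ⟨p 1 ^ M / (2 * (S + 1)), by positivity, fun n => ?_⟩
  by_contra hcon
  rw [not_le] at hcon
  have hrecent : ∀ d ≤ M, d ≤ n → H (n - d) < 1 / (2 * (S + 1)) := by
    intro d hd hdn
    have hiter : ∀ d, d ≤ n → p 1 ^ d * H (n - d) ≤ H n := by
      intro d
      induction d with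
      | zero => simp
      | succ d ih =>
        intro hd
        calc p 1 ^ (d + 1) * H (n - (d + 1)) = p 1 ^ d * (p 1 * H (n - (d + 1))) := by ring
          _ ≤ p 1 ^ d * H (n - d) := by
              refine mul_le_mul_of_nonneg_left ?_ (pow_nonneg hp1.le d)
              have := hstep (n - (d + 1))
              rwa [show n - (d + 1) + 1 = n - d by omega] at this
          _ ≤ H n := ih (by omega)
    have h1 : p 1 ^ M * H (n - d) ≤ H n :=
      (mul_le_mul_of_nonneg_right (pow_le_pow_of_le_one hp1.le hp1' hd) (hH0 _)).trans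
        (hiter d hdn)
    rw [lt_div_iff₀ (by positivity)] at hcon ⊢
    have hpM : 0 < p 1 ^ M := pow_pos hp1 M
    have h2 := mul_le_mul_of_nonneg_right h1 (show (0 : ℝ) ≤ 2 * (S + 1) by positivity)
    exact lt_of_mul_lt_mul_left (by linarith : p 1 ^ M * (H (n - d) * (2 * (S + 1))) < p 1 ^ M * 1)
      hpM.le
  have e := hid n
  rw [← Finset.sum_range_reflect] at e
  have hle : ∀ i ∈ range (n + 1), H (n + 1 - 1 - i) * R (n - (n + 1 - 1 - i)) ≤
      (if i < M then 1 / (2 * (S + 1)) * R i else 0) + (if i < M then 0 else R i) := by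
    intro i hi
    have hin := Finset.mem_range.1 hi
    rw [Nat.add_sub_cancel, Nat.sub_sub_self (by omega : i ≤ n)]
    split_ifs with hiM
    · rw [add_zero]
      exact mul_le_mul_of_nonneg_right (hrecent i hiM.le (by omega)).le (hR0 i)
    · rw [zero_add]
      exact mul_le_of_le_one_left (hR0 i) (hH1 _)
  have h1 := Finset.sum_le_sum hle
  rw [e, Finset.sum_add_distrib, ← Finset.sum_filter] at h1
  have h2 : ∑ i ∈ (range (n + 1)).filter (fun i => i < M), 1 / (2 * (S + 1)) * R i ≤
      1 / (2 * (S + 1)) * S := by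
    rw [← Finset.mul_sum]
    exact mul_le_mul_of_nonneg_left (hRsum.sum_le_tsum _ fun i _ => hR0 i) (by positivity)
  have h3 : ∑ i ∈ range (n + 1), (if i < M then 0 else R i) < 1 / 2 := by
    have e2 : ∑ i ∈ range (n + 1), (if i < M then 0 else R i)
        = ∑ i ∈ (range (n + 1)).filter (fun i => ¬ i < M), R i := by
      rw [Finset.sum_filter]
      exact Finset.sum_congr rfl fun i _ => by split_ifs <;> rfl
    rw [e2]
    refine hM _ (Finset.disjoint_left.2 fun i hi hi' => ?_)
    exact (Finset.mem_filter.1 hi).2 (Finset.mem_range.1 hi')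
  have h4 : 1 / (2 * (S + 1)) * S ≤ 1 / 2 := by
    rw [div_mul_eq_mul_div, div_le_div_iff₀ (by positivity) two_pos]; linarith
  linarith

/-! ### Decay and the centre -/

theorem decay : DecayStatement := by
  intro ρ hρ
  obtain ⟨c, hc, hlow⟩ := exists_gseq_lower hρ
  refine ⟨1 / c, by positivity, fun η hη y n hy hcone => ?_⟩
  have key : ∀ m, m ≤ n → gseq m * y n ≤ (1 + η) ^ m * y (n - m) := by
    intro m
    induction m using Nat.strong_induction_on with
    | _ m ih =>
      intro hm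
      rcases eq_or_ne m 0 with rfl | hm0
      · simp [gseq_zero]
      have h1 := hcone (n - m) (by omega)
      rw [show n + 1 - (n - m) = m + 1 by omega] at h1
      have e := sum_coef_gseq m
      rw [if_neg hm0] at e
      calc gseq m * y n = ∑ j ∈ range (m + 1), coef j * (gseq (m - j) * y n) := by
            rw [← e, Finset.sum_mul]; exact Finset.sum_congr rfl fun j _ => by ring
        _ ≤ ∑ j ∈ range (m + 1), (1 + η) ^ (m - 1) * (coef j * y (n - m + j)) := by
            refine Finset.sum_le_sum fun j hj => ?_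
            rcases Nat.eq_zero_or_pos j with rfl | hj0
            · simp [coef_zero]
            have hjm := Finset.mem_range.1 hj
            have h2 := ih (m - j) (by omega) (by omega)
            rw [show n - (m - j) = n - m + j by omega] at h2
            have h3 : (1 + η) ^ (m - j) ≤ (1 + η) ^ (m - 1) :=
              pow_le_pow_right₀ (by linarith) (by omega)
            have h4 := mul_le_mul_of_nonneg_right h3 (hy (n - m + j) (by omega))
            have := mul_le_mul_of_nonneg_left (h2.trans h4) (coef_nonneg j)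
            linarith
        _ ≤ (1 + η) ^ (m - 1) * ((1 + η) * y (n - m)) := by
            rw [← Finset.mul_sum]; exact mul_le_mul_of_nonneg_left h1 (by positivity)
        _ = (1 + η) ^ m * y (n - m) := by
            rw [← mul_assoc, ← pow_succ, show m - 1 + 1 = m by omega]
  have h := key n le_rfl
  rw [Nat.sub_self] at h
  have hρn : 0 < ρ ^ n := pow_pos hρ.pos n
  rw [mul_pow]
  have h2 := mul_le_mul_of_nonneg_right (hlow n) (hy n le_rfl)
  have h3 := mul_le_mul_of_nonneg_right h hρn.le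
  rw [show 1 / c * ((1 + η) ^ n * ρ ^ n) * y 0 = (1 + η) ^ n * y 0 * ρ ^ n / c by ring,
    le_div_iff₀ hc]
  linarith

lemma exp_neg_two_le (L : ℕ) : Real.exp (-2) ≤ (1 - 1 / ((L : ℝ) + 2)) ^ L := by
  set σ : ℝ := 1 / ((L : ℝ) + 2) with hσ
  have h0 : (0 : ℝ) ≤ L := L.cast_nonneg
  have hσ2 : σ ≤ 1 / 2 := by rw [hσ]; gcongr; linarith
  have hσ0 : 0 ≤ σ := by positivity
  have hpos : 0 < 1 - σ := by linarith
  have h1 := Real.one_sub_inv_le_log_of_pos hpos
  have h2 : -2 * σ ≤ 1 - (1 - σ)⁻¹ := by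
    have : (1 - σ)⁻¹ ≤ 1 + 2 * σ := by
      rw [inv_le_iff_one_le_mul₀ hpos]; nlinarith
    linarith
  rw [← Real.le_log_iff_exp_le (pow_pos hpos L), Real.log_pow]
  have h3 : (L : ℝ) * σ ≤ 1 := by
    rw [hσ, mul_one_div, div_le_one (by linarith)]; linarith
  have h4 := mul_le_mul_of_nonneg_left (h2.trans h1) h0
  linarith

theorem centre : CentreStatement := by
  intro ρ hρ C₁ hC₁
  have hρ0 := hρ.pos
  refine ⟨C₁ * (8 * Real.exp 2 / ρ), by positivity, fun T K hK L hT => ?_⟩
  set σ : ℝ := 1 / ((L : ℝ) + 2) with hσ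
  have hσ2 : σ ≤ 1 / 2 := by rw [hσ]; gcongr; linarith [L.cast_nonneg (α := ℝ)]
  have hσ0 : 0 ≤ σ := by positivity
  have hK0 : 0 < K := by linarith
  have hTL : 0 < T * ρ ^ L := lt_of_lt_of_le (by positivity) hT
  have hT0 : 0 < T := (mul_pos_iff_of_pos_right (pow_pos hρ0 L)).1 hTL
  have hE : Real.exp (-2) * Real.exp 2 = 1 := by rw [← Real.exp_add]; simp
  have hbase : C₁ * K * (8 / ρ) ≤ Real.exp (-2) * (T * ρ ^ L) := by
    have := mul_le_mul_of_nonneg_left hT (Real.exp_pos (-2)).le
    calc C₁ * K * (8 / ρ) = Real.exp (-2) * (C₁ * (8 * Real.exp 2 / ρ) * K) := by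
          linear_combination (-(8 * C₁ * K / ρ)) * hE
      _ ≤ _ := this
  have hpow : ∀ i ≤ L, Real.exp (-2) * ρ ^ i ≤ (ρ * (1 - σ)) ^ i := by
    intro i hi
    rw [mul_pow, mul_comm (ρ ^ i)]
    refine mul_le_mul_of_nonneg_right ((exp_neg_two_le L).trans ?_) (pow_nonneg hρ0.le i)
    exact pow_le_pow_of_le_one (by linarith) (by linarith) hi
  refine ⟨?_, fun i hi => ?_⟩
  · have h8 : C₁ * K ≤ C₁ * K * (8 / ρ) :=
      le_mul_of_one_le_right (by positivity) (by rw [le_div_iff₀ hρ0]; linarith [hρ.2.1])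
    have := mul_le_mul_of_nonneg_left (hpow L le_rfl) hT0.le
    linarith
  set n := L - i with hn
  set r := ρ * (1 - σ) with hr
  have hr0 : 0 ≤ r := mul_nonneg hρ0.le (by linarith)
  have h1 : ∑ j ∈ range (L + 1 - i), coef j * (T * r ^ (i + j))
      ≤ T * r ^ i * (1 - σ) * ∑ j ∈ range (n + 1), coef j * ρ ^ j := by
    rw [show L + 1 - i = n + 1 by omega, Finset.mul_sum]
    refine Finset.sum_le_sum fun j _ => ?_
    rcases Nat.eq_zero_or_pos j with rfl | hj0
    · simp [coef_zero]
    have h2 : r ^ j ≤ ρ ^ j * (1 - σ) := by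
      rw [hr, mul_pow]
      exact mul_le_mul_of_nonneg_left
        (pow_le_of_le_one (by linarith) (by linarith) (by omega)) (pow_nonneg hρ0.le j)
    have h3 := mul_le_mul_of_nonneg_left h2
      (show 0 ≤ coef j * T * r ^ i from mul_nonneg (mul_nonneg (coef_nonneg j) hT0.le) (pow_nonneg hr0 i))
    rw [pow_add]
    linarith
  have h2 : ∑ j ∈ range (n + 1), coef j * ρ ^ j ≤ 1 - coef (n + 1) * ρ ^ (n + 1) := by
    have := hρ.sum_le_one (range (n + 1 + 1))
    rw [Finset.sum_range_succ] at this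
    linarith
  have hTri : 0 ≤ T * r ^ i * (1 - σ) :=
    mul_nonneg (mul_nonneg hT0.le (pow_nonneg hr0 i)) (by linarith)
  have h3 := h1.trans (mul_le_mul_of_nonneg_left h2 hTri)
  have h4 : C₁ * K * Real.log ((n : ℝ) + 2) ≤
      T * r ^ i * (1 - σ) * (coef (n + 1) * ρ ^ (n + 1)) := by
    have hc := coef_ge_quarter_log (n + 1) (Nat.succ_ne_zero n)
    push_cast at hc
    rw [show (n : ℝ) + 1 + 1 = (n : ℝ) + 2 by ring] at hc
    have hlog : 0 ≤ Real.log ((n : ℝ) + 2) := Real.log_nonneg (by linarith [n.cast_nonneg (α := ℝ)])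
    have h5 : Real.exp (-2) * (T * ρ ^ L) * ρ / 2 ≤ T * r ^ i * (1 - σ) * ρ ^ (n + 1) := by
      have := hpow i hi
      calc Real.exp (-2) * (T * ρ ^ L) * ρ / 2
          = T * (Real.exp (-2) * ρ ^ i) * (1 / 2) * ρ ^ (n + 1) := by
            rw [show ρ ^ L = ρ ^ i * ρ ^ n by rw [← pow_add]; congr 1; omega, pow_succ]; ring
        _ ≤ T * r ^ i * (1 - σ) * ρ ^ (n + 1) := by
            gcongr
            linarith
    have h6 : C₁ * K * 4 ≤ T * r ^ i * (1 - σ) * ρ ^ (n + 1) := by
      refine le_trans ?_ h5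
      have := mul_le_mul_of_nonneg_right hbase (show 0 ≤ ρ / 2 by positivity)
      calc C₁ * K * 4 = C₁ * K * (8 / ρ) * (ρ / 2) := by field_simp; ring
        _ ≤ _ := this.trans_eq (by ring)
    calc C₁ * K * Real.log ((n : ℝ) + 2) = C₁ * K * 4 * (Real.log ((n : ℝ) + 2) / 4) := by ring
      _ ≤ T * r ^ i * (1 - σ) * ρ ^ (n + 1) * coef (n + 1) := by
          gcongr
      _ = _ := by ring
  linarith

end Vale.Agent.P031
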