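import Vale.Agent.P031.ExceptA
import Vale.Agent.P031.Renewal
import Vale.Agent.P031.Boxes

/-!
P031: regions of level vectors with a tail, and the contraction lemma.
-/

open Finset Real Filter
open scoped Nat Topology

namespace Vale.Agent.P031

/-- Admissible tails. -/
def TailOK (T : ℝ) (r : ℕ) : Prop :=
  r ≠ 0 ∧ SqfreeAbove (floorLevel T) r ∧ Smooth (tailLevel T) r ∧
    (∀ q ∈ levs (floorLevel T) r, Normal q) ∧
    log (smlPart (floorLevel T) r) ≤ exp (2 * floorLevel T) ∧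
    (levs (floorLevel T) r).length ≤ maxLen T ∧
    ∀ i < (levs (floorLevel T) r).length,
      cost ((levs (floorLevel T) r).drop i)
        ≤ (1 + eta T) * u ((levs (floorLevel T) r).getD i 0)

/-- The contribution of the tail levels `τ` to the `i`-th inequality. -/
noncomputable def tailTerm (L : ℕ) (τ : List ℕ) (i : ℕ) : ℝ :=
  ∑ k ∈ Finset.range τ.length, coef (L + 1 - i + k) * u (τ.getD k 0)

/-- The left side of the `i`-th inequality. -/
noncomputable def lhs {L : ℕ} (T : ℝ) (τ : List ℕ) (y : Fin L → ℝ) (i : ℕ) : ℝ :=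
  ∑ j ∈ Finset.range (L + 1 - i), coef j * yy T y (i + j) + tailTerm L τ i

/-- Level vectors above `lo` satisfying all inequalities with relative tolerance `δ`. -/
def Reg (L : ℕ) (T : ℝ) (τ : List ℕ) (lo δ : ℝ) (y : Fin L → ℝ) : Prop :=
  (∀ i < L, lo < yy T y (i + 1) ∧ yy T y (i + 1) ≤ (1 + δ) * yy T y i) ∧
    ∀ i ≤ L, lhs T τ y i ≤ (1 + δ) * yy T y i

lemma yy_top {L : ℕ} (T : ℝ) (y : Fin L → ℝ) : yy T y 0 = T := by simp [yy]

lemma yy_lev {L : ℕ} (T : ℝ) (y : Fin L → ℝ) {i : ℕ} (h : i < L) :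
    yy T y (i + 1) = y ⟨i, h⟩ := by simp [yy, h]

lemma tailTerm_nonneg (L : ℕ) (τ : List ℕ) (i : ℕ) : 0 ≤ tailTerm L τ i :=
  Finset.sum_nonneg fun _ _ => mul_nonneg (coef_nonneg _) (u_nonneg _)

variable {L : ℕ} {T : ℝ} {τ : List ℕ} {lo δ : ℝ} {y : Fin L → ℝ}

lemma yy_lb (hlo : ∀ i < L, lo < yy T y (i + 1)) (hT : lo ≤ T) :
    ∀ i ≤ L, lo ≤ yy T y i := by
  intro i hi
  rcases i with _ | i
  · rwa [yy_top]
  · exact (hlo i hi).le

lemma Reg.lb (h : Reg L T τ lo δ y) (hT : lo ≤ T) : ∀ i ≤ L, lo ≤ yy T y i :=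
  yy_lb (fun i hi => (h.1 i hi).1) hT

lemma Reg.mono {lo' δ' : ℝ} (h : Reg L T τ lo δ y) (hlo : lo' ≤ lo) (hδ : δ ≤ δ') (h0 : 0 ≤ lo)
    (hT : lo ≤ T) : Reg L T τ lo' δ' y := by
  have hy : ∀ i ≤ L, 0 ≤ yy T y i := fun i hi => h0.trans (h.lb hT i hi)
  refine ⟨fun i hi => ⟨lt_of_le_of_lt hlo (h.1 i hi).1, (h.1 i hi).2.trans ?_⟩,
    fun i hi => (h.2 i hi).trans ?_⟩
  · exact mul_le_mul_of_nonneg_right (by linarith) (hy i hi.le)
  · exact mul_le_mul_of_nonneg_right (by linarith) (hy i hi)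

lemma sum_coef_range_le (n : ℕ) : ∑ j ∈ Finset.range (n + 1), coef j ≤ ((n : ℝ) + 1) ^ 2 := by
  calc ∑ j ∈ Finset.range (n + 1), coef j ≤ ∑ _j ∈ Finset.range (n + 1), ((n : ℝ) + 1) :=
        Finset.sum_le_sum fun j hj => (coef_le j).trans (by
          have : j ≤ n := Nat.le_of_lt_succ (Finset.mem_range.1 hj)
          have : (j : ℝ) ≤ n := by exact_mod_cast this
          linarith)
    _ = _ := by rw [Finset.sum_const, Finset.card_range, nsmul_eq_mul]; push_cast; ring

/-- Moving each coordinate by at most one costs little. -/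
lemma Reg.perturb {lo' δ' : ℝ} {y' : Fin L → ℝ} (h : Reg L T τ lo δ y)
    (hd : ∀ k, |y k - y' k| ≤ 1) (hlo : lo' + 1 ≤ lo) (h0 : 0 ≤ lo') (hT : lo' ≤ T)
    (hδ0 : -1 ≤ δ) (hδ1 : δ ≤ 1) (hgap : ((L : ℝ) + 1) ^ 2 + 3 ≤ (δ' - δ) * lo') :
    Reg L T τ lo' δ' y' := by
  have hdd : ∀ i, |yy T y i - yy T y' i| ≤ 1 := by
    intro i
    simp only [yy]
    split_ifs <;> simp [hd]
  have hlo' : ∀ i < L, lo' < yy T y' (i + 1) := fun i hi => by
    have := (h.1 i hi).1
    have := (abs_le.1 (hdd (i + 1))).2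
    linarith
  have hlb := yy_lb hlo' hT
  have hδδ : 0 ≤ δ' - δ := by
    by_contra hc
    have := mul_nonneg (show 0 ≤ -(δ' - δ) by linarith) h0
    nlinarith
  refine ⟨fun i hi => ⟨hlo' i hi, ?_⟩, fun i hi => ?_⟩
  · have h1 := (h.1 i hi).2
    have h2 := abs_le.1 (hdd (i + 1))
    have h3 := abs_le.1 (hdd i)
    have h4 : (δ' - δ) * lo' ≤ (δ' - δ) * yy T y' i :=
      mul_le_mul_of_nonneg_left (hlb i hi.le) hδδ
    have h5 : (1 + δ) * yy T y i ≤ (1 + δ) * (yy T y' i + 1) :=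
      mul_le_mul_of_nonneg_left (by linarith) (by linarith)
    nlinarith
  · have h1 := h.2 i hi
    have h3 := abs_le.1 (hdd i)
    have h4 : (δ' - δ) * lo' ≤ (δ' - δ) * yy T y' i :=
      mul_le_mul_of_nonneg_left (hlb i hi) hδδ
    have h5 : (1 + δ) * yy T y i ≤ (1 + δ) * (yy T y' i + 1) :=
      mul_le_mul_of_nonneg_left (by linarith) (by linarith)
    have h6 : lhs T τ y' i ≤ lhs T τ y i + ((L : ℝ) + 1) ^ 2 := by
      simp only [lhs]
      have h7 : ∑ j ∈ Finset.range (L + 1 - i), coef j * yy T y' (i + j)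
          ≤ ∑ j ∈ Finset.range (L + 1 - i), coef j * yy T y (i + j)
            + ∑ j ∈ Finset.range (L + 1 - i), coef j := by
        rw [← Finset.sum_add_distrib]
        refine Finset.sum_le_sum fun j _ => ?_
        have := mul_le_mul_of_nonneg_left
          (show yy T y' (i + j) ≤ yy T y (i + j) + 1 by have := abs_le.1 (hdd (i + j)); linarith)
          (coef_nonneg j)
        linarith
      have h8 : ∑ j ∈ Finset.range (L + 1 - i), coef j ≤ ((L : ℝ) + 1) ^ 2 :=
        (Finset.sum_le_sum_of_subset_of_nonneg (Finset.range_subset_range.2 (Nat.sub_le _ _))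
          fun j _ _ => coef_nonneg j).trans (sum_coef_range_le L)
      linarith
    nlinarith

lemma rho_lt_three_quarters {ρ : ℝ} (h : IsRho ρ) : ρ < 3 / 4 := by
  by_contra hc
  push Not at hc
  have h1 : ∑' j, coef j * (3 / 4 : ℝ) ^ j ≤ ∑' j, coef j * ρ ^ j :=
    Summable.tsum_le_tsum (fun j => mul_le_mul_of_nonneg_left
      (pow_le_pow_left₀ (by norm_num) hc j) (coef_nonneg j))
      (summable_coef_pow (by norm_num) (by norm_num)) h.2.2.summable
  rw [h.2.2.tsum_eq] at h1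
  exact absurd h1 (not_le.2 tsum_three_quarters_gt)

/-- Geometric decay at ratio `4/5` for small tolerance. -/
lemma decay_four_fifths :
    ∃ C : ℝ, 1 ≤ C ∧ ∀ (δ : ℝ), 0 ≤ δ → δ ≤ 1 / 20 → ∀ (z : ℕ → ℝ) (n : ℕ),
      (∀ i ≤ n, 0 ≤ z i) →
      (∀ i < n, ∑ j ∈ Finset.range (n + 1 - i), coef j * z (i + j) ≤ (1 + δ) * z i) →
      z n ≤ C * (4 / 5 : ℝ) ^ n * z 0 := by
  obtain ⟨ρ, hρ⟩ := rho_exists
  obtain ⟨C, hC, h⟩ := decay ρ hρ
  refine ⟨max C 1, le_max_right _ _, fun δ hδ0 hδ z n hz hi => (h δ hδ0 z n hz hi).trans ?_⟩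
  have h0 := hz 0 (Nat.zero_le n)
  have h1 : ((1 + δ) * ρ) ^ n ≤ (4 / 5 : ℝ) ^ n := by
    refine pow_le_pow_left₀ (mul_nonneg (by linarith) hρ.pos.le) ?_ n
    nlinarith [rho_lt_three_quarters hρ, hρ.pos]
  exact mul_le_mul_of_nonneg_right (mul_le_mul (le_max_left _ _) h1
    (pow_nonneg (mul_nonneg (by linarith) hρ.pos.le) n) (by positivity)) h0

/-- Chains of levels above `1` are shorter than `maxLen`. -/
lemma chain_length :
    ∀ᶠ T : ℝ in atTop, ∀ (δ : ℝ), 0 ≤ δ → δ ≤ 1 / 20 → ∀ (z : ℕ → ℝ) (n : ℕ),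
      (∀ i ≤ n, 0 ≤ z i) →
      (∀ i < n, ∑ j ∈ Finset.range (n + 1 - i), coef j * z (i + j) ≤ (1 + δ) * z i) →
      z 0 ≤ 2 * T → 1 ≤ z n → n + 2 ≤ maxLen T := by
  obtain ⟨C, hC, h⟩ := decay_four_fifths
  filter_upwards [Real.tendsto_log_atTop.eventually_ge_atTop (log (2 * C) + 2),
    eventually_gt_atTop 0] with T hT hT0 δ hδ0 hδ z n hz hi hz0 hzn
  have h1 : 1 ≤ C * (4 / 5 : ℝ) ^ n * (2 * T) :=
    hzn.trans ((h δ hδ0 hδ z n hz hi).trans (mul_le_mul_of_nonneg_left hz0 (by positivity)))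
  have h2 := Real.log_le_log one_pos h1
  rw [Real.log_one, show C * (4 / 5 : ℝ) ^ n * (2 * T) = (2 * C) * (4 / 5 : ℝ) ^ n * T by ring,
    Real.log_mul (by positivity) hT0.ne', Real.log_mul (by positivity) (by positivity),
    Real.log_pow] at h2
  have h3 : log (4 / 5 : ℝ) ≤ -(1 / 5) := by
    have := Real.log_le_sub_one_of_pos (show (0 : ℝ) < 4 / 5 by norm_num); linarith
  have h4 : (n : ℝ) * log (4 / 5 : ℝ) ≤ (n : ℝ) * (-(1 / 5)) :=
    mul_le_mul_of_nonneg_left h3 (Nat.cast_nonneg n)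
  have h5 : ((n + 2 : ℕ) : ℝ) ≤ (maxLen T : ℝ) := by
    refine le_trans ?_ (Nat.le_ceil _)
    push_cast
    have : 0 ≤ log (2 * C) := Real.log_nonneg (by linarith)
    linarith
  exact_mod_cast h5

lemma coef_log_le (n k : ℕ) : coef (n + 1 + k) ≤ log ((n : ℝ) + 2) + k := by
  refine (coef_le_log _).trans ?_
  push_cast
  have h1 : (0 : ℝ) < (n : ℝ) + 2 := by positivity
  rw [show (n : ℝ) + 1 + k + 1 = ((n : ℝ) + 2) * (1 + k / ((n : ℝ) + 2)) by field_simp; ring,
    Real.log_mul h1.ne' (by positivity)]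
  have h2 := Real.log_le_sub_one_of_pos (show (0 : ℝ) < 1 + (k : ℝ) / ((n : ℝ) + 2) by positivity)
  have h3 : (k : ℝ) / ((n : ℝ) + 2) ≤ k := by
    rw [div_le_iff₀ h1]
    nlinarith [show (0 : ℝ) ≤ k from Nat.cast_nonneg k, show (0 : ℝ) ≤ n from Nat.cast_nonneg n]
  linarith

/-- The tail contributes `O(K log(L - i + 2))`. -/
lemma tailTerm_le :
    ∃ C : ℝ, 0 < C ∧ ∀ᶠ T : ℝ in atTop, ∀ r : ℕ, TailOK T r → ∀ L i : ℕ, i ≤ L →
      tailTerm L (levs (floorLevel T) r) i
        ≤ C * tailLevel T * log (((L - i : ℕ) : ℝ) + 2) := by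
  obtain ⟨C, hC, hdec⟩ := decay_four_fifths
  refine ⟨40 * C, by positivity, ?_⟩
  filter_upwards [Real.tendsto_log_atTop.eventually_ge_atTop (2 : ℝ)]
    with T hT r hr L i hi
  obtain ⟨-, -, hsm, -, -, -, hanat⟩ := hr
  set F := floorLevel T
  set K := tailLevel T
  set τ := levs F r
  set n := L - i
  have hη0 : 0 ≤ eta T := by rw [eta]; positivity
  have hη : eta T ≤ 1 / 20 := by
    rw [eta]
    refine one_div_le_one_div_of_le (by norm_num) ?_
    calc (20 : ℝ) ≤ 2 ^ 10 := by norm_num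
      _ ≤ log T ^ 10 := pow_le_pow_left₀ (by norm_num) hT 10
  have hK : 0 ≤ K := by
    have : (0 : ℝ) ≤ log T := by linarith
    simp only [K, tailLevel]; positivity
  have hk : ∀ k < τ.length, u (τ.getD k 0) ≤ C * (4 / 5 : ℝ) ^ k * K := by
    intro k hk
    refine (hdec (eta T) hη0 hη (fun j => u (τ.getD j 0)) k (fun j _ => u_nonneg _)
      (fun j hj => ?_)).trans ?_
    · refine le_trans ?_ (hanat j (hj.trans hk))
      rw [cost_drop]
      exact Finset.sum_le_sum_of_subset_of_nonneg (Finset.range_subset_range.2 (by omega))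
        fun l _ _ => mul_nonneg (coef_nonneg l) (u_nonneg _)
    · refine mul_le_mul_of_nonneg_left ?_ (by positivity)
      have h0 : 0 < τ.length := by omega
      rw [List.getD_eq_getElem?_getD, List.getElem?_eq_getElem h0, Option.getD_some]
      have hm := mem_levs.1 (List.getElem_mem h0 : τ[0] ∈ levs F r)
      exact hsm.2 _ hm.1 hm.2.1
  have hl : 0 ≤ log ((n : ℝ) + 2) := Real.log_nonneg (by linarith [Nat.cast_nonneg (α := ℝ) n])
  have hl2 : 2 / 3 ≤ log ((n : ℝ) + 2) := by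
    have h1 := Real.log_le_log two_pos (show (2 : ℝ) ≤ (n : ℝ) + 2 by linarith [Nat.cast_nonneg (α := ℝ) n])
    have := Real.log_two_gt_d9
    linarith
  have hg : HasSum (fun k : ℕ => (4 / 5 : ℝ) ^ k) 5 := by
    have := hasSum_geometric_of_lt_one (show (0 : ℝ) ≤ 4 / 5 by norm_num) (by norm_num)
    norm_num at this ⊢; exact this
  have hg2 : HasSum (fun k : ℕ => (k : ℝ) * (4 / 5 : ℝ) ^ k) 20 := by
    have := hasSum_coe_mul_geometric_of_norm_lt_one (show ‖(4 / 5 : ℝ)‖ < 1 by norm_num)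
    norm_num at this ⊢; exact this
  calc tailTerm L τ i
      ≤ ∑ k ∈ Finset.range τ.length, (log ((n : ℝ) + 2) + k) * (C * (4 / 5 : ℝ) ^ k * K) := by
        refine Finset.sum_le_sum fun k hk' => ?_
        rw [show L + 1 - i + k = n + 1 + k by omega]
        exact mul_le_mul (coef_log_le n k) (hk k (Finset.mem_range.1 hk')) (u_nonneg _)
          (by positivity)
    _ = C * K * (log ((n : ℝ) + 2) * (∑ k ∈ Finset.range τ.length, (4 / 5 : ℝ) ^ k)
          + ∑ k ∈ Finset.range τ.length, (k : ℝ) * (4 / 5 : ℝ) ^ k) := by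
        rw [Finset.mul_sum, ← Finset.sum_add_distrib, Finset.mul_sum]
        exact Finset.sum_congr rfl fun k _ => by ring
    _ ≤ C * K * (log ((n : ℝ) + 2) * 5 + 20) := by
        refine mul_le_mul_of_nonneg_left (add_le_add (mul_le_mul_of_nonneg_left
          (sum_le_hasSum _ (fun k _ => by positivity) hg) hl)
          (sum_le_hasSum _ (fun k _ => by positivity) hg2)) (by positivity)
    _ ≤ 40 * C * K * log ((n : ℝ) + 2) := by
        have : 0 ≤ C * K := by positivity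
        nlinarith

/-- The centre of the contraction. -/
noncomputable def centrePt (ρ T : ℝ) (L : ℕ) : Fin L → ℝ :=
  fun k => T * (ρ * (1 - 1 / ((L : ℝ) + 2))) ^ (k.val + 1)

/-- The contraction parameter. -/
noncomputable def shrink (T : ℝ) : ℝ := 1 / log T ^ 6

/-- Contraction towards the centre maps the relaxed region into the strict one. -/
lemma contract_mem {ρ : ℝ} (hρ : IsRho ρ) :
    ∃ C₂ : ℝ, 0 < C₂ ∧ ∀ᶠ T : ℝ in atTop, ∀ r : ℕ, TailOK T r → ∀ L : ℕ, L ≤ maxLen T →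
      C₂ * tailLevel T ≤ T * ρ ^ L → ∀ y : Fin L → ℝ,
      Reg L T (levs (floorLevel T) r) (tailLevel T - 1) (2 * eta T) y →
      Reg L T (levs (floorLevel T) r) ((1 + 5 * eta T) * tailLevel T) (-(4 * eta T))
        (fun k => (1 - shrink T) * y k + shrink T * centrePt ρ T L k) := by
  obtain ⟨C, hC, htail⟩ := tailTerm_le
  obtain ⟨C₂, hC₂, hcentre⟩ := centre ρ hρ (max C 3) (by positivity)
  obtain ⟨D, hD, hdec⟩ := decay ρ hρ
  refine ⟨C₂, hC₂, ?_⟩
  filter_upwards [htail, Real.tendsto_log_atTop.eventually_ge_atTop (40 * 200 * (D + 1)),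
    eventually_ge_atTop 1] with T htail hl hT1 r hr L hLN hL y hy
  set F := floorLevel T
  set K := tailLevel T
  set η := eta T
  set ε := shrink T
  set τ := levs F r
  set σ := 1 / ((L : ℝ) + 2) with hσdef
  set q := ρ * (1 - σ) with hq
  set z : Fin L → ℝ := fun k => (1 - ε) * y k + ε * centrePt ρ T L k
  set c : ℕ → ℝ := fun i => T * q ^ i with hc
  set ℓ := log T with hℓ
  have hℓ1 : (8000 : ℝ) ≤ ℓ := by nlinarith
  have hLℓ : (L : ℝ) ≤ 11 * ℓ := le_trans (by exact_mod_cast hLN) (maxLen_le (by linarith))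
  have hη0 : 0 < η := by simp only [η, eta]; positivity
  have hε0 : 0 < ε := by simp only [ε, shrink]; positivity
  have hε1 : ε ≤ 1 / 2 := by
    simp only [ε, shrink]
    refine one_div_le_one_div_of_le two_pos ?_
    calc (2 : ℝ) ≤ ℓ := by linarith
      _ ≤ ℓ ^ 6 := le_self_pow₀ (by linarith) (by norm_num)
  have hσ0 : 0 < σ := by positivity
  have hσ1 : σ ≤ 1 / 2 :=
    one_div_le_one_div_of_le two_pos (by linarith [Nat.cast_nonneg (α := ℝ) L])
  have hσlb : 1 / (13 * ℓ) ≤ σ := one_div_le_one_div_of_le (by positivity) (by linarith)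
  have hq0 : 0 ≤ q := mul_nonneg hρ.pos.le (by linarith)
  have hqσ : q ≤ 1 - σ := by
    have : ρ * (1 - σ) ≤ 1 * (1 - σ) := mul_le_mul_of_nonneg_right hρ.2.1.le (by linarith)
    linarith
  have hK1 : (1 : ℝ) ≤ K := one_le_pow₀ (by linarith)
  have hεK : 16 ≤ ε * K := by
    simp only [ε, shrink, K, tailLevel]
    rw [one_div_mul_eq_div, le_div_iff₀ (by positivity),
      show log T ^ 400 = log T ^ 394 * log T ^ 6 by ring]
    refine mul_le_mul_of_nonneg_right ?_ (by positivity)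
    calc (16 : ℝ) ≤ ℓ := by linarith
      _ ≤ ℓ ^ 394 := le_self_pow₀ (by linarith) (by norm_num)
  have hηε : 5 * η ≤ ε := by
    simp only [η, eta, ε, shrink]
    rw [mul_one_div, div_le_div_iff₀ (by positivity) (by positivity), one_mul,
      show log T ^ 10 = log T ^ 4 * log T ^ 6 by ring]
    refine mul_le_mul_of_nonneg_right ?_ (by positivity)
    calc (5 : ℝ) ≤ ℓ := by linarith
      _ ≤ ℓ ^ 4 := le_self_pow₀ (by linarith) (by norm_num)
  have hyy : ∀ i ≤ L, yy T z i = (1 - ε) * yy T y i + ε * c i := by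
    intro i hi
    rcases i with _ | i
    · simp [yy_top, hc]; ring
    · rw [yy_lev T z hi, yy_lev T y hi]; rfl
  have hy0 : ∀ i ≤ L, 0 ≤ yy T y i := by
    intro i hi
    rcases i with _ | i
    · rw [yy_top]; linarith
    · linarith [(hy.1 i hi).1]
  obtain ⟨hcK, hcen⟩ := hcentre T K hK1 L hL
  -- `y_i` is at most a multiple of the centre
  have hcmp : ∀ i ≤ L, yy T y i ≤ 40 * D * c i := by
    intro i hi
    refine (hdec (2 * η) (by positivity) (yy T y) i (fun j hj => hy0 j (hj.trans hi))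
      (fun j hj => ?_)).trans ?_
    · refine le_trans ?_ (hy.2 j (hj.le.trans hi))
      have h0 := tailTerm_nonneg L τ j
      simp only [lhs]
      refine le_trans (Finset.sum_le_sum_of_subset_of_nonneg
        (t := Finset.range (L + 1 - j)) (Finset.range_subset_range.2 (by omega))
        fun l hl _ => mul_nonneg (coef_nonneg l) (hy0 _ ?_)) (by linarith)
      have := Finset.mem_range.1 hl
      omega
    rw [yy_top]
    have h1 : (1 + 2 * η) ^ i ≤ 3 := by
      have h3 : (i : ℝ) ≤ L := by exact_mod_cast hi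
      have h4 : (i : ℝ) * (2 * η) ≤ 1 := by
        have h5 : (i : ℝ) * (2 * η) ≤ 22 * ℓ * η :=
          calc (i : ℝ) * (2 * η) ≤ (11 * ℓ) * (2 * η) :=
                mul_le_mul_of_nonneg_right (h3.trans hLℓ) (by positivity)
            _ = 22 * ℓ * η := by ring
        have h6 : 22 * ℓ * η ≤ 1 := by
          simp only [η, eta]
          rw [mul_one_div, div_le_one (by positivity),
            show log T ^ 10 = log T ^ 8 * log T * log T by ring, ← hℓ]
          calc 22 * ℓ ≤ ℓ * ℓ := mul_le_mul_of_nonneg_right (by linarith) (by linarith)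
            _ ≤ ℓ ^ 8 * ℓ * ℓ := mul_le_mul_of_nonneg_right
                (le_mul_of_one_le_left (by linarith) (one_le_pow₀ (by linarith))) (by linarith)
        linarith
      calc (1 + 2 * η) ^ i ≤ exp (2 * η) ^ i :=
            pow_le_pow_left₀ (by positivity) (by linarith [Real.add_one_le_exp (2 * η)]) i
        _ = exp ((i : ℝ) * (2 * η)) := (Real.exp_nat_mul _ _).symm
        _ ≤ exp 1 := Real.exp_le_exp.2 h4
        _ ≤ 3 := Real.exp_one_lt_three.le
    have h2 : 1 / 9 ≤ (1 - σ) ^ i := by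
      refine le_trans ?_ ((exp_neg_two_le L).trans
        (pow_le_pow_of_le_one (by linarith) (by linarith) hi))
      rw [show (-2 : ℝ) = -1 + -1 by norm_num, Real.exp_add]
      nlinarith [Real.exp_neg_one_gt_d9, exp_pos (-1 : ℝ)]
    rw [mul_pow]
    simp only [hc, hq]
    rw [mul_pow]
    have hρi : 0 ≤ ρ ^ i := pow_nonneg hρ.pos.le i
    have h9 : (1 + 2 * η) ^ i ≤ 40 * (1 - σ) ^ i := by linarith
    calc D * ((1 + 2 * η) ^ i * ρ ^ i) * T ≤ D * (40 * (1 - σ) ^ i * ρ ^ i) * T := by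
          refine mul_le_mul_of_nonneg_right (mul_le_mul_of_nonneg_left
            (mul_le_mul_of_nonneg_right h9 hρi) hD.le) (by linarith)
      _ = _ := by ring
  have hc0 : ∀ i, 0 ≤ c i := fun i => mul_nonneg (by linarith) (pow_nonneg hq0 i)
  -- the key numerical inequality
  have key : ∀ i ≤ L, (1 - ε) * ((1 + 2 * η) * yy T y i) + ε * ((1 - σ) * c i)
      ≤ (1 + -(4 * η)) * ((1 - ε) * yy T y i + ε * c i) := by
    intro i hi
    have h1 : 6 * η * (40 * D) ≤ ε * (σ - 4 * η) := by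
      have h3 : 4 * η ≤ 1 / (26 * ℓ) := by
        simp only [η, eta]
        rw [mul_one_div, div_le_div_iff₀ (by positivity) (by positivity),
          show log T ^ 10 = log T ^ 8 * log T * log T by ring, ← hℓ]
        calc 4 * (26 * ℓ) = 104 * ℓ := by ring
          _ ≤ ℓ * ℓ := mul_le_mul_of_nonneg_right (by linarith) (by linarith)
          _ ≤ ℓ ^ 8 * ℓ * ℓ := mul_le_mul_of_nonneg_right
              (le_mul_of_one_le_left (by linarith) (one_le_pow₀ (by linarith))) (by linarith)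
          _ = _ := (one_mul _).symm
      have h4 : 1 / (26 * ℓ) ≤ σ - 4 * η := by
        have : 1 / (13 * ℓ) = 1 / (26 * ℓ) + 1 / (26 * ℓ) := by field_simp; ring
        linarith
      refine le_trans ?_ (mul_le_mul_of_nonneg_left h4 hε0.le)
      simp only [η, eta, ε, shrink, ← hℓ]
      rw [one_div_mul_one_div, mul_one_div, div_mul_eq_mul_div,
        div_le_div_iff₀ (by positivity) (by positivity),
        show ℓ ^ 10 = ℓ ^ 2 * ℓ * (ℓ ^ 6 * ℓ) by ring]
      have h7 : 6240 * D ≤ ℓ ^ 2 * ℓ := by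
        have : ℓ ≤ ℓ ^ 2 * ℓ := le_mul_of_one_le_left (by linarith) (one_le_pow₀ (by linarith))
        linarith
      have h8 : 0 ≤ ℓ ^ 6 * ℓ := by positivity
      nlinarith [mul_le_mul_of_nonneg_right h7 h8]
    have h5 : (1 - ε) * yy T y i ≤ yy T y i := by nlinarith [hy0 i hi]
    have h6 : 6 * η * ((1 - ε) * yy T y i) ≤ ε * (σ - 4 * η) * c i :=
      calc 6 * η * ((1 - ε) * yy T y i) ≤ 6 * η * (40 * D * c i) :=
            mul_le_mul_of_nonneg_left (h5.trans (hcmp i hi)) (by positivity)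
        _ = 6 * η * (40 * D) * c i := by ring
        _ ≤ _ := mul_le_mul_of_nonneg_right h1 (hc0 i)
    linarith
  refine ⟨fun i hi => ?_, fun i hi => ?_⟩
  · rw [hyy (i + 1) hi, hyy i hi.le]
    refine ⟨?_, le_trans ?_ (key i hi.le)⟩
    · have h1 : max C 3 * K ≤ c (i + 1) :=
        hcK.trans (mul_le_mul_of_nonneg_left
          (pow_le_pow_of_le_one hq0 (by linarith) (by omega)) (by linarith))
      have h2 : 3 * K ≤ c (i + 1) :=
        le_trans (mul_le_mul_of_nonneg_right (le_max_right C 3) (by linarith)) h1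
      have h3 : (1 - ε) * (K - 1) ≤ (1 - ε) * yy T y (i + 1) :=
        mul_le_mul_of_nonneg_left (hy.1 i hi).1.le (by linarith)
      have h4 : ε * (3 * K) ≤ ε * c (i + 1) := mul_le_mul_of_nonneg_left h2 hε0.le
      have h5 : 5 * η * K ≤ ε * K := mul_le_mul_of_nonneg_right hηε (by linarith)
      nlinarith
    · refine add_le_add (mul_le_mul_of_nonneg_left (hy.1 i hi).2 (by linarith))
        (mul_le_mul_of_nonneg_left ?_ hε0.le)
      simp only [hc]
      rw [pow_succ]
      nlinarith [pow_nonneg hq0 i, mul_le_mul_of_nonneg_left hqσ (hc0 i)]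
  · rw [hyy i hi]
    refine le_trans ?_ (key i hi)
    have hlin : lhs T τ z i = (1 - ε) * lhs T τ y i
        + ε * (∑ j ∈ Finset.range (L + 1 - i), coef j * c (i + j) + tailTerm L τ i) := by
      simp only [lhs]
      rw [mul_add, mul_add, Finset.mul_sum, Finset.mul_sum, add_add_add_comm,
        ← Finset.sum_add_distrib, ← add_mul, sub_add_cancel, one_mul]
      congr 1
      refine Finset.sum_congr rfl fun j hj => ?_
      have := Finset.mem_range.1 hj
      rw [hyy (i + j) (by omega)]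
      ring
    rw [hlin]
    refine add_le_add (mul_le_mul_of_nonneg_left (hy.2 i hi) (by linarith))
      (mul_le_mul_of_nonneg_left ?_ hε0.le)
    refine le_trans (add_le_add le_rfl ((htail r hr L i hi).trans ?_)) (hcen i hi)
    refine mul_le_mul_of_nonneg_right (mul_le_mul_of_nonneg_right (le_max_left C 3) (by linarith)) ?_
    exact Real.log_nonneg (by linarith [Nat.cast_nonneg (α := ℝ) (L - i)])

end Vale.Agent.P031
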