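import Vale.Agent.P031.Params
import Mathlib.Analysis.SpecialFunctions.Pow.Asymptotics
import Mathlib.Analysis.Complex.ExponentialBounds

/-!
P031: facts about the coefficients, about `cost`, and eventual inequalities in the scale.
-/

open Finset Real Filter
open scoped Nat Topology

namespace Vale.Agent.P031

lemma coef_zero : coef 0 = 0 := by simp [coef]

lemma coef_eq {j : ℕ} (hj : j ≠ 0) :
    coef j = Real.log ((j : ℝ) + 1) + (j : ℝ) * Real.log (1 + 1 / (j : ℝ)) - 1 := by
  have h0 : (0 : ℝ) < j := by exact_mod_cast Nat.pos_of_ne_zero hj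
  rw [coef, if_neg hj, show (1 : ℝ) + 1 / (j : ℝ) = ((j : ℝ) + 1) / j by field_simp,
    Real.log_div (by positivity) h0.ne']
  ring

lemma coef_le_log (j : ℕ) : coef j ≤ Real.log ((j : ℝ) + 1) := by
  rcases eq_or_ne j 0 with rfl | hj
  · simp [coef]
  have h0 : (0 : ℝ) < j := by exact_mod_cast Nat.pos_of_ne_zero hj
  have h := Real.log_le_sub_one_of_pos (show (0 : ℝ) < 1 + 1 / (j : ℝ) by positivity)
  have h2 := mul_le_mul_of_nonneg_left h h0.le
  rw [coef_eq hj]
  have e : (j : ℝ) * (1 + 1 / (j : ℝ) - 1) = 1 := by field_simp; ring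
  linarith

lemma coef_le (j : ℕ) : coef j ≤ j := by
  refine (coef_le_log j).trans ?_
  have := Real.log_le_sub_one_of_pos (show (0 : ℝ) < (j : ℝ) + 1 by positivity)
  linarith

lemma coef_nonneg (j : ℕ) : 0 ≤ coef j := by
  rcases eq_or_ne j 0 with rfl | hj
  · simp [coef]
  have h1 : (1 : ℝ) ≤ j := by exact_mod_cast Nat.pos_of_ne_zero hj
  have h0 : (0 : ℝ) < j := by linarith
  have h := Real.one_sub_inv_le_log_of_pos (show (0 : ℝ) < 1 + 1 / (j : ℝ) by positivity)
  have h2 := mul_le_mul_of_nonneg_left h h0.le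
  have e : (j : ℝ) * (1 - (1 + 1 / (j : ℝ))⁻¹) = (j : ℝ) / ((j : ℝ) + 1) := by field_simp; ring
  have h3 : Real.log 2 ≤ Real.log ((j : ℝ) + 1) := Real.log_le_log two_pos (by linarith)
  have h4 : (1 : ℝ) / 2 ≤ (j : ℝ) / ((j : ℝ) + 1) := by
    rw [div_le_div_iff₀ two_pos (by linarith)]; linarith
  have := Real.log_two_gt_d9
  rw [coef_eq hj]
  linarith

lemma cost_nonneg (qs : List ℕ) : 0 ≤ cost qs :=
  Finset.sum_nonneg fun i _ => mul_nonneg (coef_nonneg i) (u_nonneg _)

lemma cost_eq_sum_le {qs : List ℕ} {m : ℕ} (h : qs.length ≤ m) :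
    cost qs = ∑ i ∈ Finset.range m, coef i * u (qs.getD i 0) := by
  refine Finset.sum_subset (Finset.range_subset_range.2 h) fun i _ hi => ?_
  have : qs.length ≤ i := by simpa using hi
  simp [List.getElem?_eq_none this, u_zero]

lemma cost_take (qs : List ℕ) (k : ℕ) :
    cost (qs.take k) = ∑ i ∈ Finset.range (min k qs.length), coef i * u (qs.getD i 0) := by
  rw [cost, List.length_take]
  refine Finset.sum_congr rfl fun i hi => ?_
  have : i < k := lt_of_lt_of_le (Finset.mem_range.1 hi) (min_le_left _ _)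
  simp [List.getElem?_take_of_lt this]

lemma cost_drop (qs : List ℕ) (i : ℕ) :
    cost (qs.drop i)
      = ∑ j ∈ Finset.range (qs.length - i), coef j * u (qs.getD (i + j) 0) := by
  simp [cost]

/-- A downward closed filter of a decreasing list is an initial segment. -/
lemma filter_eq_take_of_desc (P : ℕ → Bool) :
    ∀ {l : List ℕ}, l.Pairwise (fun a b => b < a) →
      (∀ a b, b < a → P b = true → P a = true) →
      ∃ k ≤ l.length, l.filter P = l.take k ∧
        ∀ i, k ≤ i → i < l.length → P (l.getD i 0) = false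
  | [], _, _ => ⟨0, by simp, by simp, by simp⟩
  | a :: l, h, hP => by
    obtain ⟨ha, hl⟩ := List.pairwise_cons.1 h
    by_cases hPa : P a = true
    · obtain ⟨k, hk, he, hz⟩ := filter_eq_take_of_desc P hl hP
      refine ⟨k + 1, by simpa using hk, by simp [hPa, he], fun i hi hi' => ?_⟩
      obtain ⟨j, rfl⟩ := Nat.exists_eq_succ_of_ne_zero (show i ≠ 0 by omega)
      simpa using hz j (by omega) (by simpa using hi')
    · have hall : ∀ b ∈ l, P b = false := fun b hb => by
        by_contra hc
        exact hPa (hP a b (ha b hb) (by simpa using hc))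
      refine ⟨0, Nat.zero_le _, ?_, fun i _ hi => ?_⟩
      · simp only [List.filter_cons, hPa, List.take_zero, Bool.false_eq_true, if_false]
        exact List.filter_eq_nil_iff.2 fun b hb => by simp [hall b hb]
      · cases i with
        | zero => simpa using hPa
        | succ j =>
          have hj : j < l.length := by simpa using hi
          simpa [List.getD_eq_getElem?_getD, hj] using hall _ (List.getElem_mem hj)

/-! ### Scales -/

lemma tendsto_scale : Tendsto scale atTop atTop := u_tendsto

lemma eventually_scale {P : ℝ → Prop} (h : ∀ᶠ T in atTop, P T) : ∀ᶠ X : ℕ in atTop, P (scale X) :=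
  tendsto_scale.eventually h

/-- `log X` is `exp (T + O(1))`. -/
lemma exists_log_bounds :
    ∃ C : ℝ, 0 ≤ C ∧ ∀ n : ℕ, 3 ≤ n →
      exp (u n - C) ≤ log n ∧ log n ≤ exp (u n + C) := by
  obtain ⟨C, hC0, hC⟩ := exists_mertens_const
  refine ⟨C, hC0, fun n hn => ?_⟩
  have hl : 0 < log (n : ℝ) := Real.log_pos (by exact_mod_cast (show 1 < n by omega))
  obtain ⟨h1, h2⟩ := hC n hn
  constructor
  · exact (Real.le_log_iff_exp_le hl).1 (by linarith)
  · exact (Real.log_le_iff_le_exp hl).1 (by linarith)

/-- Numbers up to a fixed power of `X` have level at most `T + √T`. -/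
lemma eventually_u_le_pow (k : ℕ) :
    ∀ᶠ X : ℕ in atTop, ∀ n : ℕ, n ≤ X ^ k → u n ≤ scale X + √(scale X) := by
  obtain ⟨C, hC0, hC⟩ := exists_mertens_const
  filter_upwards [eventually_ge_atTop 3,
    eventually_scale ((Real.tendsto_sqrt_atTop).eventually_ge_atTop (2 * C + Real.log (k + 1)))]
    with X hX hT n hn
  have hn' : n ≤ X ^ (k + 1) := hn.trans (Nat.pow_le_pow_right (by omega) (by omega))
  refine (u_mono hn').trans ?_
  have h3 : 3 ≤ X ^ (k + 1) := by
    calc 3 ≤ X ^ 1 := by simpa
      _ ≤ X ^ (k + 1) := Nat.pow_le_pow_right (by omega) (by omega)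
  have h1 := (hC _ h3).2
  have h2 := (hC X hX).1
  have hl : 0 < log (X : ℝ) := Real.log_pos (by exact_mod_cast (show 1 < X by omega))
  rw [Nat.cast_pow, Real.log_pow, Real.log_mul (by positivity) hl.ne'] at h1
  push_cast at h1
  simp only [scale] at hT ⊢
  linarith

/-- A number whose logarithm is at least `log X / (8 T)` has level at least `T - 2 log T`. -/
lemma eventually_u_ge :
    ∀ᶠ X : ℕ in atTop, ∀ n : ℕ, log X / (8 * scale X) ≤ log n →
      scale X - 2 * log (scale X) ≤ u n := by
  obtain ⟨C, hC0, hC⟩ := exists_mertens_const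
  have hL : ∀ᶠ T : ℝ in atTop, 2 * C + Real.log 8 ≤ log T ∧ 1 ≤ T :=
    (Real.tendsto_log_atTop.eventually_ge_atTop _).and (eventually_ge_atTop 1)
  have hbig : ∀ᶠ X : ℕ in atTop, log 3 < log X / (8 * scale X) := by
    obtain ⟨D, -, hD⟩ := exists_log_bounds
    filter_upwards [eventually_ge_atTop 3, eventually_scale
      (((Real.tendsto_exp_div_pow_atTop 1).eventually_gt_atTop (8 * log 3 * exp D)).and
        (eventually_gt_atTop 0))] with X hX hT
    obtain ⟨hT, hT0⟩ := hT
    have h1 := (hD X hX).1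
    rw [lt_div_iff₀ (by positivity)]
    rw [pow_one, lt_div_iff₀ hT0] at hT
    have : exp (scale X) = exp (u X - D) * exp D := by rw [← Real.exp_add, scale]; ring_nf
    have hD1 : 0 < exp D := exp_pos D
    nlinarith
  filter_upwards [eventually_ge_atTop 3, eventually_scale hL, hbig] with X hX hT hb n hn
  obtain ⟨hT, hT1⟩ := hT
  have hn3 : 3 ≤ n := by
    by_contra hc
    have : log (n : ℝ) ≤ log 3 := by
      rcases Nat.eq_zero_or_pos n with rfl | h
      · simp; positivity
      · exact Real.log_le_log (by exact_mod_cast h) (by exact_mod_cast (show n ≤ 3 by omega))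
    linarith
  have hl : 0 < log (X : ℝ) := Real.log_pos (by exact_mod_cast (show 1 < X by omega))
  have h4 := Real.log_le_log (by positivity) hn
  rw [Real.log_div hl.ne' (by positivity), Real.log_mul (by norm_num) (by positivity)] at h4
  have h1 := (hC n hn3).1
  have h2 := (hC X hX).2
  simp only [scale] at hT h4 ⊢
  linarith

/-- `K ≤ (log T)^a` is below every positive power of `T`. -/
lemma eventually_log_pow_le (a : ℕ) {c r : ℝ} (hc : 0 < c) (hr : 0 < r) :
    ∀ᶠ T : ℝ in atTop, log T ^ a ≤ c * T ^ r := by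
  have h := (isLittleO_log_rpow_rpow_atTop (a : ℝ) hr).bound hc
  filter_upwards [h, eventually_gt_atTop 1] with T hT h1
  rw [Real.rpow_natCast, Real.norm_eq_abs, Real.norm_eq_abs,
    abs_of_nonneg (Real.rpow_nonneg (by linarith) r)] at hT
  exact le_trans (le_abs_self _) hT

/-- Polynomials in `log` are below every larger power of `log`. -/
lemma eventually_pow_log_le {a b : ℕ} (hab : a < b) {c : ℝ} (hc : 0 < c) :
    ∀ᶠ T : ℝ in atTop, log T ^ a ≤ c * log T ^ b :=
  by
    filter_upwards [Real.tendsto_log_atTop.eventually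
      ((tendsto_pow_div_pow_atTop_atTop (𝕜 := ℝ) hab).eventually_ge_atTop (1 / c)),
      Real.tendsto_log_atTop.eventually_gt_atTop 0] with T hT h0
    rw [div_le_div_iff₀ hc (by positivity), one_mul] at hT
    linarith

end Vale.Agent.P031
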