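import Vale.Agent.P031.SieveCore
import Mathlib.Analysis.Complex.ExponentialBounds

/-! P031: the sieve for at most two linear forms with multiplicative weights. -/

open Finset Real
open scoped Nat

namespace Vale.Agent.P031

open Classical in
/-- The local weight `1 - f_p(r)`. -/
noncomputable def locH (A : Finset ℕ) (z : ℕ → ℝ) (p r : ℕ) : ℝ :=
  if ∃ a ∈ A, (a * r + 1) % p = 0 then 1 else if r = 0 then 1 - z p else 0

lemma locH_mem {A : Finset ℕ} {z : ℕ → ℝ} (hz : ∀ p, 0 ≤ z p ∧ z p ≤ 1) (p r : ℕ) :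
    0 ≤ locH A z p r ∧ locH A z p r ≤ 1 := by
  have := hz p
  unfold locH
  split_ifs <;> constructor <;> linarith

/-- The roots mod `p`. -/
noncomputable def roots (A : Finset ℕ) (p : ℕ) : Finset ℕ :=
  open Classical in (range p).filter fun r => ∃ a ∈ A, (a * r + 1) % p = 0

lemma root_ne_zero {a p : ℕ} (hp : p.Prime) : (a * 0 + 1) % p ≠ 0 := by
  simp [Nat.one_mod_eq_one.2 hp.ne_one]

lemma locH_sum (A : Finset ℕ) (z : ℕ → ℝ) {p : ℕ} (hp : p.Prime) :
    ∑ r ∈ range p, locH A z p r = (1 - z p) + ((roots A p).card : ℝ) := by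
  classical
  have hroots : roots A p ⊆ (range p).erase 0 := fun r hr => by
    simp only [roots, mem_filter] at hr
    refine mem_erase.2 ⟨fun h => ?_, hr.1⟩
    obtain ⟨a, -, ha⟩ := hr.2
    exact root_ne_zero hp (h ▸ ha)
  have h0 : locH A z p 0 = 1 - z p := by
    rw [locH, if_neg, if_pos rfl]
    rintro ⟨a, -, ha⟩
    exact root_ne_zero hp ha
  rw [← add_sum_erase _ _ (mem_range.2 hp.pos), h0]
  congr 1
  rw [← sum_subset hroots (fun r hr hr' => ?_)]
  · rw [sum_congr rfl (g := fun _ => (1 : ℝ)) fun r hr => ?_]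
    · simp
    · simp only [roots, mem_filter] at hr
      rw [locH, if_pos hr.2]
  · rw [locH, if_neg, if_neg (mem_erase.1 hr).1]
    intro h
    exact hr' (by simp only [roots, mem_filter]; exact ⟨(mem_erase.1 hr).2, h⟩)

lemma exists_root {a p : ℕ} (hp : p.Prime) (ha : ¬ p ∣ a) :
    ∃ r < p, (a * r + 1) % p = 0 := by
  have := Fact.mk hp
  refine ⟨(-((a : ZMod p))⁻¹).val, ZMod.val_lt _, ?_⟩
  have ha' : (a : ZMod p) ≠ 0 := by rwa [ne_eq, ZMod.natCast_eq_zero_iff]
  rw [← Nat.dvd_iff_mod_eq_zero, ← ZMod.natCast_eq_zero_iff]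
  push_cast
  rw [ZMod.natCast_val, ZMod.cast_id, mul_neg, mul_inv_cancel₀ ha', neg_add_cancel]

lemma roots_ne {a b p r : ℕ} (hp : p.Prime) (hab : ¬ p ∣ max a b - min a b)
    (ha : (a * r + 1) % p = 0) : (b * r + 1) % p ≠ 0 := by
  intro hb
  have := Fact.mk hp
  rw [← Nat.dvd_iff_mod_eq_zero, ← ZMod.natCast_eq_zero_iff] at ha hb
  push_cast at ha hb
  apply hab
  rw [← ZMod.natCast_eq_zero_iff, Nat.cast_sub min_le_max]
  have h : ((a : ZMod p) - b) * r = 0 := by linear_combination ha - hb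
  rcases mul_eq_zero.1 h with h | h
  · rcases le_total a b with hh | hh
    · rw [max_eq_right hh, min_eq_left hh]; linear_combination -h
    · rw [max_eq_left hh, min_eq_right hh]; exact h
  · rw [h, mul_zero, zero_add] at ha
    exact absurd ha one_ne_zero

lemma roots_card_le {A : Finset ℕ} (hA : A.card ≤ 2) (p : ℕ) (hp : p.Prime) :
    (roots A p).card ≤ 2 := by
  classical
  have := Fact.mk hp
  refine le_trans ?_ hA
  refine card_le_card_of_injOn (fun r => if h : ∃ a ∈ A, (a * r + 1) % p = 0 then h.choose else 0)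
    ?_ ?_
  · intro r hr
    simp only [roots, mem_coe, mem_filter] at hr
    simp only [mem_coe]
    rw [dif_pos hr.2]
    exact hr.2.choose_spec.1
  · intro r hr t ht h
    simp only [roots, mem_coe, mem_filter, mem_range] at hr ht
    simp only [dif_pos hr.2, dif_pos ht.2] at h
    have h1 := hr.2.choose_spec.2
    have h2 := ht.2.choose_spec.2
    rw [← h] at h2
    rw [← Nat.dvd_iff_mod_eq_zero, ← ZMod.natCast_eq_zero_iff] at h1 h2
    push_cast at h1 h2
    set a := hr.2.choose
    have h3 : (a : ZMod p) * ((r : ZMod p) - t) = 0 := by linear_combination h1 - h2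
    rcases mul_eq_zero.1 h3 with h3 | h3
    · rw [h3, zero_mul, zero_add] at h1
      exact absurd h1 one_ne_zero
    · have h4 : (r : ZMod p) = t := sub_eq_zero.1 h3
      have h5 := congrArg ZMod.val h4
      rwa [ZMod.val_cast_of_lt hr.1, ZMod.val_cast_of_lt ht.1] at h5

/-- The exceptional moduli. -/
lemma exists_bad {A : Finset ℕ} (hA : A.card ≤ 2) {M : ℕ} (hM : ∀ a ∈ A, 1 ≤ a ∧ a ≤ M) :
    ∃ bad : List ℕ, bad.length ≤ 3 ∧ (∀ m ∈ bad, 1 ≤ m ∧ m ≤ M) ∧
      ∀ p : ℕ, p.Prime →
        (A.card : ℝ) ≤ (roots A p).card + (bad.map fun m => if p ∣ m then (1 : ℝ) else 0).sum := by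
  classical
  have hmem : ∀ {p r a : ℕ}, a ∈ A → r < p → (a * r + 1) % p = 0 → r ∈ roots A p := by
    intro p r a ha hr h
    simp only [roots, mem_filter, mem_range]
    exact ⟨hr, a, ha, h⟩
  obtain h0 | h1 | h2 : A.card = 0 ∨ A.card = 1 ∨ A.card = 2 := by omega
  · refine ⟨[], by simp, by simp, fun p _ => ?_⟩
    rw [h0]
    simp
  · obtain ⟨a, rfl⟩ := card_eq_one.1 h1
    refine ⟨[a], by simp, by simpa using hM, fun p hp => ?_⟩
    simp only [card_singleton, Nat.cast_one, List.map_cons, List.map_nil, List.sum_cons,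
      List.sum_nil, add_zero]
    split_ifs with h
    · have : (0 : ℝ) ≤ (roots {a} p).card := by positivity
      linarith
    · obtain ⟨r, hr, hr'⟩ := exists_root hp h
      have : 1 ≤ (roots {a} p).card := card_pos.2 ⟨r, hmem (mem_singleton_self a) hr hr'⟩
      have : (1 : ℝ) ≤ (roots {a} p).card := by exact_mod_cast this
      linarith
  · obtain ⟨a, b, hab, rfl⟩ := card_eq_two.1 h2
    have ha := hM a (by simp)
    have hb := hM b (by simp)
    refine ⟨[a, b, max a b - min a b], by simp, ?_, fun p hp => ?_⟩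
    · intro m hm
      simp only [List.mem_cons, List.not_mem_nil, or_false] at hm
      rcases hm with rfl | rfl | rfl
      · exact ha
      · exact hb
      · omega
    rw [h2]
    simp only [List.map_cons, List.map_nil, List.sum_cons, List.sum_nil, add_zero]
    have hnn : (0 : ℝ) ≤ (roots {a, b} p).card := by positivity
    by_cases hpa : p ∣ a <;> by_cases hpb : p ∣ b
    · simp only [if_pos hpa, if_pos hpb]
      split_ifs <;> push_cast <;> linarith
    · obtain ⟨r, hr, hr'⟩ := exists_root hp hpb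
      have : 1 ≤ (roots {a, b} p).card := card_pos.2 ⟨r, hmem (by simp) hr hr'⟩
      have : (1 : ℝ) ≤ (roots {a, b} p).card := by exact_mod_cast this
      simp only [if_pos hpa, if_neg hpb]
      split_ifs <;> push_cast <;> linarith
    · obtain ⟨r, hr, hr'⟩ := exists_root hp hpa
      have : 1 ≤ (roots {a, b} p).card := card_pos.2 ⟨r, hmem (by simp) hr hr'⟩
      have : (1 : ℝ) ≤ (roots {a, b} p).card := by exact_mod_cast this
      simp only [if_neg hpa, if_pos hpb]
      split_ifs <;> push_cast <;> linarith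
    · obtain ⟨r, hr, hr'⟩ := exists_root hp hpa
      obtain ⟨t, ht, ht'⟩ := exists_root hp hpb
      simp only [if_neg hpa, if_neg hpb]
      split_ifs with h
      · have : 1 ≤ (roots {a, b} p).card := card_pos.2 ⟨r, hmem (by simp) hr hr'⟩
        have : (1 : ℝ) ≤ (roots {a, b} p).card := by exact_mod_cast this
        push_cast
        linarith
      · have hne : r ≠ t := fun hrt => roots_ne hp h hr' (hrt ▸ ht')
        have : 2 ≤ (roots {a, b} p).card := by
          rw [← card_pair hne]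
          refine card_le_card fun x hx => ?_
          simp only [mem_insert, mem_singleton] at hx
          rcases hx with rfl | rfl
          · exact hmem (by simp) hr hr'
          · exact hmem (by simp) ht ht'
        have : (2 : ℝ) ≤ (roots {a, b} p).card := by exact_mod_cast this
        push_cast
        linarith

lemma sum_inv_mul_pred (y : ℕ) : ∑ p ∈ primesTo y, 1 / ((p : ℝ) * ((p : ℝ) - 1)) ≤ 1 := by
  have key : ∀ n : ℕ, 1 ≤ n → ∑ p ∈ primesTo n, 1 / ((p : ℝ) * ((p : ℝ) - 1)) ≤ 1 - 1 / (n : ℝ) := by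
    intro n hn
    induction n, hn using Nat.le_induction with
    | base =>
      simp [primesTo, Finset.sum_filter, Finset.sum_range_succ, Nat.not_prime_zero,
        Nat.not_prime_one]
    | succ n hn ih =>
      have hn0 : (0 : ℝ) < n := by exact_mod_cast hn
      have e : (1 : ℝ) / (n : ℝ) - 1 / ((n + 1 : ℕ) : ℝ)
          = 1 / (((n + 1 : ℕ) : ℝ) * (((n + 1 : ℕ) : ℝ) - 1)) := by
        push_cast; rw [add_sub_cancel_right]; field_simp; ring
      rw [primesTo, Finset.sum_filter, Finset.sum_range_succ, ← Finset.sum_filter]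
      have h0 : (0 : ℝ) ≤ 1 / (n : ℝ) - 1 / ((n + 1 : ℕ) : ℝ) := by
        rw [sub_nonneg]; exact one_div_le_one_div_of_le hn0 (by push_cast; linarith)
      simp only [primesTo] at ih
      split_ifs with h <;> linarith
  rcases Nat.eq_zero_or_pos y with rfl | hy
  · simp [primesTo, Finset.sum_filter, Nat.not_prime_zero]
  · have := key y hy
    have : (0 : ℝ) ≤ 1 / (y : ℝ) := by positivity
    linarith

/-- The main exponent. -/
lemma exponent_le : ∃ C : ℝ, ∀ A : Finset ℕ, A.card ≤ 2 → ∀ M : ℕ, (∀ a ∈ A, 1 ≤ a ∧ a ≤ M) →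
    ∀ z : ℕ → ℝ, (∀ p, 0 ≤ z p ∧ z p ≤ 1) → ∀ y : ℕ,
    (A.card : ℝ) * u y + ∑ p ∈ primesTo y, (1 - z p) / ((p : ℝ) - 1) ≤
      ∑ p ∈ primesTo y, (∑ r ∈ range p, locH A z p r) / (p : ℝ) + 3 * log (u M + 1) + C := by
  classical
  obtain ⟨C, hC⟩ := sum_primeFactors_le
  refine ⟨3 * max C 0 + 3, fun A hA M hM z hz y => ?_⟩
  obtain ⟨bad, hlen, hbad, hroot⟩ := exists_bad hA hM
  set g : ℕ → ℝ := fun p => (∑ r ∈ range p, locH A z p r) / (p : ℝ) with hg
  have step : ∀ p ∈ primesTo y, (A.card : ℝ) * (1 / ((p : ℝ) - 1)) + (1 - z p) / ((p : ℝ) - 1)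
      ≤ g p + 3 * (1 / ((p : ℝ) * ((p : ℝ) - 1)))
        + (bad.map fun m => if p ∣ m then 1 / ((p : ℝ) - 1) else 0).sum := by
    intro p hp
    have hp' := (mem_primesTo.1 hp).2
    have h1 := sub_one_pos_of_prime hp'
    have hp0 : (0 : ℝ) < p := by exact_mod_cast hp'.pos
    have hr := hroot p hp'
    have hr2 : ((roots A p).card : ℝ) ≤ 2 := by exact_mod_cast roots_card_le hA p hp'
    have hsum : (bad.map fun m => if p ∣ m then 1 / ((p : ℝ) - 1) else 0).sum
        = (bad.map fun m => if p ∣ m then (1 : ℝ) else 0).sum * (1 / ((p : ℝ) - 1)) := by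
      rw [← List.sum_map_mul_right]
      simp
    rw [hsum, hg]
    simp only
    rw [locH_sum A z hp']
    set B := (bad.map fun m => if p ∣ m then (1 : ℝ) else 0).sum
    set c := ((roots A p).card : ℝ)
    have key : (1 - z p + c) / (p : ℝ) + 3 * (1 / ((p : ℝ) * ((p : ℝ) - 1)))
        = (1 - z p + c) / ((p : ℝ) - 1) + (3 - (1 - z p + c)) / ((p : ℝ) * ((p : ℝ) - 1)) := by
      field_simp; ring
    have h2 : 0 ≤ (3 - (1 - z p + c)) / ((p : ℝ) * ((p : ℝ) - 1)) :=
      div_nonneg (by linarith [(hz p).1]) (mul_pos hp0 h1).le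
    have h3 := mul_le_mul_of_nonneg_right hr (one_div_pos.2 h1).le
    have e : (1 - z p + c) / ((p : ℝ) - 1) = (1 - z p) / ((p : ℝ) - 1) + c * (1 / ((p : ℝ) - 1)) := by
      ring
    linarith
  have htot := sum_le_sum step
  rw [sum_add_distrib, sum_add_distrib, sum_add_distrib, ← mul_sum, ← mul_sum, ← u_def] at htot
  refine htot.trans ?_
  have h3 := sum_inv_mul_pred y
  have hbads : ∑ p ∈ primesTo y, (bad.map fun m => if p ∣ m then 1 / ((p : ℝ) - 1) else 0).sum
      ≤ (bad.length : ℝ) * (log (u M + 1) + max C 0) := by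
    clear hlen hroot step htot
    induction bad with
    | nil => simp
    | cons m l ih =>
      simp only [List.map_cons, List.sum_cons, List.length_cons]
      rw [sum_add_distrib]
      have h1 : ∑ p ∈ primesTo y, (if p ∣ m then 1 / ((p : ℝ) - 1) else 0)
          ≤ log (u M + 1) + max C 0 := by
        have hm := hbad m (List.mem_cons_self)
        refine le_trans ?_ (le_trans (hC m) (add_le_add (log_le_log (by linarith [u_nonneg m])
          (by linarith [u_mono hm.2])) (le_max_left C 0)))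
        rw [← sum_filter]
        refine sum_le_sum_of_subset_of_nonneg (fun p hp => ?_) fun p hp _ => ?_
        · obtain ⟨hp1, hp2⟩ := mem_filter.1 hp
          exact Nat.mem_primeFactors.2 ⟨(mem_primesTo.1 hp1).2, hp2, by omega⟩
        · have := sub_one_pos_of_prime (Nat.prime_of_mem_primeFactors hp)
          positivity
      have := ih fun x hx => hbad x (List.mem_cons_of_mem m hx)
      push_cast
      linarith
  have hl0 : 0 ≤ log (u M + 1) + max C 0 :=
    add_nonneg (log_nonneg (by linarith [u_nonneg M])) (le_max_right _ _)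
  have hl3 : (bad.length : ℝ) * (log (u M + 1) + max C 0) ≤ 3 * (log (u M + 1) + max C 0) :=
    mul_le_mul_of_nonneg_right (by exact_mod_cast hlen) hl0
  linarith

/-- The sieving limit. -/
noncomputable def sieveLevel (U : ℕ) : ℕ := ⌊exp (log U / (128 * (u U + 1)))⌋₊

lemma level_arg_nonneg (U : ℕ) : 0 ≤ log (U : ℝ) / (128 * (u U + 1)) :=
  div_nonneg (log_natCast_nonneg U) (by linarith [u_nonneg U])

lemma one_le_sieveLevel (U : ℕ) : 1 ≤ sieveLevel U := by
  rw [sieveLevel, Nat.one_le_floor_iff]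
  exact one_le_exp (level_arg_nonneg U)

lemma sieveLevel_le_exp (U : ℕ) :
    (sieveLevel U : ℝ) ≤ exp (log U / (128 * (u U + 1))) := Nat.floor_le (exp_pos _).le

lemma sieveLevel_le {U : ℕ} (hU : 1 ≤ U) : sieveLevel U ≤ U := by
  have h := (sieveLevel_le_exp U).trans (exp_le_exp.2
    (div_le_self (log_natCast_nonneg U) (by linarith [u_nonneg U])))
  rw [exp_log (by exact_mod_cast hU)] at h
  exact_mod_cast h

lemma u_sub_level : ∃ C : ℝ, ∀ U : ℕ, 1 ≤ U →
    u U - u (sieveLevel U) ≤ log (u U + 1) + C := by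
  obtain ⟨C, hC0, hC⟩ := exists_mertens_const
  refine ⟨2 * C + log 512 + 1, fun U hU => ?_⟩
  have hu := u_nonneg U
  have hl : 0 ≤ log (u U + 1) := log_nonneg (by linarith)
  have hl512 : 0 ≤ log (512 : ℝ) := log_nonneg (by norm_num)
  rcases lt_or_ge U 3 with h | h
  · have : u U ≤ 1 := by
      refine (u_mono (show U ≤ 2 by omega)).trans ?_
      rw [u_succ, u_one]
      norm_num [Nat.prime_two]
    linarith [u_nonneg (sieveLevel U)]
  have hlU : 0 < log (U : ℝ) := log_pos (by exact_mod_cast (show 1 < U by omega))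
  set t := log (U : ℝ) / (128 * (u U + 1)) with ht
  have ht0 : 0 < t := by rw [ht]; exact div_pos hlU (by linarith)
  have hUt : log (U : ℝ) = t * (128 * (u U + 1)) := by rw [ht]; field_simp
  rcases lt_or_ge (sieveLevel U) 3 with hy | hy
  · have h4 : exp t < 4 := by
      have h' := Nat.lt_floor_add_one (exp t)
      have : ((sieveLevel U : ℕ) : ℝ) + 1 ≤ 3 := by exact_mod_cast hy
      rw [sieveLevel] at this
      linarith
    have ht2 : t ≤ 3 := by linarith [add_one_le_exp t]
    have h2 : log (U : ℝ) ≤ 512 * (u U + 1) := by rw [hUt]; nlinarith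
    have h1 := (hC U h).2
    have h3 := log_le_log hlU h2
    rw [log_mul (by norm_num) (by linarith)] at h3
    linarith [u_nonneg (sieveLevel U)]
  · have h1 := (hC U h).2
    have h2 := (hC _ hy).1
    have hexp : (3 : ℝ) ≤ exp t := by
      exact le_trans (by exact_mod_cast hy) (sieveLevel_le_exp U)
    have h1t : 1 ≤ t := by
      by_contra hc
      have h' := exp_lt_exp.2 (not_le.1 hc)
      have := exp_one_lt_d9
      linarith
    have hy2 : exp t / 2 ≤ (sieveLevel U : ℝ) := by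
      have h' := Nat.lt_floor_add_one (exp t)
      rw [sieveLevel]
      linarith
    have hly : t / 4 ≤ log (sieveLevel U : ℝ) := by
      have h' := log_le_log (by positivity) hy2
      rw [log_div (exp_pos t).ne' (by norm_num), log_exp] at h'
      have := log_two_lt_d9
      linarith
    have h3 : log (t / 4) ≤ log (log (sieveLevel U : ℝ)) := log_le_log (by linarith) hly
    have h4 : log (log (U : ℝ)) = log (t / 4) + log (512 * (u U + 1)) := by
      rw [← log_mul (by linarith) (by nlinarith), hUt]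
      congr 1
      ring
    rw [log_mul (by norm_num) (by linarith)] at h4
    linarith

lemma junk_le : ∃ J : ℝ, 0 < J ∧ ∀ U : ℕ, 1 ≤ U → exp (4 * u U) ≤ J * sqrt U := by
  obtain ⟨C, hC0, hC⟩ := exists_mertens_const
  refine ⟨exp (4 * C + 4 * log 16 + 4), exp_pos _, fun U hU => ?_⟩
  have hU0 : (0 : ℝ) < U := by exact_mod_cast hU
  rw [sqrt_eq_rpow, rpow_def_of_pos hU0, ← exp_add, exp_le_exp]
  have hl16 : 0 ≤ log (16 : ℝ) := log_nonneg (by norm_num)
  have hl0 := log_natCast_nonneg U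
  rcases lt_or_ge U 3 with h | h
  · have : u U ≤ 1 := by
      refine (u_mono (show U ≤ 2 by omega)).trans ?_
      rw [u_succ, u_one]
      norm_num [Nat.prime_two]
    linarith
  have hlU : 0 < log (U : ℝ) := log_pos (by exact_mod_cast (show 1 < U by omega))
  have h1 := (hC U h).2
  have h2 := log_le_sub_one_of_pos (show 0 < log (U : ℝ) / 16 by positivity)
  rw [log_div hlU.ne' (by norm_num)] at h2
  linarith

theorem sieve : SieveStatement := by
  classical
  obtain ⟨C1, hC1⟩ := exponent_le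
  obtain ⟨C2, hC2⟩ := u_sub_level
  obtain ⟨J, hJ0, hJ⟩ := junk_le
  set C := exp (C1 + 3 * max C2 0) + 1 + 40 * J with hC
  refine ⟨C, 6, by rw [hC]; positivity, fun U M hU hUM A hA hAM z hz => ?_⟩
  set y := sieveLevel U with hy
  set P := primesTo y with hP
  set R := ⌈15 * (u U + 1)⌉₊ with hR
  have huU := u_nonneg U
  have huM : u U ≤ u M := u_mono hUM
  have hU0 : (0 : ℝ) < U := by exact_mod_cast hU
  -- the weights are dominated by the sieve weights
  have hdom : ∀ n ∈ (Icc 1 U).filter (fun n => ∀ a ∈ A, (a * n + 1).Prime),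
      ∏ p ∈ n.primeFactors, z p ≤ (if n ≤ y then (1 : ℝ) else 0)
        + ∏ p ∈ P, (1 - locH A z p (n % p)) := by
    intro n hn
    obtain ⟨hn1, hn2⟩ := mem_filter.1 hn
    have hn0 : 1 ≤ n := (mem_Icc.1 hn1).1
    have hW : ∏ p ∈ n.primeFactors, z p ≤ 1 :=
      prod_le_one (fun p _ => (hz p).1) fun p _ => (hz p).2
    have hpr : 0 ≤ ∏ p ∈ P, (1 - locH A z p (n % p)) :=
      prod_nonneg fun p _ => by linarith [(locH_mem (A := A) hz p (n % p)).2]
    split_ifs with hny
    · linarith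
    rw [zero_add]
    have hstep : ∀ p ∈ P, 1 - locH A z p (n % p) = if p ∣ n then z p else 1 := by
      intro p hp
      obtain ⟨hpy, hp'⟩ := mem_primesTo.1 hp
      rw [locH, if_neg]
      · by_cases hd : p ∣ n
        · rw [if_pos (Nat.mod_eq_zero_of_dvd hd), if_pos hd]; ring
        · rw [if_neg fun h => hd (Nat.dvd_of_mod_eq_zero h), if_neg hd]; ring
      · rintro ⟨a, ha, h⟩
        have h' : (a * n + 1) % p = 0 := by
          rwa [Nat.add_mod, Nat.mul_mod, Nat.mod_mod, ← Nat.mul_mod, ← Nat.add_mod] at h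
        have := (Nat.prime_dvd_prime_iff_eq hp' (hn2 a ha)).1 (Nat.dvd_of_mod_eq_zero h')
        have := Nat.le_mul_of_pos_left n (hAM a ha).1
        omega
    rw [prod_congr rfl hstep, ← prod_filter,
      ← prod_filter_mul_prod_filter_not n.primeFactors (fun p => p ∈ P)]
    have hset : n.primeFactors.filter (fun p => p ∈ P) = P.filter (fun p => p ∣ n) := by
      ext p
      simp only [mem_filter, Nat.mem_primeFactors, hP, mem_primesTo]
      constructor
      · rintro ⟨⟨-, h2, -⟩, h4⟩; exact ⟨h4, h2⟩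
      · rintro ⟨h1, h2⟩; exact ⟨⟨h1.2, h2, by omega⟩, h1⟩
    rw [hset]
    exact mul_le_of_le_one_right (prod_nonneg fun p _ => (hz p).1)
      (prod_le_one (fun p _ => (hz p).1) fun p _ => (hz p).2)
  have hsmall : ∑ n ∈ (Icc 1 U).filter (fun n => ∀ a ∈ A, (a * n + 1).Prime),
      (if n ≤ y then (1 : ℝ) else 0) ≤ y := by
    rw [← sum_filter, sum_const, nsmul_eq_mul, mul_one]
    have : (((Icc 1 U).filter (fun n => ∀ a ∈ A, (a * n + 1).Prime)).filter (fun n => n ≤ y)).card
        ≤ (Icc 1 y).card := card_le_card fun n hn => by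
      simp only [mem_filter, mem_Icc] at hn ⊢
      exact ⟨hn.1.1.1, hn.2⟩
    rw [Nat.card_Icc] at this
    exact_mod_cast (by omega : _ ≤ y)
  have hcard : P.card ≤ y := by
    calc P.card ≤ (Icc 1 y).card := card_le_card fun p hp => by
          obtain ⟨h1, h2⟩ := mem_primesTo.1 hp
          exact mem_Icc.2 ⟨h2.pos, h1⟩
      _ = y := by simp
  have hcore := sieve_core (locH A z) (locH_mem hz) P (fun p hp => (mem_primesTo.1 hp).2) y
    (fun p hp => (mem_primesTo.1 hp).1) (one_le_sieveLevel U) R U hcard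
  have hyU : y ≤ U := sieveLevel_le hU
  have huy : u y ≤ u U := u_mono hyU
  -- the target
  set E := exp (-((A.card : ℝ) * u U)
      - ∑ p ∈ (range (U + 1)).filter Nat.Prime, (1 - z p) / ((p : ℝ) - 1)) with hE
  have hk : (A.card : ℝ) ≤ 2 := by exact_mod_cast hA
  have hsz : ∑ p ∈ primesTo U, (1 - z p) / ((p : ℝ) - 1) ≤ u U := by
    rw [u_def]
    refine sum_le_sum fun p hp => ?_
    exact div_le_div_of_nonneg_right (by linarith [(hz p).1])
      (sub_one_pos_of_prime (mem_primesTo.1 hp).2).le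
  have hElow : exp (-(3 * u U)) ≤ E := by
    rw [hE, exp_le_exp]
    have := mul_le_mul_of_nonneg_right hk huU
    show _ ≤ -((A.card : ℝ) * u U) - ∑ p ∈ primesTo U, (1 - z p) / ((p : ℝ) - 1)
    linarith
  have hone : 1 ≤ (u M + 1) ^ 6 := one_le_pow₀ (by linarith [u_nonneg M])
  -- main term
  have hmain : exp (-∑ p ∈ P, (∑ r ∈ range p, locH A z p r) / (p : ℝ))
      ≤ exp (C1 + 3 * max C2 0) * (u M + 1) ^ 6 * E := by
    have h1 := hC1 A hA M hAM z hz y
    have h2 : ∑ p ∈ primesTo U, (1 - z p) / ((p : ℝ) - 1)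
        ≤ ∑ p ∈ P, (1 - z p) / ((p : ℝ) - 1) + (u U - u y) := by
      have hsub : P ⊆ primesTo U := fun p hp => by
        obtain ⟨a, b⟩ := mem_primesTo.1 hp; exact mem_primesTo.2 ⟨a.trans hyU, b⟩
      rw [u_def, u_def, ← hP, ← sum_sdiff hsub, ← sum_sdiff hsub (f := fun p : ℕ => 1 / ((p : ℝ) - 1)),
        add_sub_cancel_right, add_comm]
      refine add_le_add le_rfl (sum_le_sum fun p hp => ?_)
      exact div_le_div_of_nonneg_right (by linarith [(hz p).1])
        (sub_one_pos_of_prime (mem_primesTo.1 (mem_sdiff.1 hp).1).2).le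
    have h3 := hC2 U hU
    have h4 : log (u U + 1) ≤ log (u M + 1) := log_le_log (by linarith) (by linarith)
    have h5 : u U - u y ≤ log (u M + 1) + max C2 0 := by linarith [le_max_left C2 0]
    have h6 := mul_le_mul_of_nonneg_left h5 (show (0 : ℝ) ≤ (A.card : ℝ) + 1 by positivity)
    have h7 : ((A.card : ℝ) + 1) * (log (u M + 1) + max C2 0)
        ≤ 3 * (log (u M + 1) + max C2 0) :=
      mul_le_mul_of_nonneg_right (by linarith)
        (add_nonneg (log_nonneg (by linarith [u_nonneg M])) (le_max_right _ _))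
    have h8 : (u M + 1) ^ 6 = exp (6 * log (u M + 1)) := by
      rw [show (6 : ℝ) * log (u M + 1) = ((6 : ℕ) : ℝ) * log (u M + 1) by norm_num, exp_nat_mul,
        exp_log (by linarith [u_nonneg M])]
    rw [h8, hE, ← exp_add, ← exp_add, exp_le_exp]
    show _ ≤ _ + (-((A.card : ℝ) * u U) - ∑ p ∈ primesTo U, (1 - z p) / ((p : ℝ) - 1))
    linarith
  -- truncation term
  set S := ∑ p ∈ P, (∑ r ∈ range p, locH A z p r) / (p : ℝ) with hS
  have hS3 : 0 ≤ S ∧ S ≤ 3 * u U := by
    constructor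
    · exact sum_nonneg fun p _ => div_nonneg (sum_nonneg fun r _ => (locH_mem hz p r).1)
        (Nat.cast_nonneg p)
    · refine le_trans ?_ (mul_le_mul_of_nonneg_left huy (by norm_num))
      rw [u_def, mul_sum]
      refine sum_le_sum fun p hp => ?_
      have hp' := (mem_primesTo.1 hp).2
      rw [locH_sum A z hp', mul_one_div]
      refine div_le_div₀ (by norm_num) ?_ (sub_one_pos_of_prime hp') (by linarith)
      have : ((roots A p).card : ℝ) ≤ 2 := by exact_mod_cast roots_card_le hA p hp'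
      linarith [(hz p).1]
  have hRlow : 15 * (u U + 1) ≤ (R : ℝ) := Nat.le_ceil _
  have hRup : (R : ℝ) ≤ 16 * (u U + 1) := by
    have := Nat.ceil_lt_add_one (show (0 : ℝ) ≤ 15 * (u U + 1) by positivity)
    rw [← hR] at this
    linarith
  have htail : S ^ (2 * R + 1) / ((2 * R + 1) ! : ℝ) ≤ E := by
    refine le_trans ?_ hElow
    set m := 2 * R + 1 with hm
    have hmR : (m : ℝ) = 2 * R + 1 := by rw [hm]; push_cast; ring
    have hm0 : (0 : ℝ) < m := by rw [hmR]; positivity
    have hm' := pow_div_factorial_le_exp (m : ℝ) hm0.le m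
    have hfac : (0 : ℝ) < (m ! : ℝ) := by exact_mod_cast m.factorial_pos
    have h1 : S ^ m / (m ! : ℝ) ≤ (S / m * exp 1) ^ m := by
      rw [mul_pow, div_pow, ← exp_nat_mul, mul_one]
      calc S ^ m / (m ! : ℝ) = S ^ m / (m : ℝ) ^ m * ((m : ℝ) ^ m / (m ! : ℝ)) := by
            field_simp
        _ ≤ _ := mul_le_mul_of_nonneg_left hm' (div_nonneg (pow_nonneg hS3.1 m) (by positivity))
    refine h1.trans ?_
    have he := exp_one_lt_d9
    have h2 : S / m * exp 1 ≤ exp (-1) := by
      have h3 : S / m ≤ 1 / 10 := by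
        rw [div_le_iff₀ hm0, hmR]
        linarith [hS3.2]
      have h5 : (1 : ℝ) / exp 1 = exp (-1) := by rw [exp_neg, one_div]
      rw [← h5, le_div_iff₀ (exp_pos 1)]
      have h6 : exp 1 * exp 1 ≤ 10 := by nlinarith [exp_pos 1]
      nlinarith [mul_le_mul_of_nonneg_right h3 (mul_pos (exp_pos 1) (exp_pos 1)).le]
    refine (pow_le_pow_left₀ (mul_nonneg (div_nonneg hS3.1 hm0.le) (exp_pos 1).le) h2 m).trans ?_
    rw [← exp_nat_mul, exp_le_exp, hmR]
    linarith
  -- remainder
  have hrem : ((2 * R + 1 : ℕ) : ℝ) * (y : ℝ) ^ (4 * R) + y ≤ 40 * J * (U : ℝ) * E := by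
    have hlU := log_natCast_nonneg U
    have hsq : exp (log (U : ℝ) / 2) = sqrt U := by
      rw [sqrt_eq_rpow, rpow_def_of_pos hU0]
      congr 1
      ring
    have hy0 : (0 : ℝ) ≤ (y : ℝ) := Nat.cast_nonneg y
    have hyb : (y : ℝ) ≤ sqrt U := by
      refine (sieveLevel_le_exp U).trans ?_
      rw [← hsq, exp_le_exp, div_le_div_iff₀ (by linarith) two_pos]
      exact mul_le_mul_of_nonneg_left (by linarith) hlU
    have hyp : (y : ℝ) ^ (4 * R) ≤ sqrt U := by
      refine (pow_le_pow_left₀ hy0 (sieveLevel_le_exp U) _).trans ?_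
      rw [← exp_nat_mul, ← hsq, exp_le_exp, mul_div_assoc', div_le_div_iff₀ (by linarith) two_pos]
      push_cast
      have := mul_le_mul_of_nonneg_left hRup hlU
      linarith
    have hR2 : ((2 * R + 1 : ℕ) : ℝ) + 1 ≤ 40 * exp (u U) := by
      push_cast
      linarith [add_one_le_exp (u U)]
    have hJU := hJ U hU
    have h1 : exp (u U) ≤ exp (4 * u U) * E := by
      calc exp (u U) = exp (4 * u U) * exp (-(3 * u U)) := by rw [← exp_add]; congr 1; ring
        _ ≤ _ := mul_le_mul_of_nonneg_left hElow (exp_pos _).le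
    calc ((2 * R + 1 : ℕ) : ℝ) * (y : ℝ) ^ (4 * R) + y
        ≤ ((2 * R + 1 : ℕ) : ℝ) * sqrt U + sqrt U := by gcongr
      _ = (((2 * R + 1 : ℕ) : ℝ) + 1) * sqrt U := by ring
      _ ≤ 40 * exp (u U) * sqrt U := by gcongr
      _ ≤ 40 * (exp (4 * u U) * E) * sqrt U := by gcongr
      _ ≤ 40 * ((J * sqrt U) * E) * sqrt U := by gcongr
      _ = 40 * J * (sqrt U * sqrt U) * E := by ring
      _ = _ := by rw [mul_self_sqrt hU0.le]
  calc ∑ n ∈ (Icc 1 U).filter (fun n => ∀ a ∈ A, (a * n + 1).Prime), ∏ p ∈ n.primeFactors, z p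
      ≤ ∑ n ∈ (Icc 1 U).filter (fun n => ∀ a ∈ A, (a * n + 1).Prime),
          ((if n ≤ y then (1 : ℝ) else 0) + ∏ p ∈ P, (1 - locH A z p (n % p))) := sum_le_sum hdom
    _ ≤ y + ∑ n ∈ Icc 1 U, ∏ p ∈ P, (1 - locH A z p (n % p)) := by
        rw [sum_add_distrib]
        refine add_le_add hsmall (sum_le_sum_of_subset_of_nonneg (filter_subset _ _) fun n _ _ => ?_)
        exact prod_nonneg fun p _ => by linarith [(locH_mem (A := A) hz p (n % p)).2]
    _ ≤ y + (U * (exp (C1 + 3 * max C2 0) * (u M + 1) ^ 6 * E + E)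
          + ((2 * R + 1 : ℕ) : ℝ) * (y : ℝ) ^ (4 * R)) := by
        refine add_le_add le_rfl (hcore.trans (add_le_add (mul_le_mul_of_nonneg_left
          (add_le_add hmain htail) (Nat.cast_nonneg U)) le_rfl))
    _ ≤ C * (u M + 1) ^ 6 * U * E := by
        have hUE : 0 ≤ (U : ℝ) * E := by positivity
        have h1 := mul_le_mul_of_nonneg_left hone hUE
        have h2 := mul_le_mul_of_nonneg_left hone (mul_nonneg (mul_nonneg (by norm_num : (0:ℝ) ≤ 40) hJ0.le) hUE)
        rw [hC]
        linarith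

/-- `exp (-u U)` on a dyadic block. -/
lemma exp_neg_u_le : ∃ C : ℝ, 0 < C ∧ ∀ j U : ℕ, 2 ^ j ≤ U →
    exp (-u U) ≤ C / ((j : ℝ) + 1) := by
  obtain ⟨C, hC0, hC⟩ := exists_mertens_const
  refine ⟨8 * exp C, by positivity, fun j U hjU => ?_⟩
  have hl2 := log_two_gt_d9
  have he : (1 : ℝ) ≤ exp C := one_le_exp hC0
  rcases lt_or_ge U 3 with h | h
  · have hj : j ≤ 1 := by
      by_contra hj
      have h' := Nat.pow_le_pow_right (show 1 ≤ 2 by norm_num) (show 2 ≤ j by omega)
      norm_num at h'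
      omega
    have h1 : exp (-u U) ≤ 1 := by rw [exp_le_one_iff]; linarith [u_nonneg U]
    have h2 : (j : ℝ) ≤ 1 := by exact_mod_cast hj
    rw [le_div_iff₀ (by positivity)]
    have := mul_le_mul_of_nonneg_right h1 (show (0 : ℝ) ≤ (j : ℝ) + 1 by positivity)
    linarith
  · have hlU : 0 < log (U : ℝ) := log_pos (by exact_mod_cast (show 1 < U by omega))
    have h1 : exp (-u U) ≤ exp C / log U := by
      rw [le_div_iff₀ hlU]
      calc exp (-u U) * log (U : ℝ) = exp (-u U) * exp (log (log (U : ℝ))) := by rw [exp_log hlU]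
        _ ≤ exp C := by rw [← exp_add, exp_le_exp]; linarith [(hC U h).1]
    refine h1.trans ?_
    rw [div_le_div_iff₀ hlU (by positivity)]
    have h2 : (j : ℝ) * log 2 ≤ log U := by
      rw [← log_pow]
      exact log_le_log (by positivity) (by exact_mod_cast hjU)
    have h3 : log 3 ≤ log (U : ℝ) := log_le_log (by norm_num) (by exact_mod_cast h)
    have h4 : log 2 ≤ log 3 := log_le_log (by norm_num) (by norm_num)
    have h5 : (j : ℝ) + 1 ≤ 8 * log U := by
      have : (j : ℝ) * (0.69 : ℝ) ≤ (j : ℝ) * log 2 :=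
        mul_le_mul_of_nonneg_left (by linarith) (Nat.cast_nonneg j)
      linarith
    have := mul_le_mul_of_nonneg_left h5 (exp_pos C).le
    linarith

lemma sum_one_div_succ_le (N : ℕ) :
    ∑ j ∈ range (N + 1), 1 / ((j : ℝ) + 1) ≤ 1 + log ((N : ℝ) + 1) := by
  induction N with
  | zero => simp
  | succ N ih =>
    rw [sum_range_succ]
    have h := one_sub_inv_le_log_of_pos
      (show 0 < ((N : ℝ) + 1 + 1) / ((N : ℝ) + 1) by positivity)
    rw [log_div (by positivity) (by positivity), inv_div] at h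
    have e : 1 - ((N : ℝ) + 1) / ((N : ℝ) + 1 + 1) = 1 / ((N : ℝ) + 1 + 1) := by field_simp; ring
    push_cast
    linarith

lemma log_nat_log_le : ∃ C : ℝ, 0 < C ∧ ∀ Y : ℕ,
    1 + log ((Nat.log 2 Y : ℝ) + 1) ≤ C * (u Y + 1) := by
  obtain ⟨C, hC0, hC⟩ := exists_mertens_const
  refine ⟨C + 4, by linarith, fun Y => ?_⟩
  have hu := u_nonneg Y
  rcases lt_or_ge Y 3 with h | h
  · have h0 : Nat.log 2 Y ≤ 1 := by
      by_contra hc
      have := Nat.pow_le_of_le_log (b := 2) (x := 2) (y := Y) (by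
        intro h0; subst h0; simp at hc) (by omega)
      norm_num at this
      omega
    have h1 : log ((Nat.log 2 Y : ℝ) + 1) ≤ 1 := by
      have h0' : (Nat.log 2 Y : ℝ) ≤ 1 := by exact_mod_cast h0
      have := log_le_sub_one_of_pos (show 0 < (Nat.log 2 Y : ℝ) + 1 by positivity)
      linarith
    nlinarith
  · have hlY : 0 < log (Y : ℝ) := log_pos (by exact_mod_cast (show 1 < Y by omega))
    have hl2 := log_two_gt_d9
    have h1 : (Nat.log 2 Y : ℝ) * log 2 ≤ log Y := by
      rw [← log_pow]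
      exact log_le_log (by positivity) (by exact_mod_cast Nat.pow_log_le_self 2 (by omega : Y ≠ 0))
    have h3 : log 3 ≤ log (Y : ℝ) := log_le_log (by norm_num) (by exact_mod_cast h)
    have h4 : log 2 ≤ log 3 := log_le_log (by norm_num) (by norm_num)
    have h5 : (Nat.log 2 Y : ℝ) + 1 ≤ 8 * log Y := by
      have : (Nat.log 2 Y : ℝ) * (0.69 : ℝ) ≤ (Nat.log 2 Y : ℝ) * log 2 :=
        mul_le_mul_of_nonneg_left (by linarith) (Nat.cast_nonneg _)
      linarith
    have h6 := log_le_log (by positivity) h5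
    rw [log_mul (by norm_num) hlY.ne'] at h6
    have h8 : log (8 : ℝ) = 3 * log 2 := by
      rw [show (8 : ℝ) = 2 ^ 3 by norm_num, log_pow]; norm_num
    have := log_two_lt_d9
    nlinarith [(hC Y h).1]

theorem sieve_log : SieveLogStatement := by
  classical
  obtain ⟨C, k, hC0, hC⟩ := sieve
  obtain ⟨C1, hC1, hblock⟩ := exp_neg_u_le
  obtain ⟨C2, hC2, hlog⟩ := log_nat_log_le
  refine ⟨2 * C * C1 * C2, k + 1, by positivity, fun R Y M hR hYM A hA hAM z hz => ?_⟩
  set Z := exp (∑ p ∈ (range (Y + 1)).filter Nat.Prime, z p / ((p : ℝ) - 1)) with hZ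
  set T := (Icc R Y).filter (fun n => ∀ a ∈ A, (a * n + 1).Prime) with hT
  have huM : 0 ≤ (u M + 1) ^ k := pow_nonneg (by linarith [u_nonneg M]) k
  set D := 2 * C * (u M + 1) ^ k * exp (-((A.card : ℝ) * u R)) * Z * C1 with hD
  have hD0 : 0 ≤ D := by positivity
  have hmaps : ∀ n ∈ T, Nat.log 2 n ∈ range (Nat.log 2 Y + 1) := fun n hn => by
    rw [mem_range, Nat.lt_succ_iff]
    exact Nat.log_mono_right (mem_Icc.1 (mem_filter.1 hn).1).2
  rw [← sum_fiberwise_of_maps_to hmaps]
  have hb : ∀ j ∈ range (Nat.log 2 Y + 1),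
      ∑ n ∈ T.filter (fun n => Nat.log 2 n = j), (∏ p ∈ n.primeFactors, z p) / (n : ℝ)
        ≤ D * (1 / ((j : ℝ) + 1)) := by
    intro j _
    rcases (T.filter (fun n => Nat.log 2 n = j)).eq_empty_or_nonempty with he | ⟨m, hm⟩
    · rw [he, sum_empty]; positivity
    obtain ⟨hm1, hm2⟩ := mem_filter.1 hm
    obtain ⟨hmR, hmY⟩ := mem_Icc.1 (mem_filter.1 hm1).1
    have hm0 : m ≠ 0 := by omega
    set U := min Y (2 ^ (j + 1)) with hU
    have hmlt : m < 2 ^ (j + 1) := hm2 ▸ Nat.lt_pow_succ_log_self (by norm_num) m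
    have hmU : m ≤ U := le_min hmY hmlt.le
    have hjm : 2 ^ j ≤ m := hm2 ▸ Nat.pow_log_le_self 2 hm0
    have hj0 : (0 : ℝ) < ((2 : ℝ) ^ j) := by positivity
    have hUY : U ≤ Y := min_le_left _ _
    have hsv := hC U M (by omega) (hUY.trans hYM) A hA hAM z hz
    have hle : ∑ n ∈ T.filter (fun n => Nat.log 2 n = j), (∏ p ∈ n.primeFactors, z p) / (n : ℝ)
        ≤ (1 / (2 : ℝ) ^ j) * ∑ n ∈ (Icc 1 U).filter (fun n => ∀ a ∈ A, (a * n + 1).Prime),
            ∏ p ∈ n.primeFactors, z p := by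
      rw [mul_sum]
      refine le_trans (sum_le_sum (g := fun n => (1 / (2 : ℝ) ^ j) * ∏ p ∈ n.primeFactors, z p)
        fun n hn => ?_) (sum_le_sum_of_subset_of_nonneg ?_ fun n _ _ => ?_)
      · obtain ⟨hn1, hn2⟩ := mem_filter.1 hn
        have hn0 : n ≠ 0 := by have := (mem_Icc.1 (mem_filter.1 hn1).1).1; omega
        rw [div_eq_mul_one_div, mul_comm]
        refine mul_le_mul_of_nonneg_right (one_div_le_one_div_of_le hj0 ?_)
          (prod_nonneg fun p _ => (hz p).1)
        exact_mod_cast (hn2 ▸ Nat.pow_log_le_self 2 hn0 : 2 ^ j ≤ n)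
      · intro n hn
        obtain ⟨hn1, hn2⟩ := mem_filter.1 hn
        obtain ⟨hn3, hn4⟩ := mem_filter.1 hn1
        have hlt : n < 2 ^ (j + 1) := hn2 ▸ Nat.lt_pow_succ_log_self (by norm_num) n
        exact mem_filter.2 ⟨mem_Icc.2 ⟨by have := (mem_Icc.1 hn3).1; omega,
          le_min (mem_Icc.1 hn3).2 hlt.le⟩, hn4⟩
      · exact mul_nonneg (by positivity) (prod_nonneg fun p _ => (hz p).1)
    refine hle.trans ((mul_le_mul_of_nonneg_left hsv (by positivity)).trans ?_)
    have hexp : exp (-((A.card : ℝ) * u U)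
        - ∑ p ∈ (range (U + 1)).filter Nat.Prime, (1 - z p) / ((p : ℝ) - 1))
        ≤ exp (-((A.card : ℝ) * u R)) * Z * (C1 / ((j : ℝ) + 1)) := by
      refine le_trans ?_ (mul_le_mul_of_nonneg_left (hblock j U (hjm.trans hmU)) (by positivity))
      rw [hZ, ← exp_add, ← exp_add, exp_le_exp]
      have h1 : u R ≤ u U := u_mono (hmR.trans hmU)
      have h2 := mul_le_mul_of_nonneg_left h1 (Nat.cast_nonneg (α := ℝ) A.card)
      have h3 : ∑ p ∈ (range (U + 1)).filter Nat.Prime, z p / ((p : ℝ) - 1)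
          ≤ ∑ p ∈ (range (Y + 1)).filter Nat.Prime, z p / ((p : ℝ) - 1) := by
        refine sum_le_sum_of_subset_of_nonneg ?_ fun p hp _ => ?_
        · exact filter_subset_filter _ (range_subset_range.2 (by omega))
        · exact div_nonneg (hz p).1 (sub_one_pos_of_prime (mem_filter.1 hp).2).le
      have h4 : ∑ p ∈ (range (U + 1)).filter Nat.Prime, (1 - z p) / ((p : ℝ) - 1)
          = u U - ∑ p ∈ (range (U + 1)).filter Nat.Prime, z p / ((p : ℝ) - 1) := by
        rw [u, ← sum_sub_distrib]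
        exact sum_congr rfl fun p _ => sub_div _ _ _
      linarith
    have hU2 : (U : ℝ) / (2 : ℝ) ^ j ≤ 2 := by
      rw [div_le_iff₀ hj0]
      have : ((U : ℕ) : ℝ) ≤ ((2 ^ (j + 1) : ℕ) : ℝ) := by exact_mod_cast min_le_right _ _
      push_cast at this
      rw [pow_succ] at this
      linarith
    calc (1 / (2 : ℝ) ^ j) * (C * (u M + 1) ^ k * U * exp (-((A.card : ℝ) * u U)
          - ∑ p ∈ (range (U + 1)).filter Nat.Prime, (1 - z p) / ((p : ℝ) - 1)))
        = C * (u M + 1) ^ k * ((U : ℝ) / (2 : ℝ) ^ j) * exp (-((A.card : ℝ) * u U)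
          - ∑ p ∈ (range (U + 1)).filter Nat.Prime, (1 - z p) / ((p : ℝ) - 1)) := by ring
      _ ≤ C * (u M + 1) ^ k * 2 * (exp (-((A.card : ℝ) * u R)) * Z * (C1 / ((j : ℝ) + 1))) := by
          gcongr
      _ = D * (1 / ((j : ℝ) + 1)) := by rw [hD]; ring
  refine (sum_le_sum hb).trans ?_
  rw [← mul_sum]
  refine (mul_le_mul_of_nonneg_left ((sum_one_div_succ_le _).trans (hlog Y)) hD0).trans ?_
  have hYu : u Y + 1 ≤ u M + 1 := by linarith [u_mono hYM]
  refine (mul_le_mul_of_nonneg_left (mul_le_mul_of_nonneg_left hYu hC2.le) hD0).trans (le_of_eq ?_)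
  rw [hD, hZ, exp_add, pow_succ]
  ring

end Vale.Agent.P031
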