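import Vale.Agent.P031.Renewal
import Mathlib.MeasureTheory.Measure.Lebesgue.EqHaar

/-!
P031: the level cone as a linear image of a weighted simplex, and simplex volumes.
-/

open Finset MeasureTheory
open scoped Topology Pointwise ENNReal

namespace Vale.Agent.P031

/-- Solution of the cone recursion with slacks `Z`. -/
noncomputable def Yseq (L : ℕ) (Z : ℕ → ℝ) (i : ℕ) : ℝ :=
  ∑ k ∈ range (L + 1 - i), gseq k * Z (i + k)

lemma sum_sum_flip (n : ℕ) (a b F : ℕ → ℝ) :
    ∑ j ∈ range n, a j * ∑ k ∈ range (n - j), b k * F (j + k)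
      = ∑ m ∈ range n, (∑ j ∈ range (m + 1), a j * b (m - j)) * F m := by
  have := Finset.sum_range_diag_flip n (fun j k => a j * (b k * F (j + k)))
  simp only [Finset.mul_sum]
  rw [← this]
  refine Finset.sum_congr rfl fun m _ => ?_
  rw [Finset.sum_mul]
  refine Finset.sum_congr rfl fun j hj => ?_
  have hjm := Finset.mem_range.1 hj
  rw [show j + (m - j) = m by omega]
  ring

lemma cone_Yseq {L i : ℕ} (hi : i ≤ L) (Z : ℕ → ℝ) :
    ∑ j ∈ range (L + 1 - i), coef j * Yseq L Z (i + j) = Yseq L Z i - Z i := by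
  have h := sum_sum_flip (L + 1 - i) coef gseq (fun m => Z (i + m))
  calc ∑ j ∈ range (L + 1 - i), coef j * Yseq L Z (i + j)
      = ∑ j ∈ range (L + 1 - i), coef j *
          ∑ k ∈ range (L + 1 - i - j), gseq k * Z (i + (j + k)) := by
        refine Finset.sum_congr rfl fun j _ => ?_
        simp only [Yseq, Nat.sub_add_eq, add_assoc]
    _ = ∑ m ∈ range (L + 1 - i), (∑ j ∈ range (m + 1), coef j * gseq (m - j)) * Z (i + m) := h
    _ = Yseq L Z i - Z i := by
        rw [Yseq, show L + 1 - i = L - i + 1 by omega, Finset.sum_range_succ' _ (L - i),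
          Finset.sum_range_succ' _ (L - i)]
        simp only [sum_coef_gseq, Nat.succ_ne_zero, if_false, if_true, gseq_zero, Nat.add_zero]
        ring

lemma Yseq_slack {L i : ℕ} (hi : i ≤ L) (Y : ℕ → ℝ) :
    Yseq L (fun m => Y m - ∑ j ∈ range (L + 1 - m), coef j * Y (m + j)) i = Y i := by
  have h := sum_sum_flip (L + 1 - i) gseq coef (fun m => Y (i + m))
  have e : ∀ m, ∑ j ∈ range (m + 1), gseq j * coef (m - j) = if m = 0 then 0 else gseq m := by
    intro m
    rw [← sum_coef_gseq m, ← Finset.sum_range_reflect (fun j => coef j * gseq (m - j))]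
    refine Finset.sum_congr rfl fun j hj => ?_
    have hjm := Finset.mem_range.1 hj
    rw [Nat.add_sub_cancel, Nat.sub_sub_self (by omega : j ≤ m), mul_comm]
  simp only [Yseq, mul_sub, Finset.sum_sub_distrib]
  calc ∑ k ∈ range (L + 1 - i), gseq k * Y (i + k) -
        ∑ k ∈ range (L + 1 - i), gseq k * ∑ j ∈ range (L + 1 - (i + k)), coef j * Y (i + k + j)
      = ∑ k ∈ range (L + 1 - i), gseq k * Y (i + k) -
        ∑ k ∈ range (L + 1 - i), gseq k * ∑ j ∈ range (L + 1 - i - k), coef j * Y (i + (k + j)) := by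
        simp only [Nat.sub_add_eq, add_assoc]
    _ = ∑ k ∈ range (L + 1 - i), gseq k * Y (i + k) -
        ∑ m ∈ range (L + 1 - i), (if m = 0 then 0 else gseq m) * Y (i + m) := by
        rw [h]; simp only [e]
    _ = Y i := by
        rw [show L + 1 - i = L - i + 1 by omega, Finset.sum_range_succ' _ (L - i),
          Finset.sum_range_succ' _ (L - i)]
        simp only [Nat.succ_ne_zero, if_false, if_true, gseq_zero, Nat.add_zero]
        ring

lemma yy_zero {L : ℕ} (T : ℝ) (y : Fin L → ℝ) : yy T y 0 = T := by simp [yy]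

lemma yy_succ {L : ℕ} (T : ℝ) (y : Fin L → ℝ) (i : Fin L) : yy T y (i.1 + 1) = y i := by
  simp [yy]

lemma yy_congr {L : ℕ} (T T' : ℝ) (y : Fin L → ℝ) {i : ℕ} (hi : i ≠ 0) : yy T y i = yy T' y i := by
  simp [yy, hi]

lemma cone_congr {L i : ℕ} (T T' : ℝ) (y : Fin L → ℝ) :
    ∑ j ∈ range (L + 1 - i), coef j * yy T y (i + j)
      = ∑ j ∈ range (L + 1 - i), coef j * yy T' y (i + j) := by
  refine Finset.sum_congr rfl fun j _ => ?_
  rcases eq_or_ne j 0 with rfl | hj
  · simp [coef_zero]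
  · rw [yy_congr T T' y (by omega : i + j ≠ 0)]

/-- The matrix sending slacks to levels. -/
noncomputable def Gmat (L : ℕ) : Matrix (Fin L) (Fin L) ℝ :=
  Matrix.of fun i k => if i ≤ k then gseq (k.1 - i.1) else 0

/-- The linear map sending slacks to levels. -/
noncomputable def Gmap (L : ℕ) : (Fin L → ℝ) →ₗ[ℝ] (Fin L → ℝ) := Matrix.toLin' (Gmat L)

lemma det_Gmap (L : ℕ) : LinearMap.det (Gmap L) = 1 := by
  rw [Gmap, LinearMap.det_toLin', Matrix.det_of_isUpperTriangular]
  · exact Finset.prod_eq_one fun i _ => by simp [Gmat, gseq_zero]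
  · intro i j hij
    have h : ¬ i ≤ j := not_le.2 hij
    simp [Gmat, h]

lemma volume_Gmap_image (L : ℕ) (s : Set (Fin L → ℝ)) :
    volume (Gmap L '' s) = volume s := by
  rw [MeasureTheory.Measure.addHaar_image_linearMap, det_Gmap]; simp

lemma Gmap_apply (L : ℕ) (z : Fin L → ℝ) (i : Fin L) :
    Gmap L z i = Yseq L (yy 0 z) (i.1 + 1) := by
  have h1 : Gmap L z i = ∑ k : Fin L, if i.1 ≤ k.1 then gseq (k.1 - i.1) * yy 0 z (k.1 + 1) else 0 := by
    simp only [Gmap, Matrix.toLin'_apply, Matrix.mulVec, dotProduct, Gmat, Matrix.of_apply, Fin.le_def]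
    refine Finset.sum_congr rfl fun k _ => ?_
    rw [yy_succ]; split_ifs <;> simp
  rw [h1, Fin.sum_univ_eq_sum_range (fun k => if i.1 ≤ k then gseq (k - i.1) * yy 0 z (k + 1) else 0),
    ← Finset.sum_filter, show (range L).filter (fun k => i.1 ≤ k) = Finset.Ico i.1 L by
      ext k; simp [and_comm],
    Finset.sum_Ico_eq_sum_range, Yseq, show L + 1 - (i.1 + 1) = L - i.1 by omega]
  refine Finset.sum_congr rfl fun k _ => ?_
  rw [Nat.add_sub_cancel_left, show i.1 + k + 1 = i.1 + 1 + k by ring]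

lemma yy_Gmap {L : ℕ} (T : ℝ) (z : Fin L → ℝ) {i : ℕ} (hi : 1 ≤ i) (hiL : i ≤ L) :
    yy T (Gmap L z) i = Yseq L (yy 0 z) i := by
  obtain ⟨k, rfl⟩ : ∃ k, i = k + 1 := ⟨i - 1, by omega⟩
  exact (yy_succ T _ ⟨k, by omega⟩).trans (Gmap_apply L z ⟨k, by omega⟩)

/-- The weighted simplex. -/
def simplex (L : ℕ) (t : ℝ) : Set (Fin L → ℝ) :=
  {w | (∀ i, 0 ≤ w i) ∧ ∑ i : Fin L, gseq (i.1 + 1) * w i ≤ t}

lemma budget_eq (L : ℕ) (w : Fin L → ℝ) :
    Yseq L (yy 0 w) 0 = ∑ i : Fin L, gseq (i.1 + 1) * w i := by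
  rw [Yseq, Nat.sub_zero, Finset.sum_range_succ', yy_zero, mul_zero, add_zero,
    ← Fin.sum_univ_eq_sum_range (fun k => gseq (k + 1) * yy 0 w (0 + (k + 1)))]
  exact Finset.sum_congr rfl fun i _ => by rw [Nat.zero_add, yy_succ]

lemma simplex_mono (L : ℕ) {s t : ℝ} (h : s ≤ t) : simplex L s ⊆ simplex L t :=
  fun _ hw => ⟨hw.1, hw.2.trans h⟩

lemma simplex_coord_le {L : ℕ} {t : ℝ} {w : Fin L → ℝ} (hw : w ∈ simplex L t) (i : Fin L) :
    gseq (i.1 + 1) * w i ≤ t :=
  (Finset.single_le_sum (f := fun j : Fin L => gseq (j.1 + 1) * w j)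
    (fun j _ => mul_nonneg (gseq_nonneg _) (hw.1 j)) (Finset.mem_univ i)).trans
    hw.2

lemma volume_simplex_ne_top (L : ℕ) (t : ℝ) : volume (simplex L t) ≠ ⊤ := by
  refine ne_top_of_le_ne_top (b := volume (Set.Icc (0 : Fin L → ℝ) fun i => t / gseq (i.1 + 1)))
    measure_Icc_lt_top.ne (measure_mono fun w hw => ?_)
  refine ⟨fun i => hw.1 i, fun i => ?_⟩
  rw [le_div_iff₀ (gseq_pos _), mul_comm]
  exact simplex_coord_le hw i

lemma volume_simplex_smul (L : ℕ) {s : ℝ} (hs : 0 < s) (t : ℝ) :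
    volume (simplex L (s * t)) = ENNReal.ofReal (s ^ L) * volume (simplex L t) := by
  have e : simplex L (s * t) = s • simplex L t := by
    ext w
    rw [Set.mem_smul_set_iff_inv_smul_mem₀ hs.ne']
    simp only [simplex, Set.mem_setOf_eq, Pi.smul_apply, smul_eq_mul, mul_left_comm _ s⁻¹,
      ← Finset.mul_sum]
    refine and_congr (forall_congr' fun i => ?_) ?_
    · rw [mul_nonneg_iff_of_pos_left (inv_pos.2 hs)]
    · rw [inv_mul_le_iff₀ hs]
  rw [e, MeasureTheory.Measure.addHaar_smul_of_nonneg _ hs.le, Module.finrank_fin_fun]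

lemma volume_simplex_succ_le (L : ℕ) (t : ℝ) :
    volume (simplex (L + 1) t) ≤ ENNReal.ofReal (t / gseq (L + 1)) * volume (simplex L t) := by
  set e := MeasurableEquiv.piFinSuccAbove (fun _ : Fin (L + 1) => ℝ) (Fin.last L)
  have hsub : simplex (L + 1) t ⊆ e ⁻¹' (Set.Icc 0 (t / gseq (L + 1)) ×ˢ simplex L t) := by
    intro w hw
    have e1 : (e w).1 = w (Fin.last L) := rfl
    have e2 : ∀ i : Fin L, (e w).2 i = w i.castSucc := fun i => by
      show Fin.removeNth (Fin.last L) w i = _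
      rw [Fin.removeNth_apply, Fin.succAbove_last]
    refine ⟨⟨?_, ?_⟩, fun i => ?_, ?_⟩
    · rw [e1]; exact hw.1 _
    · rw [e1, le_div_iff₀ (gseq_pos _), mul_comm]
      exact simplex_coord_le hw (Fin.last L)
    · rw [e2]; exact hw.1 _
    · have h := hw.2
      rw [Fin.sum_univ_castSucc] at h
      simp only [Fin.val_castSucc] at h
      have := mul_nonneg (gseq_nonneg ((Fin.last L).1 + 1)) (hw.1 (Fin.last L))
      simp only [e2]
      linarith
  refine (measure_mono hsub).trans_eq ?_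
  rw [(volume_preserving_piFinSuccAbove (fun _ : Fin (L + 1) => ℝ) (Fin.last L)).measure_preimage_equiv,
    Measure.volume_eq_prod, Measure.prod_prod, Real.volume_Icc, sub_zero]

lemma volume_simplex_add_le {B t : ℝ} (hB : 0 ≤ B) (L : ℕ) :
    ∀ m, (∀ i, L < i → i ≤ L + m → t / gseq i ≤ B) →
      volume (simplex (L + m) t) ≤ ENNReal.ofReal (B ^ m) * volume (simplex L t)
  | 0, _ => by simp
  | m + 1, h => by
    refine (volume_simplex_succ_le (L + m) t).trans ?_
    rw [pow_succ', ENNReal.ofReal_mul hB, mul_assoc]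
    exact mul_le_mul' (ENNReal.ofReal_le_ofReal (h _ (by omega) le_rfl))
      (volume_simplex_add_le hB L m fun i h1 h2 => h i h1 (by omega))

end Vale.Agent.P031
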