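import Vale.Agent.P031.CoreVals

/-!
P031: the counting function and the passage from good preimages to items.
-/

open Finset Real Filter
open scoped Nat Topology

namespace Vale.Agent.P031

open Classical in
/-- The totient values in `[1, N]`. -/
noncomputable def valSet (N : ℕ) : Finset ℕ :=
  (Finset.Icc 1 N).filter (fun v => ∃ n, φ n = v)

/-- All upper items. -/
noncomputable def upperItems (X : ℕ) : Finset ((L : ℕ) × ((Fin L → ℕ) × ℕ)) :=
  (levRange X).sigma (fun L => upperSet X L)

lemma levs_sublist_eq {F : ℝ} {n : ℕ} (hn : n ≠ 0) (hsq : SqfreeAbove F n) {l : List ℕ}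
    (hl : l.Sublist (levs F n)) :
    levs F (l.prod * smlPart F n) = l ∧ smlPart F (l.prod * smlPart F n) = smlPart F n := by
  set m := l.prod * smlPart F n
  have hdvd : m ∣ n := (totient_sublist hn hsq hl).2
  have hm : m ≠ 0 := fun h => hn (zero_dvd_iff.1 (h ▸ hdvd))
  have hdesc : l.Pairwise (fun a b => b < a) := (levs_pairwise F n).sublist hl
  have hperm : (levs F m).Perm l := by
    rw [List.perm_ext_iff_of_nodup ((levs_pairwise F m).imp fun {a b} h => (ne_of_lt h).symm)
      (hdesc.imp fun {a b} h => (ne_of_lt h).symm)]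
    intro a
    constructor
    · intro ha
      obtain ⟨hp, hd, -, hu⟩ := mem_levs.1 ha
      rcases hp.dvd_mul.1 hd with h | h
      · obtain ⟨b, hb, hab⟩ := (Prime.dvd_prod_iff hp.prime).1 h
        exact (Nat.prime_dvd_prime_iff_eq hp (mem_levs.1 (hl.subset hb)).1).1 hab ▸ hb
      · exact absurd ((smlPart_smooth hn hsq).2 a hp h) (not_le.2 hu)
    · intro ha
      obtain ⟨hp, -, -, hu⟩ := mem_levs.1 (hl.subset ha)
      exact mem_levs.2 ⟨hp, (List.dvd_prod ha).trans (dvd_mul_right _ _), hm, hu⟩
  have he : levs F m = l :=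
    hperm.eq_of_pairwise (fun a b _ _ h1 h2 => absurd h1 (not_lt.2 h2.le)) (levs_pairwise F m) hdesc
  refine ⟨he, ?_⟩
  rw [smlPart, he]
  refine Nat.mul_div_cancel_left _ (List.prod_pos fun a ha => ?_)
  exact (mem_levs.1 (hl.subset ha)).1.pos

lemma cost_split {L : ℕ} {T : ℝ} (p : ℕ) (q : Fin L → ℕ) (τ : List ℕ) (i : ℕ) (hi : i ≤ L) :
    cost ((p :: (List.ofFn q ++ τ)).drop i) = lhs T τ (tval q) i := by
  rw [cost_drop, lhs, show (p :: (List.ofFn q ++ τ)).length - i = (L + 1 - i) + τ.length by
    simp; omega, Finset.sum_range_add]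
  congr 1
  · refine Finset.sum_congr rfl fun j hj => ?_
    have := Finset.mem_range.1 hj
    rcases Nat.eq_zero_or_pos j with rfl | hj0
    · simp [coef_zero]
    · obtain ⟨k, hk⟩ : ∃ k, i + j = k + 1 := ⟨i + j - 1, by omega⟩
      rw [hk, List.getD_cons_succ, List.getD_append _ _ _ _ (by simp; omega),
        List.getD_eq_getElem?_getD, List.getElem?_eq_getElem (by simp; omega), Option.getD_some,
        yy_lev T _ (by omega : k < L), List.getElem_ofFn]
      rfl
  · refine Finset.sum_congr rfl fun k _ => ?_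
    rw [show i + (L + 1 - i + k) = (L + k) + 1 by omega, List.getD_cons_succ,
      List.getD_append_right _ _ _ _ (by simp)]
    simp

/-- The level list of a nice integer is short, so its anatomy inequalities are untruncated. -/
lemma nice_length :
    ∀ᶠ T : ℝ in atTop, ∀ n : ℕ, Nice T n →
      (levs (floorLevel T) n).length ≤ maxLen T := by
  filter_upwards [chain_length, params_ev,
    Real.tendsto_log_atTop.eventually_ge_atTop (1 : ℝ)] with T hchain hp hl n hn
  obtain ⟨hη, hη1, hK, hF1, hKT, -, -, -⟩ := hp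
  obtain ⟨-, -, -, -, hanat⟩ := hn
  set ls := levs (floorLevel T) n
  set N := maxLen T
  by_contra hc
  push Not at hc
  set z : ℕ → ℝ := fun i => if i = 0 then T else u (ls.getD i 0)
  have hN : 1 ≤ N := Nat.ceil_pos.2 (by linarith)
  have hz0 : ∀ i ≤ N, 0 ≤ z i := fun i _ => by
    simp only [z]; split_ifs
    · linarith
    · exact u_nonneg _
  have h := hchain (eta T) hη.le (by linarith) z (N - 1) (fun i hi => hz0 i (by omega))
    (fun i hi => ?_) (by simp [z]; linarith) ?_
  · omega
  · refine le_trans (b := ∑ j ∈ Finset.range (N - 1 + 1 - i), coef j * u (ls.getD (i + j) 0))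
      (le_of_eq ?_) ((le_trans ?_ (hanat i (show i < ls.length by omega))))
    · refine Finset.sum_congr rfl fun j hj => ?_
      simp only [z]
      split_ifs with h0
      · rw [show j = 0 by omega, coef_zero, zero_mul, zero_mul]
      · rfl
    · rw [cost_take]
      refine le_trans (le_of_eq (Finset.sum_congr rfl fun j hj => ?_))
        (Finset.sum_le_sum_of_subset_of_nonneg (Finset.range_subset_range.2
          (le_min (show N - 1 + 1 - i ≤ N by omega) (by simp; omega)))
          fun j _ _ => mul_nonneg (coef_nonneg j) (u_nonneg _))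
      simp [List.getD_eq_getElem?_getD, List.getElem?_drop]
  · simp only [z]
    split_ifs
    · linarith
    · rw [List.getD_eq_getElem?_getD, List.getElem?_eq_getElem (by omega), Option.getD_some]
      have hm : ls[N - 1]'(by omega) ∈ ls := List.getElem_mem _
      linarith [(mem_levs.1 hm).2.2.2]

/-- A good preimage gives an upper item. -/
lemma good_item :
    ∀ᶠ X : ℕ in atTop, ∀ n : ℕ, GoodPre X n → n ≤ X ^ 3 → (X : ℝ) / log X ^ 2 < φ n →
      ∃ z ∈ upperItems X, ∃ p : ℕ, p.Prime ∧ log X / (4 * maxLen (scale X)) ≤ log p ∧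
        (p - 1) * itemVal z.2 = φ n := by
  classical
  obtain ⟨D, hD0, hD⟩ := exists_log_le_exp_scale
  have h1 : ∀ᶠ X : ℕ in atTop, log (log (X : ℝ)) ≤ log X / 16 := by
    refine (Real.tendsto_log_atTop.comp tendsto_natCast_atTop_atTop).eventually
      (p := fun L : ℝ => log L ≤ L / 16) ?_
    filter_upwards [eventually_log_pow_le 1 (c := 1 / 16) (by norm_num) one_pos] with L hL
    rw [pow_one, Real.rpow_one] at hL
    linarith
  have h2 : ∀ᶠ T : ℝ in atTop, 2 * floorLevel T + D + log 8 ≤ T ∧ √T ≤ eta T * T ∧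
      1 ≤ log T ∧ 1 ≤ T := by
    filter_upwards [eventually_log_pow_le 200 (c := 1 / 4) (by norm_num) one_pos,
      eventually_log_pow_le 10 (c := 1) one_pos (r := 1 / 2) (by norm_num),
      eventually_ge_atTop (max 1 (2 * (D + log 8))),
      Real.tendsto_log_atTop.eventually_ge_atTop (1 : ℝ)] with T hT hs h hl
    rw [Real.rpow_one] at hT
    rw [one_mul] at hs
    have h8 := (le_max_left _ _).trans h
    have h9 := (le_max_right _ _).trans h
    refine ⟨by simp only [floorLevel]; linarith, ?_, hl, h8⟩
    simp only [eta]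
    rw [one_div_mul_eq_div, le_div_iff₀ (by positivity)]
    rw [← Real.sqrt_eq_rpow] at hs
    calc √T * log T ^ 10 ≤ √T * √T := mul_le_mul_of_nonneg_left hs (Real.sqrt_nonneg T)
      _ = T := Real.mul_self_sqrt (by linarith)
  filter_upwards [hD, h1, eventually_scale h2, eventually_scale nice_length,
    eventually_scale params_ev, eventually_u_le_pow 3, eventually_ge_atTop 3]
    with X hlX hll hT hlen hp hu hX n hgood hn3 hv
  obtain ⟨hFT, hsqrt, hl1, hT1⟩ := hT
  obtain ⟨hη, hη1, hK, hF1, hKT, -, hgap, hηK⟩ := hp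
  obtain ⟨hnice, p, ps, hl, -⟩ := hgood
  have hlenn := hlen n hnice
  obtain ⟨hn0, hsq, hnorm, hsml, hanat⟩ := hnice
  set T := scale X
  set F := floorLevel T
  set K := tailLevel T
  rw [hl] at hlenn hanat
  simp only [List.length_cons] at hlenn
  have hmem : ∀ a ∈ p :: ps, a.Prime ∧ a ∣ n ∧ F < u a ∧ a ≤ X ^ 3 := fun a ha => by
    obtain ⟨h1, h2, -, h4⟩ := mem_levs.1 (hl ▸ ha : a ∈ levs F n)
    exact ⟨h1, h2, h4, (Nat.le_of_dvd (Nat.pos_of_ne_zero hn0) h2).trans hn3⟩
  have hdesc : (p :: ps).Pairwise (fun a b => b < a) := hl ▸ levs_pairwise F n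
  obtain ⟨L, hL, hfil, htail⟩ := filter_eq_take_of_desc (fun a => decide (K < u a))
    (List.pairwise_cons.1 hdesc).2 (fun a b hab hb => by
      simp only [decide_eq_true_eq] at hb ⊢
      exact lt_of_lt_of_le hb (u_mono hab.le))
  set q : Fin L → ℕ := fun k => ps[k.val]'(by omega) with hq
  have hofn : List.ofFn q = ps.take L := List.ext_getElem (by simp [hL]) fun j h1 h2 => by simp [hq]
  set τ := ps.drop L with hτ
  set r := τ.prod * smlPart F n
  have hsub : τ.Sublist (levs F n) := by
    rw [hl]; exact (List.drop_sublist L ps).trans (List.sublist_cons_self p ps)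
  obtain ⟨hlr, hsr⟩ := levs_sublist_eq hn0 hsq hsub
  obtain ⟨hφr, hrn⟩ := totient_sublist hn0 hsq hsub
  have hr0 : r ≠ 0 := fun h => hn0 (zero_dvd_iff.1 (h ▸ hrn))
  have hτK : ∀ a ∈ τ, u a ≤ K := by
    intro a ha
    obtain ⟨i, hi, rfl⟩ := List.getElem_of_mem ha
    simp only [hτ, List.length_drop] at hi
    have := htail (L + i) (Nat.le_add_right _ _) (by omega)
    simp only [decide_eq_false_iff_not, not_lt, List.getD_eq_getElem?_getD,
      List.getElem?_eq_getElem (show L + i < ps.length by omega), Option.getD_some] at this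
    simpa [hτ, List.getElem_drop] using this
  have hanat' : ∀ i < ps.length + 1, cost ((p :: ps).drop i)
      ≤ (1 + eta T) * (if i = 0 then T else u ((p :: ps).getD i 0)) := fun i hi => by
    have h := hanat i (by simpa using hi)
    rwa [List.take_of_length_le (by simp; omega)] at h
  have hsplit : ps = List.ofFn q ++ τ := by rw [hofn, hτ, List.take_append_drop]
  have htail' : TailOK T r := by
    refine ⟨hr0, fun a ha hu' hd => hsq a ha hu' (hd.trans hrn), ⟨hr0, fun a ha hd => ?_⟩,
      fun a ha => ?_, ?_, ?_, ?_⟩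
    · rcases ha.dvd_mul.1 hd with h | h
      · obtain ⟨b, hb, hab⟩ := (Prime.dvd_prod_iff ha.prime).1 h
        rw [(Nat.prime_dvd_prime_iff_eq ha (mem_levs.1 (hsub.subset hb)).1).1 hab]
        exact hτK b hb
      · exact ((smlPart_smooth hn0 hsq).2 a ha h).trans (pow_le_pow_right₀ hl1 (by norm_num))
    · rw [hlr] at ha; exact hnorm a (hsub.subset ha)
    · rw [hsr]; exact hsml
    · rw [hlr, hτ, List.length_drop]; omega
    · rw [hlr]
      intro i hi
      simp only [hτ, List.length_drop] at hi
      have h := hanat' (L + i + 1) (by omega)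
      rw [if_neg (by omega), List.getD_cons_succ, List.drop_succ_cons] at h
      rw [hτ, List.drop_drop]
      refine h.trans (le_of_eq ?_)
      simp [List.getD_eq_getElem?_getD, List.getElem?_drop]
  have hLr : L ∈ levRange X := Finset.mem_range.2 (show L < maxLen T + 1 by omega)
  have hqK : ∀ k, K < u (q k) := fun k => by
    have hk : q k ∈ ps.take L := by rw [← hofn]; exact List.mem_ofFn.2 ⟨k, rfl⟩
    rw [← hfil, List.mem_filter, decide_eq_true_eq] at hk
    exact hk.2
  have hqmem : ∀ k, q k ∈ p :: ps := fun k => List.mem_cons_of_mem _ (List.getElem_mem _)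
  have hreg : Reg L T τ K (eta T) (tval q) := by
    refine ⟨fun i hi => ⟨by rw [yy_lev T _ hi]; exact hqK ⟨i, hi⟩, ?_⟩, fun i hi => ?_⟩
    · rw [yy_lev T _ hi]
      rcases i with _ | i
      · rw [yy_top]
        have h := hu (q ⟨0, hi⟩) (hmem _ (hqmem _)).2.2.2
        simp only [tval]
        linarith
      · rw [yy_lev T _ (show i < L by omega)]
        simp only [tval]
        have h : q ⟨i + 1, hi⟩ < q ⟨i, by omega⟩ :=
          List.pairwise_iff_getElem.1 (List.pairwise_cons.1 hdesc).2 i (i + 1) (by omega) (by omega)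
            (by omega)
        refine (u_mono h.le).trans (le_mul_of_one_le_left (u_nonneg _) (by linarith))
    · have h := hanat' i (by omega)
      rw [hsplit, cost_split (T := T) p q τ i hi] at h
      refine h.trans (le_of_eq ?_)
      congr 1
      rcases i with _ | i
      · rw [if_pos rfl, yy_top]
      · rw [if_neg (by omega), yy_lev T _ hi, List.getD_cons_succ,
          List.getD_append _ _ _ _ (by simp; omega), List.getD_eq_getElem?_getD,
          List.getElem?_eq_getElem (by simp; omega)]
        simp [tval]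
  have hupper : (q, φ r) ∈ upperSet X L := by
    refine Finset.mem_filter.2 ⟨mem_allItems.2 ⟨fun k => ⟨(hmem _ (hqmem k)).2.2.2,
      (hmem _ (hqmem k)).1⟩, Nat.totient_pos.2 (Nat.pos_of_ne_zero hr0),
      ((Nat.totient_le r).trans (Nat.le_of_dvd (Nat.pos_of_ne_zero hn0) hrn)).trans hn3⟩,
      fun k => (hmem _ (hqmem k)).1, r, htail', rfl, fun y hy => ?_⟩
    show Reg L T (levs F r) (K - 1) (2 * eta T) y
    rw [hlr]
    refine hreg.perturb (fun k => dist_box_le (fun k => (hmem _ (hqmem k)).1) hy k) (by linarith)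
      (by linarith) (by linarith) (by linarith) (by linarith) ?_
    have hLN : (L : ℝ) ≤ maxLen T := by exact_mod_cast (show L ≤ maxLen T by omega)
    have : ((L : ℝ) + 1) ^ 2 ≤ ((maxLen T : ℝ) + 1) ^ 2 :=
      pow_le_pow_left₀ (by positivity) (by linarith) 2
    nlinarith
  refine ⟨⟨L, (q, φ r)⟩, Finset.mem_sigma.2 ⟨hLr, hupper⟩, p, (hmem p List.mem_cons_self).1, ?_, ?_⟩
  · have hlog : 0 < log (X : ℝ) := Real.log_pos (by exact_mod_cast (show 1 < X by omega))
    have hnn : log (X : ℝ) - 2 * log (log X) ≤ log n := by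
      have h3 : (X : ℝ) / log X ^ 2 ≤ (n : ℝ) :=
        hv.le.trans (by exact_mod_cast Nat.totient_le n)
      have h4 := Real.log_le_log (by positivity) h3
      rw [Real.log_div (by positivity) (by positivity), Real.log_pow] at h4
      push_cast at h4
      exact h4
    have hsml' : exp (2 * F) ≤ log (X : ℝ) / 8 := by
      have : exp (2 * F) * 8 ≤ exp (T - D) := by
        rw [← Real.exp_log (show (0:ℝ) < 8 by norm_num), ← Real.exp_add]
        exact Real.exp_le_exp.2 (by linarith)
      linarith [hlX.1]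
    have hp0 : 0 < (p :: ps).prod := List.prod_pos fun a ha => (hmem a ha).1.pos
    have hsplitlog : log (n : ℝ) = log ((p :: ps).prod : ℕ) + log (smlPart F n : ℕ) := by
      conv_lhs => rw [← prod_levs_mul_sml F n, hl]
      rw [Nat.cast_mul, Real.log_mul (by exact_mod_cast hp0.ne')
        (by exact_mod_cast smlPart_ne_zero hn0)]
    have hprod : log ((p :: ps).prod : ℕ) ≤ (maxLen T : ℝ) * log p := by
      have h5 : (p :: ps).prod ≤ p ^ (p :: ps).length := by
        refine List.prod_le_pow_card _ _ fun a ha => ?_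
        rcases List.mem_cons.1 ha with rfl | ha
        · exact le_rfl
        · exact ((List.pairwise_cons.1 hdesc).1 a ha).le
      have h6 := Real.log_le_log (by exact_mod_cast hp0)
        (by exact_mod_cast h5 : (((p :: ps).prod : ℕ) : ℝ) ≤ (p : ℝ) ^ (p :: ps).length)
      rw [Real.log_pow] at h6
      refine h6.trans (mul_le_mul_of_nonneg_right ?_ (Real.log_natCast_nonneg p))
      simp only [List.length_cons]
      exact_mod_cast hlenn
    have hN0 : (0 : ℝ) < maxLen T := by exact_mod_cast Nat.ceil_pos.2 (by linarith)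
    rw [div_le_iff₀ (by positivity)]
    linarith
  · rw [totient_eq_pval hn0 hsq, hl, pval_cons, hsplit, pval_append, pval_ofFn]
    simp only [itemVal, r, hφr]
    ring

end Vale.Agent.P031
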