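import Vale.Agent.P031.Scale
import Mathlib.Algebra.Order.Field.GeomSum

/-!
P031: Rankin weights `∏ z_p ^ v_p(n)` on bands of primes, and their partial sums.
-/

open Finset Real
open scoped Nat

namespace Vale.Agent.P031

lemma u_le_self (n : ℕ) : u n ≤ n := by
  induction n with
  | zero => simp [u_zero]
  | succ m ih =>
    rw [u_succ]
    push_cast
    split
    · rcases Nat.eq_zero_or_pos m with rfl | hm
      · simp [u_zero]
      · have h1 : (1 : ℝ) ≤ m := by exact_mod_cast hm
        have : (1 : ℝ) / m ≤ 1 := by rw [div_le_one (by linarith)]; exact h1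
        linarith
    · linarith

/-- The primes `p` with `a < u p ≤ b`. -/
noncomputable def band (a b : ℝ) : Finset ℕ :=
  open Classical in (finite_primes_u_le b).toFinset.filter (fun p => a < u p)

lemma mem_band {a b : ℝ} {p : ℕ} : p ∈ band a b ↔ p.Prime ∧ a < u p ∧ u p ≤ b := by
  classical
  simp [band]
  tauto

lemma cnt_zero (a b : ℝ) : cnt a b 0 = 0 := by simp [cnt]

lemma cnt_one (a b : ℝ) : cnt a b 1 = 0 := by simp [cnt]

lemma cnt_mul (a b : ℝ) {m n : ℕ} (hm : m ≠ 0) (hn : n ≠ 0) :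
    cnt a b (m * n) = cnt a b m + cnt a b n := by
  classical
  unfold cnt
  rw [((Nat.perm_primeFactorsList_mul hm hn).filter _).length_eq, List.filter_append,
    List.length_append]

lemma cnt_le_of_dvd (a b : ℝ) {m n : ℕ} (hn : n ≠ 0) (h : m ∣ n) : cnt a b m ≤ cnt a b n := by
  obtain ⟨c, rfl⟩ := h
  rw [cnt_mul a b (left_ne_zero_of_mul hn) (right_ne_zero_of_mul hn)]
  omega

lemma cnt_pval_cons (a b : ℝ) {q : ℕ} {qs : List ℕ} (hq : q.Prime) (h : ∀ p ∈ qs, p.Prime) :
    cnt a b (pval (q :: qs)) = cnt a b (q - 1) + cnt a b (pval qs) := by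
  rw [pval_cons, cnt_mul a b (by have := hq.two_le; omega) (pval_pos h).ne']

lemma cnt_pval (a b : ℝ) {qs : List ℕ} (h : ∀ p ∈ qs, p.Prime) :
    cnt a b (pval qs) = (qs.map (fun q => cnt a b (q - 1))).sum := by
  induction qs with
  | nil => simp [pval, cnt_one]
  | cons q qs ih =>
    obtain ⟨hq, hqs⟩ := List.forall_mem_cons.1 h
    rw [cnt_pval_cons a b hq hqs, ih hqs, List.map_cons, List.sum_cons]

lemma cnt_eq_sum (a b : ℝ) (n : ℕ) : cnt a b n = ∑ p ∈ band a b, n.factorization p := by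
  classical
  have e : ∀ p, n.factorization p = n.primeFactorsList.count p := fun p =>
    (Nat.primeFactorsList_count_eq).symm
  simp only [e]
  unfold cnt
  set l := n.primeFactorsList with hl
  set l' := l.filter (fun p => decide (a < u p ∧ u p ≤ b)) with hl'
  have hsub : l'.toFinset ⊆ band a b := by
    intro p hp
    rw [List.mem_toFinset, hl', List.mem_filter] at hp
    simp only [decide_eq_true_eq] at hp
    exact mem_band.2 ⟨Nat.prime_of_mem_primeFactorsList hp.1, hp.2.1, hp.2.2⟩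
  rw [← List.sum_toFinset_count_eq_length, Finset.sum_subset hsub]
  · refine Finset.sum_congr rfl fun p hp => ?_
    rw [hl', List.count_filter]
    simp [(mem_band.1 hp).2]
  · intro p _ hp
    exact List.count_eq_zero.2 fun h => hp (List.mem_toFinset.2 h)

lemma sum_band_le (a b : ℝ) (hab : a ≤ b) :
    ∑ p ∈ band a b, 1 / ((p : ℝ) - 1) ≤ b - a + 1 := by
  classical
  rcases (band a b).eq_empty_or_nonempty with h | h
  · rw [h, Finset.sum_empty]; linarith
  set pmax := (band a b).max' h with hmax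
  set pmin := (band a b).min' h with hmin
  obtain ⟨-, -, hmaxb⟩ := mem_band.1 ((band a b).max'_mem h)
  obtain ⟨hminp, hmina, -⟩ := mem_band.1 ((band a b).min'_mem h)
  have hdis : band a b ⊆ primesTo pmax \ primesTo (pmin - 1) := by
    intro p hp
    refine Finset.mem_sdiff.2 ⟨mem_primesTo.2 ⟨(band a b).le_max' p hp, (mem_band.1 hp).1⟩, ?_⟩
    intro h'
    have h1 := (band a b).min'_le p hp
    have h2 := (mem_primesTo.1 h').1
    have := hminp.two_le
    omega
  have hsub : primesTo (pmin - 1) ⊆ primesTo pmax := by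
    intro p hp
    obtain ⟨h1, h2⟩ := mem_primesTo.1 hp
    have := (band a b).min'_le _ ((band a b).max'_mem h)
    exact mem_primesTo.2 ⟨by omega, h2⟩
  have hs : ∑ p ∈ band a b, 1 / ((p : ℝ) - 1) ≤ u pmax - u (pmin - 1) := by
    rw [u_def, u_def, ← Finset.sum_sdiff_eq_sub hsub]
    refine Finset.sum_le_sum_of_subset_of_nonneg hdis fun p hp _ => ?_
    have := sub_one_pos_of_prime (mem_primesTo.1 (Finset.mem_sdiff.1 hp).1).2
    positivity
  have h3 := u_prime_eq hminp
  have h4 : 1 / ((pmin : ℝ) - 1) ≤ 1 := by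
    have := hminp.two_le
    have : (2 : ℝ) ≤ pmin := by exact_mod_cast this
    rw [div_le_one (by linarith)]; linarith
  rw [← hmax] at hmaxb
  rw [← hmin] at hmina
  linarith

lemma sum_band_zero_le (b : ℝ) (hb : 0 ≤ b) : ∑ p ∈ band 0 b, 1 / ((p : ℝ) - 1) ≤ b := by
  rcases (band 0 b).eq_empty_or_nonempty with h | h
  · rw [h, Finset.sum_empty]; exact hb
  refine le_trans ?_ (mem_band.1 ((band 0 b).max'_mem h)).2.2
  rw [u_def]
  refine Finset.sum_le_sum_of_subset_of_nonneg ?_ ?_
  · exact fun p hp => mem_primesTo.2 ⟨(band 0 b).le_max' p hp, (mem_band.1 hp).1⟩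
  · intro p hp _
    have := sub_one_pos_of_prime (mem_primesTo.1 hp).2
    positivity

/-- `∏_{p ∈ P} z_p ^ v_p(n)`. -/
noncomputable def wt (P : Finset ℕ) (z : ℕ → ℝ) (n : ℕ) : ℝ :=
  ∏ p ∈ P, z p ^ n.factorization p

lemma wt_one (P : Finset ℕ) (z : ℕ → ℝ) : wt P z 1 = 1 := by simp [wt]

lemma wt_mul (P : Finset ℕ) (z : ℕ → ℝ) {m n : ℕ} (hm : m ≠ 0) (hn : n ≠ 0) :
    wt P z (m * n) = wt P z m * wt P z n := by
  simp [wt, Nat.factorization_mul hm hn, pow_add, Finset.prod_mul_distrib]

lemma wt_nonneg {P : Finset ℕ} {z : ℕ → ℝ} (h : ∀ p ∈ P, 0 ≤ z p) (n : ℕ) : 0 ≤ wt P z n :=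
  Finset.prod_nonneg fun p hp => pow_nonneg (h p hp) _

lemma geom_le {z p : ℝ} (hz : 0 ≤ z) (hzp : z < p) (m : ℕ) :
    ∑ j ∈ Finset.range m, z ^ j / p ^ (j + 1) ≤ 1 / (p - z) := by
  have hp : 0 < p := lt_of_le_of_lt hz hzp
  have h1 : z / p < 1 := (div_lt_one hp).2 hzp
  have e : ∀ j, z ^ j / p ^ (j + 1) = (1 / p) * (z / p) ^ j := fun j => by
    rw [div_pow, pow_succ]; field_simp
  simp only [e]
  rw [← Finset.mul_sum]
  refine le_trans (mul_le_mul_of_nonneg_left (show ∑ j ∈ Finset.range m, (z / p) ^ j ≤ 1 / (1 - z / p) from ?_)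
    (by positivity)) (le_of_eq ?_)
  · rw [Finset.range_eq_Ico]
    exact (geom_sum_Ico_le_of_lt_one (by positivity) h1).trans (le_of_eq (by rw [pow_zero]))
  · have : (0 : ℝ) < p - z := by linarith
    field_simp

/-- Partial sums of `z ^ v_p(n)` weights. -/
lemma sum_wt_le (P : Finset ℕ) (hP : ∀ p ∈ P, p.Prime) (z : ℕ → ℝ)
    (hz : ∀ p ∈ P, 1 ≤ z p ∧ z p < p) (Y : ℕ) :
    ∑ v ∈ Finset.Icc 1 Y, wt P z v ≤ Y * ∏ p ∈ P, (1 + (z p - 1) / ((p : ℝ) - z p)) := by
  classical
  induction P using Finset.induction_on generalizing Y with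
  | empty => simp [wt]
  | insert p P hp ih =>
    obtain ⟨hpp, hP'⟩ := Finset.forall_mem_insert _ _ _ |>.1 hP
    obtain ⟨⟨hz1, hz2⟩, hz'⟩ := Finset.forall_mem_insert _ _ _ |>.1 hz
    have ih' := ih hP' hz'
    set B := ∏ q ∈ P, (1 + (z q - 1) / ((q : ℝ) - z q)) with hB
    have hB0 : 0 ≤ B := Finset.prod_nonneg fun q hq => by
      obtain ⟨h1, h2⟩ := hz' q hq
      have : 0 ≤ (z q - 1) / ((q : ℝ) - z q) := div_nonneg (by linarith) (by linarith)
      linarith
    have hinv : ∀ j m : ℕ, wt P z (p ^ j * m) = wt P z m := fun j m => by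
      rcases eq_or_ne m 0 with rfl | hm
      · simp
      rw [wt_mul P z (pow_ne_zero _ hpp.ne_zero) hm]
      have : wt P z (p ^ j) = 1 := Finset.prod_eq_one fun q hq => by
        have hne : q ≠ p := fun h => hp (h ▸ hq)
        simp [Nat.factorization_pow, hpp.factorization, hne]
      rw [this, one_mul]
    have hmult : ∀ j : ℕ, ∑ v ∈ (Finset.Icc 1 Y).filter (fun v => p ^ (j + 1) ∣ v), wt P z v
        ≤ (Y : ℝ) / (p : ℝ) ^ (j + 1) * B := by
      intro j
      have hk : 0 < p ^ (j + 1) := pow_pos hpp.pos _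
      have e : (Finset.Icc 1 Y).filter (fun v => p ^ (j + 1) ∣ v)
          = (Finset.Icc 1 (Y / p ^ (j + 1))).image (fun m => p ^ (j + 1) * m) := by
        ext v
        simp only [Finset.mem_filter, Finset.mem_Icc, Finset.mem_image]
        constructor
        · rintro ⟨⟨h1, h2⟩, m, rfl⟩
          refine ⟨m, ⟨Nat.pos_of_ne_zero fun h => by simp [h] at h1, ?_⟩, rfl⟩
          rw [Nat.le_div_iff_mul_le hk, mul_comm]; exact h2
        · rintro ⟨m, ⟨h1, h2⟩, rfl⟩
          rw [Nat.le_div_iff_mul_le hk, mul_comm] at h2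
          exact ⟨⟨Nat.mul_pos hk h1, h2⟩, dvd_mul_right _ _⟩
      rw [e, Finset.sum_image fun a _ b _ h => Nat.eq_of_mul_eq_mul_left hk h]
      simp only [hinv]
      refine (ih' _).trans (mul_le_mul_of_nonneg_right ?_ hB0)
      refine Nat.cast_div_le.trans (le_of_eq ?_)
      push_cast; rfl
    have hexp : ∀ v ∈ Finset.Icc 1 Y, wt (insert p P) z v = wt P z v + (z p - 1) *
        ∑ j ∈ Finset.range Y, if p ^ (j + 1) ∣ v then z p ^ j * wt P z v else 0 := by
      intro v hv
      obtain ⟨hv1, hv2⟩ := Finset.mem_Icc.1 hv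
      have hv0 : v ≠ 0 := by omega
      have hle : v.factorization p ≤ Y := (Nat.factorization_lt (n := v) p hv0).le.trans hv2
      have e1 : (Finset.range Y).filter (fun j => p ^ (j + 1) ∣ v)
          = Finset.range (v.factorization p) := by
        ext j
        simp only [Finset.mem_filter, Finset.mem_range,
          hpp.pow_dvd_iff_le_factorization hv0]
        omega
      rw [← Finset.sum_filter, e1, ← Finset.sum_mul, ← mul_assoc, mul_geom_sum, wt,
        Finset.prod_insert hp, ← wt]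
      ring
    have hcomm : ∑ v ∈ Finset.Icc 1 Y,
        ∑ j ∈ Finset.range Y, (if p ^ (j + 1) ∣ v then z p ^ j * wt P z v else 0)
        = ∑ j ∈ Finset.range Y,
          z p ^ j * ∑ v ∈ (Finset.Icc 1 Y).filter (fun v => p ^ (j + 1) ∣ v), wt P z v := by
      rw [Finset.sum_comm]
      refine Finset.sum_congr rfl fun j _ => ?_
      rw [Finset.mul_sum, Finset.sum_filter]
    rw [Finset.sum_congr rfl hexp, Finset.sum_add_distrib, ← Finset.mul_sum, hcomm,
      Finset.prod_insert hp, ← hB]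
    have hgeo := geom_le (show (0 : ℝ) ≤ z p by linarith) hz2 Y
    calc ∑ v ∈ Finset.Icc 1 Y, wt P z v + (z p - 1) * ∑ j ∈ Finset.range Y,
          z p ^ j * ∑ v ∈ (Finset.Icc 1 Y).filter (fun v => p ^ (j + 1) ∣ v), wt P z v
        ≤ (Y : ℝ) * B + (z p - 1) * ∑ j ∈ Finset.range Y,
          z p ^ j * ((Y : ℝ) / (p : ℝ) ^ (j + 1) * B) := by
          refine add_le_add (ih' Y) (mul_le_mul_of_nonneg_left ?_ (by linarith))
          exact Finset.sum_le_sum fun j _ => mul_le_mul_of_nonneg_left (hmult j)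
            (pow_nonneg (by linarith) _)
      _ = (Y : ℝ) * B + (z p - 1) * ((∑ j ∈ Finset.range Y, z p ^ j / (p : ℝ) ^ (j + 1))
            * ((Y : ℝ) * B)) := by
          rw [Finset.sum_mul]
          congr 2
          exact Finset.sum_congr rfl fun j _ => by ring
      _ ≤ (Y : ℝ) * B + (z p - 1) * (1 / ((p : ℝ) - z p) * ((Y : ℝ) * B)) := by
          refine add_le_add le_rfl (mul_le_mul_of_nonneg_left ?_ (by linarith))
          exact mul_le_mul_of_nonneg_right hgeo (by positivity)
      _ = (Y : ℝ) * ((1 + (z p - 1) / ((p : ℝ) - z p)) * B) := by ring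

/-- The Euler product with weights, over `F`-smooth numbers. -/
lemma sum_smooth_wt_le (F : ℝ) (hF : 0 ≤ F) (P : Finset ℕ) (hP : ∀ p ∈ P, p.Prime) (z : ℕ → ℝ)
    (hz : ∀ p ∈ P, 1 ≤ z p ∧ z p < p) (s : Finset ℕ) (hs : ∀ v ∈ s, Smooth F v) :
    ∑ v ∈ s, wt P z v / v ≤ exp F * ∏ p ∈ P, (1 + (z p - 1) / ((p : ℝ) - z p)) := by
  classical
  let f : ℕ →* ℝ :=
    { toFun := fun n => if n = 0 then 0 else wt P z n / n
      map_one' := by simp [wt_one]
      map_mul' := fun m n => by
        rcases eq_or_ne m 0 with rfl | hm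
        · simp
        rcases eq_or_ne n 0 with rfl | hn
        · simp
        simp only [mul_eq_zero, hm, hn, or_self, if_false, wt_mul P z hm hn]
        push_cast; field_simp }
  have hfnn : ∀ n, 0 ≤ f n := fun n => by
    change 0 ≤ if n = 0 then 0 else wt P z n / n
    split
    · rfl
    · exact div_nonneg (wt_nonneg (fun p hp => by linarith [(hz p hp).1]) n) (Nat.cast_nonneg n)
  have hfp : ∀ p : ℕ, p.Prime → f p = (if p ∈ P then z p else 1) / p := fun p hp => by
    change (if p = 0 then 0 else wt P z p / p) = _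
    rw [if_neg hp.ne_zero, wt]
    congr 1
    have e : ∀ q ∈ P, z q ^ p.factorization q = if q = p then z q else 1 := fun q _ => by
      rw [hp.factorization, Finsupp.single_apply]
      by_cases h : p = q
      · subst h; simp
      · simp [h, Ne.symm h]
    rw [Finset.prod_congr rfl e, Finset.prod_ite_eq']
  have hlt : ∀ p : ℕ, p.Prime → f p < 1 := fun p hp => by
    have h2 : (2 : ℝ) ≤ p := by exact_mod_cast hp.two_le
    rw [hfp p hp, div_lt_one (by linarith)]
    split
    · exact (hz p ‹_›).2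
    · linarith
  have h1 := sum_smooth_le_prod f hfnn hlt (band 0 F) s fun m hm => ⟨(hs m hm).1, fun p hp hd =>
    mem_band.2 ⟨hp, lt_of_le_of_lt (u_nonneg 1) (u_lt_of_lt_prime hp hp.one_lt), (hs m hm).2 p hp hd⟩⟩
  have hsum : ∑ v ∈ s, wt P z v / v = ∑ v ∈ s, f v := Finset.sum_congr rfl fun v hv => by
    change _ = if v = 0 then 0 else wt P z v / v
    rw [if_neg (hs v hv).1]
  rw [hsum]
  refine h1.trans ?_
  rw [Finset.filter_true_of_mem fun p hp => (mem_band.1 hp).1]
  set r : ℕ → ℝ := fun p => 1 + (z p - 1) / ((p : ℝ) - z p) with hr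
  have hr1 : ∀ p ∈ P, 1 ≤ r p := fun p hp => by
    obtain ⟨a, b⟩ := hz p hp
    have : 0 ≤ (z p - 1) / ((p : ℝ) - z p) := div_nonneg (by linarith) (by linarith)
    simp only [hr]; linarith
  calc ∏ p ∈ band 0 F, (1 - f p)⁻¹
      = ∏ p ∈ band 0 F, ((1 + 1 / ((p : ℝ) - 1)) * if p ∈ P then r p else 1) := by
        refine Finset.prod_congr rfl fun p hp => ?_
        have hpp := (mem_band.1 hp).1
        have h0 := sub_one_pos_of_prime hpp
        have hp0 : (0 : ℝ) < p := by exact_mod_cast hpp.pos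
        rw [hfp p hpp]
        split
        · have : 0 < (p : ℝ) - z p := by linarith [(hz p ‹_›).2]
          simp only [hr]; field_simp; ring
        · field_simp; ring
    _ = (∏ p ∈ band 0 F, (1 + 1 / ((p : ℝ) - 1))) *
          ∏ p ∈ (band 0 F).filter (· ∈ P), r p := by
        rw [Finset.prod_mul_distrib, Finset.prod_filter]
    _ ≤ exp F * ∏ p ∈ P, r p := by
        refine mul_le_mul ?_ ?_ (Finset.prod_nonneg fun p hp => ?_) (exp_pos _).le
        · refine (prod_one_add_le_exp _ _ fun p hp => ?_).trans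
            (exp_le_exp.2 (sum_band_zero_le F hF))
          have := sub_one_pos_of_prime (mem_band.1 hp).1
          positivity
        · refine Finset.prod_le_prod_of_subset_of_one_le (fun p hp => (Finset.mem_filter.1 hp).2)
            (fun p hp => ?_) (fun p hp _ => hr1 p hp)
          linarith [hr1 p (Finset.mem_filter.1 hp).2]
        · linarith [hr1 p (Finset.mem_filter.1 hp).2]

/-- The Rankin product on one band. -/
lemma prod_band_le {a b c : ℝ} (ha : 0 < a) (hab : a ≤ b) (hc : 1 ≤ c) (hca : 2 * c ≤ a) :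
    ∏ p ∈ band a b, (1 + (c - 1) / ((p : ℝ) - c))
      ≤ exp ((c - 1) * (1 + 2 * c / a) * (b - a + 1)) := by
  have hp : ∀ p ∈ band a b, a < (p : ℝ) := fun p hp =>
    lt_of_lt_of_le (mem_band.1 hp).2.1 (u_le_self p)
  refine (prod_one_add_le_exp _ _ fun p h => ?_).trans (exp_le_exp.2 ?_)
  · have := hp p h
    have : 0 ≤ (c - 1) / ((p : ℝ) - c) := div_nonneg (by linarith) (by linarith)
    linarith
  · calc ∑ p ∈ band a b, (c - 1) / ((p : ℝ) - c)
        ≤ ∑ p ∈ band a b, (c - 1) * (1 + 2 * c / a) * (1 / ((p : ℝ) - 1)) := by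
          refine Finset.sum_le_sum fun p h => ?_
          have h1 := hp p h
          have h2 : 1 / ((p : ℝ) - c) ≤ (1 + 2 * c / a) * (1 / ((p : ℝ) - 1)) := by
            rw [mul_one_div, div_le_div_iff₀ (by linarith) (by linarith)]
            have e : 2 * c / a * ((p : ℝ) - c) ≥ c := by
              rw [ge_iff_le, div_mul_eq_mul_div, le_div_iff₀ ha]
              nlinarith
            nlinarith
          calc (c - 1) / ((p : ℝ) - c) = (c - 1) * (1 / ((p : ℝ) - c)) := by ring
            _ ≤ (c - 1) * ((1 + 2 * c / a) * (1 / ((p : ℝ) - 1))) :=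
                mul_le_mul_of_nonneg_left h2 (by linarith)
            _ = _ := by ring
      _ ≤ _ := by
          rw [← Finset.mul_sum]
          refine mul_le_mul_of_nonneg_left (sum_band_le a b hab) ?_
          have : 0 ≤ 2 * c / a := div_nonneg (by linarith) ha.le
          nlinarith

end Vale.Agent.P031
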